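import Vale.Agent.P226h15.CapD4

open MeasureTheory ProbabilityTheory Real Set Filter Topology
open scoped RealInnerProductSpace ENNReal

namespace Vale.Agent.P226h15

set_option linter.unusedSectionVars false

open Vale.Agent.P226h14

lemma tab5a {a p : ℝ} (ha0 : 0 ≤ a) (h : ∀ sb, 0 < sb → sb ≤ 1 → a ≤ al4 sb * p + be4 sb)
    (hp : (117/2000) ≤ p) (hp1 : p ≤ 1) : a ^ 2 ≤ (-33141/2000000) + (551/1250) * p := by
  rcases le_total p (7/50) with h0 | h0
  · exact row4 (sb := (49/100)) (P := (117/2000)) (Q := (7/50)) ha0 h (by norm_num) (by norm_num) hp h0 (by norm_num [al4, be4]) (by norm_num [al4, be4])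
  rcases le_total p (239/1000) with h1 | h1
  · exact row4 (sb := (73/100)) (P := (7/50)) (Q := (239/1000)) ha0 h (by norm_num) (by norm_num) h0 h1 (by norm_num [al4, be4]) (by norm_num [al4, be4])
  rcases le_total p (133/500) with h2 | h2
  · exact row4 (sb := (39/50)) (P := (239/1000)) (Q := (133/500)) ha0 h (by norm_num) (by norm_num) h1 h2 (by norm_num [al4, be4]) (by norm_num [al4, be4])
  rcases le_total p (273/1000) with h3 | h3
  · exact row4 (sb := (79/100)) (P := (133/500)) (Q := (273/1000)) ha0 h (by norm_num) (by norm_num) h2 h3 (by norm_num [al4, be4]) (by norm_num [al4, be4])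
  rcases le_total p (577/2000) with h4 | h4
  · exact row4 (sb := (4/5)) (P := (273/1000)) (Q := (577/2000)) ha0 h (by norm_num) (by norm_num) h3 h4 (by norm_num [al4, be4]) (by norm_num [al4, be4])
  rcases le_total p (749/2000) with h5 | h5
  · exact row4 (sb := (41/50)) (P := (577/2000)) (Q := (749/2000)) ha0 h (by norm_num) (by norm_num) h4 h5 (by norm_num [al4, be4]) (by norm_num [al4, be4])
  exact row4 (sb := (22/25)) (P := (749/2000)) (Q := 1) ha0 h (by norm_num) (by norm_num) h5 hp1 (by norm_num [al4, be4]) (by norm_num [al4, be4])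

lemma tab5b {a p : ℝ} (ha0 : 0 ≤ a) (h : ∀ sb, 0 < sb → sb ≤ 1 → a ≤ al4 sb * p + be4 sb)
    (hp : 0 ≤ p) (hp1 : p ≤ 1) : a ^ 2 ≤ (146971/5000000) + (299/1000) * p := by
  rcases le_total p (669/2000) with h0 | h0
  · exact row4 (sb := (83/100)) (P := 0) (Q := (669/2000)) ha0 h (by norm_num) (by norm_num) hp h0 (by norm_num [al4, be4]) (by norm_num [al4, be4])
  rcases le_total p (731/2000) with h1 | h1
  · exact row4 (sb := (22/25)) (P := (669/2000)) (Q := (731/2000)) ha0 h (by norm_num) (by norm_num) h0 h1 (by norm_num [al4, be4]) (by norm_num [al4, be4])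
  rcases le_total p (423/1000) with h2 | h2
  · exact row4 (sb := (89/100)) (P := (731/2000)) (Q := (423/1000)) ha0 h (by norm_num) (by norm_num) h1 h2 (by norm_num [al4, be4]) (by norm_num [al4, be4])
  exact row4 (sb := (23/25)) (P := (423/1000)) (Q := 1) ha0 h (by norm_num) (by norm_num) h2 hp1 (by norm_num [al4, be4]) (by norm_num [al4, be4])

lemma tab5c {a p : ℝ} (ha0 : 0 ≤ a) (h : ∀ sb, 0 < sb → sb ≤ 1 → a ≤ al4 sb * p + be4 sb)
    (hp : 0 ≤ p) (hp1 : p ≤ (59/400)) : a ^ 2 ≤ (97/2500000) + (299/1000) * p := by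
  rcases le_total p (117/1000) with h0 | h0
  · exact row4 (sb := (21/50)) (P := 0) (Q := (117/1000)) ha0 h (by norm_num) (by norm_num) hp h0 (by norm_num [al4, be4]) (by norm_num [al4, be4])
  exact row4 (sb := (63/100)) (P := (117/1000)) (Q := (59/400)) ha0 h (by norm_num) (by norm_num) h0 hp1 (by norm_num [al4, be4]) (by norm_num [al4, be4])

lemma tab5d {a p : ℝ} (h : ∀ sb, 0 < sb → sb ≤ 1 → a ≤ al4 sb * p + be4 sb)
    (ha : (12/125) < a) : (117/2000) ≤ p := by
  have h1 := h (47/100) (by norm_num) (by norm_num)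
  norm_num [al4, be4] at h1
  by_contra hc
  push Not at hc
  nlinarith

lemma tab5e {a p : ℝ} (ha0 : 0 ≤ a) (h : ∀ sb, 0 < sb → sb ≤ 1 → a ≤ al4 sb * p + be4 sb)
    (hp0 : 0 ≤ p) (ha : a < (21/100)) : a ^ 2 ≤ (97/2500000) + (299/1000) * p := by
  rcases le_total p (59/400) with h1 | h1
  · exact tab5c ha0 h hp0 h1
  · have h2 : a ^ 2 ≤ (21/100) ^ 2 := pow_le_pow_left₀ ha0 ha.le 2
    have h3 : ((21/100) : ℝ) ^ 2 ≤ (97/2500000) + (299/1000) * (59/400) := by norm_num
    nlinarith

/-- The cap bound for five cells: at a fixed point with `F ≥ 9/(8π)` some vertex is tiny and at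
least three vertices are big. -/
theorem cap5 {E : Type*} [NormedAddCommGroup E] [InnerProductSpace ℝ E] [FiniteDimensional ℝ E]
    [MeasurableSpace E] [BorelSpace E] {ι : Type*} [Fintype ι] [LinearOrder ι] [Nonempty ι]
    (w : ι → E) (hfix : ∀ i, mom (vcell w i) = w i) (hk : Fintype.card ι = 5)
    (hF : 9 / (8 * π) ≤ ∑ i, ‖w i‖ ^ 2) :
    (∃ i, ‖w i‖ ≤ (12/125)) ∧ 3 ≤ (Finset.univ.filter fun i => ((21/100) : ℝ) ≤ ‖w i‖).card := by
  obtain ⟨p, hp0, hp1, hp⟩ := cap4_line w hfix (by omega)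
  have hple : ∀ i, p i ≤ 1 := by
    intro i
    rw [← hp1]
    exact Finset.single_le_sum (fun j _ => hp0 j) (Finset.mem_univ i)
  have hcard : (Fintype.card ι : ℝ) = 5 := by exact_mod_cast hk
  have hmu : ((179049/500000) : ℝ) < 9 / (8 * π) := by
    rw [lt_div_iff₀ (by positivity)]
    nlinarith [pi_lt_d6]
  constructor
  · refine cap_min_generic (fun i => ‖w i‖) p hp1 (A := (-33141/2000000)) (B := (551/1250)) (fun i hi => ?_) ?_ hF
    · exact tab5a (norm_nonneg _) (hp i) (tab5d (hp i) hi) (hple i)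
    · rw [hcard]
      norm_num at hmu ⊢
      linarith
  · refine cap_big_generic (fun i => ‖w i‖) p hp1 (A := (146971/5000000)) (A' := (97/2500000)) (B := (299/1000))
      (fun i => ?_) (fun i hi => ?_) (by norm_num) ?_ hF
    · exact tab5b (norm_nonneg _) (hp i) (hp0 i) (hple i)
    · exact tab5e (norm_nonneg _) (hp i) (hp0 i) hi
    · rw [hcard]
      norm_num at hmu ⊢
      linarith

end Vale.Agent.P226h15
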