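import Vale.Agent.P226h15.CapJoint
import Vale.Agent.P226h15.Cap5

open MeasureTheory ProbabilityTheory Real Set Filter Topology
open scoped RealInnerProductSpace ENNReal

namespace Vale.Agent.P226h15

set_option linter.unusedSectionVars false
set_option linter.unusedVariables false

open Vale.Agent.P226h14

variable {ι : Type*} [Fintype ι] [DecidableEq ι]

lemma cap5i0c0f0FL {a p : ℝ} (ha0 : 0 ≤ a) (h : ∀ sb, 0 < sb → sb ≤ 1 → a ≤ al4 sb * p + be4 sb)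
    (hp : (1/5) ≤ p) (hp1 : p ≤ 1) : a ^ 2 ≤ (1/2) + (1/10) * p := by
  exact row4 (sb := (33/40)) (P := (1/5)) (Q := 1) ha0 h (by norm_num) (by norm_num) hp hp1 (by norm_num [al4, be4]) (by norm_num [al4, be4])

lemma cap5i0c0f0FS {a p : ℝ} (ha0 : 0 ≤ a) (h : ∀ sb, 0 < sb → sb ≤ 1 → a ≤ al4 sb * p + be4 sb)
    (hp : 0 ≤ p) (hp1 : p ≤ (1/5)) : a ^ 2 ≤ (62563/1000000) + (1/10) * p := by
  exact row4 (sb := (11/20)) (P := 0) (Q := (1/5)) ha0 h (by norm_num) (by norm_num) hp hp1 (by norm_num [al4, be4]) (by norm_num [al4, be4])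

lemma cap5i0c0f0CL {a p : ℝ} (ha0 : 0 ≤ a) (hc : a < (19781/100000)) (hp : (1/5) ≤ p) : a ^ 2 ≤ (1/2) + (1/10) * p :=
  cap_extend ha0 hc (by norm_num) (Pb := (1/5)) (by norm_num) hp

lemma cap5i0c0f0CSr {a p : ℝ} (ha0 : 0 ≤ a) (h : ∀ sb, 0 < sb → sb ≤ 1 → a ≤ al4 sb * p + be4 sb)
    (hp : 0 ≤ p) (hp1 : p ≤ (2699/500000)) : a ^ 2 ≤ (38589/1000000) + (1/10) * p := by
  exact row4 (sb := (1/40)) (P := 0) (Q := (2699/500000)) ha0 h (by norm_num) (by norm_num) hp hp1 (by norm_num [al4, be4]) (by norm_num [al4, be4])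

lemma cap5i0c0f0CS {a p : ℝ} (ha0 : 0 ≤ a) (h : ∀ sb, 0 < sb → sb ≤ 1 → a ≤ al4 sb * p + be4 sb)
    (hc : a < (19781/100000)) (hp : 0 ≤ p) : a ^ 2 ≤ (38589/1000000) + (1/10) * p := by
  rcases le_total p (2699/500000) with h1 | h1
  · exact cap5i0c0f0CSr ha0 h hp h1
  · exact cap_extend ha0 hc (by norm_num) (Pb := (2699/500000)) (by norm_num) h1

lemma cap5i0c0f0 (n p : ι → ℝ) (i0 : ι) (C : Finset ι) (hC : C ⊆ Finset.univ.erase i0)
    (hsum : ∑ i, p i = 1) (hn0 : ∀ j, 0 ≤ n j)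
    (hrow : ∀ j, ∀ sb, 0 < sb → sb ≤ 1 → n j ≤ al4 sb * p j + be4 sb)
    (hlo : ∀ j, 0 ≤ p j) (hp1 : ∀ j, p j ≤ 1) (hcap : ∀ j ∈ C, n j < (19781/100000))
    (hu : n i0 ≤ (571/10000)) (hC2 : C.card = 2)
    (hF2 : (Finset.univ.erase i0 \ C).card = 2)
    (hlc : (C.filter fun j => (1/5) ≤ p j).card = 0)
    (hlf : ((Finset.univ.erase i0 \ C).filter fun j => (1/5) ≤ p j).card = 0) :
    ∑ i, n i ^ 2 < (179049/500000) := by
  have key := joint_sum n p i0 C hC hsum (pc := (1/5)) (ACL := (1/2)) (ACS := (38589/1000000))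
    (AL := (1/2)) (AS := (62563/1000000)) (B := (1/10))
    (fun j hj hp => cap5i0c0f0CL (hn0 j) (hcap j hj) hp)
    (fun j hj hp => cap5i0c0f0CS (hn0 j) (hrow j) (hcap j hj) (hlo j))
    (fun j _ hp => cap5i0c0f0FL (hn0 j) (hrow j) hp (hp1 j))
    (fun j _ hp => cap5i0c0f0FS (hn0 j) (hrow j) (hlo j) hp.le)
  rw [card_filter_two C _ hC2 hlc, card_filter_two _ _ hF2 hlf, hlc, hlf] at key
  have h1 : n i0 ^ 2 ≤ (571/10000) ^ 2 := pow_le_pow_left₀ (hn0 i0) hu 2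
  have h2 := hlo i0
  norm_num at key h1 h2 ⊢
  linarith

lemma cap5i0c0f1FL {a p : ℝ} (ha0 : 0 ≤ a) (h : ∀ sb, 0 < sb → sb ≤ 1 → a ≤ al4 sb * p + be4 sb)
    (hp : (1/5) ≤ p) (hp1 : p ≤ 1) : a ^ 2 ≤ (117229/1000000) + (1/10) * p := by
  rcases le_total p (5631/10000) with h0 | h0
  · exact row4 (sb := (19/20)) (P := (1/5)) (Q := (5631/10000)) ha0 h (by norm_num) (by norm_num) hp h0 (by norm_num [al4, be4]) (by norm_num [al4, be4])
  exact row4 (sb := (39/40)) (P := (5631/10000)) (Q := 1) ha0 h (by norm_num) (by norm_num) h0 hp1 (by norm_num [al4, be4]) (by norm_num [al4, be4])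

lemma cap5i0c0f1FS {a p : ℝ} (ha0 : 0 ≤ a) (h : ∀ sb, 0 < sb → sb ≤ 1 → a ≤ al4 sb * p + be4 sb)
    (hp : 0 ≤ p) (hp1 : p ≤ (1/5)) : a ^ 2 ≤ (27377/500000) + (1/10) * p := by
  exact row4 (sb := (5/8)) (P := 0) (Q := (1/5)) ha0 h (by norm_num) (by norm_num) hp hp1 (by norm_num [al4, be4]) (by norm_num [al4, be4])

lemma cap5i0c0f1CL {a p : ℝ} (ha0 : 0 ≤ a) (hc : a < (19781/100000)) (hp : (1/5) ≤ p) : a ^ 2 ≤ (1/2) + (1/10) * p :=
  cap_extend ha0 hc (by norm_num) (Pb := (1/5)) (by norm_num) hp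

lemma cap5i0c0f1CSr {a p : ℝ} (ha0 : 0 ≤ a) (h : ∀ sb, 0 < sb → sb ≤ 1 → a ≤ al4 sb * p + be4 sb)
    (hp : 0 ≤ p) (hp1 : p ≤ (41749/500000)) : a ^ 2 ≤ (30779/1000000) + (1/10) * p := by
  exact row4 (sb := (1/40)) (P := 0) (Q := (41749/500000)) ha0 h (by norm_num) (by norm_num) hp hp1 (by norm_num [al4, be4]) (by norm_num [al4, be4])

lemma cap5i0c0f1CS {a p : ℝ} (ha0 : 0 ≤ a) (h : ∀ sb, 0 < sb → sb ≤ 1 → a ≤ al4 sb * p + be4 sb)
    (hc : a < (19781/100000)) (hp : 0 ≤ p) : a ^ 2 ≤ (30779/1000000) + (1/10) * p := by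
  rcases le_total p (41749/500000) with h1 | h1
  · exact cap5i0c0f1CSr ha0 h hp h1
  · exact cap_extend ha0 hc (by norm_num) (Pb := (41749/500000)) (by norm_num) h1

lemma cap5i0c0f1 (n p : ι → ℝ) (i0 : ι) (C : Finset ι) (hC : C ⊆ Finset.univ.erase i0)
    (hsum : ∑ i, p i = 1) (hn0 : ∀ j, 0 ≤ n j)
    (hrow : ∀ j, ∀ sb, 0 < sb → sb ≤ 1 → n j ≤ al4 sb * p j + be4 sb)
    (hlo : ∀ j, 0 ≤ p j) (hp1 : ∀ j, p j ≤ 1) (hcap : ∀ j ∈ C, n j < (19781/100000))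
    (hu : n i0 ≤ (571/10000)) (hC2 : C.card = 2)
    (hF2 : (Finset.univ.erase i0 \ C).card = 2)
    (hlc : (C.filter fun j => (1/5) ≤ p j).card = 0)
    (hlf : ((Finset.univ.erase i0 \ C).filter fun j => (1/5) ≤ p j).card = 1) :
    ∑ i, n i ^ 2 < (179049/500000) := by
  have key := joint_sum n p i0 C hC hsum (pc := (1/5)) (ACL := (1/2)) (ACS := (30779/1000000))
    (AL := (117229/1000000)) (AS := (27377/500000)) (B := (1/10))
    (fun j hj hp => cap5i0c0f1CL (hn0 j) (hcap j hj) hp)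
    (fun j hj hp => cap5i0c0f1CS (hn0 j) (hrow j) (hcap j hj) (hlo j))
    (fun j _ hp => cap5i0c0f1FL (hn0 j) (hrow j) hp (hp1 j))
    (fun j _ hp => cap5i0c0f1FS (hn0 j) (hrow j) (hlo j) hp.le)
  rw [card_filter_two C _ hC2 hlc, card_filter_two _ _ hF2 hlf, hlc, hlf] at key
  have h1 : n i0 ^ 2 ≤ (571/10000) ^ 2 := pow_le_pow_left₀ (hn0 i0) hu 2
  have h2 := hlo i0
  norm_num at key h1 h2 ⊢
  linarith

lemma cap5i0c0f2FL {a p : ℝ} (ha0 : 0 ≤ a) (h : ∀ sb, 0 < sb → sb ≤ 1 → a ≤ al4 sb * p + be4 sb)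
    (hp : (1/5) ≤ p) (hp1 : p ≤ 1) : a ^ 2 ≤ (913/25000) + (7/25) * p := by
  rcases le_total p (7337/20000) with h0 | h0
  · exact row4 (sb := (7/8)) (P := (1/5)) (Q := (7337/20000)) ha0 h (by norm_num) (by norm_num) hp h0 (by norm_num [al4, be4]) (by norm_num [al4, be4])
  rcases le_total p (1893/4000) with h1 | h1
  · exact row4 (sb := (9/10)) (P := (7337/20000)) (Q := (1893/4000)) ha0 h (by norm_num) (by norm_num) h0 h1 (by norm_num [al4, be4]) (by norm_num [al4, be4])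
  exact row4 (sb := (37/40)) (P := (1893/4000)) (Q := 1) ha0 h (by norm_num) (by norm_num) h1 hp1 (by norm_num [al4, be4]) (by norm_num [al4, be4])

lemma cap5i0c0f2FS {a p : ℝ} (ha0 : 0 ≤ a) (h : ∀ sb, 0 < sb → sb ≤ 1 → a ≤ al4 sb * p + be4 sb)
    (hp : 0 ≤ p) (hp1 : p ≤ (1/5)) : a ^ 2 ≤ (1/2) + (7/25) * p := by
  exact row4 (sb := (1/40)) (P := 0) (Q := (1/5)) ha0 h (by norm_num) (by norm_num) hp hp1 (by norm_num [al4, be4]) (by norm_num [al4, be4])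

lemma cap5i0c0f2CL {a p : ℝ} (ha0 : 0 ≤ a) (hc : a < (19781/100000)) (hp : (1/5) ≤ p) : a ^ 2 ≤ (1/2) + (7/25) * p :=
  cap_extend ha0 hc (by norm_num) (Pb := (1/5)) (by norm_num) hp

lemma cap5i0c0f2CSr {a p : ℝ} (ha0 : 0 ≤ a) (h : ∀ sb, 0 < sb → sb ≤ 1 → a ≤ al4 sb * p + be4 sb)
    (hp : 0 ≤ p) (hp1 : p ≤ (136653/1000000)) : a ^ 2 ≤ (433/500000) + (7/25) * p := by
  rcases le_total p (1339/10000) with h0 | h0
  · exact row4 (sb := (23/40)) (P := 0) (Q := (1339/10000)) ha0 h (by norm_num) (by norm_num) hp h0 (by norm_num [al4, be4]) (by norm_num [al4, be4])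
  exact row4 (sb := (5/8)) (P := (1339/10000)) (Q := (136653/1000000)) ha0 h (by norm_num) (by norm_num) h0 hp1 (by norm_num [al4, be4]) (by norm_num [al4, be4])

lemma cap5i0c0f2CS {a p : ℝ} (ha0 : 0 ≤ a) (h : ∀ sb, 0 < sb → sb ≤ 1 → a ≤ al4 sb * p + be4 sb)
    (hc : a < (19781/100000)) (hp : 0 ≤ p) : a ^ 2 ≤ (433/500000) + (7/25) * p := by
  rcases le_total p (136653/1000000) with h1 | h1
  · exact cap5i0c0f2CSr ha0 h hp h1
  · exact cap_extend ha0 hc (by norm_num) (Pb := (136653/1000000)) (by norm_num) h1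

lemma cap5i0c0f2 (n p : ι → ℝ) (i0 : ι) (C : Finset ι) (hC : C ⊆ Finset.univ.erase i0)
    (hsum : ∑ i, p i = 1) (hn0 : ∀ j, 0 ≤ n j)
    (hrow : ∀ j, ∀ sb, 0 < sb → sb ≤ 1 → n j ≤ al4 sb * p j + be4 sb)
    (hlo : ∀ j, 0 ≤ p j) (hp1 : ∀ j, p j ≤ 1) (hcap : ∀ j ∈ C, n j < (19781/100000))
    (hu : n i0 ≤ (571/10000)) (hC2 : C.card = 2)
    (hF2 : (Finset.univ.erase i0 \ C).card = 2)
    (hlc : (C.filter fun j => (1/5) ≤ p j).card = 0)
    (hlf : ((Finset.univ.erase i0 \ C).filter fun j => (1/5) ≤ p j).card = 2) :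
    ∑ i, n i ^ 2 < (179049/500000) := by
  have key := joint_sum n p i0 C hC hsum (pc := (1/5)) (ACL := (1/2)) (ACS := (433/500000))
    (AL := (913/25000)) (AS := (1/2)) (B := (7/25))
    (fun j hj hp => cap5i0c0f2CL (hn0 j) (hcap j hj) hp)
    (fun j hj hp => cap5i0c0f2CS (hn0 j) (hrow j) (hcap j hj) (hlo j))
    (fun j _ hp => cap5i0c0f2FL (hn0 j) (hrow j) hp (hp1 j))
    (fun j _ hp => cap5i0c0f2FS (hn0 j) (hrow j) (hlo j) hp.le)
  rw [card_filter_two C _ hC2 hlc, card_filter_two _ _ hF2 hlf, hlc, hlf] at key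
  have h1 : n i0 ^ 2 ≤ (571/10000) ^ 2 := pow_le_pow_left₀ (hn0 i0) hu 2
  have h2 := hlo i0
  norm_num at key h1 h2 ⊢
  linarith

lemma cap5i0c1f0FL {a p : ℝ} (ha0 : 0 ≤ a) (h : ∀ sb, 0 < sb → sb ≤ 1 → a ≤ al4 sb * p + be4 sb)
    (hp : (1/5) ≤ p) (hp1 : p ≤ 1) : a ^ 2 ≤ (1/2) + (1/10) * p := by
  exact row4 (sb := (33/40)) (P := (1/5)) (Q := 1) ha0 h (by norm_num) (by norm_num) hp hp1 (by norm_num [al4, be4]) (by norm_num [al4, be4])

lemma cap5i0c1f0FS {a p : ℝ} (ha0 : 0 ≤ a) (h : ∀ sb, 0 < sb → sb ≤ 1 → a ≤ al4 sb * p + be4 sb)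
    (hp : 0 ≤ p) (hp1 : p ≤ (1/5)) : a ^ 2 ≤ (31677/500000) + (1/10) * p := by
  exact row4 (sb := (11/20)) (P := 0) (Q := (1/5)) ha0 h (by norm_num) (by norm_num) hp hp1 (by norm_num [al4, be4]) (by norm_num [al4, be4])

lemma cap5i0c1f0CL {a p : ℝ} (ha0 : 0 ≤ a) (hc : a < (19781/100000)) (hp : (1/5) ≤ p) : a ^ 2 ≤ (661/20000) + (1/10) * p :=
  cap_extend ha0 hc (by norm_num) (Pb := (1/5)) (by norm_num) hp

lemma cap5i0c1f0CS {a p : ℝ} (ha0 : 0 ≤ a) (hc : a < (19781/100000)) (hp : 0 ≤ p) : a ^ 2 ≤ (1969/50000) + (1/10) * p :=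
  cap_extend ha0 hc (by norm_num) (Pb := 0) (by norm_num) hp

lemma cap5i0c1f0 (n p : ι → ℝ) (i0 : ι) (C : Finset ι) (hC : C ⊆ Finset.univ.erase i0)
    (hsum : ∑ i, p i = 1) (hn0 : ∀ j, 0 ≤ n j)
    (hrow : ∀ j, ∀ sb, 0 < sb → sb ≤ 1 → n j ≤ al4 sb * p j + be4 sb)
    (hlo : ∀ j, 0 ≤ p j) (hp1 : ∀ j, p j ≤ 1) (hcap : ∀ j ∈ C, n j < (19781/100000))
    (hu : n i0 ≤ (571/10000)) (hC2 : C.card = 2)
    (hF2 : (Finset.univ.erase i0 \ C).card = 2)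
    (hlc : (C.filter fun j => (1/5) ≤ p j).card = 1)
    (hlf : ((Finset.univ.erase i0 \ C).filter fun j => (1/5) ≤ p j).card = 0) :
    ∑ i, n i ^ 2 < (179049/500000) := by
  have key := joint_sum n p i0 C hC hsum (pc := (1/5)) (ACL := (661/20000)) (ACS := (1969/50000))
    (AL := (1/2)) (AS := (31677/500000)) (B := (1/10))
    (fun j hj hp => cap5i0c1f0CL (hn0 j) (hcap j hj) hp)
    (fun j hj hp => cap5i0c1f0CS (hn0 j) (hcap j hj) (hlo j))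
    (fun j _ hp => cap5i0c1f0FL (hn0 j) (hrow j) hp (hp1 j))
    (fun j _ hp => cap5i0c1f0FS (hn0 j) (hrow j) (hlo j) hp.le)
  rw [card_filter_two C _ hC2 hlc, card_filter_two _ _ hF2 hlf, hlc, hlf] at key
  have h1 : n i0 ^ 2 ≤ (571/10000) ^ 2 := pow_le_pow_left₀ (hn0 i0) hu 2
  have h2 := hlo i0
  norm_num at key h1 h2 ⊢
  linarith

lemma cap5i0c1f1FL {a p : ℝ} (ha0 : 0 ≤ a) (h : ∀ sb, 0 < sb → sb ≤ 1 → a ≤ al4 sb * p + be4 sb)
    (hp : (1/5) ≤ p) (hp1 : p ≤ 1) : a ^ 2 ≤ (5901/50000) + (1/10) * p := by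
  rcases le_total p (289/500) with h0 | h0
  · exact row4 (sb := (19/20)) (P := (1/5)) (Q := (289/500)) ha0 h (by norm_num) (by norm_num) hp h0 (by norm_num [al4, be4]) (by norm_num [al4, be4])
  exact row4 (sb := (39/40)) (P := (289/500)) (Q := 1) ha0 h (by norm_num) (by norm_num) h0 hp1 (by norm_num [al4, be4]) (by norm_num [al4, be4])

lemma cap5i0c1f1FS {a p : ℝ} (ha0 : 0 ≤ a) (h : ∀ sb, 0 < sb → sb ≤ 1 → a ≤ al4 sb * p + be4 sb)
    (hp : 0 ≤ p) (hp1 : p ≤ (1/5)) : a ^ 2 ≤ (11109/200000) + (1/10) * p := by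
  exact row4 (sb := (3/5)) (P := 0) (Q := (1/5)) ha0 h (by norm_num) (by norm_num) hp hp1 (by norm_num [al4, be4]) (by norm_num [al4, be4])

lemma cap5i0c1f1CL {a p : ℝ} (ha0 : 0 ≤ a) (hc : a < (19781/100000)) (hp : (1/5) ≤ p) : a ^ 2 ≤ (25241/1000000) + (1/10) * p :=
  cap_extend ha0 hc (by norm_num) (Pb := (1/5)) (by norm_num) hp

lemma cap5i0c1f1CSr {a p : ℝ} (ha0 : 0 ≤ a) (h : ∀ sb, 0 < sb → sb ≤ 1 → a ≤ al4 sb * p + be4 sb)
    (hp : 0 ≤ p) (hp1 : p ≤ (37789/500000)) : a ^ 2 ≤ (31571/1000000) + (1/10) * p := by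
  exact row4 (sb := (1/40)) (P := 0) (Q := (37789/500000)) ha0 h (by norm_num) (by norm_num) hp hp1 (by norm_num [al4, be4]) (by norm_num [al4, be4])

lemma cap5i0c1f1CS {a p : ℝ} (ha0 : 0 ≤ a) (h : ∀ sb, 0 < sb → sb ≤ 1 → a ≤ al4 sb * p + be4 sb)
    (hc : a < (19781/100000)) (hp : 0 ≤ p) : a ^ 2 ≤ (31571/1000000) + (1/10) * p := by
  rcases le_total p (37789/500000) with h1 | h1
  · exact cap5i0c1f1CSr ha0 h hp h1
  · exact cap_extend ha0 hc (by norm_num) (Pb := (37789/500000)) (by norm_num) h1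

lemma cap5i0c1f1 (n p : ι → ℝ) (i0 : ι) (C : Finset ι) (hC : C ⊆ Finset.univ.erase i0)
    (hsum : ∑ i, p i = 1) (hn0 : ∀ j, 0 ≤ n j)
    (hrow : ∀ j, ∀ sb, 0 < sb → sb ≤ 1 → n j ≤ al4 sb * p j + be4 sb)
    (hlo : ∀ j, 0 ≤ p j) (hp1 : ∀ j, p j ≤ 1) (hcap : ∀ j ∈ C, n j < (19781/100000))
    (hu : n i0 ≤ (571/10000)) (hC2 : C.card = 2)
    (hF2 : (Finset.univ.erase i0 \ C).card = 2)
    (hlc : (C.filter fun j => (1/5) ≤ p j).card = 1)
    (hlf : ((Finset.univ.erase i0 \ C).filter fun j => (1/5) ≤ p j).card = 1) :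
    ∑ i, n i ^ 2 < (179049/500000) := by
  have key := joint_sum n p i0 C hC hsum (pc := (1/5)) (ACL := (25241/1000000)) (ACS := (31571/1000000))
    (AL := (5901/50000)) (AS := (11109/200000)) (B := (1/10))
    (fun j hj hp => cap5i0c1f1CL (hn0 j) (hcap j hj) hp)
    (fun j hj hp => cap5i0c1f1CS (hn0 j) (hrow j) (hcap j hj) (hlo j))
    (fun j _ hp => cap5i0c1f1FL (hn0 j) (hrow j) hp (hp1 j))
    (fun j _ hp => cap5i0c1f1FS (hn0 j) (hrow j) (hlo j) hp.le)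
  rw [card_filter_two C _ hC2 hlc, card_filter_two _ _ hF2 hlf, hlc, hlf] at key
  have h1 : n i0 ^ 2 ≤ (571/10000) ^ 2 := pow_le_pow_left₀ (hn0 i0) hu 2
  have h2 := hlo i0
  norm_num at key h1 h2 ⊢
  linarith

lemma cap5i0c1f2FL {a p : ℝ} (ha0 : 0 ≤ a) (h : ∀ sb, 0 < sb → sb ≤ 1 → a ≤ al4 sb * p + be4 sb)
    (hp : (1/5) ≤ p) (hp1 : p ≤ 1) : a ^ 2 ≤ (2421/62500) + (7/25) * p := by
  rcases le_total p (4061/10000) with h0 | h0
  · exact row4 (sb := (7/8)) (P := (1/5)) (Q := (4061/10000)) ha0 h (by norm_num) (by norm_num) hp h0 (by norm_num [al4, be4]) (by norm_num [al4, be4])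
  exact row4 (sb := (37/40)) (P := (4061/10000)) (Q := 1) ha0 h (by norm_num) (by norm_num) h0 hp1 (by norm_num [al4, be4]) (by norm_num [al4, be4])

lemma cap5i0c1f2FS {a p : ℝ} (ha0 : 0 ≤ a) (h : ∀ sb, 0 < sb → sb ≤ 1 → a ≤ al4 sb * p + be4 sb)
    (hp : 0 ≤ p) (hp1 : p ≤ (1/5)) : a ^ 2 ≤ (1/2) + (7/25) * p := by
  exact row4 (sb := (1/40)) (P := 0) (Q := (1/5)) ha0 h (by norm_num) (by norm_num) hp hp1 (by norm_num [al4, be4]) (by norm_num [al4, be4])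

lemma cap5i0c1f2CL {a p : ℝ} (ha0 : 0 ≤ a) (hc : a < (19781/100000)) (hp : (1/5) ≤ p) : a ^ 2 ≤ (-14643/1000000) + (7/25) * p :=
  cap_extend ha0 hc (by norm_num) (Pb := (1/5)) (by norm_num) hp

lemma cap5i0c1f2CSr {a p : ℝ} (ha0 : 0 ≤ a) (h : ∀ sb, 0 < sb → sb ≤ 1 → a ≤ al4 sb * p + be4 sb)
    (hp : 0 ≤ p) (hp1 : p ≤ (128743/1000000)) : a ^ 2 ≤ (3081/1000000) + (7/25) * p := by
  exact row4 (sb := (1/2)) (P := 0) (Q := (128743/1000000)) ha0 h (by norm_num) (by norm_num) hp hp1 (by norm_num [al4, be4]) (by norm_num [al4, be4])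

lemma cap5i0c1f2CS {a p : ℝ} (ha0 : 0 ≤ a) (h : ∀ sb, 0 < sb → sb ≤ 1 → a ≤ al4 sb * p + be4 sb)
    (hc : a < (19781/100000)) (hp : 0 ≤ p) : a ^ 2 ≤ (3081/1000000) + (7/25) * p := by
  rcases le_total p (128743/1000000) with h1 | h1
  · exact cap5i0c1f2CSr ha0 h hp h1
  · exact cap_extend ha0 hc (by norm_num) (Pb := (128743/1000000)) (by norm_num) h1

lemma cap5i0c1f2 (n p : ι → ℝ) (i0 : ι) (C : Finset ι) (hC : C ⊆ Finset.univ.erase i0)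
    (hsum : ∑ i, p i = 1) (hn0 : ∀ j, 0 ≤ n j)
    (hrow : ∀ j, ∀ sb, 0 < sb → sb ≤ 1 → n j ≤ al4 sb * p j + be4 sb)
    (hlo : ∀ j, 0 ≤ p j) (hp1 : ∀ j, p j ≤ 1) (hcap : ∀ j ∈ C, n j < (19781/100000))
    (hu : n i0 ≤ (571/10000)) (hC2 : C.card = 2)
    (hF2 : (Finset.univ.erase i0 \ C).card = 2)
    (hlc : (C.filter fun j => (1/5) ≤ p j).card = 1)
    (hlf : ((Finset.univ.erase i0 \ C).filter fun j => (1/5) ≤ p j).card = 2) :
    ∑ i, n i ^ 2 < (179049/500000) := by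
  have key := joint_sum n p i0 C hC hsum (pc := (1/5)) (ACL := (-14643/1000000)) (ACS := (3081/1000000))
    (AL := (2421/62500)) (AS := (1/2)) (B := (7/25))
    (fun j hj hp => cap5i0c1f2CL (hn0 j) (hcap j hj) hp)
    (fun j hj hp => cap5i0c1f2CS (hn0 j) (hrow j) (hcap j hj) (hlo j))
    (fun j _ hp => cap5i0c1f2FL (hn0 j) (hrow j) hp (hp1 j))
    (fun j _ hp => cap5i0c1f2FS (hn0 j) (hrow j) (hlo j) hp.le)
  rw [card_filter_two C _ hC2 hlc, card_filter_two _ _ hF2 hlf, hlc, hlf] at key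
  have h1 : n i0 ^ 2 ≤ (571/10000) ^ 2 := pow_le_pow_left₀ (hn0 i0) hu 2
  have h2 := hlo i0
  norm_num at key h1 h2 ⊢
  linarith

lemma cap5i0c2f0FL {a p : ℝ} (ha0 : 0 ≤ a) (h : ∀ sb, 0 < sb → sb ≤ 1 → a ≤ al4 sb * p + be4 sb)
    (hp : (1/5) ≤ p) (hp1 : p ≤ 1) : a ^ 2 ≤ (1/2) + (1/10) * p := by
  exact row4 (sb := (33/40)) (P := (1/5)) (Q := 1) ha0 h (by norm_num) (by norm_num) hp hp1 (by norm_num [al4, be4]) (by norm_num [al4, be4])

lemma cap5i0c2f0FS {a p : ℝ} (ha0 : 0 ≤ a) (h : ∀ sb, 0 < sb → sb ≤ 1 → a ≤ al4 sb * p + be4 sb)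
    (hp : 0 ≤ p) (hp1 : p ≤ (1/5)) : a ^ 2 ≤ (32073/500000) + (1/10) * p := by
  exact row4 (sb := (21/40)) (P := 0) (Q := (1/5)) ha0 h (by norm_num) (by norm_num) hp hp1 (by norm_num [al4, be4]) (by norm_num [al4, be4])

lemma cap5i0c2f0CL {a p : ℝ} (ha0 : 0 ≤ a) (hc : a < (19781/100000)) (hp : (1/5) ≤ p) : a ^ 2 ≤ (33841/1000000) + (1/10) * p :=
  cap_extend ha0 hc (by norm_num) (Pb := (1/5)) (by norm_num) hp

lemma cap5i0c2f0CS {a p : ℝ} (ha0 : 0 ≤ a) (hc : a < (19781/100000)) (hp : 0 ≤ p) : a ^ 2 ≤ (1/2) + (1/10) * p :=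
  cap_extend ha0 hc (by norm_num) (Pb := 0) (by norm_num) hp

lemma cap5i0c2f0 (n p : ι → ℝ) (i0 : ι) (C : Finset ι) (hC : C ⊆ Finset.univ.erase i0)
    (hsum : ∑ i, p i = 1) (hn0 : ∀ j, 0 ≤ n j)
    (hrow : ∀ j, ∀ sb, 0 < sb → sb ≤ 1 → n j ≤ al4 sb * p j + be4 sb)
    (hlo : ∀ j, 0 ≤ p j) (hp1 : ∀ j, p j ≤ 1) (hcap : ∀ j ∈ C, n j < (19781/100000))
    (hu : n i0 ≤ (571/10000)) (hC2 : C.card = 2)
    (hF2 : (Finset.univ.erase i0 \ C).card = 2)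
    (hlc : (C.filter fun j => (1/5) ≤ p j).card = 2)
    (hlf : ((Finset.univ.erase i0 \ C).filter fun j => (1/5) ≤ p j).card = 0) :
    ∑ i, n i ^ 2 < (179049/500000) := by
  have key := joint_sum n p i0 C hC hsum (pc := (1/5)) (ACL := (33841/1000000)) (ACS := (1/2))
    (AL := (1/2)) (AS := (32073/500000)) (B := (1/10))
    (fun j hj hp => cap5i0c2f0CL (hn0 j) (hcap j hj) hp)
    (fun j hj hp => cap5i0c2f0CS (hn0 j) (hcap j hj) (hlo j))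
    (fun j _ hp => cap5i0c2f0FL (hn0 j) (hrow j) hp (hp1 j))
    (fun j _ hp => cap5i0c2f0FS (hn0 j) (hrow j) (hlo j) hp.le)
  rw [card_filter_two C _ hC2 hlc, card_filter_two _ _ hF2 hlf, hlc, hlf] at key
  have h1 : n i0 ^ 2 ≤ (571/10000) ^ 2 := pow_le_pow_left₀ (hn0 i0) hu 2
  have h2 := hlo i0
  norm_num at key h1 h2 ⊢
  linarith

lemma cap5i0c2f1FL {a p : ℝ} (ha0 : 0 ≤ a) (h : ∀ sb, 0 < sb → sb ≤ 1 → a ≤ al4 sb * p + be4 sb)
    (hp : (1/5) ≤ p) (hp1 : p ≤ 1) : a ^ 2 ≤ (6733/100000) + (11/50) * p := by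
  rcases le_total p (8037/10000) with h0 | h0
  · exact row4 (sb := (37/40)) (P := (1/5)) (Q := (8037/10000)) ha0 h (by norm_num) (by norm_num) hp h0 (by norm_num [al4, be4]) (by norm_num [al4, be4])
  exact row4 (sb := (19/20)) (P := (8037/10000)) (Q := 1) ha0 h (by norm_num) (by norm_num) h0 hp1 (by norm_num [al4, be4]) (by norm_num [al4, be4])

lemma cap5i0c2f1FS {a p : ℝ} (ha0 : 0 ≤ a) (h : ∀ sb, 0 < sb → sb ≤ 1 → a ≤ al4 sb * p + be4 sb)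
    (hp : 0 ≤ p) (hp1 : p ≤ (1/5)) : a ^ 2 ≤ (16417/500000) + (11/50) * p := by
  exact row4 (sb := (3/5)) (P := 0) (Q := (1/5)) ha0 h (by norm_num) (by norm_num) hp hp1 (by norm_num [al4, be4]) (by norm_num [al4, be4])

lemma cap5i0c2f1CL {a p : ℝ} (ha0 : 0 ≤ a) (hc : a < (19781/100000)) (hp : (1/5) ≤ p) : a ^ 2 ≤ (2529/1000000) + (11/50) * p :=
  cap_extend ha0 hc (by norm_num) (Pb := (1/5)) (by norm_num) hp

lemma cap5i0c2f1CS {a p : ℝ} (ha0 : 0 ≤ a) (hc : a < (19781/100000)) (hp : 0 ≤ p) : a ^ 2 ≤ (1/2) + (11/50) * p :=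
  cap_extend ha0 hc (by norm_num) (Pb := 0) (by norm_num) hp

lemma cap5i0c2f1 (n p : ι → ℝ) (i0 : ι) (C : Finset ι) (hC : C ⊆ Finset.univ.erase i0)
    (hsum : ∑ i, p i = 1) (hn0 : ∀ j, 0 ≤ n j)
    (hrow : ∀ j, ∀ sb, 0 < sb → sb ≤ 1 → n j ≤ al4 sb * p j + be4 sb)
    (hlo : ∀ j, 0 ≤ p j) (hp1 : ∀ j, p j ≤ 1) (hcap : ∀ j ∈ C, n j < (19781/100000))
    (hu : n i0 ≤ (571/10000)) (hC2 : C.card = 2)
    (hF2 : (Finset.univ.erase i0 \ C).card = 2)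
    (hlc : (C.filter fun j => (1/5) ≤ p j).card = 2)
    (hlf : ((Finset.univ.erase i0 \ C).filter fun j => (1/5) ≤ p j).card = 1) :
    ∑ i, n i ^ 2 < (179049/500000) := by
  have key := joint_sum n p i0 C hC hsum (pc := (1/5)) (ACL := (2529/1000000)) (ACS := (1/2))
    (AL := (6733/100000)) (AS := (16417/500000)) (B := (11/50))
    (fun j hj hp => cap5i0c2f1CL (hn0 j) (hcap j hj) hp)
    (fun j hj hp => cap5i0c2f1CS (hn0 j) (hcap j hj) (hlo j))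
    (fun j _ hp => cap5i0c2f1FL (hn0 j) (hrow j) hp (hp1 j))
    (fun j _ hp => cap5i0c2f1FS (hn0 j) (hrow j) (hlo j) hp.le)
  rw [card_filter_two C _ hC2 hlc, card_filter_two _ _ hF2 hlf, hlc, hlf] at key
  have h1 : n i0 ^ 2 ≤ (571/10000) ^ 2 := pow_le_pow_left₀ (hn0 i0) hu 2
  have h2 := hlo i0
  norm_num at key h1 h2 ⊢
  linarith

lemma cap5i0c2f2FL {a p : ℝ} (ha0 : 0 ≤ a) (h : ∀ sb, 0 < sb → sb ≤ 1 → a ≤ al4 sb * p + be4 sb)
    (hp : (1/5) ≤ p) (hp1 : p ≤ 1) : a ^ 2 ≤ (557/500000) + (2/5) * p := by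
  rcases le_total p (261/625) with h0 | h0
  · exact row4 (sb := (33/40)) (P := (1/5)) (Q := (261/625)) ha0 h (by norm_num) (by norm_num) hp h0 (by norm_num [al4, be4]) (by norm_num [al4, be4])
  exact row4 (sb := (9/10)) (P := (261/625)) (Q := 1) ha0 h (by norm_num) (by norm_num) h0 hp1 (by norm_num [al4, be4]) (by norm_num [al4, be4])

lemma cap5i0c2f2FS {a p : ℝ} (ha0 : 0 ≤ a) (h : ∀ sb, 0 < sb → sb ≤ 1 → a ≤ al4 sb * p + be4 sb)
    (hp : 0 ≤ p) (hp1 : p ≤ (1/5)) : a ^ 2 ≤ (1/2) + (2/5) * p := by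
  exact row4 (sb := (1/40)) (P := 0) (Q := (1/5)) ha0 h (by norm_num) (by norm_num) hp hp1 (by norm_num [al4, be4]) (by norm_num [al4, be4])

lemma cap5i0c2f2CL {a p : ℝ} (ha0 : 0 ≤ a) (hc : a < (19781/100000)) (hp : (1/5) ≤ p) : a ^ 2 ≤ (-8787/250000) + (2/5) * p :=
  cap_extend ha0 hc (by norm_num) (Pb := (1/5)) (by norm_num) hp

lemma cap5i0c2f2CS {a p : ℝ} (ha0 : 0 ≤ a) (hc : a < (19781/100000)) (hp : 0 ≤ p) : a ^ 2 ≤ (1/2) + (2/5) * p :=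
  cap_extend ha0 hc (by norm_num) (Pb := 0) (by norm_num) hp

lemma cap5i0c2f2 (n p : ι → ℝ) (i0 : ι) (C : Finset ι) (hC : C ⊆ Finset.univ.erase i0)
    (hsum : ∑ i, p i = 1) (hn0 : ∀ j, 0 ≤ n j)
    (hrow : ∀ j, ∀ sb, 0 < sb → sb ≤ 1 → n j ≤ al4 sb * p j + be4 sb)
    (hlo : ∀ j, 0 ≤ p j) (hp1 : ∀ j, p j ≤ 1) (hcap : ∀ j ∈ C, n j < (19781/100000))
    (hu : n i0 ≤ (571/10000)) (hC2 : C.card = 2)
    (hF2 : (Finset.univ.erase i0 \ C).card = 2)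
    (hlc : (C.filter fun j => (1/5) ≤ p j).card = 2)
    (hlf : ((Finset.univ.erase i0 \ C).filter fun j => (1/5) ≤ p j).card = 2) :
    ∑ i, n i ^ 2 < (179049/500000) := by
  have key := joint_sum n p i0 C hC hsum (pc := (1/5)) (ACL := (-8787/250000)) (ACS := (1/2))
    (AL := (557/500000)) (AS := (1/2)) (B := (2/5))
    (fun j hj hp => cap5i0c2f2CL (hn0 j) (hcap j hj) hp)
    (fun j hj hp => cap5i0c2f2CS (hn0 j) (hcap j hj) (hlo j))
    (fun j _ hp => cap5i0c2f2FL (hn0 j) (hrow j) hp (hp1 j))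
    (fun j _ hp => cap5i0c2f2FS (hn0 j) (hrow j) (hlo j) hp.le)
  rw [card_filter_two C _ hC2 hlc, card_filter_two _ _ hF2 hlf, hlc, hlf] at key
  have h1 : n i0 ^ 2 ≤ (571/10000) ^ 2 := pow_le_pow_left₀ (hn0 i0) hu 2
  have h2 := hlo i0
  norm_num at key h1 h2 ⊢
  linarith

lemma cap5i0 (n p : ι → ℝ) (i0 : ι) (C : Finset ι) (hC : C ⊆ Finset.univ.erase i0)
    (hsum : ∑ i, p i = 1) (hn0 : ∀ j, 0 ≤ n j)
    (hrow : ∀ j, ∀ sb, 0 < sb → sb ≤ 1 → n j ≤ al4 sb * p j + be4 sb)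
    (hlo : ∀ j, 0 ≤ p j) (hp1 : ∀ j, p j ≤ 1) (hcap : ∀ j ∈ C, n j < (19781/100000))
    (hu : n i0 ≤ (571/10000)) (hC2 : C.card = 2)
    (hF2 : (Finset.univ.erase i0 \ C).card = 2) :
    ∑ i, n i ^ 2 < (179049/500000) := by
  have hA : (C.filter fun j => (1/5) ≤ p j).card ≤ 2 := (Finset.card_filter_le _ _).trans hC2.le
  have hB : ((Finset.univ.erase i0 \ C).filter fun j => (1/5) ≤ p j).card ≤ 2 := (Finset.card_filter_le _ _).trans hF2.le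
  have hc' : (C.filter fun j => (1/5) ≤ p j).card = 0 ∨ (C.filter fun j => (1/5) ≤ p j).card = 1 ∨ (C.filter fun j => (1/5) ≤ p j).card = 2 := by omega
  have hf' : ((Finset.univ.erase i0 \ C).filter fun j => (1/5) ≤ p j).card = 0 ∨ ((Finset.univ.erase i0 \ C).filter fun j => (1/5) ≤ p j).card = 1 ∨ ((Finset.univ.erase i0 \ C).filter fun j => (1/5) ≤ p j).card = 2 := by omega
  rcases hc' with hlc | hlc | hlc <;> rcases hf' with hlf | hlf | hlf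
  · exact cap5i0c0f0 n p i0 C hC hsum hn0 hrow hlo hp1 hcap hu hC2 hF2 hlc hlf
  · exact cap5i0c0f1 n p i0 C hC hsum hn0 hrow hlo hp1 hcap hu hC2 hF2 hlc hlf
  · exact cap5i0c0f2 n p i0 C hC hsum hn0 hrow hlo hp1 hcap hu hC2 hF2 hlc hlf
  · exact cap5i0c1f0 n p i0 C hC hsum hn0 hrow hlo hp1 hcap hu hC2 hF2 hlc hlf
  · exact cap5i0c1f1 n p i0 C hC hsum hn0 hrow hlo hp1 hcap hu hC2 hF2 hlc hlf
  · exact cap5i0c1f2 n p i0 C hC hsum hn0 hrow hlo hp1 hcap hu hC2 hF2 hlc hlf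
  · exact cap5i0c2f0 n p i0 C hC hsum hn0 hrow hlo hp1 hcap hu hC2 hF2 hlc hlf
  · exact cap5i0c2f1 n p i0 C hC hsum hn0 hrow hlo hp1 hcap hu hC2 hF2 hlc hlf
  · exact cap5i0c2f2 n p i0 C hC hsum hn0 hrow hlo hp1 hcap hu hC2 hF2 hlc hlf

lemma cap5i1c0f0FL {a p : ℝ} (ha0 : 0 ≤ a) (h : ∀ sb, 0 < sb → sb ≤ 1 → a ≤ al4 sb * p + be4 sb)
    (hp : (3/20) ≤ p) (hp1 : p ≤ 1) : a ^ 2 ≤ (1/2) + (1/10) * p := by
  exact row4 (sb := (33/40)) (P := (3/20)) (Q := 1) ha0 h (by norm_num) (by norm_num) hp hp1 (by norm_num [al4, be4]) (by norm_num [al4, be4])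

lemma cap5i1c0f0FS {a p : ℝ} (ha0 : 0 ≤ a) (h : ∀ sb, 0 < sb → sb ≤ 1 → a ≤ al4 sb * p + be4 sb)
    (hp : (33/1000) ≤ p) (hp1 : p ≤ (3/20)) : a ^ 2 ≤ (4719/100000) + (1/10) * p := by
  exact row4 (sb := (3/8)) (P := (33/1000)) (Q := (3/20)) ha0 h (by norm_num) (by norm_num) hp hp1 (by norm_num [al4, be4]) (by norm_num [al4, be4])

lemma cap5i1c0f0CL {a p : ℝ} (ha0 : 0 ≤ a) (hc : a < (24457/100000)) (hp : (3/20) ≤ p) : a ^ 2 ≤ (1/2) + (1/10) * p :=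
  cap_extend ha0 hc (by norm_num) (Pb := (3/20)) (by norm_num) hp

lemma cap5i1c0f0CSr {a p : ℝ} (ha0 : 0 ≤ a) (h : ∀ sb, 0 < sb → sb ≤ 1 → a ≤ al4 sb * p + be4 sb)
    (hp : (33/1000) ≤ p) (hp1 : p ≤ (25249/200000)) : a ^ 2 ≤ (4719/100000) + (1/10) * p := by
  exact row4 (sb := (1/40)) (P := (33/1000)) (Q := (25249/200000)) ha0 h (by norm_num) (by norm_num) hp hp1 (by norm_num [al4, be4]) (by norm_num [al4, be4])

lemma cap5i1c0f0CS {a p : ℝ} (ha0 : 0 ≤ a) (h : ∀ sb, 0 < sb → sb ≤ 1 → a ≤ al4 sb * p + be4 sb)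
    (hc : a < (24457/100000)) (hp : (33/1000) ≤ p) : a ^ 2 ≤ (4719/100000) + (1/10) * p := by
  rcases le_total p (25249/200000) with h1 | h1
  · exact cap5i1c0f0CSr ha0 h hp h1
  · exact cap_extend ha0 hc (by norm_num) (Pb := (25249/200000)) (by norm_num) h1

lemma cap5i1c0f0 (n p : ι → ℝ) (i0 : ι) (C : Finset ι) (hC : C ⊆ Finset.univ.erase i0)
    (hsum : ∑ i, p i = 1) (hn0 : ∀ j, 0 ≤ n j)
    (hrow : ∀ j, ∀ sb, 0 < sb → sb ≤ 1 → n j ≤ al4 sb * p j + be4 sb)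
    (hlo : ∀ j, (33/1000) ≤ p j) (hp1 : ∀ j, p j ≤ 1) (hcap : ∀ j ∈ C, n j < (24457/100000))
    (hu : n i0 ≤ (353/5000)) (hC2 : C.card = 2)
    (hF2 : (Finset.univ.erase i0 \ C).card = 2)
    (hlc : (C.filter fun j => (3/20) ≤ p j).card = 0)
    (hlf : ((Finset.univ.erase i0 \ C).filter fun j => (3/20) ≤ p j).card = 0) :
    ∑ i, n i ^ 2 < (179049/500000) := by
  have key := joint_sum n p i0 C hC hsum (pc := (3/20)) (ACL := (1/2)) (ACS := (4719/100000))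
    (AL := (1/2)) (AS := (4719/100000)) (B := (1/10))
    (fun j hj hp => cap5i1c0f0CL (hn0 j) (hcap j hj) hp)
    (fun j hj hp => cap5i1c0f0CS (hn0 j) (hrow j) (hcap j hj) (hlo j))
    (fun j _ hp => cap5i1c0f0FL (hn0 j) (hrow j) hp (hp1 j))
    (fun j _ hp => cap5i1c0f0FS (hn0 j) (hrow j) (hlo j) hp.le)
  rw [card_filter_two C _ hC2 hlc, card_filter_two _ _ hF2 hlf, hlc, hlf] at key
  have h1 : n i0 ^ 2 ≤ (353/5000) ^ 2 := pow_le_pow_left₀ (hn0 i0) hu 2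
  have h2 := hlo i0
  norm_num at key h1 h2 ⊢
  linarith

lemma cap5i1c0f1FL {a p : ℝ} (ha0 : 0 ≤ a) (h : ∀ sb, 0 < sb → sb ≤ 1 → a ≤ al4 sb * p + be4 sb)
    (hp : (3/20) ≤ p) (hp1 : p ≤ 1) : a ^ 2 ≤ (23723/200000) + (1/10) * p := by
  rcases le_total p (589/1000) with h0 | h0
  · exact row4 (sb := (19/20)) (P := (3/20)) (Q := (589/1000)) ha0 h (by norm_num) (by norm_num) hp h0 (by norm_num [al4, be4]) (by norm_num [al4, be4])
  exact row4 (sb := (39/40)) (P := (589/1000)) (Q := 1) ha0 h (by norm_num) (by norm_num) h0 hp1 (by norm_num [al4, be4]) (by norm_num [al4, be4])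

lemma cap5i1c0f1FS {a p : ℝ} (ha0 : 0 ≤ a) (h : ∀ sb, 0 < sb → sb ≤ 1 → a ≤ al4 sb * p + be4 sb)
    (hp : (33/1000) ≤ p) (hp1 : p ≤ (3/20)) : a ^ 2 ≤ (36987/1000000) + (1/10) * p := by
  exact row4 (sb := (1/2)) (P := (33/1000)) (Q := (3/20)) ha0 h (by norm_num) (by norm_num) hp hp1 (by norm_num [al4, be4]) (by norm_num [al4, be4])

lemma cap5i1c0f1CL {a p : ℝ} (ha0 : 0 ≤ a) (hc : a < (24457/100000)) (hp : (3/20) ≤ p) : a ^ 2 ≤ (1/2) + (1/10) * p :=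
  cap_extend ha0 hc (by norm_num) (Pb := (3/20)) (by norm_num) hp

lemma cap5i1c0f1CS {a p : ℝ} (ha0 : 0 ≤ a) (h : ∀ sb, 0 < sb → sb ≤ 1 → a ≤ al4 sb * p + be4 sb)
    (hp : (33/1000) ≤ p) (hp1 : p ≤ (3/20)) : a ^ 2 ≤ (36987/1000000) + (1/10) * p := by
  exact row4 (sb := (1/2)) (P := (33/1000)) (Q := (3/20)) ha0 h (by norm_num) (by norm_num) hp hp1 (by norm_num [al4, be4]) (by norm_num [al4, be4])

lemma cap5i1c0f1 (n p : ι → ℝ) (i0 : ι) (C : Finset ι) (hC : C ⊆ Finset.univ.erase i0)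
    (hsum : ∑ i, p i = 1) (hn0 : ∀ j, 0 ≤ n j)
    (hrow : ∀ j, ∀ sb, 0 < sb → sb ≤ 1 → n j ≤ al4 sb * p j + be4 sb)
    (hlo : ∀ j, (33/1000) ≤ p j) (hp1 : ∀ j, p j ≤ 1) (hcap : ∀ j ∈ C, n j < (24457/100000))
    (hu : n i0 ≤ (353/5000)) (hC2 : C.card = 2)
    (hF2 : (Finset.univ.erase i0 \ C).card = 2)
    (hlc : (C.filter fun j => (3/20) ≤ p j).card = 0)
    (hlf : ((Finset.univ.erase i0 \ C).filter fun j => (3/20) ≤ p j).card = 1) :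
    ∑ i, n i ^ 2 < (179049/500000) := by
  have key := joint_sum n p i0 C hC hsum (pc := (3/20)) (ACL := (1/2)) (ACS := (36987/1000000))
    (AL := (23723/200000)) (AS := (36987/1000000)) (B := (1/10))
    (fun j hj hp => cap5i1c0f1CL (hn0 j) (hcap j hj) hp)
    (fun j hj hp => cap5i1c0f1CS (hn0 j) (hrow j) (hlo j) hp.le)
    (fun j _ hp => cap5i1c0f1FL (hn0 j) (hrow j) hp (hp1 j))
    (fun j _ hp => cap5i1c0f1FS (hn0 j) (hrow j) (hlo j) hp.le)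
  rw [card_filter_two C _ hC2 hlc, card_filter_two _ _ hF2 hlf, hlc, hlf] at key
  have h1 : n i0 ^ 2 ≤ (353/5000) ^ 2 := pow_le_pow_left₀ (hn0 i0) hu 2
  have h2 := hlo i0
  norm_num at key h1 h2 ⊢
  linarith

lemma cap5i1c0f2FL {a p : ℝ} (ha0 : 0 ≤ a) (h : ∀ sb, 0 < sb → sb ≤ 1 → a ≤ al4 sb * p + be4 sb)
    (hp : (3/20) ≤ p) (hp1 : p ≤ 1) : a ^ 2 ≤ (8919/1000000) + (9/25) * p := by
  rcases le_total p (3291/10000) with h0 | h0
  · exact row4 (sb := (33/40)) (P := (3/20)) (Q := (3291/10000)) ha0 h (by norm_num) (by norm_num) hp h0 (by norm_num [al4, be4]) (by norm_num [al4, be4])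
  rcases le_total p (2857/5000) with h1 | h1
  · exact row4 (sb := (7/8)) (P := (3291/10000)) (Q := (2857/5000)) ha0 h (by norm_num) (by norm_num) h0 h1 (by norm_num [al4, be4]) (by norm_num [al4, be4])
  exact row4 (sb := (9/10)) (P := (2857/5000)) (Q := 1) ha0 h (by norm_num) (by norm_num) h1 hp1 (by norm_num [al4, be4]) (by norm_num [al4, be4])

lemma cap5i1c0f2FS {a p : ℝ} (ha0 : 0 ≤ a) (h : ∀ sb, 0 < sb → sb ≤ 1 → a ≤ al4 sb * p + be4 sb)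
    (hp : (33/1000) ≤ p) (hp1 : p ≤ (3/20)) : a ^ 2 ≤ (1/2) + (9/25) * p := by
  exact row4 (sb := (1/40)) (P := (33/1000)) (Q := (3/20)) ha0 h (by norm_num) (by norm_num) hp hp1 (by norm_num [al4, be4]) (by norm_num [al4, be4])

lemma cap5i1c0f2CL {a p : ℝ} (ha0 : 0 ≤ a) (hc : a < (24457/100000)) (hp : (3/20) ≤ p) : a ^ 2 ≤ (1/2) + (9/25) * p :=
  cap_extend ha0 hc (by norm_num) (Pb := (3/20)) (by norm_num) hp

lemma cap5i1c0f2CS {a p : ℝ} (ha0 : 0 ≤ a) (h : ∀ sb, 0 < sb → sb ≤ 1 → a ≤ al4 sb * p + be4 sb)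
    (hp : (33/1000) ≤ p) (hp1 : p ≤ (3/20)) : a ^ 2 ≤ (-1981/250000) + (9/25) * p := by
  rcases le_total p (679/5000) with h0 | h0
  · exact row4 (sb := (21/40)) (P := (33/1000)) (Q := (679/5000)) ha0 h (by norm_num) (by norm_num) hp h0 (by norm_num [al4, be4]) (by norm_num [al4, be4])
  exact row4 (sb := (3/5)) (P := (679/5000)) (Q := (3/20)) ha0 h (by norm_num) (by norm_num) h0 hp1 (by norm_num [al4, be4]) (by norm_num [al4, be4])

lemma cap5i1c0f2 (n p : ι → ℝ) (i0 : ι) (C : Finset ι) (hC : C ⊆ Finset.univ.erase i0)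
    (hsum : ∑ i, p i = 1) (hn0 : ∀ j, 0 ≤ n j)
    (hrow : ∀ j, ∀ sb, 0 < sb → sb ≤ 1 → n j ≤ al4 sb * p j + be4 sb)
    (hlo : ∀ j, (33/1000) ≤ p j) (hp1 : ∀ j, p j ≤ 1) (hcap : ∀ j ∈ C, n j < (24457/100000))
    (hu : n i0 ≤ (353/5000)) (hC2 : C.card = 2)
    (hF2 : (Finset.univ.erase i0 \ C).card = 2)
    (hlc : (C.filter fun j => (3/20) ≤ p j).card = 0)
    (hlf : ((Finset.univ.erase i0 \ C).filter fun j => (3/20) ≤ p j).card = 2) :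
    ∑ i, n i ^ 2 < (179049/500000) := by
  have key := joint_sum n p i0 C hC hsum (pc := (3/20)) (ACL := (1/2)) (ACS := (-1981/250000))
    (AL := (8919/1000000)) (AS := (1/2)) (B := (9/25))
    (fun j hj hp => cap5i1c0f2CL (hn0 j) (hcap j hj) hp)
    (fun j hj hp => cap5i1c0f2CS (hn0 j) (hrow j) (hlo j) hp.le)
    (fun j _ hp => cap5i1c0f2FL (hn0 j) (hrow j) hp (hp1 j))
    (fun j _ hp => cap5i1c0f2FS (hn0 j) (hrow j) (hlo j) hp.le)
  rw [card_filter_two C _ hC2 hlc, card_filter_two _ _ hF2 hlf, hlc, hlf] at key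
  have h1 : n i0 ^ 2 ≤ (353/5000) ^ 2 := pow_le_pow_left₀ (hn0 i0) hu 2
  have h2 := hlo i0
  norm_num at key h1 h2 ⊢
  linarith

lemma cap5i1c1f0FL {a p : ℝ} (ha0 : 0 ≤ a) (h : ∀ sb, 0 < sb → sb ≤ 1 → a ≤ al4 sb * p + be4 sb)
    (hp : (3/20) ≤ p) (hp1 : p ≤ 1) : a ^ 2 ≤ (1/2) + (1/10) * p := by
  exact row4 (sb := (33/40)) (P := (3/20)) (Q := 1) ha0 h (by norm_num) (by norm_num) hp hp1 (by norm_num [al4, be4]) (by norm_num [al4, be4])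

lemma cap5i1c1f0FS {a p : ℝ} (ha0 : 0 ≤ a) (h : ∀ sb, 0 < sb → sb ≤ 1 → a ≤ al4 sb * p + be4 sb)
    (hp : (33/1000) ≤ p) (hp1 : p ≤ (3/20)) : a ^ 2 ≤ (5719/125000) + (1/10) * p := by
  exact row4 (sb := (3/8)) (P := (33/1000)) (Q := (3/20)) ha0 h (by norm_num) (by norm_num) hp hp1 (by norm_num [al4, be4]) (by norm_num [al4, be4])

lemma cap5i1c1f0CL {a p : ℝ} (ha0 : 0 ≤ a) (hc : a < (24457/100000)) (hp : (3/20) ≤ p) : a ^ 2 ≤ (57259/1000000) + (1/10) * p :=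
  cap_extend ha0 hc (by norm_num) (Pb := (3/20)) (by norm_num) hp

lemma cap5i1c1f0CSr {a p : ℝ} (ha0 : 0 ≤ a) (h : ∀ sb, 0 < sb → sb ≤ 1 → a ≤ al4 sb * p + be4 sb)
    (hp : (33/1000) ≤ p) (hp1 : p ≤ (9/64)) : a ^ 2 ≤ (5719/125000) + (1/10) * p := by
  exact row4 (sb := (3/10)) (P := (33/1000)) (Q := (9/64)) ha0 h (by norm_num) (by norm_num) hp hp1 (by norm_num [al4, be4]) (by norm_num [al4, be4])

lemma cap5i1c1f0CS {a p : ℝ} (ha0 : 0 ≤ a) (h : ∀ sb, 0 < sb → sb ≤ 1 → a ≤ al4 sb * p + be4 sb)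
    (hc : a < (24457/100000)) (hp : (33/1000) ≤ p) : a ^ 2 ≤ (5719/125000) + (1/10) * p := by
  rcases le_total p (9/64) with h1 | h1
  · exact cap5i1c1f0CSr ha0 h hp h1
  · exact cap_extend ha0 hc (by norm_num) (Pb := (9/64)) (by norm_num) h1

lemma cap5i1c1f0 (n p : ι → ℝ) (i0 : ι) (C : Finset ι) (hC : C ⊆ Finset.univ.erase i0)
    (hsum : ∑ i, p i = 1) (hn0 : ∀ j, 0 ≤ n j)
    (hrow : ∀ j, ∀ sb, 0 < sb → sb ≤ 1 → n j ≤ al4 sb * p j + be4 sb)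
    (hlo : ∀ j, (33/1000) ≤ p j) (hp1 : ∀ j, p j ≤ 1) (hcap : ∀ j ∈ C, n j < (24457/100000))
    (hu : n i0 ≤ (353/5000)) (hC2 : C.card = 2)
    (hF2 : (Finset.univ.erase i0 \ C).card = 2)
    (hlc : (C.filter fun j => (3/20) ≤ p j).card = 1)
    (hlf : ((Finset.univ.erase i0 \ C).filter fun j => (3/20) ≤ p j).card = 0) :
    ∑ i, n i ^ 2 < (179049/500000) := by
  have key := joint_sum n p i0 C hC hsum (pc := (3/20)) (ACL := (57259/1000000)) (ACS := (5719/125000))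
    (AL := (1/2)) (AS := (5719/125000)) (B := (1/10))
    (fun j hj hp => cap5i1c1f0CL (hn0 j) (hcap j hj) hp)
    (fun j hj hp => cap5i1c1f0CS (hn0 j) (hrow j) (hcap j hj) (hlo j))
    (fun j _ hp => cap5i1c1f0FL (hn0 j) (hrow j) hp (hp1 j))
    (fun j _ hp => cap5i1c1f0FS (hn0 j) (hrow j) (hlo j) hp.le)
  rw [card_filter_two C _ hC2 hlc, card_filter_two _ _ hF2 hlf, hlc, hlf] at key
  have h1 : n i0 ^ 2 ≤ (353/5000) ^ 2 := pow_le_pow_left₀ (hn0 i0) hu 2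
  have h2 := hlo i0
  norm_num at key h1 h2 ⊢
  linarith

lemma cap5i1c1f1FL {a p : ℝ} (ha0 : 0 ≤ a) (h : ∀ sb, 0 < sb → sb ≤ 1 → a ≤ al4 sb * p + be4 sb)
    (hp : (3/20) ≤ p) (hp1 : p ≤ 1) : a ^ 2 ≤ (14647/125000) + (1/10) * p := by
  rcases le_total p (5621/10000) with h0 | h0
  · exact row4 (sb := (19/20)) (P := (3/20)) (Q := (5621/10000)) ha0 h (by norm_num) (by norm_num) hp h0 (by norm_num [al4, be4]) (by norm_num [al4, be4])
  exact row4 (sb := (39/40)) (P := (5621/10000)) (Q := 1) ha0 h (by norm_num) (by norm_num) h0 hp1 (by norm_num [al4, be4]) (by norm_num [al4, be4])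

lemma cap5i1c1f1FS {a p : ℝ} (ha0 : 0 ≤ a) (h : ∀ sb, 0 < sb → sb ≤ 1 → a ≤ al4 sb * p + be4 sb)
    (hp : (33/1000) ≤ p) (hp1 : p ≤ (3/20)) : a ^ 2 ≤ (35549/1000000) + (1/10) * p := by
  exact row4 (sb := (21/40)) (P := (33/1000)) (Q := (3/20)) ha0 h (by norm_num) (by norm_num) hp hp1 (by norm_num [al4, be4]) (by norm_num [al4, be4])

lemma cap5i1c1f1CL {a p : ℝ} (ha0 : 0 ≤ a) (hc : a < (24457/100000)) (hp : (3/20) ≤ p) : a ^ 2 ≤ (2941/62500) + (1/10) * p :=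
  cap_extend ha0 hc (by norm_num) (Pb := (3/20)) (by norm_num) hp

lemma cap5i1c1f1CS {a p : ℝ} (ha0 : 0 ≤ a) (h : ∀ sb, 0 < sb → sb ≤ 1 → a ≤ al4 sb * p + be4 sb)
    (hp : (33/1000) ≤ p) (hp1 : p ≤ (3/20)) : a ^ 2 ≤ (35549/1000000) + (1/10) * p := by
  exact row4 (sb := (21/40)) (P := (33/1000)) (Q := (3/20)) ha0 h (by norm_num) (by norm_num) hp hp1 (by norm_num [al4, be4]) (by norm_num [al4, be4])

lemma cap5i1c1f1 (n p : ι → ℝ) (i0 : ι) (C : Finset ι) (hC : C ⊆ Finset.univ.erase i0)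
    (hsum : ∑ i, p i = 1) (hn0 : ∀ j, 0 ≤ n j)
    (hrow : ∀ j, ∀ sb, 0 < sb → sb ≤ 1 → n j ≤ al4 sb * p j + be4 sb)
    (hlo : ∀ j, (33/1000) ≤ p j) (hp1 : ∀ j, p j ≤ 1) (hcap : ∀ j ∈ C, n j < (24457/100000))
    (hu : n i0 ≤ (353/5000)) (hC2 : C.card = 2)
    (hF2 : (Finset.univ.erase i0 \ C).card = 2)
    (hlc : (C.filter fun j => (3/20) ≤ p j).card = 1)
    (hlf : ((Finset.univ.erase i0 \ C).filter fun j => (3/20) ≤ p j).card = 1) :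
    ∑ i, n i ^ 2 < (179049/500000) := by
  have key := joint_sum n p i0 C hC hsum (pc := (3/20)) (ACL := (2941/62500)) (ACS := (35549/1000000))
    (AL := (14647/125000)) (AS := (35549/1000000)) (B := (1/10))
    (fun j hj hp => cap5i1c1f1CL (hn0 j) (hcap j hj) hp)
    (fun j hj hp => cap5i1c1f1CS (hn0 j) (hrow j) (hlo j) hp.le)
    (fun j _ hp => cap5i1c1f1FL (hn0 j) (hrow j) hp (hp1 j))
    (fun j _ hp => cap5i1c1f1FS (hn0 j) (hrow j) (hlo j) hp.le)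
  rw [card_filter_two C _ hC2 hlc, card_filter_two _ _ hF2 hlf, hlc, hlf] at key
  have h1 : n i0 ^ 2 ≤ (353/5000) ^ 2 := pow_le_pow_left₀ (hn0 i0) hu 2
  have h2 := hlo i0
  norm_num at key h1 h2 ⊢
  linarith

lemma cap5i1c1f2FL {a p : ℝ} (ha0 : 0 ≤ a) (h : ∀ sb, 0 < sb → sb ≤ 1 → a ≤ al4 sb * p + be4 sb)
    (hp : (3/20) ≤ p) (hp1 : p ≤ 1) : a ^ 2 ≤ (847/100000) + (9/25) * p := by
  rcases le_total p (3223/10000) with h0 | h0
  · exact row4 (sb := (33/40)) (P := (3/20)) (Q := (3223/10000)) ha0 h (by norm_num) (by norm_num) hp h0 (by norm_num [al4, be4]) (by norm_num [al4, be4])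
  rcases le_total p (283/800) with h1 | h1
  · exact row4 (sb := (17/20)) (P := (3223/10000)) (Q := (283/800)) ha0 h (by norm_num) (by norm_num) h0 h1 (by norm_num [al4, be4]) (by norm_num [al4, be4])
  exact row4 (sb := (9/10)) (P := (283/800)) (Q := 1) ha0 h (by norm_num) (by norm_num) h1 hp1 (by norm_num [al4, be4]) (by norm_num [al4, be4])

lemma cap5i1c1f2FS {a p : ℝ} (ha0 : 0 ≤ a) (h : ∀ sb, 0 < sb → sb ≤ 1 → a ≤ al4 sb * p + be4 sb)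
    (hp : (33/1000) ≤ p) (hp1 : p ≤ (3/20)) : a ^ 2 ≤ (1/2) + (9/25) * p := by
  exact row4 (sb := (1/40)) (P := (33/1000)) (Q := (3/20)) ha0 h (by norm_num) (by norm_num) hp hp1 (by norm_num [al4, be4]) (by norm_num [al4, be4])

lemma cap5i1c1f2CLr {a p : ℝ} (ha0 : 0 ≤ a) (h : ∀ sb, 0 < sb → sb ≤ 1 → a ≤ al4 sb * p + be4 sb)
    (hp : (3/20) ≤ p) (hp1 : p ≤ (89723/500000)) : a ^ 2 ≤ (-2393/500000) + (9/25) * p := by
  exact row4 (sb := (27/40)) (P := (3/20)) (Q := (89723/500000)) ha0 h (by norm_num) (by norm_num) hp hp1 (by norm_num [al4, be4]) (by norm_num [al4, be4])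

lemma cap5i1c1f2CL {a p : ℝ} (ha0 : 0 ≤ a) (h : ∀ sb, 0 < sb → sb ≤ 1 → a ≤ al4 sb * p + be4 sb)
    (hc : a < (24457/100000)) (hp : (3/20) ≤ p) : a ^ 2 ≤ (-2393/500000) + (9/25) * p := by
  rcases le_total p (89723/500000) with h1 | h1
  · exact cap5i1c1f2CLr ha0 h hp h1
  · exact cap_extend ha0 hc (by norm_num) (Pb := (89723/500000)) (by norm_num) h1

lemma cap5i1c1f2CS {a p : ℝ} (ha0 : 0 ≤ a) (h : ∀ sb, 0 < sb → sb ≤ 1 → a ≤ al4 sb * p + be4 sb)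
    (hp : (33/1000) ≤ p) (hp1 : p ≤ (3/20)) : a ^ 2 ≤ (-2093/250000) + (9/25) * p := by
  rcases le_total p (2451/20000) with h0 | h0
  · exact row4 (sb := (19/40)) (P := (33/1000)) (Q := (2451/20000)) ha0 h (by norm_num) (by norm_num) hp h0 (by norm_num [al4, be4]) (by norm_num [al4, be4])
  exact row4 (sb := (5/8)) (P := (2451/20000)) (Q := (3/20)) ha0 h (by norm_num) (by norm_num) h0 hp1 (by norm_num [al4, be4]) (by norm_num [al4, be4])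

lemma cap5i1c1f2 (n p : ι → ℝ) (i0 : ι) (C : Finset ι) (hC : C ⊆ Finset.univ.erase i0)
    (hsum : ∑ i, p i = 1) (hn0 : ∀ j, 0 ≤ n j)
    (hrow : ∀ j, ∀ sb, 0 < sb → sb ≤ 1 → n j ≤ al4 sb * p j + be4 sb)
    (hlo : ∀ j, (33/1000) ≤ p j) (hp1 : ∀ j, p j ≤ 1) (hcap : ∀ j ∈ C, n j < (24457/100000))
    (hu : n i0 ≤ (353/5000)) (hC2 : C.card = 2)
    (hF2 : (Finset.univ.erase i0 \ C).card = 2)
    (hlc : (C.filter fun j => (3/20) ≤ p j).card = 1)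
    (hlf : ((Finset.univ.erase i0 \ C).filter fun j => (3/20) ≤ p j).card = 2) :
    ∑ i, n i ^ 2 < (179049/500000) := by
  have key := joint_sum n p i0 C hC hsum (pc := (3/20)) (ACL := (-2393/500000)) (ACS := (-2093/250000))
    (AL := (847/100000)) (AS := (1/2)) (B := (9/25))
    (fun j hj hp => cap5i1c1f2CL (hn0 j) (hrow j) (hcap j hj) hp)
    (fun j hj hp => cap5i1c1f2CS (hn0 j) (hrow j) (hlo j) hp.le)
    (fun j _ hp => cap5i1c1f2FL (hn0 j) (hrow j) hp (hp1 j))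
    (fun j _ hp => cap5i1c1f2FS (hn0 j) (hrow j) (hlo j) hp.le)
  rw [card_filter_two C _ hC2 hlc, card_filter_two _ _ hF2 hlf, hlc, hlf] at key
  have h1 : n i0 ^ 2 ≤ (353/5000) ^ 2 := pow_le_pow_left₀ (hn0 i0) hu 2
  have h2 := hlo i0
  norm_num at key h1 h2 ⊢
  linarith

lemma cap5i1c2f0FL {a p : ℝ} (ha0 : 0 ≤ a) (h : ∀ sb, 0 < sb → sb ≤ 1 → a ≤ al4 sb * p + be4 sb)
    (hp : (3/20) ≤ p) (hp1 : p ≤ 1) : a ^ 2 ≤ (1/2) + (1/10) * p := by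
  exact row4 (sb := (33/40)) (P := (3/20)) (Q := 1) ha0 h (by norm_num) (by norm_num) hp hp1 (by norm_num [al4, be4]) (by norm_num [al4, be4])

lemma cap5i1c2f0FS {a p : ℝ} (ha0 : 0 ≤ a) (h : ∀ sb, 0 < sb → sb ≤ 1 → a ≤ al4 sb * p + be4 sb)
    (hp : (33/1000) ≤ p) (hp1 : p ≤ (3/20)) : a ^ 2 ≤ (22157/500000) + (1/10) * p := by
  exact row4 (sb := (2/5)) (P := (33/1000)) (Q := (3/20)) ha0 h (by norm_num) (by norm_num) hp hp1 (by norm_num [al4, be4]) (by norm_num [al4, be4])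

lemma cap5i1c2f0CL {a p : ℝ} (ha0 : 0 ≤ a) (hc : a < (24457/100000)) (hp : (3/20) ≤ p) : a ^ 2 ≤ (55821/1000000) + (1/10) * p :=
  cap_extend ha0 hc (by norm_num) (Pb := (3/20)) (by norm_num) hp

lemma cap5i1c2f0CS {a p : ℝ} (ha0 : 0 ≤ a) (hc : a < (24457/100000)) (hp : (33/1000) ≤ p) : a ^ 2 ≤ (1/2) + (1/10) * p :=
  cap_extend ha0 hc (by norm_num) (Pb := (33/1000)) (by norm_num) hp

lemma cap5i1c2f0 (n p : ι → ℝ) (i0 : ι) (C : Finset ι) (hC : C ⊆ Finset.univ.erase i0)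
    (hsum : ∑ i, p i = 1) (hn0 : ∀ j, 0 ≤ n j)
    (hrow : ∀ j, ∀ sb, 0 < sb → sb ≤ 1 → n j ≤ al4 sb * p j + be4 sb)
    (hlo : ∀ j, (33/1000) ≤ p j) (hp1 : ∀ j, p j ≤ 1) (hcap : ∀ j ∈ C, n j < (24457/100000))
    (hu : n i0 ≤ (353/5000)) (hC2 : C.card = 2)
    (hF2 : (Finset.univ.erase i0 \ C).card = 2)
    (hlc : (C.filter fun j => (3/20) ≤ p j).card = 2)
    (hlf : ((Finset.univ.erase i0 \ C).filter fun j => (3/20) ≤ p j).card = 0) :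
    ∑ i, n i ^ 2 < (179049/500000) := by
  have key := joint_sum n p i0 C hC hsum (pc := (3/20)) (ACL := (55821/1000000)) (ACS := (1/2))
    (AL := (1/2)) (AS := (22157/500000)) (B := (1/10))
    (fun j hj hp => cap5i1c2f0CL (hn0 j) (hcap j hj) hp)
    (fun j hj hp => cap5i1c2f0CS (hn0 j) (hcap j hj) (hlo j))
    (fun j _ hp => cap5i1c2f0FL (hn0 j) (hrow j) hp (hp1 j))
    (fun j _ hp => cap5i1c2f0FS (hn0 j) (hrow j) (hlo j) hp.le)
  rw [card_filter_two C _ hC2 hlc, card_filter_two _ _ hF2 hlf, hlc, hlf] at key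
  have h1 : n i0 ^ 2 ≤ (353/5000) ^ 2 := pow_le_pow_left₀ (hn0 i0) hu 2
  have h2 := hlo i0
  norm_num at key h1 h2 ⊢
  linarith

lemma cap5i1c2f1FL {a p : ℝ} (ha0 : 0 ≤ a) (h : ∀ sb, 0 < sb → sb ≤ 1 → a ≤ al4 sb * p + be4 sb)
    (hp : (3/20) ≤ p) (hp1 : p ≤ 1) : a ^ 2 ≤ (57869/500000) + (1/10) * p := by
  rcases le_total p (5343/10000) with h0 | h0
  · exact row4 (sb := (19/20)) (P := (3/20)) (Q := (5343/10000)) ha0 h (by norm_num) (by norm_num) hp h0 (by norm_num [al4, be4]) (by norm_num [al4, be4])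
  exact row4 (sb := (39/40)) (P := (5343/10000)) (Q := 1) ha0 h (by norm_num) (by norm_num) h0 hp1 (by norm_num [al4, be4]) (by norm_num [al4, be4])

lemma cap5i1c2f1FS {a p : ℝ} (ha0 : 0 ≤ a) (h : ∀ sb, 0 < sb → sb ≤ 1 → a ≤ al4 sb * p + be4 sb)
    (hp : (33/1000) ≤ p) (hp1 : p ≤ (3/20)) : a ^ 2 ≤ (3411/100000) + (1/10) * p := by
  exact row4 (sb := (11/20)) (P := (33/1000)) (Q := (3/20)) ha0 h (by norm_num) (by norm_num) hp hp1 (by norm_num [al4, be4]) (by norm_num [al4, be4])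

lemma cap5i1c2f1CL {a p : ℝ} (ha0 : 0 ≤ a) (hc : a < (24457/100000)) (hp : (3/20) ≤ p) : a ^ 2 ≤ (45617/1000000) + (1/10) * p :=
  cap_extend ha0 hc (by norm_num) (Pb := (3/20)) (by norm_num) hp

lemma cap5i1c2f1CS {a p : ℝ} (ha0 : 0 ≤ a) (hc : a < (24457/100000)) (hp : (33/1000) ≤ p) : a ^ 2 ≤ (1/2) + (1/10) * p :=
  cap_extend ha0 hc (by norm_num) (Pb := (33/1000)) (by norm_num) hp

lemma cap5i1c2f1 (n p : ι → ℝ) (i0 : ι) (C : Finset ι) (hC : C ⊆ Finset.univ.erase i0)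
    (hsum : ∑ i, p i = 1) (hn0 : ∀ j, 0 ≤ n j)
    (hrow : ∀ j, ∀ sb, 0 < sb → sb ≤ 1 → n j ≤ al4 sb * p j + be4 sb)
    (hlo : ∀ j, (33/1000) ≤ p j) (hp1 : ∀ j, p j ≤ 1) (hcap : ∀ j ∈ C, n j < (24457/100000))
    (hu : n i0 ≤ (353/5000)) (hC2 : C.card = 2)
    (hF2 : (Finset.univ.erase i0 \ C).card = 2)
    (hlc : (C.filter fun j => (3/20) ≤ p j).card = 2)
    (hlf : ((Finset.univ.erase i0 \ C).filter fun j => (3/20) ≤ p j).card = 1) :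
    ∑ i, n i ^ 2 < (179049/500000) := by
  have key := joint_sum n p i0 C hC hsum (pc := (3/20)) (ACL := (45617/1000000)) (ACS := (1/2))
    (AL := (57869/500000)) (AS := (3411/100000)) (B := (1/10))
    (fun j hj hp => cap5i1c2f1CL (hn0 j) (hcap j hj) hp)
    (fun j hj hp => cap5i1c2f1CS (hn0 j) (hcap j hj) (hlo j))
    (fun j _ hp => cap5i1c2f1FL (hn0 j) (hrow j) hp (hp1 j))
    (fun j _ hp => cap5i1c2f1FS (hn0 j) (hrow j) (hlo j) hp.le)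
  rw [card_filter_two C _ hC2 hlc, card_filter_two _ _ hF2 hlf, hlc, hlf] at key
  have h1 : n i0 ^ 2 ≤ (353/5000) ^ 2 := pow_le_pow_left₀ (hn0 i0) hu 2
  have h2 := hlo i0
  norm_num at key h1 h2 ⊢
  linarith

lemma cap5i1c2f2FL {a p : ℝ} (ha0 : 0 ≤ a) (h : ∀ sb, 0 < sb → sb ≤ 1 → a ≤ al4 sb * p + be4 sb)
    (hp : (3/20) ≤ p) (hp1 : p ≤ 1) : a ^ 2 ≤ (-919/200000) + (2/5) * p := by
  rcases le_total p (2783/10000) with h0 | h0
  · exact row4 (sb := (31/40)) (P := (3/20)) (Q := (2783/10000)) ha0 h (by norm_num) (by norm_num) hp h0 (by norm_num [al4, be4]) (by norm_num [al4, be4])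
  rcases le_total p (157/500) with h1 | h1
  · exact row4 (sb := (33/40)) (P := (2783/10000)) (Q := (157/500)) ha0 h (by norm_num) (by norm_num) h0 h1 (by norm_num [al4, be4]) (by norm_num [al4, be4])
  rcases le_total p (2257/5000) with h2 | h2
  · exact row4 (sb := (17/20)) (P := (157/500)) (Q := (2257/5000)) ha0 h (by norm_num) (by norm_num) h1 h2 (by norm_num [al4, be4]) (by norm_num [al4, be4])
  exact row4 (sb := (9/10)) (P := (2257/5000)) (Q := 1) ha0 h (by norm_num) (by norm_num) h2 hp1 (by norm_num [al4, be4]) (by norm_num [al4, be4])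

lemma cap5i1c2f2FS {a p : ℝ} (ha0 : 0 ≤ a) (h : ∀ sb, 0 < sb → sb ≤ 1 → a ≤ al4 sb * p + be4 sb)
    (hp : (33/1000) ≤ p) (hp1 : p ≤ (3/20)) : a ^ 2 ≤ (1/2) + (2/5) * p := by
  exact row4 (sb := (1/40)) (P := (33/1000)) (Q := (3/20)) ha0 h (by norm_num) (by norm_num) hp hp1 (by norm_num [al4, be4]) (by norm_num [al4, be4])

lemma cap5i1c2f2CLr {a p : ℝ} (ha0 : 0 ≤ a) (h : ∀ sb, 0 < sb → sb ≤ 1 → a ≤ al4 sb * p + be4 sb)
    (hp : (3/20) ≤ p) (hp1 : p ≤ (45061/250000)) : a ^ 2 ≤ (-12283/1000000) + (2/5) * p := by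
  exact row4 (sb := (27/40)) (P := (3/20)) (Q := (45061/250000)) ha0 h (by norm_num) (by norm_num) hp hp1 (by norm_num [al4, be4]) (by norm_num [al4, be4])

lemma cap5i1c2f2CL {a p : ℝ} (ha0 : 0 ≤ a) (h : ∀ sb, 0 < sb → sb ≤ 1 → a ≤ al4 sb * p + be4 sb)
    (hc : a < (24457/100000)) (hp : (3/20) ≤ p) : a ^ 2 ≤ (-12283/1000000) + (2/5) * p := by
  rcases le_total p (45061/250000) with h1 | h1
  · exact cap5i1c2f2CLr ha0 h hp h1
  · exact cap_extend ha0 hc (by norm_num) (Pb := (45061/250000)) (by norm_num) h1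

lemma cap5i1c2f2CS {a p : ℝ} (ha0 : 0 ≤ a) (hc : a < (24457/100000)) (hp : (33/1000) ≤ p) : a ^ 2 ≤ (1/2) + (2/5) * p :=
  cap_extend ha0 hc (by norm_num) (Pb := (33/1000)) (by norm_num) hp

lemma cap5i1c2f2 (n p : ι → ℝ) (i0 : ι) (C : Finset ι) (hC : C ⊆ Finset.univ.erase i0)
    (hsum : ∑ i, p i = 1) (hn0 : ∀ j, 0 ≤ n j)
    (hrow : ∀ j, ∀ sb, 0 < sb → sb ≤ 1 → n j ≤ al4 sb * p j + be4 sb)
    (hlo : ∀ j, (33/1000) ≤ p j) (hp1 : ∀ j, p j ≤ 1) (hcap : ∀ j ∈ C, n j < (24457/100000))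
    (hu : n i0 ≤ (353/5000)) (hC2 : C.card = 2)
    (hF2 : (Finset.univ.erase i0 \ C).card = 2)
    (hlc : (C.filter fun j => (3/20) ≤ p j).card = 2)
    (hlf : ((Finset.univ.erase i0 \ C).filter fun j => (3/20) ≤ p j).card = 2) :
    ∑ i, n i ^ 2 < (179049/500000) := by
  have key := joint_sum n p i0 C hC hsum (pc := (3/20)) (ACL := (-12283/1000000)) (ACS := (1/2))
    (AL := (-919/200000)) (AS := (1/2)) (B := (2/5))
    (fun j hj hp => cap5i1c2f2CL (hn0 j) (hrow j) (hcap j hj) hp)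
    (fun j hj hp => cap5i1c2f2CS (hn0 j) (hcap j hj) (hlo j))
    (fun j _ hp => cap5i1c2f2FL (hn0 j) (hrow j) hp (hp1 j))
    (fun j _ hp => cap5i1c2f2FS (hn0 j) (hrow j) (hlo j) hp.le)
  rw [card_filter_two C _ hC2 hlc, card_filter_two _ _ hF2 hlf, hlc, hlf] at key
  have h1 : n i0 ^ 2 ≤ (353/5000) ^ 2 := pow_le_pow_left₀ (hn0 i0) hu 2
  have h2 := hlo i0
  norm_num at key h1 h2 ⊢
  linarith

lemma cap5i1 (n p : ι → ℝ) (i0 : ι) (C : Finset ι) (hC : C ⊆ Finset.univ.erase i0)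
    (hsum : ∑ i, p i = 1) (hn0 : ∀ j, 0 ≤ n j)
    (hrow : ∀ j, ∀ sb, 0 < sb → sb ≤ 1 → n j ≤ al4 sb * p j + be4 sb)
    (hlo : ∀ j, (33/1000) ≤ p j) (hp1 : ∀ j, p j ≤ 1) (hcap : ∀ j ∈ C, n j < (24457/100000))
    (hu : n i0 ≤ (353/5000)) (hC2 : C.card = 2)
    (hF2 : (Finset.univ.erase i0 \ C).card = 2) :
    ∑ i, n i ^ 2 < (179049/500000) := by
  have hA : (C.filter fun j => (3/20) ≤ p j).card ≤ 2 := (Finset.card_filter_le _ _).trans hC2.le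
  have hB : ((Finset.univ.erase i0 \ C).filter fun j => (3/20) ≤ p j).card ≤ 2 := (Finset.card_filter_le _ _).trans hF2.le
  have hc' : (C.filter fun j => (3/20) ≤ p j).card = 0 ∨ (C.filter fun j => (3/20) ≤ p j).card = 1 ∨ (C.filter fun j => (3/20) ≤ p j).card = 2 := by omega
  have hf' : ((Finset.univ.erase i0 \ C).filter fun j => (3/20) ≤ p j).card = 0 ∨ ((Finset.univ.erase i0 \ C).filter fun j => (3/20) ≤ p j).card = 1 ∨ ((Finset.univ.erase i0 \ C).filter fun j => (3/20) ≤ p j).card = 2 := by omega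
  rcases hc' with hlc | hlc | hlc <;> rcases hf' with hlf | hlf | hlf
  · exact cap5i1c0f0 n p i0 C hC hsum hn0 hrow hlo hp1 hcap hu hC2 hF2 hlc hlf
  · exact cap5i1c0f1 n p i0 C hC hsum hn0 hrow hlo hp1 hcap hu hC2 hF2 hlc hlf
  · exact cap5i1c0f2 n p i0 C hC hsum hn0 hrow hlo hp1 hcap hu hC2 hF2 hlc hlf
  · exact cap5i1c1f0 n p i0 C hC hsum hn0 hrow hlo hp1 hcap hu hC2 hF2 hlc hlf
  · exact cap5i1c1f1 n p i0 C hC hsum hn0 hrow hlo hp1 hcap hu hC2 hF2 hlc hlf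
  · exact cap5i1c1f2 n p i0 C hC hsum hn0 hrow hlo hp1 hcap hu hC2 hF2 hlc hlf
  · exact cap5i1c2f0 n p i0 C hC hsum hn0 hrow hlo hp1 hcap hu hC2 hF2 hlc hlf
  · exact cap5i1c2f1 n p i0 C hC hsum hn0 hrow hlo hp1 hcap hu hC2 hF2 hlc hlf
  · exact cap5i1c2f2 n p i0 C hC hsum hn0 hrow hlo hp1 hcap hu hC2 hF2 hlc hlf

lemma cap5i2c0f0FL {a p : ℝ} (ha0 : 0 ≤ a) (h : ∀ sb, 0 < sb → sb ≤ 1 → a ≤ al4 sb * p + be4 sb)
    (hp : (3/20) ≤ p) (hp1 : p ≤ 1) : a ^ 2 ≤ (1/2) + (1/10) * p := by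
  exact row4 (sb := (33/40)) (P := (3/20)) (Q := 1) ha0 h (by norm_num) (by norm_num) hp hp1 (by norm_num [al4, be4]) (by norm_num [al4, be4])

lemma cap5i2c0f0FS {a p : ℝ} (ha0 : 0 ≤ a) (h : ∀ sb, 0 < sb → sb ≤ 1 → a ≤ al4 sb * p + be4 sb)
    (hp : (41/1000) ≤ p) (hp1 : p ≤ (3/20)) : a ^ 2 ≤ (4719/100000) + (1/10) * p := by
  exact row4 (sb := (3/8)) (P := (41/1000)) (Q := (3/20)) ha0 h (by norm_num) (by norm_num) hp hp1 (by norm_num [al4, be4]) (by norm_num [al4, be4])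

lemma cap5i2c0f0CL {a p : ℝ} (ha0 : 0 ≤ a) (hc : a < (13181/50000)) (hp : (3/20) ≤ p) : a ^ 2 ≤ (1/2) + (1/10) * p :=
  cap_extend ha0 hc (by norm_num) (Pb := (3/20)) (by norm_num) hp

lemma cap5i2c0f0CS {a p : ℝ} (ha0 : 0 ≤ a) (h : ∀ sb, 0 < sb → sb ≤ 1 → a ≤ al4 sb * p + be4 sb)
    (hp : (41/1000) ≤ p) (hp1 : p ≤ (3/20)) : a ^ 2 ≤ (4719/100000) + (1/10) * p := by
  exact row4 (sb := (3/8)) (P := (41/1000)) (Q := (3/20)) ha0 h (by norm_num) (by norm_num) hp hp1 (by norm_num [al4, be4]) (by norm_num [al4, be4])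

lemma cap5i2c0f0 (n p : ι → ℝ) (i0 : ι) (C : Finset ι) (hC : C ⊆ Finset.univ.erase i0)
    (hsum : ∑ i, p i = 1) (hn0 : ∀ j, 0 ≤ n j)
    (hrow : ∀ j, ∀ sb, 0 < sb → sb ≤ 1 → n j ≤ al4 sb * p j + be4 sb)
    (hlo : ∀ j, (41/1000) ≤ p j) (hp1 : ∀ j, p j ≤ 1) (hcap : ∀ j ∈ C, n j < (13181/50000))
    (hu : n i0 ≤ (761/10000)) (hC2 : C.card = 2)
    (hF2 : (Finset.univ.erase i0 \ C).card = 2)
    (hlc : (C.filter fun j => (3/20) ≤ p j).card = 0)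
    (hlf : ((Finset.univ.erase i0 \ C).filter fun j => (3/20) ≤ p j).card = 0) :
    ∑ i, n i ^ 2 < (179049/500000) := by
  have key := joint_sum n p i0 C hC hsum (pc := (3/20)) (ACL := (1/2)) (ACS := (4719/100000))
    (AL := (1/2)) (AS := (4719/100000)) (B := (1/10))
    (fun j hj hp => cap5i2c0f0CL (hn0 j) (hcap j hj) hp)
    (fun j hj hp => cap5i2c0f0CS (hn0 j) (hrow j) (hlo j) hp.le)
    (fun j _ hp => cap5i2c0f0FL (hn0 j) (hrow j) hp (hp1 j))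
    (fun j _ hp => cap5i2c0f0FS (hn0 j) (hrow j) (hlo j) hp.le)
  rw [card_filter_two C _ hC2 hlc, card_filter_two _ _ hF2 hlf, hlc, hlf] at key
  have h1 : n i0 ^ 2 ≤ (761/10000) ^ 2 := pow_le_pow_left₀ (hn0 i0) hu 2
  have h2 := hlo i0
  norm_num at key h1 h2 ⊢
  linarith

lemma cap5i2c0f1FL {a p : ℝ} (ha0 : 0 ≤ a) (h : ∀ sb, 0 < sb → sb ≤ 1 → a ≤ al4 sb * p + be4 sb)
    (hp : (3/20) ≤ p) (hp1 : p ≤ 1) : a ^ 2 ≤ (59307/500000) + (1/10) * p := by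
  rcases le_total p (11779/20000) with h0 | h0
  · exact row4 (sb := (19/20)) (P := (3/20)) (Q := (11779/20000)) ha0 h (by norm_num) (by norm_num) hp h0 (by norm_num [al4, be4]) (by norm_num [al4, be4])
  exact row4 (sb := (39/40)) (P := (11779/20000)) (Q := 1) ha0 h (by norm_num) (by norm_num) h0 hp1 (by norm_num [al4, be4]) (by norm_num [al4, be4])

lemma cap5i2c0f1FS {a p : ℝ} (ha0 : 0 ≤ a) (h : ∀ sb, 0 < sb → sb ≤ 1 → a ≤ al4 sb * p + be4 sb)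
    (hp : (41/1000) ≤ p) (hp1 : p ≤ (3/20)) : a ^ 2 ≤ (18493/500000) + (1/10) * p := by
  exact row4 (sb := (1/2)) (P := (41/1000)) (Q := (3/20)) ha0 h (by norm_num) (by norm_num) hp hp1 (by norm_num [al4, be4]) (by norm_num [al4, be4])

lemma cap5i2c0f1CL {a p : ℝ} (ha0 : 0 ≤ a) (hc : a < (13181/50000)) (hp : (3/20) ≤ p) : a ^ 2 ≤ (1/2) + (1/10) * p :=
  cap_extend ha0 hc (by norm_num) (Pb := (3/20)) (by norm_num) hp

lemma cap5i2c0f1CS {a p : ℝ} (ha0 : 0 ≤ a) (h : ∀ sb, 0 < sb → sb ≤ 1 → a ≤ al4 sb * p + be4 sb)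
    (hp : (41/1000) ≤ p) (hp1 : p ≤ (3/20)) : a ^ 2 ≤ (18493/500000) + (1/10) * p := by
  exact row4 (sb := (1/2)) (P := (41/1000)) (Q := (3/20)) ha0 h (by norm_num) (by norm_num) hp hp1 (by norm_num [al4, be4]) (by norm_num [al4, be4])

lemma cap5i2c0f1 (n p : ι → ℝ) (i0 : ι) (C : Finset ι) (hC : C ⊆ Finset.univ.erase i0)
    (hsum : ∑ i, p i = 1) (hn0 : ∀ j, 0 ≤ n j)
    (hrow : ∀ j, ∀ sb, 0 < sb → sb ≤ 1 → n j ≤ al4 sb * p j + be4 sb)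
    (hlo : ∀ j, (41/1000) ≤ p j) (hp1 : ∀ j, p j ≤ 1) (hcap : ∀ j ∈ C, n j < (13181/50000))
    (hu : n i0 ≤ (761/10000)) (hC2 : C.card = 2)
    (hF2 : (Finset.univ.erase i0 \ C).card = 2)
    (hlc : (C.filter fun j => (3/20) ≤ p j).card = 0)
    (hlf : ((Finset.univ.erase i0 \ C).filter fun j => (3/20) ≤ p j).card = 1) :
    ∑ i, n i ^ 2 < (179049/500000) := by
  have key := joint_sum n p i0 C hC hsum (pc := (3/20)) (ACL := (1/2)) (ACS := (18493/500000))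
    (AL := (59307/500000)) (AS := (18493/500000)) (B := (1/10))
    (fun j hj hp => cap5i2c0f1CL (hn0 j) (hcap j hj) hp)
    (fun j hj hp => cap5i2c0f1CS (hn0 j) (hrow j) (hlo j) hp.le)
    (fun j _ hp => cap5i2c0f1FL (hn0 j) (hrow j) hp (hp1 j))
    (fun j _ hp => cap5i2c0f1FS (hn0 j) (hrow j) (hlo j) hp.le)
  rw [card_filter_two C _ hC2 hlc, card_filter_two _ _ hF2 hlf, hlc, hlf] at key
  have h1 : n i0 ^ 2 ≤ (761/10000) ^ 2 := pow_le_pow_left₀ (hn0 i0) hu 2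
  have h2 := hlo i0
  norm_num at key h1 h2 ⊢
  linarith

lemma cap5i2c0f2FL {a p : ℝ} (ha0 : 0 ≤ a) (h : ∀ sb, 0 < sb → sb ≤ 1 → a ≤ al4 sb * p + be4 sb)
    (hp : (3/20) ≤ p) (hp1 : p ≤ 1) : a ^ 2 ≤ (919/100000) + (9/25) * p := by
  rcases le_total p (6659/20000) with h0 | h0
  · exact row4 (sb := (33/40)) (P := (3/20)) (Q := (6659/20000)) ha0 h (by norm_num) (by norm_num) hp h0 (by norm_num [al4, be4]) (by norm_num [al4, be4])
  rcases le_total p (11537/20000) with h1 | h1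
  · exact row4 (sb := (7/8)) (P := (6659/20000)) (Q := (11537/20000)) ha0 h (by norm_num) (by norm_num) h0 h1 (by norm_num [al4, be4]) (by norm_num [al4, be4])
  exact row4 (sb := (9/10)) (P := (11537/20000)) (Q := 1) ha0 h (by norm_num) (by norm_num) h1 hp1 (by norm_num [al4, be4]) (by norm_num [al4, be4])

lemma cap5i2c0f2FS {a p : ℝ} (ha0 : 0 ≤ a) (h : ∀ sb, 0 < sb → sb ≤ 1 → a ≤ al4 sb * p + be4 sb)
    (hp : (41/1000) ≤ p) (hp1 : p ≤ (3/20)) : a ^ 2 ≤ (1/2) + (9/25) * p := by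
  exact row4 (sb := (1/40)) (P := (41/1000)) (Q := (3/20)) ha0 h (by norm_num) (by norm_num) hp hp1 (by norm_num [al4, be4]) (by norm_num [al4, be4])

lemma cap5i2c0f2CL {a p : ℝ} (ha0 : 0 ≤ a) (hc : a < (13181/50000)) (hp : (3/20) ≤ p) : a ^ 2 ≤ (1/2) + (9/25) * p :=
  cap_extend ha0 hc (by norm_num) (Pb := (3/20)) (by norm_num) hp

lemma cap5i2c0f2CS {a p : ℝ} (ha0 : 0 ≤ a) (h : ∀ sb, 0 < sb → sb ≤ 1 → a ≤ al4 sb * p + be4 sb)
    (hp : (41/1000) ≤ p) (hp1 : p ≤ (3/20)) : a ^ 2 ≤ (-7701/1000000) + (9/25) * p := by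
  exact row4 (sb := (3/5)) (P := (41/1000)) (Q := (3/20)) ha0 h (by norm_num) (by norm_num) hp hp1 (by norm_num [al4, be4]) (by norm_num [al4, be4])

lemma cap5i2c0f2 (n p : ι → ℝ) (i0 : ι) (C : Finset ι) (hC : C ⊆ Finset.univ.erase i0)
    (hsum : ∑ i, p i = 1) (hn0 : ∀ j, 0 ≤ n j)
    (hrow : ∀ j, ∀ sb, 0 < sb → sb ≤ 1 → n j ≤ al4 sb * p j + be4 sb)
    (hlo : ∀ j, (41/1000) ≤ p j) (hp1 : ∀ j, p j ≤ 1) (hcap : ∀ j ∈ C, n j < (13181/50000))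
    (hu : n i0 ≤ (761/10000)) (hC2 : C.card = 2)
    (hF2 : (Finset.univ.erase i0 \ C).card = 2)
    (hlc : (C.filter fun j => (3/20) ≤ p j).card = 0)
    (hlf : ((Finset.univ.erase i0 \ C).filter fun j => (3/20) ≤ p j).card = 2) :
    ∑ i, n i ^ 2 < (179049/500000) := by
  have key := joint_sum n p i0 C hC hsum (pc := (3/20)) (ACL := (1/2)) (ACS := (-7701/1000000))
    (AL := (919/100000)) (AS := (1/2)) (B := (9/25))
    (fun j hj hp => cap5i2c0f2CL (hn0 j) (hcap j hj) hp)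
    (fun j hj hp => cap5i2c0f2CS (hn0 j) (hrow j) (hlo j) hp.le)
    (fun j _ hp => cap5i2c0f2FL (hn0 j) (hrow j) hp (hp1 j))
    (fun j _ hp => cap5i2c0f2FS (hn0 j) (hrow j) (hlo j) hp.le)
  rw [card_filter_two C _ hC2 hlc, card_filter_two _ _ hF2 hlf, hlc, hlf] at key
  have h1 : n i0 ^ 2 ≤ (761/10000) ^ 2 := pow_le_pow_left₀ (hn0 i0) hu 2
  have h2 := hlo i0
  norm_num at key h1 h2 ⊢
  linarith

lemma cap5i2c1f0FL {a p : ℝ} (ha0 : 0 ≤ a) (h : ∀ sb, 0 < sb → sb ≤ 1 → a ≤ al4 sb * p + be4 sb)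
    (hp : (3/20) ≤ p) (hp1 : p ≤ 1) : a ^ 2 ≤ (1/2) + (1/10) * p := by
  exact row4 (sb := (33/40)) (P := (3/20)) (Q := 1) ha0 h (by norm_num) (by norm_num) hp hp1 (by norm_num [al4, be4]) (by norm_num [al4, be4])

lemma cap5i2c1f0FS {a p : ℝ} (ha0 : 0 ≤ a) (h : ∀ sb, 0 < sb → sb ≤ 1 → a ≤ al4 sb * p + be4 sb)
    (hp : (41/1000) ≤ p) (hp1 : p ≤ (3/20)) : a ^ 2 ≤ (44789/1000000) + (1/10) * p := by
  exact row4 (sb := (2/5)) (P := (41/1000)) (Q := (3/20)) ha0 h (by norm_num) (by norm_num) hp hp1 (by norm_num [al4, be4]) (by norm_num [al4, be4])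

lemma cap5i2c1f0CL {a p : ℝ} (ha0 : 0 ≤ a) (hc : a < (13181/50000)) (hp : (3/20) ≤ p) : a ^ 2 ≤ (63993/1000000) + (1/10) * p :=
  cap_extend ha0 hc (by norm_num) (Pb := (3/20)) (by norm_num) hp

lemma cap5i2c1f0CS {a p : ℝ} (ha0 : 0 ≤ a) (h : ∀ sb, 0 < sb → sb ≤ 1 → a ≤ al4 sb * p + be4 sb)
    (hp : (41/1000) ≤ p) (hp1 : p ≤ (3/20)) : a ^ 2 ≤ (44789/1000000) + (1/10) * p := by
  exact row4 (sb := (2/5)) (P := (41/1000)) (Q := (3/20)) ha0 h (by norm_num) (by norm_num) hp hp1 (by norm_num [al4, be4]) (by norm_num [al4, be4])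

lemma cap5i2c1f0 (n p : ι → ℝ) (i0 : ι) (C : Finset ι) (hC : C ⊆ Finset.univ.erase i0)
    (hsum : ∑ i, p i = 1) (hn0 : ∀ j, 0 ≤ n j)
    (hrow : ∀ j, ∀ sb, 0 < sb → sb ≤ 1 → n j ≤ al4 sb * p j + be4 sb)
    (hlo : ∀ j, (41/1000) ≤ p j) (hp1 : ∀ j, p j ≤ 1) (hcap : ∀ j ∈ C, n j < (13181/50000))
    (hu : n i0 ≤ (761/10000)) (hC2 : C.card = 2)
    (hF2 : (Finset.univ.erase i0 \ C).card = 2)
    (hlc : (C.filter fun j => (3/20) ≤ p j).card = 1)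
    (hlf : ((Finset.univ.erase i0 \ C).filter fun j => (3/20) ≤ p j).card = 0) :
    ∑ i, n i ^ 2 < (179049/500000) := by
  have key := joint_sum n p i0 C hC hsum (pc := (3/20)) (ACL := (63993/1000000)) (ACS := (44789/1000000))
    (AL := (1/2)) (AS := (44789/1000000)) (B := (1/10))
    (fun j hj hp => cap5i2c1f0CL (hn0 j) (hcap j hj) hp)
    (fun j hj hp => cap5i2c1f0CS (hn0 j) (hrow j) (hlo j) hp.le)
    (fun j _ hp => cap5i2c1f0FL (hn0 j) (hrow j) hp (hp1 j))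
    (fun j _ hp => cap5i2c1f0FS (hn0 j) (hrow j) (hlo j) hp.le)
  rw [card_filter_two C _ hC2 hlc, card_filter_two _ _ hF2 hlf, hlc, hlf] at key
  have h1 : n i0 ^ 2 ≤ (761/10000) ^ 2 := pow_le_pow_left₀ (hn0 i0) hu 2
  have h2 := hlo i0
  norm_num at key h1 h2 ⊢
  linarith

lemma cap5i2c1f1FL {a p : ℝ} (ha0 : 0 ≤ a) (h : ∀ sb, 0 < sb → sb ≤ 1 → a ≤ al4 sb * p + be4 sb)
    (hp : (3/20) ≤ p) (hp1 : p ≤ 1) : a ^ 2 ≤ (116213/1000000) + (1/10) * p := by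
  rcases le_total p (1359/2500) with h0 | h0
  · exact row4 (sb := (19/20)) (P := (3/20)) (Q := (1359/2500)) ha0 h (by norm_num) (by norm_num) hp h0 (by norm_num [al4, be4]) (by norm_num [al4, be4])
  exact row4 (sb := (39/40)) (P := (1359/2500)) (Q := 1) ha0 h (by norm_num) (by norm_num) h0 hp1 (by norm_num [al4, be4]) (by norm_num [al4, be4])

lemma cap5i2c1f1FS {a p : ℝ} (ha0 : 0 ≤ a) (h : ∀ sb, 0 < sb → sb ≤ 1 → a ≤ al4 sb * p + be4 sb)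
    (hp : (41/1000) ≤ p) (hp1 : p ≤ (3/20)) : a ^ 2 ≤ (17293/500000) + (1/10) * p := by
  exact row4 (sb := (21/40)) (P := (41/1000)) (Q := (3/20)) ha0 h (by norm_num) (by norm_num) hp hp1 (by norm_num [al4, be4]) (by norm_num [al4, be4])

lemma cap5i2c1f1CLr {a p : ℝ} (ha0 : 0 ≤ a) (h : ∀ sb, 0 < sb → sb ≤ 1 → a ≤ al4 sb * p + be4 sb)
    (hp : (3/20) ≤ p) (hp1 : p ≤ (78533/500000)) : a ^ 2 ≤ (53789/1000000) + (1/10) * p := by
  exact row4 (sb := (7/20)) (P := (3/20)) (Q := (78533/500000)) ha0 h (by norm_num) (by norm_num) hp hp1 (by norm_num [al4, be4]) (by norm_num [al4, be4])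

lemma cap5i2c1f1CL {a p : ℝ} (ha0 : 0 ≤ a) (h : ∀ sb, 0 < sb → sb ≤ 1 → a ≤ al4 sb * p + be4 sb)
    (hc : a < (13181/50000)) (hp : (3/20) ≤ p) : a ^ 2 ≤ (53789/1000000) + (1/10) * p := by
  rcases le_total p (78533/500000) with h1 | h1
  · exact cap5i2c1f1CLr ha0 h hp h1
  · exact cap_extend ha0 hc (by norm_num) (Pb := (78533/500000)) (by norm_num) h1

lemma cap5i2c1f1CS {a p : ℝ} (ha0 : 0 ≤ a) (h : ∀ sb, 0 < sb → sb ≤ 1 → a ≤ al4 sb * p + be4 sb)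
    (hp : (41/1000) ≤ p) (hp1 : p ≤ (3/20)) : a ^ 2 ≤ (17293/500000) + (1/10) * p := by
  exact row4 (sb := (21/40)) (P := (41/1000)) (Q := (3/20)) ha0 h (by norm_num) (by norm_num) hp hp1 (by norm_num [al4, be4]) (by norm_num [al4, be4])

lemma cap5i2c1f1 (n p : ι → ℝ) (i0 : ι) (C : Finset ι) (hC : C ⊆ Finset.univ.erase i0)
    (hsum : ∑ i, p i = 1) (hn0 : ∀ j, 0 ≤ n j)
    (hrow : ∀ j, ∀ sb, 0 < sb → sb ≤ 1 → n j ≤ al4 sb * p j + be4 sb)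
    (hlo : ∀ j, (41/1000) ≤ p j) (hp1 : ∀ j, p j ≤ 1) (hcap : ∀ j ∈ C, n j < (13181/50000))
    (hu : n i0 ≤ (761/10000)) (hC2 : C.card = 2)
    (hF2 : (Finset.univ.erase i0 \ C).card = 2)
    (hlc : (C.filter fun j => (3/20) ≤ p j).card = 1)
    (hlf : ((Finset.univ.erase i0 \ C).filter fun j => (3/20) ≤ p j).card = 1) :
    ∑ i, n i ^ 2 < (179049/500000) := by
  have key := joint_sum n p i0 C hC hsum (pc := (3/20)) (ACL := (53789/1000000)) (ACS := (17293/500000))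
    (AL := (116213/1000000)) (AS := (17293/500000)) (B := (1/10))
    (fun j hj hp => cap5i2c1f1CL (hn0 j) (hrow j) (hcap j hj) hp)
    (fun j hj hp => cap5i2c1f1CS (hn0 j) (hrow j) (hlo j) hp.le)
    (fun j _ hp => cap5i2c1f1FL (hn0 j) (hrow j) hp (hp1 j))
    (fun j _ hp => cap5i2c1f1FS (hn0 j) (hrow j) (hlo j) hp.le)
  rw [card_filter_two C _ hC2 hlc, card_filter_two _ _ hF2 hlf, hlc, hlf] at key
  have h1 : n i0 ^ 2 ≤ (761/10000) ^ 2 := pow_le_pow_left₀ (hn0 i0) hu 2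
  have h2 := hlo i0
  norm_num at key h1 h2 ⊢
  linarith

lemma cap5i2c1f2FL {a p : ℝ} (ha0 : 0 ≤ a) (h : ∀ sb, 0 < sb → sb ≤ 1 → a ≤ al4 sb * p + be4 sb)
    (hp : (3/20) ≤ p) (hp1 : p ≤ 1) : a ^ 2 ≤ (8419/1000000) + (9/25) * p := by
  rcases le_total p (643/2000) with h0 | h0
  · exact row4 (sb := (33/40)) (P := (3/20)) (Q := (643/2000)) ha0 h (by norm_num) (by norm_num) hp h0 (by norm_num [al4, be4]) (by norm_num [al4, be4])
  rcases le_total p (879/2500) with h1 | h1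
  · exact row4 (sb := (17/20)) (P := (643/2000)) (Q := (879/2500)) ha0 h (by norm_num) (by norm_num) h0 h1 (by norm_num [al4, be4]) (by norm_num [al4, be4])
  rcases le_total p (11211/20000) with h2 | h2
  · exact row4 (sb := (7/8)) (P := (879/2500)) (Q := (11211/20000)) ha0 h (by norm_num) (by norm_num) h1 h2 (by norm_num [al4, be4]) (by norm_num [al4, be4])
  exact row4 (sb := (9/10)) (P := (11211/20000)) (Q := 1) ha0 h (by norm_num) (by norm_num) h2 hp1 (by norm_num [al4, be4]) (by norm_num [al4, be4])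

lemma cap5i2c1f2FS {a p : ℝ} (ha0 : 0 ≤ a) (h : ∀ sb, 0 < sb → sb ≤ 1 → a ≤ al4 sb * p + be4 sb)
    (hp : (41/1000) ≤ p) (hp1 : p ≤ (3/20)) : a ^ 2 ≤ (1/2) + (9/25) * p := by
  exact row4 (sb := (1/40)) (P := (41/1000)) (Q := (3/20)) ha0 h (by norm_num) (by norm_num) hp hp1 (by norm_num [al4, be4]) (by norm_num [al4, be4])

lemma cap5i2c1f2CLr {a p : ℝ} (ha0 : 0 ≤ a) (h : ∀ sb, 0 < sb → sb ≤ 1 → a ≤ al4 sb * p + be4 sb)
    (hp : (3/20) ≤ p) (hp1 : p ≤ (49861/250000)) : a ^ 2 ≤ (-36/15625) + (9/25) * p := by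
  exact row4 (sb := (7/10)) (P := (3/20)) (Q := (49861/250000)) ha0 h (by norm_num) (by norm_num) hp hp1 (by norm_num [al4, be4]) (by norm_num [al4, be4])

lemma cap5i2c1f2CL {a p : ℝ} (ha0 : 0 ≤ a) (h : ∀ sb, 0 < sb → sb ≤ 1 → a ≤ al4 sb * p + be4 sb)
    (hc : a < (13181/50000)) (hp : (3/20) ≤ p) : a ^ 2 ≤ (-36/15625) + (9/25) * p := by
  rcases le_total p (49861/250000) with h1 | h1
  · exact cap5i2c1f2CLr ha0 h hp h1
  · exact cap_extend ha0 hc (by norm_num) (Pb := (49861/250000)) (by norm_num) h1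

lemma cap5i2c1f2CS {a p : ℝ} (ha0 : 0 ≤ a) (h : ∀ sb, 0 < sb → sb ≤ 1 → a ≤ al4 sb * p + be4 sb)
    (hp : (41/1000) ≤ p) (hp1 : p ≤ (3/20)) : a ^ 2 ≤ (-1059/125000) + (9/25) * p := by
  rcases le_total p (179/1250) with h0 | h0
  · exact row4 (sb := (23/40)) (P := (41/1000)) (Q := (179/1250)) ha0 h (by norm_num) (by norm_num) hp h0 (by norm_num [al4, be4]) (by norm_num [al4, be4])
  exact row4 (sb := (5/8)) (P := (179/1250)) (Q := (3/20)) ha0 h (by norm_num) (by norm_num) h0 hp1 (by norm_num [al4, be4]) (by norm_num [al4, be4])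

lemma cap5i2c1f2 (n p : ι → ℝ) (i0 : ι) (C : Finset ι) (hC : C ⊆ Finset.univ.erase i0)
    (hsum : ∑ i, p i = 1) (hn0 : ∀ j, 0 ≤ n j)
    (hrow : ∀ j, ∀ sb, 0 < sb → sb ≤ 1 → n j ≤ al4 sb * p j + be4 sb)
    (hlo : ∀ j, (41/1000) ≤ p j) (hp1 : ∀ j, p j ≤ 1) (hcap : ∀ j ∈ C, n j < (13181/50000))
    (hu : n i0 ≤ (761/10000)) (hC2 : C.card = 2)
    (hF2 : (Finset.univ.erase i0 \ C).card = 2)
    (hlc : (C.filter fun j => (3/20) ≤ p j).card = 1)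
    (hlf : ((Finset.univ.erase i0 \ C).filter fun j => (3/20) ≤ p j).card = 2) :
    ∑ i, n i ^ 2 < (179049/500000) := by
  have key := joint_sum n p i0 C hC hsum (pc := (3/20)) (ACL := (-36/15625)) (ACS := (-1059/125000))
    (AL := (8419/1000000)) (AS := (1/2)) (B := (9/25))
    (fun j hj hp => cap5i2c1f2CL (hn0 j) (hrow j) (hcap j hj) hp)
    (fun j hj hp => cap5i2c1f2CS (hn0 j) (hrow j) (hlo j) hp.le)
    (fun j _ hp => cap5i2c1f2FL (hn0 j) (hrow j) hp (hp1 j))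
    (fun j _ hp => cap5i2c1f2FS (hn0 j) (hrow j) (hlo j) hp.le)
  rw [card_filter_two C _ hC2 hlc, card_filter_two _ _ hF2 hlf, hlc, hlf] at key
  have h1 : n i0 ^ 2 ≤ (761/10000) ^ 2 := pow_le_pow_left₀ (hn0 i0) hu 2
  have h2 := hlo i0
  norm_num at key h1 h2 ⊢
  linarith

lemma cap5i2c2f0FL {a p : ℝ} (ha0 : 0 ≤ a) (h : ∀ sb, 0 < sb → sb ≤ 1 → a ≤ al4 sb * p + be4 sb)
    (hp : (3/20) ≤ p) (hp1 : p ≤ 1) : a ^ 2 ≤ (1/2) + (1/10) * p := by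
  exact row4 (sb := (33/40)) (P := (3/20)) (Q := 1) ha0 h (by norm_num) (by norm_num) hp hp1 (by norm_num [al4, be4]) (by norm_num [al4, be4])

lemma cap5i2c2f0FS {a p : ℝ} (ha0 : 0 ≤ a) (h : ∀ sb, 0 < sb → sb ≤ 1 → a ≤ al4 sb * p + be4 sb)
    (hp : (41/1000) ≤ p) (hp1 : p ≤ (3/20)) : a ^ 2 ≤ (42389/1000000) + (1/10) * p := by
  exact row4 (sb := (17/40)) (P := (41/1000)) (Q := (3/20)) ha0 h (by norm_num) (by norm_num) hp hp1 (by norm_num [al4, be4]) (by norm_num [al4, be4])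

lemma cap5i2c2f0CL {a p : ℝ} (ha0 : 0 ≤ a) (hc : a < (13181/50000)) (hp : (3/20) ≤ p) : a ^ 2 ≤ (7699/125000) + (1/10) * p :=
  cap_extend ha0 hc (by norm_num) (Pb := (3/20)) (by norm_num) hp

lemma cap5i2c2f0CS {a p : ℝ} (ha0 : 0 ≤ a) (hc : a < (13181/50000)) (hp : (41/1000) ≤ p) : a ^ 2 ≤ (1/2) + (1/10) * p :=
  cap_extend ha0 hc (by norm_num) (Pb := (41/1000)) (by norm_num) hp

lemma cap5i2c2f0 (n p : ι → ℝ) (i0 : ι) (C : Finset ι) (hC : C ⊆ Finset.univ.erase i0)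
    (hsum : ∑ i, p i = 1) (hn0 : ∀ j, 0 ≤ n j)
    (hrow : ∀ j, ∀ sb, 0 < sb → sb ≤ 1 → n j ≤ al4 sb * p j + be4 sb)
    (hlo : ∀ j, (41/1000) ≤ p j) (hp1 : ∀ j, p j ≤ 1) (hcap : ∀ j ∈ C, n j < (13181/50000))
    (hu : n i0 ≤ (761/10000)) (hC2 : C.card = 2)
    (hF2 : (Finset.univ.erase i0 \ C).card = 2)
    (hlc : (C.filter fun j => (3/20) ≤ p j).card = 2)
    (hlf : ((Finset.univ.erase i0 \ C).filter fun j => (3/20) ≤ p j).card = 0) :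
    ∑ i, n i ^ 2 < (179049/500000) := by
  have key := joint_sum n p i0 C hC hsum (pc := (3/20)) (ACL := (7699/125000)) (ACS := (1/2))
    (AL := (1/2)) (AS := (42389/1000000)) (B := (1/10))
    (fun j hj hp => cap5i2c2f0CL (hn0 j) (hcap j hj) hp)
    (fun j hj hp => cap5i2c2f0CS (hn0 j) (hcap j hj) (hlo j))
    (fun j _ hp => cap5i2c2f0FL (hn0 j) (hrow j) hp (hp1 j))
    (fun j _ hp => cap5i2c2f0FS (hn0 j) (hrow j) (hlo j) hp.le)
  rw [card_filter_two C _ hC2 hlc, card_filter_two _ _ hF2 hlf, hlc, hlf] at key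
  have h1 : n i0 ^ 2 ≤ (761/10000) ^ 2 := pow_le_pow_left₀ (hn0 i0) hu 2
  have h2 := hlo i0
  norm_num at key h1 h2 ⊢
  linarith

lemma cap5i2c2f1FL {a p : ℝ} (ha0 : 0 ≤ a) (h : ∀ sb, 0 < sb → sb ≤ 1 → a ≤ al4 sb * p + be4 sb)
    (hp : (3/20) ≤ p) (hp1 : p ≤ 1) : a ^ 2 ≤ (311/5000) + (11/50) * p := by
  rcases le_total p (4337/10000) with h0 | h0
  · exact row4 (sb := (9/10)) (P := (3/20)) (Q := (4337/10000)) ha0 h (by norm_num) (by norm_num) hp h0 (by norm_num [al4, be4]) (by norm_num [al4, be4])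
  exact row4 (sb := (19/20)) (P := (4337/10000)) (Q := 1) ha0 h (by norm_num) (by norm_num) h0 hp1 (by norm_num [al4, be4]) (by norm_num [al4, be4])

lemma cap5i2c2f1FS {a p : ℝ} (ha0 : 0 ≤ a) (h : ∀ sb, 0 < sb → sb ≤ 1 → a ≤ al4 sb * p + be4 sb)
    (hp : (41/1000) ≤ p) (hp1 : p ≤ (3/20)) : a ^ 2 ≤ (1819/125000) + (11/50) * p := by
  exact row4 (sb := (23/40)) (P := (41/1000)) (Q := (3/20)) ha0 h (by norm_num) (by norm_num) hp hp1 (by norm_num [al4, be4]) (by norm_num [al4, be4])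

lemma cap5i2c2f1CLr {a p : ℝ} (ha0 : 0 ≤ a) (h : ∀ sb, 0 < sb → sb ≤ 1 → a ≤ al4 sb * p + be4 sb)
    (hp : (3/20) ≤ p) (hp1 : p ≤ (189803/1000000)) : a ^ 2 ≤ (27739/1000000) + (11/50) * p := by
  exact row4 (sb := (3/5)) (P := (3/20)) (Q := (189803/1000000)) ha0 h (by norm_num) (by norm_num) hp hp1 (by norm_num [al4, be4]) (by norm_num [al4, be4])

lemma cap5i2c2f1CL {a p : ℝ} (ha0 : 0 ≤ a) (h : ∀ sb, 0 < sb → sb ≤ 1 → a ≤ al4 sb * p + be4 sb)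
    (hc : a < (13181/50000)) (hp : (3/20) ≤ p) : a ^ 2 ≤ (27739/1000000) + (11/50) * p := by
  rcases le_total p (189803/1000000) with h1 | h1
  · exact cap5i2c2f1CLr ha0 h hp h1
  · exact cap_extend ha0 hc (by norm_num) (Pb := (189803/1000000)) (by norm_num) h1

lemma cap5i2c2f1CS {a p : ℝ} (ha0 : 0 ≤ a) (hc : a < (13181/50000)) (hp : (41/1000) ≤ p) : a ^ 2 ≤ (1/2) + (11/50) * p :=
  cap_extend ha0 hc (by norm_num) (Pb := (41/1000)) (by norm_num) hp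

lemma cap5i2c2f1 (n p : ι → ℝ) (i0 : ι) (C : Finset ι) (hC : C ⊆ Finset.univ.erase i0)
    (hsum : ∑ i, p i = 1) (hn0 : ∀ j, 0 ≤ n j)
    (hrow : ∀ j, ∀ sb, 0 < sb → sb ≤ 1 → n j ≤ al4 sb * p j + be4 sb)
    (hlo : ∀ j, (41/1000) ≤ p j) (hp1 : ∀ j, p j ≤ 1) (hcap : ∀ j ∈ C, n j < (13181/50000))
    (hu : n i0 ≤ (761/10000)) (hC2 : C.card = 2)
    (hF2 : (Finset.univ.erase i0 \ C).card = 2)
    (hlc : (C.filter fun j => (3/20) ≤ p j).card = 2)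
    (hlf : ((Finset.univ.erase i0 \ C).filter fun j => (3/20) ≤ p j).card = 1) :
    ∑ i, n i ^ 2 < (179049/500000) := by
  have key := joint_sum n p i0 C hC hsum (pc := (3/20)) (ACL := (27739/1000000)) (ACS := (1/2))
    (AL := (311/5000)) (AS := (1819/125000)) (B := (11/50))
    (fun j hj hp => cap5i2c2f1CL (hn0 j) (hrow j) (hcap j hj) hp)
    (fun j hj hp => cap5i2c2f1CS (hn0 j) (hcap j hj) (hlo j))
    (fun j _ hp => cap5i2c2f1FL (hn0 j) (hrow j) hp (hp1 j))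
    (fun j _ hp => cap5i2c2f1FS (hn0 j) (hrow j) (hlo j) hp.le)
  rw [card_filter_two C _ hC2 hlc, card_filter_two _ _ hF2 hlf, hlc, hlf] at key
  have h1 : n i0 ^ 2 ≤ (761/10000) ^ 2 := pow_le_pow_left₀ (hn0 i0) hu 2
  have h2 := hlo i0
  norm_num at key h1 h2 ⊢
  linarith

lemma cap5i2c2f2FL {a p : ℝ} (ha0 : 0 ≤ a) (h : ∀ sb, 0 < sb → sb ≤ 1 → a ≤ al4 sb * p + be4 sb)
    (hp : (3/20) ≤ p) (hp1 : p ≤ 1) : a ^ 2 ≤ (-16311/1000000) + (11/25) * p := by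
  rcases le_total p (4753/20000) with h0 | h0
  · exact row4 (sb := (29/40)) (P := (3/20)) (Q := (4753/20000)) ha0 h (by norm_num) (by norm_num) hp h0 (by norm_num [al4, be4]) (by norm_num [al4, be4])
  rcases le_total p (1059/4000) with h1 | h1
  · exact row4 (sb := (31/40)) (P := (4753/20000)) (Q := (1059/4000)) ha0 h (by norm_num) (by norm_num) h0 h1 (by norm_num [al4, be4]) (by norm_num [al4, be4])
  rcases le_total p (233/800) with h2 | h2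
  · exact row4 (sb := (4/5)) (P := (1059/4000)) (Q := (233/800)) ha0 h (by norm_num) (by norm_num) h1 h2 (by norm_num [al4, be4]) (by norm_num [al4, be4])
  rcases le_total p (4023/10000) with h3 | h3
  · exact row4 (sb := (33/40)) (P := (233/800)) (Q := (4023/10000)) ha0 h (by norm_num) (by norm_num) h2 h3 (by norm_num [al4, be4]) (by norm_num [al4, be4])
  exact row4 (sb := (9/10)) (P := (4023/10000)) (Q := 1) ha0 h (by norm_num) (by norm_num) h3 hp1 (by norm_num [al4, be4]) (by norm_num [al4, be4])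

lemma cap5i2c2f2FS {a p : ℝ} (ha0 : 0 ≤ a) (h : ∀ sb, 0 < sb → sb ≤ 1 → a ≤ al4 sb * p + be4 sb)
    (hp : (41/1000) ≤ p) (hp1 : p ≤ (3/20)) : a ^ 2 ≤ (1/2) + (11/25) * p := by
  exact row4 (sb := (1/40)) (P := (41/1000)) (Q := (3/20)) ha0 h (by norm_num) (by norm_num) hp hp1 (by norm_num [al4, be4]) (by norm_num [al4, be4])

lemma cap5i2c2f2CLr {a p : ℝ} (ha0 : 0 ≤ a) (h : ∀ sb, 0 < sb → sb ≤ 1 → a ≤ al4 sb * p + be4 sb)
    (hp : (3/20) ≤ p) (hp1 : p ≤ (100051/500000)) : a ^ 2 ≤ (-18549/1000000) + (11/25) * p := by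
  exact row4 (sb := (7/10)) (P := (3/20)) (Q := (100051/500000)) ha0 h (by norm_num) (by norm_num) hp hp1 (by norm_num [al4, be4]) (by norm_num [al4, be4])

lemma cap5i2c2f2CL {a p : ℝ} (ha0 : 0 ≤ a) (h : ∀ sb, 0 < sb → sb ≤ 1 → a ≤ al4 sb * p + be4 sb)
    (hc : a < (13181/50000)) (hp : (3/20) ≤ p) : a ^ 2 ≤ (-18549/1000000) + (11/25) * p := by
  rcases le_total p (100051/500000) with h1 | h1
  · exact cap5i2c2f2CLr ha0 h hp h1
  · exact cap_extend ha0 hc (by norm_num) (Pb := (100051/500000)) (by norm_num) h1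

lemma cap5i2c2f2CS {a p : ℝ} (ha0 : 0 ≤ a) (hc : a < (13181/50000)) (hp : (41/1000) ≤ p) : a ^ 2 ≤ (1/2) + (11/25) * p :=
  cap_extend ha0 hc (by norm_num) (Pb := (41/1000)) (by norm_num) hp

lemma cap5i2c2f2 (n p : ι → ℝ) (i0 : ι) (C : Finset ι) (hC : C ⊆ Finset.univ.erase i0)
    (hsum : ∑ i, p i = 1) (hn0 : ∀ j, 0 ≤ n j)
    (hrow : ∀ j, ∀ sb, 0 < sb → sb ≤ 1 → n j ≤ al4 sb * p j + be4 sb)
    (hlo : ∀ j, (41/1000) ≤ p j) (hp1 : ∀ j, p j ≤ 1) (hcap : ∀ j ∈ C, n j < (13181/50000))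
    (hu : n i0 ≤ (761/10000)) (hC2 : C.card = 2)
    (hF2 : (Finset.univ.erase i0 \ C).card = 2)
    (hlc : (C.filter fun j => (3/20) ≤ p j).card = 2)
    (hlf : ((Finset.univ.erase i0 \ C).filter fun j => (3/20) ≤ p j).card = 2) :
    ∑ i, n i ^ 2 < (179049/500000) := by
  have key := joint_sum n p i0 C hC hsum (pc := (3/20)) (ACL := (-18549/1000000)) (ACS := (1/2))
    (AL := (-16311/1000000)) (AS := (1/2)) (B := (11/25))
    (fun j hj hp => cap5i2c2f2CL (hn0 j) (hrow j) (hcap j hj) hp)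
    (fun j hj hp => cap5i2c2f2CS (hn0 j) (hcap j hj) (hlo j))
    (fun j _ hp => cap5i2c2f2FL (hn0 j) (hrow j) hp (hp1 j))
    (fun j _ hp => cap5i2c2f2FS (hn0 j) (hrow j) (hlo j) hp.le)
  rw [card_filter_two C _ hC2 hlc, card_filter_two _ _ hF2 hlf, hlc, hlf] at key
  have h1 : n i0 ^ 2 ≤ (761/10000) ^ 2 := pow_le_pow_left₀ (hn0 i0) hu 2
  have h2 := hlo i0
  norm_num at key h1 h2 ⊢
  linarith

lemma cap5i2 (n p : ι → ℝ) (i0 : ι) (C : Finset ι) (hC : C ⊆ Finset.univ.erase i0)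
    (hsum : ∑ i, p i = 1) (hn0 : ∀ j, 0 ≤ n j)
    (hrow : ∀ j, ∀ sb, 0 < sb → sb ≤ 1 → n j ≤ al4 sb * p j + be4 sb)
    (hlo : ∀ j, (41/1000) ≤ p j) (hp1 : ∀ j, p j ≤ 1) (hcap : ∀ j ∈ C, n j < (13181/50000))
    (hu : n i0 ≤ (761/10000)) (hC2 : C.card = 2)
    (hF2 : (Finset.univ.erase i0 \ C).card = 2) :
    ∑ i, n i ^ 2 < (179049/500000) := by
  have hA : (C.filter fun j => (3/20) ≤ p j).card ≤ 2 := (Finset.card_filter_le _ _).trans hC2.le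
  have hB : ((Finset.univ.erase i0 \ C).filter fun j => (3/20) ≤ p j).card ≤ 2 := (Finset.card_filter_le _ _).trans hF2.le
  have hc' : (C.filter fun j => (3/20) ≤ p j).card = 0 ∨ (C.filter fun j => (3/20) ≤ p j).card = 1 ∨ (C.filter fun j => (3/20) ≤ p j).card = 2 := by omega
  have hf' : ((Finset.univ.erase i0 \ C).filter fun j => (3/20) ≤ p j).card = 0 ∨ ((Finset.univ.erase i0 \ C).filter fun j => (3/20) ≤ p j).card = 1 ∨ ((Finset.univ.erase i0 \ C).filter fun j => (3/20) ≤ p j).card = 2 := by omega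
  rcases hc' with hlc | hlc | hlc <;> rcases hf' with hlf | hlf | hlf
  · exact cap5i2c0f0 n p i0 C hC hsum hn0 hrow hlo hp1 hcap hu hC2 hF2 hlc hlf
  · exact cap5i2c0f1 n p i0 C hC hsum hn0 hrow hlo hp1 hcap hu hC2 hF2 hlc hlf
  · exact cap5i2c0f2 n p i0 C hC hsum hn0 hrow hlo hp1 hcap hu hC2 hF2 hlc hlf
  · exact cap5i2c1f0 n p i0 C hC hsum hn0 hrow hlo hp1 hcap hu hC2 hF2 hlc hlf
  · exact cap5i2c1f1 n p i0 C hC hsum hn0 hrow hlo hp1 hcap hu hC2 hF2 hlc hlf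
  · exact cap5i2c1f2 n p i0 C hC hsum hn0 hrow hlo hp1 hcap hu hC2 hF2 hlc hlf
  · exact cap5i2c2f0 n p i0 C hC hsum hn0 hrow hlo hp1 hcap hu hC2 hF2 hlc hlf
  · exact cap5i2c2f1 n p i0 C hC hsum hn0 hrow hlo hp1 hcap hu hC2 hF2 hlc hlf
  · exact cap5i2c2f2 n p i0 C hC hsum hn0 hrow hlo hp1 hcap hu hC2 hF2 hlc hlf

lemma cap5i3c0f0FL {a p : ℝ} (ha0 : 0 ≤ a) (h : ∀ sb, 0 < sb → sb ≤ 1 → a ≤ al4 sb * p + be4 sb)
    (hp : (3/20) ≤ p) (hp1 : p ≤ 1) : a ^ 2 ≤ (1/2) + (1/10) * p := by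
  exact row4 (sb := (33/40)) (P := (3/20)) (Q := 1) ha0 h (by norm_num) (by norm_num) hp hp1 (by norm_num [al4, be4]) (by norm_num [al4, be4])

lemma cap5i3c0f0FS {a p : ℝ} (ha0 : 0 ≤ a) (h : ∀ sb, 0 < sb → sb ≤ 1 → a ≤ al4 sb * p + be4 sb)
    (hp : (9/200) ≤ p) (hp1 : p ≤ (3/20)) : a ^ 2 ≤ (9433/200000) + (1/10) * p := by
  exact row4 (sb := (3/8)) (P := (9/200)) (Q := (3/20)) ha0 h (by norm_num) (by norm_num) hp hp1 (by norm_num [al4, be4]) (by norm_num [al4, be4])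

lemma cap5i3c0f0CL {a p : ℝ} (ha0 : 0 ≤ a) (hc : a < (27679/100000)) (hp : (3/20) ≤ p) : a ^ 2 ≤ (1/2) + (1/10) * p :=
  cap_extend ha0 hc (by norm_num) (Pb := (3/20)) (by norm_num) hp

lemma cap5i3c0f0CS {a p : ℝ} (ha0 : 0 ≤ a) (h : ∀ sb, 0 < sb → sb ≤ 1 → a ≤ al4 sb * p + be4 sb)
    (hp : (9/200) ≤ p) (hp1 : p ≤ (3/20)) : a ^ 2 ≤ (9433/200000) + (1/10) * p := by
  exact row4 (sb := (3/8)) (P := (9/200)) (Q := (3/20)) ha0 h (by norm_num) (by norm_num) hp hp1 (by norm_num [al4, be4]) (by norm_num [al4, be4])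

lemma cap5i3c0f0 (n p : ι → ℝ) (i0 : ι) (C : Finset ι) (hC : C ⊆ Finset.univ.erase i0)
    (hsum : ∑ i, p i = 1) (hn0 : ∀ j, 0 ≤ n j)
    (hrow : ∀ j, ∀ sb, 0 < sb → sb ≤ 1 → n j ≤ al4 sb * p j + be4 sb)
    (hlo : ∀ j, (9/200) ≤ p j) (hp1 : ∀ j, p j ≤ 1) (hcap : ∀ j ∈ C, n j < (27679/100000))
    (hu : n i0 ≤ (799/10000)) (hC2 : C.card = 2)
    (hF2 : (Finset.univ.erase i0 \ C).card = 2)
    (hlc : (C.filter fun j => (3/20) ≤ p j).card = 0)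
    (hlf : ((Finset.univ.erase i0 \ C).filter fun j => (3/20) ≤ p j).card = 0) :
    ∑ i, n i ^ 2 < (179049/500000) := by
  have key := joint_sum n p i0 C hC hsum (pc := (3/20)) (ACL := (1/2)) (ACS := (9433/200000))
    (AL := (1/2)) (AS := (9433/200000)) (B := (1/10))
    (fun j hj hp => cap5i3c0f0CL (hn0 j) (hcap j hj) hp)
    (fun j hj hp => cap5i3c0f0CS (hn0 j) (hrow j) (hlo j) hp.le)
    (fun j _ hp => cap5i3c0f0FL (hn0 j) (hrow j) hp (hp1 j))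
    (fun j _ hp => cap5i3c0f0FS (hn0 j) (hrow j) (hlo j) hp.le)
  rw [card_filter_two C _ hC2 hlc, card_filter_two _ _ hF2 hlf, hlc, hlf] at key
  have h1 : n i0 ^ 2 ≤ (799/10000) ^ 2 := pow_le_pow_left₀ (hn0 i0) hu 2
  have h2 := hlo i0
  norm_num at key h1 h2 ⊢
  linarith

lemma cap5i3c0f1FL {a p : ℝ} (ha0 : 0 ≤ a) (h : ∀ sb, 0 < sb → sb ≤ 1 → a ≤ al4 sb * p + be4 sb)
    (hp : (3/20) ≤ p) (hp1 : p ≤ 1) : a ^ 2 ≤ (11859/100000) + (1/10) * p := by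
  rcases le_total p (11771/20000) with h0 | h0
  · exact row4 (sb := (19/20)) (P := (3/20)) (Q := (11771/20000)) ha0 h (by norm_num) (by norm_num) hp h0 (by norm_num [al4, be4]) (by norm_num [al4, be4])
  exact row4 (sb := (39/40)) (P := (11771/20000)) (Q := 1) ha0 h (by norm_num) (by norm_num) h0 hp1 (by norm_num [al4, be4]) (by norm_num [al4, be4])

lemma cap5i3c0f1FS {a p : ℝ} (ha0 : 0 ≤ a) (h : ∀ sb, 0 < sb → sb ≤ 1 → a ≤ al4 sb * p + be4 sb)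
    (hp : (9/200) ≤ p) (hp1 : p ≤ (3/20)) : a ^ 2 ≤ (18481/500000) + (1/10) * p := by
  exact row4 (sb := (1/2)) (P := (9/200)) (Q := (3/20)) ha0 h (by norm_num) (by norm_num) hp hp1 (by norm_num [al4, be4]) (by norm_num [al4, be4])

lemma cap5i3c0f1CL {a p : ℝ} (ha0 : 0 ≤ a) (hc : a < (27679/100000)) (hp : (3/20) ≤ p) : a ^ 2 ≤ (1/2) + (1/10) * p :=
  cap_extend ha0 hc (by norm_num) (Pb := (3/20)) (by norm_num) hp

lemma cap5i3c0f1CS {a p : ℝ} (ha0 : 0 ≤ a) (h : ∀ sb, 0 < sb → sb ≤ 1 → a ≤ al4 sb * p + be4 sb)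
    (hp : (9/200) ≤ p) (hp1 : p ≤ (3/20)) : a ^ 2 ≤ (18481/500000) + (1/10) * p := by
  exact row4 (sb := (1/2)) (P := (9/200)) (Q := (3/20)) ha0 h (by norm_num) (by norm_num) hp hp1 (by norm_num [al4, be4]) (by norm_num [al4, be4])

lemma cap5i3c0f1 (n p : ι → ℝ) (i0 : ι) (C : Finset ι) (hC : C ⊆ Finset.univ.erase i0)
    (hsum : ∑ i, p i = 1) (hn0 : ∀ j, 0 ≤ n j)
    (hrow : ∀ j, ∀ sb, 0 < sb → sb ≤ 1 → n j ≤ al4 sb * p j + be4 sb)
    (hlo : ∀ j, (9/200) ≤ p j) (hp1 : ∀ j, p j ≤ 1) (hcap : ∀ j ∈ C, n j < (27679/100000))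
    (hu : n i0 ≤ (799/10000)) (hC2 : C.card = 2)
    (hF2 : (Finset.univ.erase i0 \ C).card = 2)
    (hlc : (C.filter fun j => (3/20) ≤ p j).card = 0)
    (hlf : ((Finset.univ.erase i0 \ C).filter fun j => (3/20) ≤ p j).card = 1) :
    ∑ i, n i ^ 2 < (179049/500000) := by
  have key := joint_sum n p i0 C hC hsum (pc := (3/20)) (ACL := (1/2)) (ACS := (18481/500000))
    (AL := (11859/100000)) (AS := (18481/500000)) (B := (1/10))
    (fun j hj hp => cap5i3c0f1CL (hn0 j) (hcap j hj) hp)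
    (fun j hj hp => cap5i3c0f1CS (hn0 j) (hrow j) (hlo j) hp.le)
    (fun j _ hp => cap5i3c0f1FL (hn0 j) (hrow j) hp (hp1 j))
    (fun j _ hp => cap5i3c0f1FS (hn0 j) (hrow j) (hlo j) hp.le)
  rw [card_filter_two C _ hC2 hlc, card_filter_two _ _ hF2 hlf, hlc, hlf] at key
  have h1 : n i0 ^ 2 ≤ (799/10000) ^ 2 := pow_le_pow_left₀ (hn0 i0) hu 2
  have h2 := hlo i0
  norm_num at key h1 h2 ⊢
  linarith

lemma cap5i3c0f2FL {a p : ℝ} (ha0 : 0 ≤ a) (h : ∀ sb, 0 < sb → sb ≤ 1 → a ≤ al4 sb * p + be4 sb)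
    (hp : (3/20) ≤ p) (hp1 : p ≤ 1) : a ^ 2 ≤ (581/62500) + (9/25) * p := by
  rcases le_total p (6689/20000) with h0 | h0
  · exact row4 (sb := (33/40)) (P := (3/20)) (Q := (6689/20000)) ha0 h (by norm_num) (by norm_num) hp h0 (by norm_num [al4, be4]) (by norm_num [al4, be4])
  rcases le_total p (11579/20000) with h1 | h1
  · exact row4 (sb := (7/8)) (P := (6689/20000)) (Q := (11579/20000)) ha0 h (by norm_num) (by norm_num) h0 h1 (by norm_num [al4, be4]) (by norm_num [al4, be4])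
  exact row4 (sb := (9/10)) (P := (11579/20000)) (Q := 1) ha0 h (by norm_num) (by norm_num) h1 hp1 (by norm_num [al4, be4]) (by norm_num [al4, be4])

lemma cap5i3c0f2FS {a p : ℝ} (ha0 : 0 ≤ a) (h : ∀ sb, 0 < sb → sb ≤ 1 → a ≤ al4 sb * p + be4 sb)
    (hp : (9/200) ≤ p) (hp1 : p ≤ (3/20)) : a ^ 2 ≤ (1/2) + (9/25) * p := by
  exact row4 (sb := (1/40)) (P := (9/200)) (Q := (3/20)) ha0 h (by norm_num) (by norm_num) hp hp1 (by norm_num [al4, be4]) (by norm_num [al4, be4])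

lemma cap5i3c0f2CL {a p : ℝ} (ha0 : 0 ≤ a) (hc : a < (27679/100000)) (hp : (3/20) ≤ p) : a ^ 2 ≤ (1/2) + (9/25) * p :=
  cap_extend ha0 hc (by norm_num) (Pb := (3/20)) (by norm_num) hp

lemma cap5i3c0f2CS {a p : ℝ} (ha0 : 0 ≤ a) (h : ∀ sb, 0 < sb → sb ≤ 1 → a ≤ al4 sb * p + be4 sb)
    (hp : (9/200) ≤ p) (hp1 : p ≤ (3/20)) : a ^ 2 ≤ (-1519/200000) + (9/25) * p := by
  exact row4 (sb := (3/5)) (P := (9/200)) (Q := (3/20)) ha0 h (by norm_num) (by norm_num) hp hp1 (by norm_num [al4, be4]) (by norm_num [al4, be4])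

lemma cap5i3c0f2 (n p : ι → ℝ) (i0 : ι) (C : Finset ι) (hC : C ⊆ Finset.univ.erase i0)
    (hsum : ∑ i, p i = 1) (hn0 : ∀ j, 0 ≤ n j)
    (hrow : ∀ j, ∀ sb, 0 < sb → sb ≤ 1 → n j ≤ al4 sb * p j + be4 sb)
    (hlo : ∀ j, (9/200) ≤ p j) (hp1 : ∀ j, p j ≤ 1) (hcap : ∀ j ∈ C, n j < (27679/100000))
    (hu : n i0 ≤ (799/10000)) (hC2 : C.card = 2)
    (hF2 : (Finset.univ.erase i0 \ C).card = 2)
    (hlc : (C.filter fun j => (3/20) ≤ p j).card = 0)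
    (hlf : ((Finset.univ.erase i0 \ C).filter fun j => (3/20) ≤ p j).card = 2) :
    ∑ i, n i ^ 2 < (179049/500000) := by
  have key := joint_sum n p i0 C hC hsum (pc := (3/20)) (ACL := (1/2)) (ACS := (-1519/200000))
    (AL := (581/62500)) (AS := (1/2)) (B := (9/25))
    (fun j hj hp => cap5i3c0f2CL (hn0 j) (hcap j hj) hp)
    (fun j hj hp => cap5i3c0f2CS (hn0 j) (hrow j) (hlo j) hp.le)
    (fun j _ hp => cap5i3c0f2FL (hn0 j) (hrow j) hp (hp1 j))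
    (fun j _ hp => cap5i3c0f2FS (hn0 j) (hrow j) (hlo j) hp.le)
  rw [card_filter_two C _ hC2 hlc, card_filter_two _ _ hF2 hlf, hlc, hlf] at key
  have h1 : n i0 ^ 2 ≤ (799/10000) ^ 2 := pow_le_pow_left₀ (hn0 i0) hu 2
  have h2 := hlo i0
  norm_num at key h1 h2 ⊢
  linarith

lemma cap5i3c1f0FL {a p : ℝ} (ha0 : 0 ≤ a) (h : ∀ sb, 0 < sb → sb ≤ 1 → a ≤ al4 sb * p + be4 sb)
    (hp : (3/20) ≤ p) (hp1 : p ≤ 1) : a ^ 2 ≤ (1/2) + (1/10) * p := by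
  exact row4 (sb := (33/40)) (P := (3/20)) (Q := 1) ha0 h (by norm_num) (by norm_num) hp hp1 (by norm_num [al4, be4]) (by norm_num [al4, be4])

lemma cap5i3c1f0FS {a p : ℝ} (ha0 : 0 ≤ a) (h : ∀ sb, 0 < sb → sb ≤ 1 → a ≤ al4 sb * p + be4 sb)
    (hp : (9/200) ≤ p) (hp1 : p ≤ (3/20)) : a ^ 2 ≤ (2203/50000) + (1/10) * p := by
  exact row4 (sb := (2/5)) (P := (9/200)) (Q := (3/20)) ha0 h (by norm_num) (by norm_num) hp hp1 (by norm_num [al4, be4]) (by norm_num [al4, be4])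

lemma cap5i3c1f0CL {a p : ℝ} (ha0 : 0 ≤ a) (hc : a < (27679/100000)) (hp : (3/20) ≤ p) : a ^ 2 ≤ (34451/500000) + (1/10) * p :=
  cap_extend ha0 hc (by norm_num) (Pb := (3/20)) (by norm_num) hp

lemma cap5i3c1f0CS {a p : ℝ} (ha0 : 0 ≤ a) (h : ∀ sb, 0 < sb → sb ≤ 1 → a ≤ al4 sb * p + be4 sb)
    (hp : (9/200) ≤ p) (hp1 : p ≤ (3/20)) : a ^ 2 ≤ (2203/50000) + (1/10) * p := by
  exact row4 (sb := (2/5)) (P := (9/200)) (Q := (3/20)) ha0 h (by norm_num) (by norm_num) hp hp1 (by norm_num [al4, be4]) (by norm_num [al4, be4])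

lemma cap5i3c1f0 (n p : ι → ℝ) (i0 : ι) (C : Finset ι) (hC : C ⊆ Finset.univ.erase i0)
    (hsum : ∑ i, p i = 1) (hn0 : ∀ j, 0 ≤ n j)
    (hrow : ∀ j, ∀ sb, 0 < sb → sb ≤ 1 → n j ≤ al4 sb * p j + be4 sb)
    (hlo : ∀ j, (9/200) ≤ p j) (hp1 : ∀ j, p j ≤ 1) (hcap : ∀ j ∈ C, n j < (27679/100000))
    (hu : n i0 ≤ (799/10000)) (hC2 : C.card = 2)
    (hF2 : (Finset.univ.erase i0 \ C).card = 2)
    (hlc : (C.filter fun j => (3/20) ≤ p j).card = 1)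
    (hlf : ((Finset.univ.erase i0 \ C).filter fun j => (3/20) ≤ p j).card = 0) :
    ∑ i, n i ^ 2 < (179049/500000) := by
  have key := joint_sum n p i0 C hC hsum (pc := (3/20)) (ACL := (34451/500000)) (ACS := (2203/50000))
    (AL := (1/2)) (AS := (2203/50000)) (B := (1/10))
    (fun j hj hp => cap5i3c1f0CL (hn0 j) (hcap j hj) hp)
    (fun j hj hp => cap5i3c1f0CS (hn0 j) (hrow j) (hlo j) hp.le)
    (fun j _ hp => cap5i3c1f0FL (hn0 j) (hrow j) hp (hp1 j))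
    (fun j _ hp => cap5i3c1f0FS (hn0 j) (hrow j) (hlo j) hp.le)
  rw [card_filter_two C _ hC2 hlc, card_filter_two _ _ hF2 hlf, hlc, hlf] at key
  have h1 : n i0 ^ 2 ≤ (799/10000) ^ 2 := pow_le_pow_left₀ (hn0 i0) hu 2
  have h2 := hlo i0
  norm_num at key h1 h2 ⊢
  linarith

lemma cap5i3c1f1FL {a p : ℝ} (ha0 : 0 ≤ a) (h : ∀ sb, 0 < sb → sb ≤ 1 → a ≤ al4 sb * p + be4 sb)
    (hp : (3/20) ≤ p) (hp1 : p ≤ 1) : a ^ 2 ≤ (12171/125000) + (7/50) * p := by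
  rcases le_total p (1783/2500) with h0 | h0
  · exact row4 (sb := (19/20)) (P := (3/20)) (Q := (1783/2500)) ha0 h (by norm_num) (by norm_num) hp h0 (by norm_num [al4, be4]) (by norm_num [al4, be4])
  exact row4 (sb := (39/40)) (P := (1783/2500)) (Q := 1) ha0 h (by norm_num) (by norm_num) h0 hp1 (by norm_num [al4, be4]) (by norm_num [al4, be4])

lemma cap5i3c1f1FS {a p : ℝ} (ha0 : 0 ≤ a) (h : ∀ sb, 0 < sb → sb ≤ 1 → a ≤ al4 sb * p + be4 sb)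
    (hp : (9/200) ≤ p) (hp1 : p ≤ (3/20)) : a ^ 2 ≤ (2793/100000) + (7/50) * p := by
  exact row4 (sb := (11/20)) (P := (9/200)) (Q := (3/20)) ha0 h (by norm_num) (by norm_num) hp hp1 (by norm_num [al4, be4]) (by norm_num [al4, be4])

lemma cap5i3c1f1CLr {a p : ℝ} (ha0 : 0 ≤ a) (h : ∀ sb, 0 < sb → sb ≤ 1 → a ≤ al4 sb * p + be4 sb)
    (hp : (3/20) ≤ p) (hp1 : p ≤ (188841/1000000)) : a ^ 2 ≤ (2007/40000) + (7/50) * p := by
  exact row4 (sb := (21/40)) (P := (3/20)) (Q := (188841/1000000)) ha0 h (by norm_num) (by norm_num) hp hp1 (by norm_num [al4, be4]) (by norm_num [al4, be4])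

lemma cap5i3c1f1CL {a p : ℝ} (ha0 : 0 ≤ a) (h : ∀ sb, 0 < sb → sb ≤ 1 → a ≤ al4 sb * p + be4 sb)
    (hc : a < (27679/100000)) (hp : (3/20) ≤ p) : a ^ 2 ≤ (2007/40000) + (7/50) * p := by
  rcases le_total p (188841/1000000) with h1 | h1
  · exact cap5i3c1f1CLr ha0 h hp h1
  · exact cap_extend ha0 hc (by norm_num) (Pb := (188841/1000000)) (by norm_num) h1

lemma cap5i3c1f1CS {a p : ℝ} (ha0 : 0 ≤ a) (h : ∀ sb, 0 < sb → sb ≤ 1 → a ≤ al4 sb * p + be4 sb)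
    (hp : (9/200) ≤ p) (hp1 : p ≤ (3/20)) : a ^ 2 ≤ (2793/100000) + (7/50) * p := by
  exact row4 (sb := (11/20)) (P := (9/200)) (Q := (3/20)) ha0 h (by norm_num) (by norm_num) hp hp1 (by norm_num [al4, be4]) (by norm_num [al4, be4])

lemma cap5i3c1f1 (n p : ι → ℝ) (i0 : ι) (C : Finset ι) (hC : C ⊆ Finset.univ.erase i0)
    (hsum : ∑ i, p i = 1) (hn0 : ∀ j, 0 ≤ n j)
    (hrow : ∀ j, ∀ sb, 0 < sb → sb ≤ 1 → n j ≤ al4 sb * p j + be4 sb)
    (hlo : ∀ j, (9/200) ≤ p j) (hp1 : ∀ j, p j ≤ 1) (hcap : ∀ j ∈ C, n j < (27679/100000))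
    (hu : n i0 ≤ (799/10000)) (hC2 : C.card = 2)
    (hF2 : (Finset.univ.erase i0 \ C).card = 2)
    (hlc : (C.filter fun j => (3/20) ≤ p j).card = 1)
    (hlf : ((Finset.univ.erase i0 \ C).filter fun j => (3/20) ≤ p j).card = 1) :
    ∑ i, n i ^ 2 < (179049/500000) := by
  have key := joint_sum n p i0 C hC hsum (pc := (3/20)) (ACL := (2007/40000)) (ACS := (2793/100000))
    (AL := (12171/125000)) (AS := (2793/100000)) (B := (7/50))
    (fun j hj hp => cap5i3c1f1CL (hn0 j) (hrow j) (hcap j hj) hp)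
    (fun j hj hp => cap5i3c1f1CS (hn0 j) (hrow j) (hlo j) hp.le)
    (fun j _ hp => cap5i3c1f1FL (hn0 j) (hrow j) hp (hp1 j))
    (fun j _ hp => cap5i3c1f1FS (hn0 j) (hrow j) (hlo j) hp.le)
  rw [card_filter_two C _ hC2 hlc, card_filter_two _ _ hF2 hlf, hlc, hlf] at key
  have h1 : n i0 ^ 2 ≤ (799/10000) ^ 2 := pow_le_pow_left₀ (hn0 i0) hu 2
  have h2 := hlo i0
  norm_num at key h1 h2 ⊢
  linarith

lemma cap5i3c1f2FL {a p : ℝ} (ha0 : 0 ≤ a) (h : ∀ sb, 0 < sb → sb ≤ 1 → a ≤ al4 sb * p + be4 sb)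
    (hp : (3/20) ≤ p) (hp1 : p ≤ 1) : a ^ 2 ≤ (379/200000) + (19/50) * p := by
  rcases le_total p (3007/10000) with h0 | h0
  · exact row4 (sb := (4/5)) (P := (3/20)) (Q := (3007/10000)) ha0 h (by norm_num) (by norm_num) hp h0 (by norm_num [al4, be4]) (by norm_num [al4, be4])
  rcases le_total p (3193/10000) with h1 | h1
  · exact row4 (sb := (33/40)) (P := (3007/10000)) (Q := (3193/10000)) ha0 h (by norm_num) (by norm_num) h0 h1 (by norm_num [al4, be4]) (by norm_num [al4, be4])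
  rcases le_total p (3891/10000) with h2 | h2
  · exact row4 (sb := (17/20)) (P := (3193/10000)) (Q := (3891/10000)) ha0 h (by norm_num) (by norm_num) h1 h2 (by norm_num [al4, be4]) (by norm_num [al4, be4])
  exact row4 (sb := (9/10)) (P := (3891/10000)) (Q := 1) ha0 h (by norm_num) (by norm_num) h2 hp1 (by norm_num [al4, be4]) (by norm_num [al4, be4])

lemma cap5i3c1f2FS {a p : ℝ} (ha0 : 0 ≤ a) (h : ∀ sb, 0 < sb → sb ≤ 1 → a ≤ al4 sb * p + be4 sb)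
    (hp : (9/200) ≤ p) (hp1 : p ≤ (3/20)) : a ^ 2 ≤ (1/2) + (19/50) * p := by
  exact row4 (sb := (1/40)) (P := (9/200)) (Q := (3/20)) ha0 h (by norm_num) (by norm_num) hp hp1 (by norm_num [al4, be4]) (by norm_num [al4, be4])

lemma cap5i3c1f2CLr {a p : ℝ} (ha0 : 0 ≤ a) (h : ∀ sb, 0 < sb → sb ≤ 1 → a ≤ al4 sb * p + be4 sb)
    (hp : (3/20) ≤ p) (hp1 : p ≤ (10713/50000)) : a ^ 2 ≤ (-2403/500000) + (19/50) * p := by
  exact row4 (sb := (29/40)) (P := (3/20)) (Q := (10713/50000)) ha0 h (by norm_num) (by norm_num) hp hp1 (by norm_num [al4, be4]) (by norm_num [al4, be4])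

lemma cap5i3c1f2CL {a p : ℝ} (ha0 : 0 ≤ a) (h : ∀ sb, 0 < sb → sb ≤ 1 → a ≤ al4 sb * p + be4 sb)
    (hc : a < (27679/100000)) (hp : (3/20) ≤ p) : a ^ 2 ≤ (-2403/500000) + (19/50) * p := by
  rcases le_total p (10713/50000) with h1 | h1
  · exact cap5i3c1f2CLr ha0 h hp h1
  · exact cap_extend ha0 hc (by norm_num) (Pb := (10713/50000)) (by norm_num) h1

lemma cap5i3c1f2CS {a p : ℝ} (ha0 : 0 ≤ a) (h : ∀ sb, 0 < sb → sb ≤ 1 → a ≤ al4 sb * p + be4 sb)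
    (hp : (9/200) ≤ p) (hp1 : p ≤ (3/20)) : a ^ 2 ≤ (-11159/1000000) + (19/50) * p := by
  rcases le_total p (2411/20000) with h0 | h0
  · exact row4 (sb := (19/40)) (P := (9/200)) (Q := (2411/20000)) ha0 h (by norm_num) (by norm_num) hp h0 (by norm_num [al4, be4]) (by norm_num [al4, be4])
  exact row4 (sb := (5/8)) (P := (2411/20000)) (Q := (3/20)) ha0 h (by norm_num) (by norm_num) h0 hp1 (by norm_num [al4, be4]) (by norm_num [al4, be4])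

lemma cap5i3c1f2 (n p : ι → ℝ) (i0 : ι) (C : Finset ι) (hC : C ⊆ Finset.univ.erase i0)
    (hsum : ∑ i, p i = 1) (hn0 : ∀ j, 0 ≤ n j)
    (hrow : ∀ j, ∀ sb, 0 < sb → sb ≤ 1 → n j ≤ al4 sb * p j + be4 sb)
    (hlo : ∀ j, (9/200) ≤ p j) (hp1 : ∀ j, p j ≤ 1) (hcap : ∀ j ∈ C, n j < (27679/100000))
    (hu : n i0 ≤ (799/10000)) (hC2 : C.card = 2)
    (hF2 : (Finset.univ.erase i0 \ C).card = 2)
    (hlc : (C.filter fun j => (3/20) ≤ p j).card = 1)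
    (hlf : ((Finset.univ.erase i0 \ C).filter fun j => (3/20) ≤ p j).card = 2) :
    ∑ i, n i ^ 2 < (179049/500000) := by
  have key := joint_sum n p i0 C hC hsum (pc := (3/20)) (ACL := (-2403/500000)) (ACS := (-11159/1000000))
    (AL := (379/200000)) (AS := (1/2)) (B := (19/50))
    (fun j hj hp => cap5i3c1f2CL (hn0 j) (hrow j) (hcap j hj) hp)
    (fun j hj hp => cap5i3c1f2CS (hn0 j) (hrow j) (hlo j) hp.le)
    (fun j _ hp => cap5i3c1f2FL (hn0 j) (hrow j) hp (hp1 j))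
    (fun j _ hp => cap5i3c1f2FS (hn0 j) (hrow j) (hlo j) hp.le)
  rw [card_filter_two C _ hC2 hlc, card_filter_two _ _ hF2 hlf, hlc, hlf] at key
  have h1 : n i0 ^ 2 ≤ (799/10000) ^ 2 := pow_le_pow_left₀ (hn0 i0) hu 2
  have h2 := hlo i0
  norm_num at key h1 h2 ⊢
  linarith

lemma cap5i3c2f0FL {a p : ℝ} (ha0 : 0 ≤ a) (h : ∀ sb, 0 < sb → sb ≤ 1 → a ≤ al4 sb * p + be4 sb)
    (hp : (3/20) ≤ p) (hp1 : p ≤ 1) : a ^ 2 ≤ (1/2) + (1/10) * p := by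
  exact row4 (sb := (33/40)) (P := (3/20)) (Q := 1) ha0 h (by norm_num) (by norm_num) hp hp1 (by norm_num [al4, be4]) (by norm_num [al4, be4])

lemma cap5i3c2f0FS {a p : ℝ} (ha0 : 0 ≤ a) (h : ∀ sb, 0 < sb → sb ≤ 1 → a ≤ al4 sb * p + be4 sb)
    (hp : (9/200) ≤ p) (hp1 : p ≤ (3/20)) : a ^ 2 ≤ (8191/200000) + (1/10) * p := by
  exact row4 (sb := (9/20)) (P := (9/200)) (Q := (3/20)) ha0 h (by norm_num) (by norm_num) hp hp1 (by norm_num [al4, be4]) (by norm_num [al4, be4])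

lemma cap5i3c2f0CL {a p : ℝ} (ha0 : 0 ≤ a) (hc : a < (27679/100000)) (hp : (3/20) ≤ p) : a ^ 2 ≤ (65797/1000000) + (1/10) * p :=
  cap_extend ha0 hc (by norm_num) (Pb := (3/20)) (by norm_num) hp

lemma cap5i3c2f0CS {a p : ℝ} (ha0 : 0 ≤ a) (hc : a < (27679/100000)) (hp : (9/200) ≤ p) : a ^ 2 ≤ (1/2) + (1/10) * p :=
  cap_extend ha0 hc (by norm_num) (Pb := (9/200)) (by norm_num) hp

lemma cap5i3c2f0 (n p : ι → ℝ) (i0 : ι) (C : Finset ι) (hC : C ⊆ Finset.univ.erase i0)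
    (hsum : ∑ i, p i = 1) (hn0 : ∀ j, 0 ≤ n j)
    (hrow : ∀ j, ∀ sb, 0 < sb → sb ≤ 1 → n j ≤ al4 sb * p j + be4 sb)
    (hlo : ∀ j, (9/200) ≤ p j) (hp1 : ∀ j, p j ≤ 1) (hcap : ∀ j ∈ C, n j < (27679/100000))
    (hu : n i0 ≤ (799/10000)) (hC2 : C.card = 2)
    (hF2 : (Finset.univ.erase i0 \ C).card = 2)
    (hlc : (C.filter fun j => (3/20) ≤ p j).card = 2)
    (hlf : ((Finset.univ.erase i0 \ C).filter fun j => (3/20) ≤ p j).card = 0) :
    ∑ i, n i ^ 2 < (179049/500000) := by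
  have key := joint_sum n p i0 C hC hsum (pc := (3/20)) (ACL := (65797/1000000)) (ACS := (1/2))
    (AL := (1/2)) (AS := (8191/200000)) (B := (1/10))
    (fun j hj hp => cap5i3c2f0CL (hn0 j) (hcap j hj) hp)
    (fun j hj hp => cap5i3c2f0CS (hn0 j) (hcap j hj) (hlo j))
    (fun j _ hp => cap5i3c2f0FL (hn0 j) (hrow j) hp (hp1 j))
    (fun j _ hp => cap5i3c2f0FS (hn0 j) (hrow j) (hlo j) hp.le)
  rw [card_filter_two C _ hC2 hlc, card_filter_two _ _ hF2 hlf, hlc, hlf] at key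
  have h1 : n i0 ^ 2 ≤ (799/10000) ^ 2 := pow_le_pow_left₀ (hn0 i0) hu 2
  have h2 := hlo i0
  norm_num at key h1 h2 ⊢
  linarith

lemma cap5i3c2f1FL {a p : ℝ} (ha0 : 0 ≤ a) (h : ∀ sb, 0 < sb → sb ≤ 1 → a ≤ al4 sb * p + be4 sb)
    (hp : (3/20) ≤ p) (hp1 : p ≤ 1) : a ^ 2 ≤ (37961/1000000) + (7/25) * p := by
  rcases le_total p (787/2000) with h0 | h0
  · exact row4 (sb := (7/8)) (P := (3/20)) (Q := (787/2000)) ha0 h (by norm_num) (by norm_num) hp h0 (by norm_num [al4, be4]) (by norm_num [al4, be4])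
  exact row4 (sb := (37/40)) (P := (787/2000)) (Q := 1) ha0 h (by norm_num) (by norm_num) h0 hp1 (by norm_num [al4, be4]) (by norm_num [al4, be4])

lemma cap5i3c2f1FS {a p : ℝ} (ha0 : 0 ≤ a) (h : ∀ sb, 0 < sb → sb ≤ 1 → a ≤ al4 sb * p + be4 sb)
    (hp : (9/200) ≤ p) (hp1 : p ≤ (3/20)) : a ^ 2 ≤ (947/200000) + (7/25) * p := by
  exact row4 (sb := (23/40)) (P := (9/200)) (Q := (3/20)) ha0 h (by norm_num) (by norm_num) hp hp1 (by norm_num [al4, be4]) (by norm_num [al4, be4])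

lemma cap5i3c2f1CLr {a p : ℝ} (ha0 : 0 ≤ a) (h : ∀ sb, 0 < sb → sb ≤ 1 → a ≤ al4 sb * p + be4 sb)
    (hp : (3/20) ≤ p) (hp1 : p ≤ (20971/100000)) : a ^ 2 ≤ (8947/500000) + (7/25) * p := by
  exact row4 (sb := (27/40)) (P := (3/20)) (Q := (20971/100000)) ha0 h (by norm_num) (by norm_num) hp hp1 (by norm_num [al4, be4]) (by norm_num [al4, be4])

lemma cap5i3c2f1CL {a p : ℝ} (ha0 : 0 ≤ a) (h : ∀ sb, 0 < sb → sb ≤ 1 → a ≤ al4 sb * p + be4 sb)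
    (hc : a < (27679/100000)) (hp : (3/20) ≤ p) : a ^ 2 ≤ (8947/500000) + (7/25) * p := by
  rcases le_total p (20971/100000) with h1 | h1
  · exact cap5i3c2f1CLr ha0 h hp h1
  · exact cap_extend ha0 hc (by norm_num) (Pb := (20971/100000)) (by norm_num) h1

lemma cap5i3c2f1CS {a p : ℝ} (ha0 : 0 ≤ a) (hc : a < (27679/100000)) (hp : (9/200) ≤ p) : a ^ 2 ≤ (1/2) + (7/25) * p :=
  cap_extend ha0 hc (by norm_num) (Pb := (9/200)) (by norm_num) hp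

lemma cap5i3c2f1 (n p : ι → ℝ) (i0 : ι) (C : Finset ι) (hC : C ⊆ Finset.univ.erase i0)
    (hsum : ∑ i, p i = 1) (hn0 : ∀ j, 0 ≤ n j)
    (hrow : ∀ j, ∀ sb, 0 < sb → sb ≤ 1 → n j ≤ al4 sb * p j + be4 sb)
    (hlo : ∀ j, (9/200) ≤ p j) (hp1 : ∀ j, p j ≤ 1) (hcap : ∀ j ∈ C, n j < (27679/100000))
    (hu : n i0 ≤ (799/10000)) (hC2 : C.card = 2)
    (hF2 : (Finset.univ.erase i0 \ C).card = 2)
    (hlc : (C.filter fun j => (3/20) ≤ p j).card = 2)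
    (hlf : ((Finset.univ.erase i0 \ C).filter fun j => (3/20) ≤ p j).card = 1) :
    ∑ i, n i ^ 2 < (179049/500000) := by
  have key := joint_sum n p i0 C hC hsum (pc := (3/20)) (ACL := (8947/500000)) (ACS := (1/2))
    (AL := (37961/1000000)) (AS := (947/200000)) (B := (7/25))
    (fun j hj hp => cap5i3c2f1CL (hn0 j) (hrow j) (hcap j hj) hp)
    (fun j hj hp => cap5i3c2f1CS (hn0 j) (hcap j hj) (hlo j))
    (fun j _ hp => cap5i3c2f1FL (hn0 j) (hrow j) hp (hp1 j))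
    (fun j _ hp => cap5i3c2f1FS (hn0 j) (hrow j) (hlo j) hp.le)
  rw [card_filter_two C _ hC2 hlc, card_filter_two _ _ hF2 hlf, hlc, hlf] at key
  have h1 : n i0 ^ 2 ≤ (799/10000) ^ 2 := pow_le_pow_left₀ (hn0 i0) hu 2
  have h2 := hlo i0
  norm_num at key h1 h2 ⊢
  linarith

lemma cap5i3c2f2FL {a p : ℝ} (ha0 : 0 ≤ a) (h : ∀ sb, 0 < sb → sb ≤ 1 → a ≤ al4 sb * p + be4 sb)
    (hp : (3/20) ≤ p) (hp1 : p ≤ 1) : a ^ 2 ≤ (-27/1250) + (23/50) * p := by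
  rcases le_total p (2161/10000) with h0 | h0
  · exact row4 (sb := (7/10)) (P := (3/20)) (Q := (2161/10000)) ha0 h (by norm_num) (by norm_num) hp h0 (by norm_num [al4, be4]) (by norm_num [al4, be4])
  rcases le_total p (4871/20000) with h1 | h1
  · exact row4 (sb := (3/4)) (P := (2161/10000)) (Q := (4871/20000)) ha0 h (by norm_num) (by norm_num) h0 h1 (by norm_num [al4, be4]) (by norm_num [al4, be4])
  rcases le_total p (5303/20000) with h2 | h2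
  · exact row4 (sb := (31/40)) (P := (4871/20000)) (Q := (5303/20000)) ha0 h (by norm_num) (by norm_num) h1 h2 (by norm_num [al4, be4]) (by norm_num [al4, be4])
  rcases le_total p (6687/20000) with h3 | h3
  · exact row4 (sb := (4/5)) (P := (5303/20000)) (Q := (6687/20000)) ha0 h (by norm_num) (by norm_num) h2 h3 (by norm_num [al4, be4]) (by norm_num [al4, be4])
  exact row4 (sb := (7/8)) (P := (6687/20000)) (Q := 1) ha0 h (by norm_num) (by norm_num) h3 hp1 (by norm_num [al4, be4]) (by norm_num [al4, be4])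

lemma cap5i3c2f2FS {a p : ℝ} (ha0 : 0 ≤ a) (h : ∀ sb, 0 < sb → sb ≤ 1 → a ≤ al4 sb * p + be4 sb)
    (hp : (9/200) ≤ p) (hp1 : p ≤ (3/20)) : a ^ 2 ≤ (1/2) + (23/50) * p := by
  exact row4 (sb := (1/40)) (P := (9/200)) (Q := (3/20)) ha0 h (by norm_num) (by norm_num) hp hp1 (by norm_num [al4, be4]) (by norm_num [al4, be4])

lemma cap5i3c2f2CLr {a p : ℝ} (ha0 : 0 ≤ a) (h : ∀ sb, 0 < sb → sb ≤ 1 → a ≤ al4 sb * p + be4 sb)
    (hp : (3/20) ≤ p) (hp1 : p ≤ (26859/125000)) : a ^ 2 ≤ (-5557/250000) + (23/50) * p := by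
  rcases le_total p (1033/5000) with h0 | h0
  · exact row4 (sb := (7/10)) (P := (3/20)) (Q := (1033/5000)) ha0 h (by norm_num) (by norm_num) hp h0 (by norm_num [al4, be4]) (by norm_num [al4, be4])
  exact row4 (sb := (29/40)) (P := (1033/5000)) (Q := (26859/125000)) ha0 h (by norm_num) (by norm_num) h0 hp1 (by norm_num [al4, be4]) (by norm_num [al4, be4])

lemma cap5i3c2f2CL {a p : ℝ} (ha0 : 0 ≤ a) (h : ∀ sb, 0 < sb → sb ≤ 1 → a ≤ al4 sb * p + be4 sb)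
    (hc : a < (27679/100000)) (hp : (3/20) ≤ p) : a ^ 2 ≤ (-5557/250000) + (23/50) * p := by
  rcases le_total p (26859/125000) with h1 | h1
  · exact cap5i3c2f2CLr ha0 h hp h1
  · exact cap_extend ha0 hc (by norm_num) (Pb := (26859/125000)) (by norm_num) h1

lemma cap5i3c2f2CS {a p : ℝ} (ha0 : 0 ≤ a) (hc : a < (27679/100000)) (hp : (9/200) ≤ p) : a ^ 2 ≤ (1/2) + (23/50) * p :=
  cap_extend ha0 hc (by norm_num) (Pb := (9/200)) (by norm_num) hp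

lemma cap5i3c2f2 (n p : ι → ℝ) (i0 : ι) (C : Finset ι) (hC : C ⊆ Finset.univ.erase i0)
    (hsum : ∑ i, p i = 1) (hn0 : ∀ j, 0 ≤ n j)
    (hrow : ∀ j, ∀ sb, 0 < sb → sb ≤ 1 → n j ≤ al4 sb * p j + be4 sb)
    (hlo : ∀ j, (9/200) ≤ p j) (hp1 : ∀ j, p j ≤ 1) (hcap : ∀ j ∈ C, n j < (27679/100000))
    (hu : n i0 ≤ (799/10000)) (hC2 : C.card = 2)
    (hF2 : (Finset.univ.erase i0 \ C).card = 2)
    (hlc : (C.filter fun j => (3/20) ≤ p j).card = 2)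
    (hlf : ((Finset.univ.erase i0 \ C).filter fun j => (3/20) ≤ p j).card = 2) :
    ∑ i, n i ^ 2 < (179049/500000) := by
  have key := joint_sum n p i0 C hC hsum (pc := (3/20)) (ACL := (-5557/250000)) (ACS := (1/2))
    (AL := (-27/1250)) (AS := (1/2)) (B := (23/50))
    (fun j hj hp => cap5i3c2f2CL (hn0 j) (hrow j) (hcap j hj) hp)
    (fun j hj hp => cap5i3c2f2CS (hn0 j) (hcap j hj) (hlo j))
    (fun j _ hp => cap5i3c2f2FL (hn0 j) (hrow j) hp (hp1 j))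
    (fun j _ hp => cap5i3c2f2FS (hn0 j) (hrow j) (hlo j) hp.le)
  rw [card_filter_two C _ hC2 hlc, card_filter_two _ _ hF2 hlf, hlc, hlf] at key
  have h1 : n i0 ^ 2 ≤ (799/10000) ^ 2 := pow_le_pow_left₀ (hn0 i0) hu 2
  have h2 := hlo i0
  norm_num at key h1 h2 ⊢
  linarith

lemma cap5i3 (n p : ι → ℝ) (i0 : ι) (C : Finset ι) (hC : C ⊆ Finset.univ.erase i0)
    (hsum : ∑ i, p i = 1) (hn0 : ∀ j, 0 ≤ n j)
    (hrow : ∀ j, ∀ sb, 0 < sb → sb ≤ 1 → n j ≤ al4 sb * p j + be4 sb)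
    (hlo : ∀ j, (9/200) ≤ p j) (hp1 : ∀ j, p j ≤ 1) (hcap : ∀ j ∈ C, n j < (27679/100000))
    (hu : n i0 ≤ (799/10000)) (hC2 : C.card = 2)
    (hF2 : (Finset.univ.erase i0 \ C).card = 2) :
    ∑ i, n i ^ 2 < (179049/500000) := by
  have hA : (C.filter fun j => (3/20) ≤ p j).card ≤ 2 := (Finset.card_filter_le _ _).trans hC2.le
  have hB : ((Finset.univ.erase i0 \ C).filter fun j => (3/20) ≤ p j).card ≤ 2 := (Finset.card_filter_le _ _).trans hF2.le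
  have hc' : (C.filter fun j => (3/20) ≤ p j).card = 0 ∨ (C.filter fun j => (3/20) ≤ p j).card = 1 ∨ (C.filter fun j => (3/20) ≤ p j).card = 2 := by omega
  have hf' : ((Finset.univ.erase i0 \ C).filter fun j => (3/20) ≤ p j).card = 0 ∨ ((Finset.univ.erase i0 \ C).filter fun j => (3/20) ≤ p j).card = 1 ∨ ((Finset.univ.erase i0 \ C).filter fun j => (3/20) ≤ p j).card = 2 := by omega
  rcases hc' with hlc | hlc | hlc <;> rcases hf' with hlf | hlf | hlf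
  · exact cap5i3c0f0 n p i0 C hC hsum hn0 hrow hlo hp1 hcap hu hC2 hF2 hlc hlf
  · exact cap5i3c0f1 n p i0 C hC hsum hn0 hrow hlo hp1 hcap hu hC2 hF2 hlc hlf
  · exact cap5i3c0f2 n p i0 C hC hsum hn0 hrow hlo hp1 hcap hu hC2 hF2 hlc hlf
  · exact cap5i3c1f0 n p i0 C hC hsum hn0 hrow hlo hp1 hcap hu hC2 hF2 hlc hlf
  · exact cap5i3c1f1 n p i0 C hC hsum hn0 hrow hlo hp1 hcap hu hC2 hF2 hlc hlf
  · exact cap5i3c1f2 n p i0 C hC hsum hn0 hrow hlo hp1 hcap hu hC2 hF2 hlc hlf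
  · exact cap5i3c2f0 n p i0 C hC hsum hn0 hrow hlo hp1 hcap hu hC2 hF2 hlc hlf
  · exact cap5i3c2f1 n p i0 C hC hsum hn0 hrow hlo hp1 hcap hu hC2 hF2 hlc hlf
  · exact cap5i3c2f2 n p i0 C hC hsum hn0 hrow hlo hp1 hcap hu hC2 hF2 hlc hlf

lemma cap5i4c0f0FL {a p : ℝ} (ha0 : 0 ≤ a) (h : ∀ sb, 0 < sb → sb ≤ 1 → a ≤ al4 sb * p + be4 sb)
    (hp : (3/20) ≤ p) (hp1 : p ≤ 1) : a ^ 2 ≤ (1/2) + (1/10) * p := by
  exact row4 (sb := (33/40)) (P := (3/20)) (Q := 1) ha0 h (by norm_num) (by norm_num) hp hp1 (by norm_num [al4, be4]) (by norm_num [al4, be4])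

lemma cap5i4c0f0FS {a p : ℝ} (ha0 : 0 ≤ a) (h : ∀ sb, 0 < sb → sb ≤ 1 → a ≤ al4 sb * p + be4 sb)
    (hp : (47/1000) ≤ p) (hp1 : p ≤ (3/20)) : a ^ 2 ≤ (23567/500000) + (1/10) * p := by
  exact row4 (sb := (3/8)) (P := (47/1000)) (Q := (3/20)) ha0 h (by norm_num) (by norm_num) hp hp1 (by norm_num [al4, be4]) (by norm_num [al4, be4])

lemma cap5i4c0f0CL {a p : ℝ} (ha0 : 0 ≤ a) (hc : a < (28649/100000)) (hp : (3/20) ≤ p) : a ^ 2 ≤ (1/2) + (1/10) * p :=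
  cap_extend ha0 hc (by norm_num) (Pb := (3/20)) (by norm_num) hp

lemma cap5i4c0f0CS {a p : ℝ} (ha0 : 0 ≤ a) (h : ∀ sb, 0 < sb → sb ≤ 1 → a ≤ al4 sb * p + be4 sb)
    (hp : (47/1000) ≤ p) (hp1 : p ≤ (3/20)) : a ^ 2 ≤ (23567/500000) + (1/10) * p := by
  exact row4 (sb := (3/8)) (P := (47/1000)) (Q := (3/20)) ha0 h (by norm_num) (by norm_num) hp hp1 (by norm_num [al4, be4]) (by norm_num [al4, be4])

lemma cap5i4c0f0 (n p : ι → ℝ) (i0 : ι) (C : Finset ι) (hC : C ⊆ Finset.univ.erase i0)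
    (hsum : ∑ i, p i = 1) (hn0 : ∀ j, 0 ≤ n j)
    (hrow : ∀ j, ∀ sb, 0 < sb → sb ≤ 1 → n j ≤ al4 sb * p j + be4 sb)
    (hlo : ∀ j, (47/1000) ≤ p j) (hp1 : ∀ j, p j ≤ 1) (hcap : ∀ j ∈ C, n j < (28649/100000))
    (hu : n i0 ≤ (827/10000)) (hC2 : C.card = 2)
    (hF2 : (Finset.univ.erase i0 \ C).card = 2)
    (hlc : (C.filter fun j => (3/20) ≤ p j).card = 0)
    (hlf : ((Finset.univ.erase i0 \ C).filter fun j => (3/20) ≤ p j).card = 0) :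
    ∑ i, n i ^ 2 < (179049/500000) := by
  have key := joint_sum n p i0 C hC hsum (pc := (3/20)) (ACL := (1/2)) (ACS := (23567/500000))
    (AL := (1/2)) (AS := (23567/500000)) (B := (1/10))
    (fun j hj hp => cap5i4c0f0CL (hn0 j) (hcap j hj) hp)
    (fun j hj hp => cap5i4c0f0CS (hn0 j) (hrow j) (hlo j) hp.le)
    (fun j _ hp => cap5i4c0f0FL (hn0 j) (hrow j) hp (hp1 j))
    (fun j _ hp => cap5i4c0f0FS (hn0 j) (hrow j) (hlo j) hp.le)
  rw [card_filter_two C _ hC2 hlc, card_filter_two _ _ hF2 hlf, hlc, hlf] at key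
  have h1 : n i0 ^ 2 ≤ (827/10000) ^ 2 := pow_le_pow_left₀ (hn0 i0) hu 2
  have h2 := hlo i0
  norm_num at key h1 h2 ⊢
  linarith

lemma cap5i4c0f1FL {a p : ℝ} (ha0 : 0 ≤ a) (h : ∀ sb, 0 < sb → sb ≤ 1 → a ≤ al4 sb * p + be4 sb)
    (hp : (3/20) ≤ p) (hp1 : p ≤ 1) : a ^ 2 ≤ (59279/500000) + (1/10) * p := by
  rcases le_total p (11759/20000) with h0 | h0
  · exact row4 (sb := (19/20)) (P := (3/20)) (Q := (11759/20000)) ha0 h (by norm_num) (by norm_num) hp h0 (by norm_num [al4, be4]) (by norm_num [al4, be4])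
  exact row4 (sb := (39/40)) (P := (11759/20000)) (Q := 1) ha0 h (by norm_num) (by norm_num) h0 hp1 (by norm_num [al4, be4]) (by norm_num [al4, be4])

lemma cap5i4c0f1FS {a p : ℝ} (ha0 : 0 ≤ a) (h : ∀ sb, 0 < sb → sb ≤ 1 → a ≤ al4 sb * p + be4 sb)
    (hp : (47/1000) ≤ p) (hp1 : p ≤ (3/20)) : a ^ 2 ≤ (3693/100000) + (1/10) * p := by
  exact row4 (sb := (1/2)) (P := (47/1000)) (Q := (3/20)) ha0 h (by norm_num) (by norm_num) hp hp1 (by norm_num [al4, be4]) (by norm_num [al4, be4])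

lemma cap5i4c0f1CL {a p : ℝ} (ha0 : 0 ≤ a) (hc : a < (28649/100000)) (hp : (3/20) ≤ p) : a ^ 2 ≤ (1/2) + (1/10) * p :=
  cap_extend ha0 hc (by norm_num) (Pb := (3/20)) (by norm_num) hp

lemma cap5i4c0f1CS {a p : ℝ} (ha0 : 0 ≤ a) (h : ∀ sb, 0 < sb → sb ≤ 1 → a ≤ al4 sb * p + be4 sb)
    (hp : (47/1000) ≤ p) (hp1 : p ≤ (3/20)) : a ^ 2 ≤ (3693/100000) + (1/10) * p := by
  exact row4 (sb := (1/2)) (P := (47/1000)) (Q := (3/20)) ha0 h (by norm_num) (by norm_num) hp hp1 (by norm_num [al4, be4]) (by norm_num [al4, be4])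

lemma cap5i4c0f1 (n p : ι → ℝ) (i0 : ι) (C : Finset ι) (hC : C ⊆ Finset.univ.erase i0)
    (hsum : ∑ i, p i = 1) (hn0 : ∀ j, 0 ≤ n j)
    (hrow : ∀ j, ∀ sb, 0 < sb → sb ≤ 1 → n j ≤ al4 sb * p j + be4 sb)
    (hlo : ∀ j, (47/1000) ≤ p j) (hp1 : ∀ j, p j ≤ 1) (hcap : ∀ j ∈ C, n j < (28649/100000))
    (hu : n i0 ≤ (827/10000)) (hC2 : C.card = 2)
    (hF2 : (Finset.univ.erase i0 \ C).card = 2)
    (hlc : (C.filter fun j => (3/20) ≤ p j).card = 0)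
    (hlf : ((Finset.univ.erase i0 \ C).filter fun j => (3/20) ≤ p j).card = 1) :
    ∑ i, n i ^ 2 < (179049/500000) := by
  have key := joint_sum n p i0 C hC hsum (pc := (3/20)) (ACL := (1/2)) (ACS := (3693/100000))
    (AL := (59279/500000)) (AS := (3693/100000)) (B := (1/10))
    (fun j hj hp => cap5i4c0f1CL (hn0 j) (hcap j hj) hp)
    (fun j hj hp => cap5i4c0f1CS (hn0 j) (hrow j) (hlo j) hp.le)
    (fun j _ hp => cap5i4c0f1FL (hn0 j) (hrow j) hp (hp1 j))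
    (fun j _ hp => cap5i4c0f1FS (hn0 j) (hrow j) (hlo j) hp.le)
  rw [card_filter_two C _ hC2 hlc, card_filter_two _ _ hF2 hlf, hlc, hlf] at key
  have h1 : n i0 ^ 2 ≤ (827/10000) ^ 2 := pow_le_pow_left₀ (hn0 i0) hu 2
  have h2 := hlo i0
  norm_num at key h1 h2 ⊢
  linarith

lemma cap5i4c0f2FL {a p : ℝ} (ha0 : 0 ≤ a) (h : ∀ sb, 0 < sb → sb ≤ 1 → a ≤ al4 sb * p + be4 sb)
    (hp : (3/20) ≤ p) (hp1 : p ≤ 1) : a ^ 2 ≤ (9329/1000000) + (9/25) * p := by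
  rcases le_total p (3349/10000) with h0 | h0
  · exact row4 (sb := (33/40)) (P := (3/20)) (Q := (3349/10000)) ha0 h (by norm_num) (by norm_num) hp h0 (by norm_num [al4, be4]) (by norm_num [al4, be4])
  rcases le_total p (1449/2500) with h1 | h1
  · exact row4 (sb := (7/8)) (P := (3349/10000)) (Q := (1449/2500)) ha0 h (by norm_num) (by norm_num) h0 h1 (by norm_num [al4, be4]) (by norm_num [al4, be4])
  exact row4 (sb := (9/10)) (P := (1449/2500)) (Q := 1) ha0 h (by norm_num) (by norm_num) h1 hp1 (by norm_num [al4, be4]) (by norm_num [al4, be4])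

lemma cap5i4c0f2FS {a p : ℝ} (ha0 : 0 ≤ a) (h : ∀ sb, 0 < sb → sb ≤ 1 → a ≤ al4 sb * p + be4 sb)
    (hp : (47/1000) ≤ p) (hp1 : p ≤ (3/20)) : a ^ 2 ≤ (1/2) + (9/25) * p := by
  exact row4 (sb := (1/40)) (P := (47/1000)) (Q := (3/20)) ha0 h (by norm_num) (by norm_num) hp hp1 (by norm_num [al4, be4]) (by norm_num [al4, be4])

lemma cap5i4c0f2CL {a p : ℝ} (ha0 : 0 ≤ a) (hc : a < (28649/100000)) (hp : (3/20) ≤ p) : a ^ 2 ≤ (1/2) + (9/25) * p :=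
  cap_extend ha0 hc (by norm_num) (Pb := (3/20)) (by norm_num) hp

lemma cap5i4c0f2CS {a p : ℝ} (ha0 : 0 ≤ a) (h : ∀ sb, 0 < sb → sb ≤ 1 → a ≤ al4 sb * p + be4 sb)
    (hp : (47/1000) ≤ p) (hp1 : p ≤ (3/20)) : a ^ 2 ≤ (-3781/500000) + (9/25) * p := by
  exact row4 (sb := (3/5)) (P := (47/1000)) (Q := (3/20)) ha0 h (by norm_num) (by norm_num) hp hp1 (by norm_num [al4, be4]) (by norm_num [al4, be4])

lemma cap5i4c0f2 (n p : ι → ℝ) (i0 : ι) (C : Finset ι) (hC : C ⊆ Finset.univ.erase i0)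
    (hsum : ∑ i, p i = 1) (hn0 : ∀ j, 0 ≤ n j)
    (hrow : ∀ j, ∀ sb, 0 < sb → sb ≤ 1 → n j ≤ al4 sb * p j + be4 sb)
    (hlo : ∀ j, (47/1000) ≤ p j) (hp1 : ∀ j, p j ≤ 1) (hcap : ∀ j ∈ C, n j < (28649/100000))
    (hu : n i0 ≤ (827/10000)) (hC2 : C.card = 2)
    (hF2 : (Finset.univ.erase i0 \ C).card = 2)
    (hlc : (C.filter fun j => (3/20) ≤ p j).card = 0)
    (hlf : ((Finset.univ.erase i0 \ C).filter fun j => (3/20) ≤ p j).card = 2) :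
    ∑ i, n i ^ 2 < (179049/500000) := by
  have key := joint_sum n p i0 C hC hsum (pc := (3/20)) (ACL := (1/2)) (ACS := (-3781/500000))
    (AL := (9329/1000000)) (AS := (1/2)) (B := (9/25))
    (fun j hj hp => cap5i4c0f2CL (hn0 j) (hcap j hj) hp)
    (fun j hj hp => cap5i4c0f2CS (hn0 j) (hrow j) (hlo j) hp.le)
    (fun j _ hp => cap5i4c0f2FL (hn0 j) (hrow j) hp (hp1 j))
    (fun j _ hp => cap5i4c0f2FS (hn0 j) (hrow j) (hlo j) hp.le)
  rw [card_filter_two C _ hC2 hlc, card_filter_two _ _ hF2 hlf, hlc, hlf] at key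
  have h1 : n i0 ^ 2 ≤ (827/10000) ^ 2 := pow_le_pow_left₀ (hn0 i0) hu 2
  have h2 := hlo i0
  norm_num at key h1 h2 ⊢
  linarith

lemma cap5i4c1f0FL {a p : ℝ} (ha0 : 0 ≤ a) (h : ∀ sb, 0 < sb → sb ≤ 1 → a ≤ al4 sb * p + be4 sb)
    (hp : (3/20) ≤ p) (hp1 : p ≤ 1) : a ^ 2 ≤ (1/2) + (1/10) * p := by
  exact row4 (sb := (33/40)) (P := (3/20)) (Q := 1) ha0 h (by norm_num) (by norm_num) hp hp1 (by norm_num [al4, be4]) (by norm_num [al4, be4])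

lemma cap5i4c1f0FS {a p : ℝ} (ha0 : 0 ≤ a) (h : ∀ sb, 0 < sb → sb ≤ 1 → a ≤ al4 sb * p + be4 sb)
    (hp : (47/1000) ≤ p) (hp1 : p ≤ (3/20)) : a ^ 2 ≤ (43487/1000000) + (1/10) * p := by
  exact row4 (sb := (2/5)) (P := (47/1000)) (Q := (3/20)) ha0 h (by norm_num) (by norm_num) hp hp1 (by norm_num [al4, be4]) (by norm_num [al4, be4])

lemma cap5i4c1f0CL {a p : ℝ} (ha0 : 0 ≤ a) (hc : a < (28649/100000)) (hp : (3/20) ≤ p) : a ^ 2 ≤ (36329/500000) + (1/10) * p :=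
  cap_extend ha0 hc (by norm_num) (Pb := (3/20)) (by norm_num) hp

lemma cap5i4c1f0CS {a p : ℝ} (ha0 : 0 ≤ a) (h : ∀ sb, 0 < sb → sb ≤ 1 → a ≤ al4 sb * p + be4 sb)
    (hp : (47/1000) ≤ p) (hp1 : p ≤ (3/20)) : a ^ 2 ≤ (43487/1000000) + (1/10) * p := by
  exact row4 (sb := (2/5)) (P := (47/1000)) (Q := (3/20)) ha0 h (by norm_num) (by norm_num) hp hp1 (by norm_num [al4, be4]) (by norm_num [al4, be4])

lemma cap5i4c1f0 (n p : ι → ℝ) (i0 : ι) (C : Finset ι) (hC : C ⊆ Finset.univ.erase i0)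
    (hsum : ∑ i, p i = 1) (hn0 : ∀ j, 0 ≤ n j)
    (hrow : ∀ j, ∀ sb, 0 < sb → sb ≤ 1 → n j ≤ al4 sb * p j + be4 sb)
    (hlo : ∀ j, (47/1000) ≤ p j) (hp1 : ∀ j, p j ≤ 1) (hcap : ∀ j ∈ C, n j < (28649/100000))
    (hu : n i0 ≤ (827/10000)) (hC2 : C.card = 2)
    (hF2 : (Finset.univ.erase i0 \ C).card = 2)
    (hlc : (C.filter fun j => (3/20) ≤ p j).card = 1)
    (hlf : ((Finset.univ.erase i0 \ C).filter fun j => (3/20) ≤ p j).card = 0) :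
    ∑ i, n i ^ 2 < (179049/500000) := by
  have key := joint_sum n p i0 C hC hsum (pc := (3/20)) (ACL := (36329/500000)) (ACS := (43487/1000000))
    (AL := (1/2)) (AS := (43487/1000000)) (B := (1/10))
    (fun j hj hp => cap5i4c1f0CL (hn0 j) (hcap j hj) hp)
    (fun j hj hp => cap5i4c1f0CS (hn0 j) (hrow j) (hlo j) hp.le)
    (fun j _ hp => cap5i4c1f0FL (hn0 j) (hrow j) hp (hp1 j))
    (fun j _ hp => cap5i4c1f0FS (hn0 j) (hrow j) (hlo j) hp.le)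
  rw [card_filter_two C _ hC2 hlc, card_filter_two _ _ hF2 hlf, hlc, hlf] at key
  have h1 : n i0 ^ 2 ≤ (827/10000) ^ 2 := pow_le_pow_left₀ (hn0 i0) hu 2
  have h2 := hlo i0
  norm_num at key h1 h2 ⊢
  linarith

lemma cap5i4c1f1FL {a p : ℝ} (ha0 : 0 ≤ a) (h : ∀ sb, 0 < sb → sb ≤ 1 → a ≤ al4 sb * p + be4 sb)
    (hp : (3/20) ≤ p) (hp1 : p ≤ 1) : a ^ 2 ≤ (44123/500000) + (4/25) * p := by
  rcases le_total p (4801/10000) with h0 | h0
  · exact row4 (sb := (37/40)) (P := (3/20)) (Q := (4801/10000)) ha0 h (by norm_num) (by norm_num) hp h0 (by norm_num [al4, be4]) (by norm_num [al4, be4])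
  exact row4 (sb := (19/20)) (P := (4801/10000)) (Q := 1) ha0 h (by norm_num) (by norm_num) h0 hp1 (by norm_num [al4, be4]) (by norm_num [al4, be4])

lemma cap5i4c1f1FS {a p : ℝ} (ha0 : 0 ≤ a) (h : ∀ sb, 0 < sb → sb ≤ 1 → a ≤ al4 sb * p + be4 sb)
    (hp : (47/1000) ≤ p) (hp1 : p ≤ (3/20)) : a ^ 2 ≤ (4887/200000) + (4/25) * p := by
  exact row4 (sb := (11/20)) (P := (47/1000)) (Q := (3/20)) ha0 h (by norm_num) (by norm_num) hp hp1 (by norm_num [al4, be4]) (by norm_num [al4, be4])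

lemma cap5i4c1f1CLr {a p : ℝ} (ha0 : 0 ≤ a) (h : ∀ sb, 0 < sb → sb ≤ 1 → a ≤ al4 sb * p + be4 sb)
    (hp : (3/20) ≤ p) (hp1 : p ≤ (206529/1000000)) : a ^ 2 ≤ (6129/125000) + (4/25) * p := by
  exact row4 (sb := (3/5)) (P := (3/20)) (Q := (206529/1000000)) ha0 h (by norm_num) (by norm_num) hp hp1 (by norm_num [al4, be4]) (by norm_num [al4, be4])

lemma cap5i4c1f1CL {a p : ℝ} (ha0 : 0 ≤ a) (h : ∀ sb, 0 < sb → sb ≤ 1 → a ≤ al4 sb * p + be4 sb)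
    (hc : a < (28649/100000)) (hp : (3/20) ≤ p) : a ^ 2 ≤ (6129/125000) + (4/25) * p := by
  rcases le_total p (206529/1000000) with h1 | h1
  · exact cap5i4c1f1CLr ha0 h hp h1
  · exact cap_extend ha0 hc (by norm_num) (Pb := (206529/1000000)) (by norm_num) h1

lemma cap5i4c1f1CS {a p : ℝ} (ha0 : 0 ≤ a) (h : ∀ sb, 0 < sb → sb ≤ 1 → a ≤ al4 sb * p + be4 sb)
    (hp : (47/1000) ≤ p) (hp1 : p ≤ (3/20)) : a ^ 2 ≤ (4887/200000) + (4/25) * p := by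
  exact row4 (sb := (11/20)) (P := (47/1000)) (Q := (3/20)) ha0 h (by norm_num) (by norm_num) hp hp1 (by norm_num [al4, be4]) (by norm_num [al4, be4])

lemma cap5i4c1f1 (n p : ι → ℝ) (i0 : ι) (C : Finset ι) (hC : C ⊆ Finset.univ.erase i0)
    (hsum : ∑ i, p i = 1) (hn0 : ∀ j, 0 ≤ n j)
    (hrow : ∀ j, ∀ sb, 0 < sb → sb ≤ 1 → n j ≤ al4 sb * p j + be4 sb)
    (hlo : ∀ j, (47/1000) ≤ p j) (hp1 : ∀ j, p j ≤ 1) (hcap : ∀ j ∈ C, n j < (28649/100000))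
    (hu : n i0 ≤ (827/10000)) (hC2 : C.card = 2)
    (hF2 : (Finset.univ.erase i0 \ C).card = 2)
    (hlc : (C.filter fun j => (3/20) ≤ p j).card = 1)
    (hlf : ((Finset.univ.erase i0 \ C).filter fun j => (3/20) ≤ p j).card = 1) :
    ∑ i, n i ^ 2 < (179049/500000) := by
  have key := joint_sum n p i0 C hC hsum (pc := (3/20)) (ACL := (6129/125000)) (ACS := (4887/200000))
    (AL := (44123/500000)) (AS := (4887/200000)) (B := (4/25))
    (fun j hj hp => cap5i4c1f1CL (hn0 j) (hrow j) (hcap j hj) hp)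
    (fun j hj hp => cap5i4c1f1CS (hn0 j) (hrow j) (hlo j) hp.le)
    (fun j _ hp => cap5i4c1f1FL (hn0 j) (hrow j) hp (hp1 j))
    (fun j _ hp => cap5i4c1f1FS (hn0 j) (hrow j) (hlo j) hp.le)
  rw [card_filter_two C _ hC2 hlc, card_filter_two _ _ hF2 hlf, hlc, hlf] at key
  have h1 : n i0 ^ 2 ≤ (827/10000) ^ 2 := pow_le_pow_left₀ (hn0 i0) hu 2
  have h2 := hlo i0
  norm_num at key h1 h2 ⊢
  linarith

lemma cap5i4c1f2FL {a p : ℝ} (ha0 : 0 ≤ a) (h : ∀ sb, 0 < sb → sb ≤ 1 → a ≤ al4 sb * p + be4 sb)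
    (hp : (3/20) ≤ p) (hp1 : p ≤ 1) : a ^ 2 ≤ (57/31250) + (19/50) * p := by
  rcases le_total p (5997/20000) with h0 | h0
  · exact row4 (sb := (4/5)) (P := (3/20)) (Q := (5997/20000)) ha0 h (by norm_num) (by norm_num) hp h0 (by norm_num [al4, be4]) (by norm_num [al4, be4])
  rcases le_total p (6351/20000) with h1 | h1
  · exact row4 (sb := (33/40)) (P := (5997/20000)) (Q := (6351/20000)) ha0 h (by norm_num) (by norm_num) h0 h1 (by norm_num [al4, be4]) (by norm_num [al4, be4])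
  rcases le_total p (193/500) with h2 | h2
  · exact row4 (sb := (17/20)) (P := (6351/20000)) (Q := (193/500)) ha0 h (by norm_num) (by norm_num) h1 h2 (by norm_num [al4, be4]) (by norm_num [al4, be4])
  exact row4 (sb := (9/10)) (P := (193/500)) (Q := 1) ha0 h (by norm_num) (by norm_num) h2 hp1 (by norm_num [al4, be4]) (by norm_num [al4, be4])

lemma cap5i4c1f2FS {a p : ℝ} (ha0 : 0 ≤ a) (h : ∀ sb, 0 < sb → sb ≤ 1 → a ≤ al4 sb * p + be4 sb)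
    (hp : (47/1000) ≤ p) (hp1 : p ≤ (3/20)) : a ^ 2 ≤ (1/2) + (19/50) * p := by
  exact row4 (sb := (1/40)) (P := (47/1000)) (Q := (3/20)) ha0 h (by norm_num) (by norm_num) hp hp1 (by norm_num [al4, be4]) (by norm_num [al4, be4])

lemma cap5i4c1f2CLr {a p : ℝ} (ha0 : 0 ≤ a) (h : ∀ sb, 0 < sb → sb ≤ 1 → a ≤ al4 sb * p + be4 sb)
    (hp : (3/20) ≤ p) (hp1 : p ≤ (112893/500000)) : a ^ 2 ≤ (-1861/500000) + (19/50) * p := by
  exact row4 (sb := (3/4)) (P := (3/20)) (Q := (112893/500000)) ha0 h (by norm_num) (by norm_num) hp hp1 (by norm_num [al4, be4]) (by norm_num [al4, be4])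

lemma cap5i4c1f2CL {a p : ℝ} (ha0 : 0 ≤ a) (h : ∀ sb, 0 < sb → sb ≤ 1 → a ≤ al4 sb * p + be4 sb)
    (hc : a < (28649/100000)) (hp : (3/20) ≤ p) : a ^ 2 ≤ (-1861/500000) + (19/50) * p := by
  rcases le_total p (112893/500000) with h1 | h1
  · exact cap5i4c1f2CLr ha0 h hp h1
  · exact cap_extend ha0 hc (by norm_num) (Pb := (112893/500000)) (by norm_num) h1

lemma cap5i4c1f2CS {a p : ℝ} (ha0 : 0 ≤ a) (h : ∀ sb, 0 < sb → sb ≤ 1 → a ≤ al4 sb * p + be4 sb)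
    (hp : (47/1000) ≤ p) (hp1 : p ≤ (3/20)) : a ^ 2 ≤ (-2303/200000) + (19/50) * p := by
  rcases le_total p (473/4000) with h0 | h0
  · exact row4 (sb := (19/40)) (P := (47/1000)) (Q := (473/4000)) ha0 h (by norm_num) (by norm_num) hp h0 (by norm_num [al4, be4]) (by norm_num [al4, be4])
  exact row4 (sb := (5/8)) (P := (473/4000)) (Q := (3/20)) ha0 h (by norm_num) (by norm_num) h0 hp1 (by norm_num [al4, be4]) (by norm_num [al4, be4])

lemma cap5i4c1f2 (n p : ι → ℝ) (i0 : ι) (C : Finset ι) (hC : C ⊆ Finset.univ.erase i0)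
    (hsum : ∑ i, p i = 1) (hn0 : ∀ j, 0 ≤ n j)
    (hrow : ∀ j, ∀ sb, 0 < sb → sb ≤ 1 → n j ≤ al4 sb * p j + be4 sb)
    (hlo : ∀ j, (47/1000) ≤ p j) (hp1 : ∀ j, p j ≤ 1) (hcap : ∀ j ∈ C, n j < (28649/100000))
    (hu : n i0 ≤ (827/10000)) (hC2 : C.card = 2)
    (hF2 : (Finset.univ.erase i0 \ C).card = 2)
    (hlc : (C.filter fun j => (3/20) ≤ p j).card = 1)
    (hlf : ((Finset.univ.erase i0 \ C).filter fun j => (3/20) ≤ p j).card = 2) :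
    ∑ i, n i ^ 2 < (179049/500000) := by
  have key := joint_sum n p i0 C hC hsum (pc := (3/20)) (ACL := (-1861/500000)) (ACS := (-2303/200000))
    (AL := (57/31250)) (AS := (1/2)) (B := (19/50))
    (fun j hj hp => cap5i4c1f2CL (hn0 j) (hrow j) (hcap j hj) hp)
    (fun j hj hp => cap5i4c1f2CS (hn0 j) (hrow j) (hlo j) hp.le)
    (fun j _ hp => cap5i4c1f2FL (hn0 j) (hrow j) hp (hp1 j))
    (fun j _ hp => cap5i4c1f2FS (hn0 j) (hrow j) (hlo j) hp.le)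
  rw [card_filter_two C _ hC2 hlc, card_filter_two _ _ hF2 hlf, hlc, hlf] at key
  have h1 : n i0 ^ 2 ≤ (827/10000) ^ 2 := pow_le_pow_left₀ (hn0 i0) hu 2
  have h2 := hlo i0
  norm_num at key h1 h2 ⊢
  linarith

lemma cap5i4c2f0FL {a p : ℝ} (ha0 : 0 ≤ a) (h : ∀ sb, 0 < sb → sb ≤ 1 → a ≤ al4 sb * p + be4 sb)
    (hp : (3/20) ≤ p) (hp1 : p ≤ 1) : a ^ 2 ≤ (1/2) + (1/10) * p := by
  exact row4 (sb := (33/40)) (P := (3/20)) (Q := 1) ha0 h (by norm_num) (by norm_num) hp hp1 (by norm_num [al4, be4]) (by norm_num [al4, be4])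

lemma cap5i4c2f0FS {a p : ℝ} (ha0 : 0 ≤ a) (h : ∀ sb, 0 < sb → sb ≤ 1 → a ≤ al4 sb * p + be4 sb)
    (hp : (47/1000) ≤ p) (hp1 : p ≤ (3/20)) : a ^ 2 ≤ (39841/1000000) + (1/10) * p := by
  exact row4 (sb := (9/20)) (P := (47/1000)) (Q := (3/20)) ha0 h (by norm_num) (by norm_num) hp hp1 (by norm_num [al4, be4]) (by norm_num [al4, be4])

lemma cap5i4c2f0CL {a p : ℝ} (ha0 : 0 ≤ a) (hc : a < (28649/100000)) (hp : (3/20) ≤ p) : a ^ 2 ≤ (17253/250000) + (1/10) * p :=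
  cap_extend ha0 hc (by norm_num) (Pb := (3/20)) (by norm_num) hp

lemma cap5i4c2f0CS {a p : ℝ} (ha0 : 0 ≤ a) (hc : a < (28649/100000)) (hp : (47/1000) ≤ p) : a ^ 2 ≤ (1/2) + (1/10) * p :=
  cap_extend ha0 hc (by norm_num) (Pb := (47/1000)) (by norm_num) hp

lemma cap5i4c2f0 (n p : ι → ℝ) (i0 : ι) (C : Finset ι) (hC : C ⊆ Finset.univ.erase i0)
    (hsum : ∑ i, p i = 1) (hn0 : ∀ j, 0 ≤ n j)
    (hrow : ∀ j, ∀ sb, 0 < sb → sb ≤ 1 → n j ≤ al4 sb * p j + be4 sb)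
    (hlo : ∀ j, (47/1000) ≤ p j) (hp1 : ∀ j, p j ≤ 1) (hcap : ∀ j ∈ C, n j < (28649/100000))
    (hu : n i0 ≤ (827/10000)) (hC2 : C.card = 2)
    (hF2 : (Finset.univ.erase i0 \ C).card = 2)
    (hlc : (C.filter fun j => (3/20) ≤ p j).card = 2)
    (hlf : ((Finset.univ.erase i0 \ C).filter fun j => (3/20) ≤ p j).card = 0) :
    ∑ i, n i ^ 2 < (179049/500000) := by
  have key := joint_sum n p i0 C hC hsum (pc := (3/20)) (ACL := (17253/250000)) (ACS := (1/2))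
    (AL := (1/2)) (AS := (39841/1000000)) (B := (1/10))
    (fun j hj hp => cap5i4c2f0CL (hn0 j) (hcap j hj) hp)
    (fun j hj hp => cap5i4c2f0CS (hn0 j) (hcap j hj) (hlo j))
    (fun j _ hp => cap5i4c2f0FL (hn0 j) (hrow j) hp (hp1 j))
    (fun j _ hp => cap5i4c2f0FS (hn0 j) (hrow j) (hlo j) hp.le)
  rw [card_filter_two C _ hC2 hlc, card_filter_two _ _ hF2 hlf, hlc, hlf] at key
  have h1 : n i0 ^ 2 ≤ (827/10000) ^ 2 := pow_le_pow_left₀ (hn0 i0) hu 2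
  have h2 := hlo i0
  norm_num at key h1 h2 ⊢
  linarith

lemma cap5i4c2f1FL {a p : ℝ} (ha0 : 0 ≤ a) (h : ∀ sb, 0 < sb → sb ≤ 1 → a ≤ al4 sb * p + be4 sb)
    (hp : (3/20) ≤ p) (hp1 : p ≤ 1) : a ^ 2 ≤ (11409/500000) + (8/25) * p := by
  rcases le_total p (1427/4000) with h0 | h0
  · exact row4 (sb := (17/20)) (P := (3/20)) (Q := (1427/4000)) ha0 h (by norm_num) (by norm_num) hp h0 (by norm_num [al4, be4]) (by norm_num [al4, be4])
  rcases le_total p (4017/5000) with h1 | h1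
  · exact row4 (sb := (9/10)) (P := (1427/4000)) (Q := (4017/5000)) ha0 h (by norm_num) (by norm_num) h0 h1 (by norm_num [al4, be4]) (by norm_num [al4, be4])
  exact row4 (sb := (37/40)) (P := (4017/5000)) (Q := 1) ha0 h (by norm_num) (by norm_num) h1 hp1 (by norm_num [al4, be4]) (by norm_num [al4, be4])

lemma cap5i4c2f1FS {a p : ℝ} (ha0 : 0 ≤ a) (h : ∀ sb, 0 < sb → sb ≤ 1 → a ≤ al4 sb * p + be4 sb)
    (hp : (47/1000) ≤ p) (hp1 : p ≤ (3/20)) : a ^ 2 ≤ (-109/62500) + (8/25) * p := by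
  exact row4 (sb := (3/5)) (P := (47/1000)) (Q := (3/20)) ha0 h (by norm_num) (by norm_num) hp hp1 (by norm_num [al4, be4]) (by norm_num [al4, be4])

lemma cap5i4c2f1CLr {a p : ℝ} (ha0 : 0 ≤ a) (h : ∀ sb, 0 < sb → sb ≤ 1 → a ≤ al4 sb * p + be4 sb)
    (hp : (3/20) ≤ p) (hp1 : p ≤ (55799/250000)) : a ^ 2 ≤ (5327/500000) + (8/25) * p := by
  exact row4 (sb := (7/10)) (P := (3/20)) (Q := (55799/250000)) ha0 h (by norm_num) (by norm_num) hp hp1 (by norm_num [al4, be4]) (by norm_num [al4, be4])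

lemma cap5i4c2f1CL {a p : ℝ} (ha0 : 0 ≤ a) (h : ∀ sb, 0 < sb → sb ≤ 1 → a ≤ al4 sb * p + be4 sb)
    (hc : a < (28649/100000)) (hp : (3/20) ≤ p) : a ^ 2 ≤ (5327/500000) + (8/25) * p := by
  rcases le_total p (55799/250000) with h1 | h1
  · exact cap5i4c2f1CLr ha0 h hp h1
  · exact cap_extend ha0 hc (by norm_num) (Pb := (55799/250000)) (by norm_num) h1

lemma cap5i4c2f1CS {a p : ℝ} (ha0 : 0 ≤ a) (hc : a < (28649/100000)) (hp : (47/1000) ≤ p) : a ^ 2 ≤ (1/2) + (8/25) * p :=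
  cap_extend ha0 hc (by norm_num) (Pb := (47/1000)) (by norm_num) hp

lemma cap5i4c2f1 (n p : ι → ℝ) (i0 : ι) (C : Finset ι) (hC : C ⊆ Finset.univ.erase i0)
    (hsum : ∑ i, p i = 1) (hn0 : ∀ j, 0 ≤ n j)
    (hrow : ∀ j, ∀ sb, 0 < sb → sb ≤ 1 → n j ≤ al4 sb * p j + be4 sb)
    (hlo : ∀ j, (47/1000) ≤ p j) (hp1 : ∀ j, p j ≤ 1) (hcap : ∀ j ∈ C, n j < (28649/100000))
    (hu : n i0 ≤ (827/10000)) (hC2 : C.card = 2)
    (hF2 : (Finset.univ.erase i0 \ C).card = 2)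
    (hlc : (C.filter fun j => (3/20) ≤ p j).card = 2)
    (hlf : ((Finset.univ.erase i0 \ C).filter fun j => (3/20) ≤ p j).card = 1) :
    ∑ i, n i ^ 2 < (179049/500000) := by
  have key := joint_sum n p i0 C hC hsum (pc := (3/20)) (ACL := (5327/500000)) (ACS := (1/2))
    (AL := (11409/500000)) (AS := (-109/62500)) (B := (8/25))
    (fun j hj hp => cap5i4c2f1CL (hn0 j) (hrow j) (hcap j hj) hp)
    (fun j hj hp => cap5i4c2f1CS (hn0 j) (hcap j hj) (hlo j))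
    (fun j _ hp => cap5i4c2f1FL (hn0 j) (hrow j) hp (hp1 j))
    (fun j _ hp => cap5i4c2f1FS (hn0 j) (hrow j) (hlo j) hp.le)
  rw [card_filter_two C _ hC2 hlc, card_filter_two _ _ hF2 hlf, hlc, hlf] at key
  have h1 : n i0 ^ 2 ≤ (827/10000) ^ 2 := pow_le_pow_left₀ (hn0 i0) hu 2
  have h2 := hlo i0
  norm_num at key h1 h2 ⊢
  linarith

lemma cap5i4c2f2FL {a p : ℝ} (ha0 : 0 ≤ a) (h : ∀ sb, 0 < sb → sb ≤ 1 → a ≤ al4 sb * p + be4 sb)
    (hp : (3/20) ≤ p) (hp1 : p ≤ 1) : a ^ 2 ≤ (-21603/1000000) + (23/50) * p := by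
  rcases le_total p (4321/20000) with h0 | h0
  · exact row4 (sb := (7/10)) (P := (3/20)) (Q := (4321/20000)) ha0 h (by norm_num) (by norm_num) hp h0 (by norm_num [al4, be4]) (by norm_num [al4, be4])
  rcases le_total p (4869/20000) with h1 | h1
  · exact row4 (sb := (3/4)) (P := (4321/20000)) (Q := (4869/20000)) ha0 h (by norm_num) (by norm_num) h0 h1 (by norm_num [al4, be4]) (by norm_num [al4, be4])
  rcases le_total p (5299/20000) with h2 | h2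
  · exact row4 (sb := (31/40)) (P := (4869/20000)) (Q := (5299/20000)) ha0 h (by norm_num) (by norm_num) h1 h2 (by norm_num [al4, be4]) (by norm_num [al4, be4])
  rcases le_total p (1337/4000) with h3 | h3
  · exact row4 (sb := (4/5)) (P := (5299/20000)) (Q := (1337/4000)) ha0 h (by norm_num) (by norm_num) h2 h3 (by norm_num [al4, be4]) (by norm_num [al4, be4])
  exact row4 (sb := (7/8)) (P := (1337/4000)) (Q := 1) ha0 h (by norm_num) (by norm_num) h3 hp1 (by norm_num [al4, be4]) (by norm_num [al4, be4])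

lemma cap5i4c2f2FS {a p : ℝ} (ha0 : 0 ≤ a) (h : ∀ sb, 0 < sb → sb ≤ 1 → a ≤ al4 sb * p + be4 sb)
    (hp : (47/1000) ≤ p) (hp1 : p ≤ (3/20)) : a ^ 2 ≤ (1/2) + (23/50) * p := by
  exact row4 (sb := (1/40)) (P := (47/1000)) (Q := (3/20)) ha0 h (by norm_num) (by norm_num) hp hp1 (by norm_num [al4, be4]) (by norm_num [al4, be4])

lemma cap5i4c2f2CLr {a p : ℝ} (ha0 : 0 ≤ a) (h : ∀ sb, 0 < sb → sb ≤ 1 → a ≤ al4 sb * p + be4 sb)
    (hp : (3/20) ≤ p) (hp1 : p ≤ (226219/1000000)) : a ^ 2 ≤ (-687/31250) + (23/50) * p := by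
  rcases le_total p (1053/5000) with h0 | h0
  · exact row4 (sb := (7/10)) (P := (3/20)) (Q := (1053/5000)) ha0 h (by norm_num) (by norm_num) hp h0 (by norm_num [al4, be4]) (by norm_num [al4, be4])
  exact row4 (sb := (3/4)) (P := (1053/5000)) (Q := (226219/1000000)) ha0 h (by norm_num) (by norm_num) h0 hp1 (by norm_num [al4, be4]) (by norm_num [al4, be4])

lemma cap5i4c2f2CL {a p : ℝ} (ha0 : 0 ≤ a) (h : ∀ sb, 0 < sb → sb ≤ 1 → a ≤ al4 sb * p + be4 sb)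
    (hc : a < (28649/100000)) (hp : (3/20) ≤ p) : a ^ 2 ≤ (-687/31250) + (23/50) * p := by
  rcases le_total p (226219/1000000) with h1 | h1
  · exact cap5i4c2f2CLr ha0 h hp h1
  · exact cap_extend ha0 hc (by norm_num) (Pb := (226219/1000000)) (by norm_num) h1

lemma cap5i4c2f2CS {a p : ℝ} (ha0 : 0 ≤ a) (hc : a < (28649/100000)) (hp : (47/1000) ≤ p) : a ^ 2 ≤ (1/2) + (23/50) * p :=
  cap_extend ha0 hc (by norm_num) (Pb := (47/1000)) (by norm_num) hp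

lemma cap5i4c2f2 (n p : ι → ℝ) (i0 : ι) (C : Finset ι) (hC : C ⊆ Finset.univ.erase i0)
    (hsum : ∑ i, p i = 1) (hn0 : ∀ j, 0 ≤ n j)
    (hrow : ∀ j, ∀ sb, 0 < sb → sb ≤ 1 → n j ≤ al4 sb * p j + be4 sb)
    (hlo : ∀ j, (47/1000) ≤ p j) (hp1 : ∀ j, p j ≤ 1) (hcap : ∀ j ∈ C, n j < (28649/100000))
    (hu : n i0 ≤ (827/10000)) (hC2 : C.card = 2)
    (hF2 : (Finset.univ.erase i0 \ C).card = 2)
    (hlc : (C.filter fun j => (3/20) ≤ p j).card = 2)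
    (hlf : ((Finset.univ.erase i0 \ C).filter fun j => (3/20) ≤ p j).card = 2) :
    ∑ i, n i ^ 2 < (179049/500000) := by
  have key := joint_sum n p i0 C hC hsum (pc := (3/20)) (ACL := (-687/31250)) (ACS := (1/2))
    (AL := (-21603/1000000)) (AS := (1/2)) (B := (23/50))
    (fun j hj hp => cap5i4c2f2CL (hn0 j) (hrow j) (hcap j hj) hp)
    (fun j hj hp => cap5i4c2f2CS (hn0 j) (hcap j hj) (hlo j))
    (fun j _ hp => cap5i4c2f2FL (hn0 j) (hrow j) hp (hp1 j))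
    (fun j _ hp => cap5i4c2f2FS (hn0 j) (hrow j) (hlo j) hp.le)
  rw [card_filter_two C _ hC2 hlc, card_filter_two _ _ hF2 hlf, hlc, hlf] at key
  have h1 : n i0 ^ 2 ≤ (827/10000) ^ 2 := pow_le_pow_left₀ (hn0 i0) hu 2
  have h2 := hlo i0
  norm_num at key h1 h2 ⊢
  linarith

lemma cap5i4 (n p : ι → ℝ) (i0 : ι) (C : Finset ι) (hC : C ⊆ Finset.univ.erase i0)
    (hsum : ∑ i, p i = 1) (hn0 : ∀ j, 0 ≤ n j)
    (hrow : ∀ j, ∀ sb, 0 < sb → sb ≤ 1 → n j ≤ al4 sb * p j + be4 sb)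
    (hlo : ∀ j, (47/1000) ≤ p j) (hp1 : ∀ j, p j ≤ 1) (hcap : ∀ j ∈ C, n j < (28649/100000))
    (hu : n i0 ≤ (827/10000)) (hC2 : C.card = 2)
    (hF2 : (Finset.univ.erase i0 \ C).card = 2) :
    ∑ i, n i ^ 2 < (179049/500000) := by
  have hA : (C.filter fun j => (3/20) ≤ p j).card ≤ 2 := (Finset.card_filter_le _ _).trans hC2.le
  have hB : ((Finset.univ.erase i0 \ C).filter fun j => (3/20) ≤ p j).card ≤ 2 := (Finset.card_filter_le _ _).trans hF2.le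
  have hc' : (C.filter fun j => (3/20) ≤ p j).card = 0 ∨ (C.filter fun j => (3/20) ≤ p j).card = 1 ∨ (C.filter fun j => (3/20) ≤ p j).card = 2 := by omega
  have hf' : ((Finset.univ.erase i0 \ C).filter fun j => (3/20) ≤ p j).card = 0 ∨ ((Finset.univ.erase i0 \ C).filter fun j => (3/20) ≤ p j).card = 1 ∨ ((Finset.univ.erase i0 \ C).filter fun j => (3/20) ≤ p j).card = 2 := by omega
  rcases hc' with hlc | hlc | hlc <;> rcases hf' with hlf | hlf | hlf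
  · exact cap5i4c0f0 n p i0 C hC hsum hn0 hrow hlo hp1 hcap hu hC2 hF2 hlc hlf
  · exact cap5i4c0f1 n p i0 C hC hsum hn0 hrow hlo hp1 hcap hu hC2 hF2 hlc hlf
  · exact cap5i4c0f2 n p i0 C hC hsum hn0 hrow hlo hp1 hcap hu hC2 hF2 hlc hlf
  · exact cap5i4c1f0 n p i0 C hC hsum hn0 hrow hlo hp1 hcap hu hC2 hF2 hlc hlf
  · exact cap5i4c1f1 n p i0 C hC hsum hn0 hrow hlo hp1 hcap hu hC2 hF2 hlc hlf
  · exact cap5i4c1f2 n p i0 C hC hsum hn0 hrow hlo hp1 hcap hu hC2 hF2 hlc hlf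
  · exact cap5i4c2f0 n p i0 C hC hsum hn0 hrow hlo hp1 hcap hu hC2 hF2 hlc hlf
  · exact cap5i4c2f1 n p i0 C hC hsum hn0 hrow hlo hp1 hcap hu hC2 hF2 hlc hlf
  · exact cap5i4c2f2 n p i0 C hC hsum hn0 hrow hlo hp1 hcap hu hC2 hF2 hlc hlf

lemma cap5i5c0f0FL {a p : ℝ} (ha0 : 0 ≤ a) (h : ∀ sb, 0 < sb → sb ≤ 1 → a ≤ al4 sb * p + be4 sb)
    (hp : (3/20) ≤ p) (hp1 : p ≤ 1) : a ^ 2 ≤ (1/2) + (1/10) * p := by
  exact row4 (sb := (33/40)) (P := (3/20)) (Q := 1) ha0 h (by norm_num) (by norm_num) hp hp1 (by norm_num [al4, be4]) (by norm_num [al4, be4])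

lemma cap5i5c0f0FS {a p : ℝ} (ha0 : 0 ≤ a) (h : ∀ sb, 0 < sb → sb ≤ 1 → a ≤ al4 sb * p + be4 sb)
    (hp : (49/1000) ≤ p) (hp1 : p ≤ (3/20)) : a ^ 2 ≤ (23549/500000) + (1/10) * p := by
  exact row4 (sb := (3/8)) (P := (49/1000)) (Q := (3/20)) ha0 h (by norm_num) (by norm_num) hp hp1 (by norm_num [al4, be4]) (by norm_num [al4, be4])

lemma cap5i5c0f0CL {a p : ℝ} (ha0 : 0 ≤ a) (hc : a < (29653/100000)) (hp : (3/20) ≤ p) : a ^ 2 ≤ (1/2) + (1/10) * p :=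
  cap_extend ha0 hc (by norm_num) (Pb := (3/20)) (by norm_num) hp

lemma cap5i5c0f0CS {a p : ℝ} (ha0 : 0 ≤ a) (h : ∀ sb, 0 < sb → sb ≤ 1 → a ≤ al4 sb * p + be4 sb)
    (hp : (49/1000) ≤ p) (hp1 : p ≤ (3/20)) : a ^ 2 ≤ (23549/500000) + (1/10) * p := by
  exact row4 (sb := (3/8)) (P := (49/1000)) (Q := (3/20)) ha0 h (by norm_num) (by norm_num) hp hp1 (by norm_num [al4, be4]) (by norm_num [al4, be4])

lemma cap5i5c0f0 (n p : ι → ℝ) (i0 : ι) (C : Finset ι) (hC : C ⊆ Finset.univ.erase i0)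
    (hsum : ∑ i, p i = 1) (hn0 : ∀ j, 0 ≤ n j)
    (hrow : ∀ j, ∀ sb, 0 < sb → sb ≤ 1 → n j ≤ al4 sb * p j + be4 sb)
    (hlo : ∀ j, (49/1000) ≤ p j) (hp1 : ∀ j, p j ≤ 1) (hcap : ∀ j ∈ C, n j < (29653/100000))
    (hu : n i0 ≤ (107/1250)) (hC2 : C.card = 2)
    (hF2 : (Finset.univ.erase i0 \ C).card = 2)
    (hlc : (C.filter fun j => (3/20) ≤ p j).card = 0)
    (hlf : ((Finset.univ.erase i0 \ C).filter fun j => (3/20) ≤ p j).card = 0) :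
    ∑ i, n i ^ 2 < (179049/500000) := by
  have key := joint_sum n p i0 C hC hsum (pc := (3/20)) (ACL := (1/2)) (ACS := (23549/500000))
    (AL := (1/2)) (AS := (23549/500000)) (B := (1/10))
    (fun j hj hp => cap5i5c0f0CL (hn0 j) (hcap j hj) hp)
    (fun j hj hp => cap5i5c0f0CS (hn0 j) (hrow j) (hlo j) hp.le)
    (fun j _ hp => cap5i5c0f0FL (hn0 j) (hrow j) hp (hp1 j))
    (fun j _ hp => cap5i5c0f0FS (hn0 j) (hrow j) (hlo j) hp.le)
  rw [card_filter_two C _ hC2 hlc, card_filter_two _ _ hF2 hlf, hlc, hlf] at key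
  have h1 : n i0 ^ 2 ≤ (107/1250) ^ 2 := pow_le_pow_left₀ (hn0 i0) hu 2
  have h2 := hlo i0
  norm_num at key h1 h2 ⊢
  linarith

lemma cap5i5c0f1FL {a p : ℝ} (ha0 : 0 ≤ a) (h : ∀ sb, 0 < sb → sb ≤ 1 → a ≤ al4 sb * p + be4 sb)
    (hp : (3/20) ≤ p) (hp1 : p ≤ 1) : a ^ 2 ≤ (59261/500000) + (1/10) * p := by
  rcases le_total p (5873/10000) with h0 | h0
  · exact row4 (sb := (19/20)) (P := (3/20)) (Q := (5873/10000)) ha0 h (by norm_num) (by norm_num) hp h0 (by norm_num [al4, be4]) (by norm_num [al4, be4])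
  exact row4 (sb := (39/40)) (P := (5873/10000)) (Q := 1) ha0 h (by norm_num) (by norm_num) h0 hp1 (by norm_num [al4, be4]) (by norm_num [al4, be4])

lemma cap5i5c0f1FS {a p : ℝ} (ha0 : 0 ≤ a) (h : ∀ sb, 0 < sb → sb ≤ 1 → a ≤ al4 sb * p + be4 sb)
    (hp : (49/1000) ≤ p) (hp1 : p ≤ (3/20)) : a ^ 2 ≤ (18447/500000) + (1/10) * p := by
  exact row4 (sb := (1/2)) (P := (49/1000)) (Q := (3/20)) ha0 h (by norm_num) (by norm_num) hp hp1 (by norm_num [al4, be4]) (by norm_num [al4, be4])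

lemma cap5i5c0f1CL {a p : ℝ} (ha0 : 0 ≤ a) (hc : a < (29653/100000)) (hp : (3/20) ≤ p) : a ^ 2 ≤ (1/2) + (1/10) * p :=
  cap_extend ha0 hc (by norm_num) (Pb := (3/20)) (by norm_num) hp

lemma cap5i5c0f1CS {a p : ℝ} (ha0 : 0 ≤ a) (h : ∀ sb, 0 < sb → sb ≤ 1 → a ≤ al4 sb * p + be4 sb)
    (hp : (49/1000) ≤ p) (hp1 : p ≤ (3/20)) : a ^ 2 ≤ (18447/500000) + (1/10) * p := by
  exact row4 (sb := (1/2)) (P := (49/1000)) (Q := (3/20)) ha0 h (by norm_num) (by norm_num) hp hp1 (by norm_num [al4, be4]) (by norm_num [al4, be4])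

lemma cap5i5c0f1 (n p : ι → ℝ) (i0 : ι) (C : Finset ι) (hC : C ⊆ Finset.univ.erase i0)
    (hsum : ∑ i, p i = 1) (hn0 : ∀ j, 0 ≤ n j)
    (hrow : ∀ j, ∀ sb, 0 < sb → sb ≤ 1 → n j ≤ al4 sb * p j + be4 sb)
    (hlo : ∀ j, (49/1000) ≤ p j) (hp1 : ∀ j, p j ≤ 1) (hcap : ∀ j ∈ C, n j < (29653/100000))
    (hu : n i0 ≤ (107/1250)) (hC2 : C.card = 2)
    (hF2 : (Finset.univ.erase i0 \ C).card = 2)
    (hlc : (C.filter fun j => (3/20) ≤ p j).card = 0)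
    (hlf : ((Finset.univ.erase i0 \ C).filter fun j => (3/20) ≤ p j).card = 1) :
    ∑ i, n i ^ 2 < (179049/500000) := by
  have key := joint_sum n p i0 C hC hsum (pc := (3/20)) (ACL := (1/2)) (ACS := (18447/500000))
    (AL := (59261/500000)) (AS := (18447/500000)) (B := (1/10))
    (fun j hj hp => cap5i5c0f1CL (hn0 j) (hcap j hj) hp)
    (fun j hj hp => cap5i5c0f1CS (hn0 j) (hrow j) (hlo j) hp.le)
    (fun j _ hp => cap5i5c0f1FL (hn0 j) (hrow j) hp (hp1 j))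
    (fun j _ hp => cap5i5c0f1FS (hn0 j) (hrow j) (hlo j) hp.le)
  rw [card_filter_two C _ hC2 hlc, card_filter_two _ _ hF2 hlf, hlc, hlf] at key
  have h1 : n i0 ^ 2 ≤ (107/1250) ^ 2 := pow_le_pow_left₀ (hn0 i0) hu 2
  have h2 := hlo i0
  norm_num at key h1 h2 ⊢
  linarith

lemma cap5i5c0f2FL {a p : ℝ} (ha0 : 0 ≤ a) (h : ∀ sb, 0 < sb → sb ≤ 1 → a ≤ al4 sb * p + be4 sb)
    (hp : (3/20) ≤ p) (hp1 : p ≤ 1) : a ^ 2 ≤ (71/25000) + (19/50) * p := by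
  rcases le_total p (6233/20000) with h0 | h0
  · exact row4 (sb := (4/5)) (P := (3/20)) (Q := (6233/20000)) ha0 h (by norm_num) (by norm_num) hp h0 (by norm_num [al4, be4]) (by norm_num [al4, be4])
  rcases le_total p (67/160) with h1 | h1
  · exact row4 (sb := (17/20)) (P := (6233/20000)) (Q := (67/160)) ha0 h (by norm_num) (by norm_num) h0 h1 (by norm_num [al4, be4]) (by norm_num [al4, be4])
  exact row4 (sb := (9/10)) (P := (67/160)) (Q := 1) ha0 h (by norm_num) (by norm_num) h1 hp1 (by norm_num [al4, be4]) (by norm_num [al4, be4])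

lemma cap5i5c0f2FS {a p : ℝ} (ha0 : 0 ≤ a) (h : ∀ sb, 0 < sb → sb ≤ 1 → a ≤ al4 sb * p + be4 sb)
    (hp : (49/1000) ≤ p) (hp1 : p ≤ (3/20)) : a ^ 2 ≤ (1/2) + (19/50) * p := by
  exact row4 (sb := (1/40)) (P := (49/1000)) (Q := (3/20)) ha0 h (by norm_num) (by norm_num) hp hp1 (by norm_num [al4, be4]) (by norm_num [al4, be4])

lemma cap5i5c0f2CL {a p : ℝ} (ha0 : 0 ≤ a) (hc : a < (29653/100000)) (hp : (3/20) ≤ p) : a ^ 2 ≤ (1/2) + (19/50) * p :=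
  cap_extend ha0 hc (by norm_num) (Pb := (3/20)) (by norm_num) hp

lemma cap5i5c0f2CS {a p : ℝ} (ha0 : 0 ≤ a) (h : ∀ sb, 0 < sb → sb ≤ 1 → a ≤ al4 sb * p + be4 sb)
    (hp : (49/1000) ≤ p) (hp1 : p ≤ (3/20)) : a ^ 2 ≤ (-1053/100000) + (19/50) * p := by
  rcases le_total p (2971/20000) with h0 | h0
  · exact row4 (sb := (23/40)) (P := (49/1000)) (Q := (2971/20000)) ha0 h (by norm_num) (by norm_num) hp h0 (by norm_num [al4, be4]) (by norm_num [al4, be4])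
  exact row4 (sb := (3/5)) (P := (2971/20000)) (Q := (3/20)) ha0 h (by norm_num) (by norm_num) h0 hp1 (by norm_num [al4, be4]) (by norm_num [al4, be4])

lemma cap5i5c0f2 (n p : ι → ℝ) (i0 : ι) (C : Finset ι) (hC : C ⊆ Finset.univ.erase i0)
    (hsum : ∑ i, p i = 1) (hn0 : ∀ j, 0 ≤ n j)
    (hrow : ∀ j, ∀ sb, 0 < sb → sb ≤ 1 → n j ≤ al4 sb * p j + be4 sb)
    (hlo : ∀ j, (49/1000) ≤ p j) (hp1 : ∀ j, p j ≤ 1) (hcap : ∀ j ∈ C, n j < (29653/100000))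
    (hu : n i0 ≤ (107/1250)) (hC2 : C.card = 2)
    (hF2 : (Finset.univ.erase i0 \ C).card = 2)
    (hlc : (C.filter fun j => (3/20) ≤ p j).card = 0)
    (hlf : ((Finset.univ.erase i0 \ C).filter fun j => (3/20) ≤ p j).card = 2) :
    ∑ i, n i ^ 2 < (179049/500000) := by
  have key := joint_sum n p i0 C hC hsum (pc := (3/20)) (ACL := (1/2)) (ACS := (-1053/100000))
    (AL := (71/25000)) (AS := (1/2)) (B := (19/50))
    (fun j hj hp => cap5i5c0f2CL (hn0 j) (hcap j hj) hp)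
    (fun j hj hp => cap5i5c0f2CS (hn0 j) (hrow j) (hlo j) hp.le)
    (fun j _ hp => cap5i5c0f2FL (hn0 j) (hrow j) hp (hp1 j))
    (fun j _ hp => cap5i5c0f2FS (hn0 j) (hrow j) (hlo j) hp.le)
  rw [card_filter_two C _ hC2 hlc, card_filter_two _ _ hF2 hlf, hlc, hlf] at key
  have h1 : n i0 ^ 2 ≤ (107/1250) ^ 2 := pow_le_pow_left₀ (hn0 i0) hu 2
  have h2 := hlo i0
  norm_num at key h1 h2 ⊢
  linarith

lemma cap5i5c1f0FL {a p : ℝ} (ha0 : 0 ≤ a) (h : ∀ sb, 0 < sb → sb ≤ 1 → a ≤ al4 sb * p + be4 sb)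
    (hp : (3/20) ≤ p) (hp1 : p ≤ 1) : a ^ 2 ≤ (1/2) + (1/10) * p := by
  exact row4 (sb := (33/40)) (P := (3/20)) (Q := 1) ha0 h (by norm_num) (by norm_num) hp hp1 (by norm_num [al4, be4]) (by norm_num [al4, be4])

lemma cap5i5c1f0FS {a p : ℝ} (ha0 : 0 ≤ a) (h : ∀ sb, 0 < sb → sb ≤ 1 → a ≤ al4 sb * p + be4 sb)
    (hp : (49/1000) ≤ p) (hp1 : p ≤ (3/20)) : a ^ 2 ≤ (5359/125000) + (1/10) * p := by
  exact row4 (sb := (17/40)) (P := (49/1000)) (Q := (3/20)) ha0 h (by norm_num) (by norm_num) hp hp1 (by norm_num [al4, be4]) (by norm_num [al4, be4])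

lemma cap5i5c1f0CL {a p : ℝ} (ha0 : 0 ≤ a) (hc : a < (29653/100000)) (hp : (3/20) ≤ p) : a ^ 2 ≤ (38339/500000) + (1/10) * p :=
  cap_extend ha0 hc (by norm_num) (Pb := (3/20)) (by norm_num) hp

lemma cap5i5c1f0CS {a p : ℝ} (ha0 : 0 ≤ a) (h : ∀ sb, 0 < sb → sb ≤ 1 → a ≤ al4 sb * p + be4 sb)
    (hp : (49/1000) ≤ p) (hp1 : p ≤ (3/20)) : a ^ 2 ≤ (5359/125000) + (1/10) * p := by
  exact row4 (sb := (17/40)) (P := (49/1000)) (Q := (3/20)) ha0 h (by norm_num) (by norm_num) hp hp1 (by norm_num [al4, be4]) (by norm_num [al4, be4])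

lemma cap5i5c1f0 (n p : ι → ℝ) (i0 : ι) (C : Finset ι) (hC : C ⊆ Finset.univ.erase i0)
    (hsum : ∑ i, p i = 1) (hn0 : ∀ j, 0 ≤ n j)
    (hrow : ∀ j, ∀ sb, 0 < sb → sb ≤ 1 → n j ≤ al4 sb * p j + be4 sb)
    (hlo : ∀ j, (49/1000) ≤ p j) (hp1 : ∀ j, p j ≤ 1) (hcap : ∀ j ∈ C, n j < (29653/100000))
    (hu : n i0 ≤ (107/1250)) (hC2 : C.card = 2)
    (hF2 : (Finset.univ.erase i0 \ C).card = 2)
    (hlc : (C.filter fun j => (3/20) ≤ p j).card = 1)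
    (hlf : ((Finset.univ.erase i0 \ C).filter fun j => (3/20) ≤ p j).card = 0) :
    ∑ i, n i ^ 2 < (179049/500000) := by
  have key := joint_sum n p i0 C hC hsum (pc := (3/20)) (ACL := (38339/500000)) (ACS := (5359/125000))
    (AL := (1/2)) (AS := (5359/125000)) (B := (1/10))
    (fun j hj hp => cap5i5c1f0CL (hn0 j) (hcap j hj) hp)
    (fun j hj hp => cap5i5c1f0CS (hn0 j) (hrow j) (hlo j) hp.le)
    (fun j _ hp => cap5i5c1f0FL (hn0 j) (hrow j) hp (hp1 j))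
    (fun j _ hp => cap5i5c1f0FS (hn0 j) (hrow j) (hlo j) hp.le)
  rw [card_filter_two C _ hC2 hlc, card_filter_two _ _ hF2 hlf, hlc, hlf] at key
  have h1 : n i0 ^ 2 ≤ (107/1250) ^ 2 := pow_le_pow_left₀ (hn0 i0) hu 2
  have h2 := hlo i0
  norm_num at key h1 h2 ⊢
  linarith

lemma cap5i5c1f1FL {a p : ℝ} (ha0 : 0 ≤ a) (h : ∀ sb, 0 < sb → sb ≤ 1 → a ≤ al4 sb * p + be4 sb)
    (hp : (3/20) ≤ p) (hp1 : p ≤ 1) : a ^ 2 ≤ (70827/1000000) + (1/5) * p := by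
  rcases le_total p (10993/20000) with h0 | h0
  · exact row4 (sb := (37/40)) (P := (3/20)) (Q := (10993/20000)) ha0 h (by norm_num) (by norm_num) hp h0 (by norm_num [al4, be4]) (by norm_num [al4, be4])
  exact row4 (sb := (19/20)) (P := (10993/20000)) (Q := 1) ha0 h (by norm_num) (by norm_num) h0 hp1 (by norm_num [al4, be4]) (by norm_num [al4, be4])

lemma cap5i5c1f1FS {a p : ℝ} (ha0 : 0 ≤ a) (h : ∀ sb, 0 < sb → sb ≤ 1 → a ≤ al4 sb * p + be4 sb)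
    (hp : (49/1000) ≤ p) (hp1 : p ≤ (3/20)) : a ^ 2 ≤ (3597/200000) + (1/5) * p := by
  exact row4 (sb := (11/20)) (P := (49/1000)) (Q := (3/20)) ha0 h (by norm_num) (by norm_num) hp hp1 (by norm_num [al4, be4]) (by norm_num [al4, be4])

lemma cap5i5c1f1CLr {a p : ℝ} (ha0 : 0 ≤ a) (h : ∀ sb, 0 < sb → sb ≤ 1 → a ≤ al4 sb * p + be4 sb)
    (hp : (3/20) ≤ p) (hp1 : p ≤ (112463/500000)) : a ^ 2 ≤ (8589/200000) + (1/5) * p := by
  exact row4 (sb := (13/20)) (P := (3/20)) (Q := (112463/500000)) ha0 h (by norm_num) (by norm_num) hp hp1 (by norm_num [al4, be4]) (by norm_num [al4, be4])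

lemma cap5i5c1f1CL {a p : ℝ} (ha0 : 0 ≤ a) (h : ∀ sb, 0 < sb → sb ≤ 1 → a ≤ al4 sb * p + be4 sb)
    (hc : a < (29653/100000)) (hp : (3/20) ≤ p) : a ^ 2 ≤ (8589/200000) + (1/5) * p := by
  rcases le_total p (112463/500000) with h1 | h1
  · exact cap5i5c1f1CLr ha0 h hp h1
  · exact cap_extend ha0 hc (by norm_num) (Pb := (112463/500000)) (by norm_num) h1

lemma cap5i5c1f1CS {a p : ℝ} (ha0 : 0 ≤ a) (h : ∀ sb, 0 < sb → sb ≤ 1 → a ≤ al4 sb * p + be4 sb)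
    (hp : (49/1000) ≤ p) (hp1 : p ≤ (3/20)) : a ^ 2 ≤ (3597/200000) + (1/5) * p := by
  exact row4 (sb := (11/20)) (P := (49/1000)) (Q := (3/20)) ha0 h (by norm_num) (by norm_num) hp hp1 (by norm_num [al4, be4]) (by norm_num [al4, be4])

lemma cap5i5c1f1 (n p : ι → ℝ) (i0 : ι) (C : Finset ι) (hC : C ⊆ Finset.univ.erase i0)
    (hsum : ∑ i, p i = 1) (hn0 : ∀ j, 0 ≤ n j)
    (hrow : ∀ j, ∀ sb, 0 < sb → sb ≤ 1 → n j ≤ al4 sb * p j + be4 sb)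
    (hlo : ∀ j, (49/1000) ≤ p j) (hp1 : ∀ j, p j ≤ 1) (hcap : ∀ j ∈ C, n j < (29653/100000))
    (hu : n i0 ≤ (107/1250)) (hC2 : C.card = 2)
    (hF2 : (Finset.univ.erase i0 \ C).card = 2)
    (hlc : (C.filter fun j => (3/20) ≤ p j).card = 1)
    (hlf : ((Finset.univ.erase i0 \ C).filter fun j => (3/20) ≤ p j).card = 1) :
    ∑ i, n i ^ 2 < (179049/500000) := by
  have key := joint_sum n p i0 C hC hsum (pc := (3/20)) (ACL := (8589/200000)) (ACS := (3597/200000))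
    (AL := (70827/1000000)) (AS := (3597/200000)) (B := (1/5))
    (fun j hj hp => cap5i5c1f1CL (hn0 j) (hrow j) (hcap j hj) hp)
    (fun j hj hp => cap5i5c1f1CS (hn0 j) (hrow j) (hlo j) hp.le)
    (fun j _ hp => cap5i5c1f1FL (hn0 j) (hrow j) hp (hp1 j))
    (fun j _ hp => cap5i5c1f1FS (hn0 j) (hrow j) (hlo j) hp.le)
  rw [card_filter_two C _ hC2 hlc, card_filter_two _ _ hF2 hlf, hlc, hlf] at key
  have h1 : n i0 ^ 2 ≤ (107/1250) ^ 2 := pow_le_pow_left₀ (hn0 i0) hu 2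
  have h2 := hlo i0
  norm_num at key h1 h2 ⊢
  linarith

lemma cap5i5c1f2FL {a p : ℝ} (ha0 : 0 ≤ a) (h : ∀ sb, 0 < sb → sb ≤ 1 → a ≤ al4 sb * p + be4 sb)
    (hp : (3/20) ≤ p) (hp1 : p ≤ 1) : a ^ 2 ≤ (171/100000) + (19/50) * p := by
  rcases le_total p (373/1250) with h0 | h0
  · exact row4 (sb := (4/5)) (P := (3/20)) (Q := (373/1250)) ha0 h (by norm_num) (by norm_num) hp h0 (by norm_num [al4, be4]) (by norm_num [al4, be4])
  rcases le_total p (6293/20000) with h1 | h1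
  · exact row4 (sb := (33/40)) (P := (373/1250)) (Q := (6293/20000)) ha0 h (by norm_num) (by norm_num) h0 h1 (by norm_num [al4, be4]) (by norm_num [al4, be4])
  rcases le_total p (7609/20000) with h2 | h2
  · exact row4 (sb := (17/20)) (P := (6293/20000)) (Q := (7609/20000)) ha0 h (by norm_num) (by norm_num) h1 h2 (by norm_num [al4, be4]) (by norm_num [al4, be4])
  exact row4 (sb := (9/10)) (P := (7609/20000)) (Q := 1) ha0 h (by norm_num) (by norm_num) h2 hp1 (by norm_num [al4, be4]) (by norm_num [al4, be4])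

lemma cap5i5c1f2FS {a p : ℝ} (ha0 : 0 ≤ a) (h : ∀ sb, 0 < sb → sb ≤ 1 → a ≤ al4 sb * p + be4 sb)
    (hp : (49/1000) ≤ p) (hp1 : p ≤ (3/20)) : a ^ 2 ≤ (1/2) + (19/50) * p := by
  exact row4 (sb := (1/40)) (P := (49/1000)) (Q := (3/20)) ha0 h (by norm_num) (by norm_num) hp hp1 (by norm_num [al4, be4]) (by norm_num [al4, be4])

lemma cap5i5c1f2CLr {a p : ℝ} (ha0 : 0 ≤ a) (h : ∀ sb, 0 < sb → sb ≤ 1 → a ≤ al4 sb * p + be4 sb)
    (hp : (3/20) ≤ p) (hp1 : p ≤ (238293/1000000)) : a ^ 2 ≤ (-2621/1000000) + (19/50) * p := by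
  exact row4 (sb := (3/4)) (P := (3/20)) (Q := (238293/1000000)) ha0 h (by norm_num) (by norm_num) hp hp1 (by norm_num [al4, be4]) (by norm_num [al4, be4])

lemma cap5i5c1f2CL {a p : ℝ} (ha0 : 0 ≤ a) (h : ∀ sb, 0 < sb → sb ≤ 1 → a ≤ al4 sb * p + be4 sb)
    (hc : a < (29653/100000)) (hp : (3/20) ≤ p) : a ^ 2 ≤ (-2621/1000000) + (19/50) * p := by
  rcases le_total p (238293/1000000) with h1 | h1
  · exact cap5i5c1f2CLr ha0 h hp h1
  · exact cap_extend ha0 hc (by norm_num) (Pb := (238293/1000000)) (by norm_num) h1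

lemma cap5i5c1f2CS {a p : ℝ} (ha0 : 0 ≤ a) (h : ∀ sb, 0 < sb → sb ≤ 1 → a ≤ al4 sb * p + be4 sb)
    (hp : (49/1000) ≤ p) (hp1 : p ≤ (3/20)) : a ^ 2 ≤ (-583/50000) + (19/50) * p := by
  rcases le_total p (2467/20000) with h0 | h0
  · exact row4 (sb := (1/2)) (P := (49/1000)) (Q := (2467/20000)) ha0 h (by norm_num) (by norm_num) hp h0 (by norm_num [al4, be4]) (by norm_num [al4, be4])
  exact row4 (sb := (13/20)) (P := (2467/20000)) (Q := (3/20)) ha0 h (by norm_num) (by norm_num) h0 hp1 (by norm_num [al4, be4]) (by norm_num [al4, be4])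

lemma cap5i5c1f2 (n p : ι → ℝ) (i0 : ι) (C : Finset ι) (hC : C ⊆ Finset.univ.erase i0)
    (hsum : ∑ i, p i = 1) (hn0 : ∀ j, 0 ≤ n j)
    (hrow : ∀ j, ∀ sb, 0 < sb → sb ≤ 1 → n j ≤ al4 sb * p j + be4 sb)
    (hlo : ∀ j, (49/1000) ≤ p j) (hp1 : ∀ j, p j ≤ 1) (hcap : ∀ j ∈ C, n j < (29653/100000))
    (hu : n i0 ≤ (107/1250)) (hC2 : C.card = 2)
    (hF2 : (Finset.univ.erase i0 \ C).card = 2)
    (hlc : (C.filter fun j => (3/20) ≤ p j).card = 1)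
    (hlf : ((Finset.univ.erase i0 \ C).filter fun j => (3/20) ≤ p j).card = 2) :
    ∑ i, n i ^ 2 < (179049/500000) := by
  have key := joint_sum n p i0 C hC hsum (pc := (3/20)) (ACL := (-2621/1000000)) (ACS := (-583/50000))
    (AL := (171/100000)) (AS := (1/2)) (B := (19/50))
    (fun j hj hp => cap5i5c1f2CL (hn0 j) (hrow j) (hcap j hj) hp)
    (fun j hj hp => cap5i5c1f2CS (hn0 j) (hrow j) (hlo j) hp.le)
    (fun j _ hp => cap5i5c1f2FL (hn0 j) (hrow j) hp (hp1 j))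
    (fun j _ hp => cap5i5c1f2FS (hn0 j) (hrow j) (hlo j) hp.le)
  rw [card_filter_two C _ hC2 hlc, card_filter_two _ _ hF2 hlf, hlc, hlf] at key
  have h1 : n i0 ^ 2 ≤ (107/1250) ^ 2 := pow_le_pow_left₀ (hn0 i0) hu 2
  have h2 := hlo i0
  norm_num at key h1 h2 ⊢
  linarith

lemma cap5i5c2f0FL {a p : ℝ} (ha0 : 0 ≤ a) (h : ∀ sb, 0 < sb → sb ≤ 1 → a ≤ al4 sb * p + be4 sb)
    (hp : (3/20) ≤ p) (hp1 : p ≤ 1) : a ^ 2 ≤ (1/2) + (1/10) * p := by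
  exact row4 (sb := (33/40)) (P := (3/20)) (Q := 1) ha0 h (by norm_num) (by norm_num) hp hp1 (by norm_num [al4, be4]) (by norm_num [al4, be4])

lemma cap5i5c2f0FS {a p : ℝ} (ha0 : 0 ≤ a) (h : ∀ sb, 0 < sb → sb ≤ 1 → a ≤ al4 sb * p + be4 sb)
    (hp : (49/1000) ≤ p) (hp1 : p ≤ (3/20)) : a ^ 2 ≤ (19323/500000) + (1/10) * p := by
  exact row4 (sb := (19/40)) (P := (49/1000)) (Q := (3/20)) ha0 h (by norm_num) (by norm_num) hp hp1 (by norm_num [al4, be4]) (by norm_num [al4, be4])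

lemma cap5i5c2f0CLr {a p : ℝ} (ha0 : 0 ≤ a) (h : ∀ sb, 0 < sb → sb ≤ 1 → a ≤ al4 sb * p + be4 sb)
    (hp : (3/20) ≤ p) (hp1 : p ≤ (154781/1000000)) : a ^ 2 ≤ (18113/250000) + (1/10) * p := by
  exact row4 (sb := (1/40)) (P := (3/20)) (Q := (154781/1000000)) ha0 h (by norm_num) (by norm_num) hp hp1 (by norm_num [al4, be4]) (by norm_num [al4, be4])

lemma cap5i5c2f0CL {a p : ℝ} (ha0 : 0 ≤ a) (h : ∀ sb, 0 < sb → sb ≤ 1 → a ≤ al4 sb * p + be4 sb)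
    (hc : a < (29653/100000)) (hp : (3/20) ≤ p) : a ^ 2 ≤ (18113/250000) + (1/10) * p := by
  rcases le_total p (154781/1000000) with h1 | h1
  · exact cap5i5c2f0CLr ha0 h hp h1
  · exact cap_extend ha0 hc (by norm_num) (Pb := (154781/1000000)) (by norm_num) h1

lemma cap5i5c2f0CS {a p : ℝ} (ha0 : 0 ≤ a) (hc : a < (29653/100000)) (hp : (49/1000) ≤ p) : a ^ 2 ≤ (1/2) + (1/10) * p :=
  cap_extend ha0 hc (by norm_num) (Pb := (49/1000)) (by norm_num) hp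

lemma cap5i5c2f0 (n p : ι → ℝ) (i0 : ι) (C : Finset ι) (hC : C ⊆ Finset.univ.erase i0)
    (hsum : ∑ i, p i = 1) (hn0 : ∀ j, 0 ≤ n j)
    (hrow : ∀ j, ∀ sb, 0 < sb → sb ≤ 1 → n j ≤ al4 sb * p j + be4 sb)
    (hlo : ∀ j, (49/1000) ≤ p j) (hp1 : ∀ j, p j ≤ 1) (hcap : ∀ j ∈ C, n j < (29653/100000))
    (hu : n i0 ≤ (107/1250)) (hC2 : C.card = 2)
    (hF2 : (Finset.univ.erase i0 \ C).card = 2)
    (hlc : (C.filter fun j => (3/20) ≤ p j).card = 2)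
    (hlf : ((Finset.univ.erase i0 \ C).filter fun j => (3/20) ≤ p j).card = 0) :
    ∑ i, n i ^ 2 < (179049/500000) := by
  have key := joint_sum n p i0 C hC hsum (pc := (3/20)) (ACL := (18113/250000)) (ACS := (1/2))
    (AL := (1/2)) (AS := (19323/500000)) (B := (1/10))
    (fun j hj hp => cap5i5c2f0CL (hn0 j) (hrow j) (hcap j hj) hp)
    (fun j hj hp => cap5i5c2f0CS (hn0 j) (hcap j hj) (hlo j))
    (fun j _ hp => cap5i5c2f0FL (hn0 j) (hrow j) hp (hp1 j))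
    (fun j _ hp => cap5i5c2f0FS (hn0 j) (hrow j) (hlo j) hp.le)
  rw [card_filter_two C _ hC2 hlc, card_filter_two _ _ hF2 hlf, hlc, hlf] at key
  have h1 : n i0 ^ 2 ≤ (107/1250) ^ 2 := pow_le_pow_left₀ (hn0 i0) hu 2
  have h2 := hlo i0
  norm_num at key h1 h2 ⊢
  linarith

lemma cap5i5c2f1FL {a p : ℝ} (ha0 : 0 ≤ a) (h : ∀ sb, 0 < sb → sb ≤ 1 → a ≤ al4 sb * p + be4 sb)
    (hp : (3/20) ≤ p) (hp1 : p ≤ 1) : a ^ 2 ≤ (563/250000) + (19/50) * p := by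
  rcases le_total p (61/200) with h0 | h0
  · exact row4 (sb := (4/5)) (P := (3/20)) (Q := (61/200)) ha0 h (by norm_num) (by norm_num) hp h0 (by norm_num [al4, be4]) (by norm_num [al4, be4])
  rcases le_total p (8043/20000) with h1 | h1
  · exact row4 (sb := (17/20)) (P := (61/200)) (Q := (8043/20000)) ha0 h (by norm_num) (by norm_num) h0 h1 (by norm_num [al4, be4]) (by norm_num [al4, be4])
  exact row4 (sb := (9/10)) (P := (8043/20000)) (Q := 1) ha0 h (by norm_num) (by norm_num) h1 hp1 (by norm_num [al4, be4]) (by norm_num [al4, be4])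

lemma cap5i5c2f1FS {a p : ℝ} (ha0 : 0 ≤ a) (h : ∀ sb, 0 < sb → sb ≤ 1 → a ≤ al4 sb * p + be4 sb)
    (hp : (49/1000) ≤ p) (hp1 : p ≤ (3/20)) : a ^ 2 ≤ (-11119/1000000) + (19/50) * p := by
  rcases le_total p (1389/10000) with h0 | h0
  · exact row4 (sb := (11/20)) (P := (49/1000)) (Q := (1389/10000)) ha0 h (by norm_num) (by norm_num) hp h0 (by norm_num [al4, be4]) (by norm_num [al4, be4])
  exact row4 (sb := (3/5)) (P := (1389/10000)) (Q := (3/20)) ha0 h (by norm_num) (by norm_num) h0 hp1 (by norm_num [al4, be4]) (by norm_num [al4, be4])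

lemma cap5i5c2f1CLr {a p : ℝ} (ha0 : 0 ≤ a) (h : ∀ sb, 0 < sb → sb ≤ 1 → a ≤ al4 sb * p + be4 sb)
    (hp : (3/20) ≤ p) (hp1 : p ≤ (118433/500000)) : a ^ 2 ≤ (-2079/1000000) + (19/50) * p := by
  exact row4 (sb := (29/40)) (P := (3/20)) (Q := (118433/500000)) ha0 h (by norm_num) (by norm_num) hp hp1 (by norm_num [al4, be4]) (by norm_num [al4, be4])

lemma cap5i5c2f1CL {a p : ℝ} (ha0 : 0 ≤ a) (h : ∀ sb, 0 < sb → sb ≤ 1 → a ≤ al4 sb * p + be4 sb)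
    (hc : a < (29653/100000)) (hp : (3/20) ≤ p) : a ^ 2 ≤ (-2079/1000000) + (19/50) * p := by
  rcases le_total p (118433/500000) with h1 | h1
  · exact cap5i5c2f1CLr ha0 h hp h1
  · exact cap_extend ha0 hc (by norm_num) (Pb := (118433/500000)) (by norm_num) h1

lemma cap5i5c2f1CS {a p : ℝ} (ha0 : 0 ≤ a) (hc : a < (29653/100000)) (hp : (49/1000) ≤ p) : a ^ 2 ≤ (1/2) + (19/50) * p :=
  cap_extend ha0 hc (by norm_num) (Pb := (49/1000)) (by norm_num) hp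

lemma cap5i5c2f1 (n p : ι → ℝ) (i0 : ι) (C : Finset ι) (hC : C ⊆ Finset.univ.erase i0)
    (hsum : ∑ i, p i = 1) (hn0 : ∀ j, 0 ≤ n j)
    (hrow : ∀ j, ∀ sb, 0 < sb → sb ≤ 1 → n j ≤ al4 sb * p j + be4 sb)
    (hlo : ∀ j, (49/1000) ≤ p j) (hp1 : ∀ j, p j ≤ 1) (hcap : ∀ j ∈ C, n j < (29653/100000))
    (hu : n i0 ≤ (107/1250)) (hC2 : C.card = 2)
    (hF2 : (Finset.univ.erase i0 \ C).card = 2)
    (hlc : (C.filter fun j => (3/20) ≤ p j).card = 2)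
    (hlf : ((Finset.univ.erase i0 \ C).filter fun j => (3/20) ≤ p j).card = 1) :
    ∑ i, n i ^ 2 < (179049/500000) := by
  have key := joint_sum n p i0 C hC hsum (pc := (3/20)) (ACL := (-2079/1000000)) (ACS := (1/2))
    (AL := (563/250000)) (AS := (-11119/1000000)) (B := (19/50))
    (fun j hj hp => cap5i5c2f1CL (hn0 j) (hrow j) (hcap j hj) hp)
    (fun j hj hp => cap5i5c2f1CS (hn0 j) (hcap j hj) (hlo j))
    (fun j _ hp => cap5i5c2f1FL (hn0 j) (hrow j) hp (hp1 j))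
    (fun j _ hp => cap5i5c2f1FS (hn0 j) (hrow j) (hlo j) hp.le)
  rw [card_filter_two C _ hC2 hlc, card_filter_two _ _ hF2 hlf, hlc, hlf] at key
  have h1 : n i0 ^ 2 ≤ (107/1250) ^ 2 := pow_le_pow_left₀ (hn0 i0) hu 2
  have h2 := hlo i0
  norm_num at key h1 h2 ⊢
  linarith

lemma cap5i5c2f2FL {a p : ℝ} (ha0 : 0 ≤ a) (h : ∀ sb, 0 < sb → sb ≤ 1 → a ≤ al4 sb * p + be4 sb)
    (hp : (3/20) ≤ p) (hp1 : p ≤ 1) : a ^ 2 ≤ (-661/25000) + (12/25) * p := by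
  rcases le_total p (3497/20000) with h0 | h0
  · exact row4 (sb := (13/20)) (P := (3/20)) (Q := (3497/20000)) ha0 h (by norm_num) (by norm_num) hp h0 (by norm_num [al4, be4]) (by norm_num [al4, be4])
  rcases le_total p (4087/20000) with h1 | h1
  · exact row4 (sb := (7/10)) (P := (3497/20000)) (Q := (4087/20000)) ha0 h (by norm_num) (by norm_num) h0 h1 (by norm_num [al4, be4]) (by norm_num [al4, be4])
  rcases le_total p (4411/20000) with h2 | h2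
  · exact row4 (sb := (29/40)) (P := (4087/20000)) (Q := (4411/20000)) ha0 h (by norm_num) (by norm_num) h1 h2 (by norm_num [al4, be4]) (by norm_num [al4, be4])
  rcases le_total p (4911/20000) with h3 | h3
  · exact row4 (sb := (3/4)) (P := (4411/20000)) (Q := (4911/20000)) ha0 h (by norm_num) (by norm_num) h2 h3 (by norm_num [al4, be4]) (by norm_num [al4, be4])
  rcases le_total p (5957/20000) with h4 | h4
  · exact row4 (sb := (31/40)) (P := (4911/20000)) (Q := (5957/20000)) ha0 h (by norm_num) (by norm_num) h3 h4 (by norm_num [al4, be4]) (by norm_num [al4, be4])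
  rcases le_total p (7709/10000) with h5 | h5
  · exact row4 (sb := (17/20)) (P := (5957/20000)) (Q := (7709/10000)) ha0 h (by norm_num) (by norm_num) h4 h5 (by norm_num [al4, be4]) (by norm_num [al4, be4])
  exact row4 (sb := (7/8)) (P := (7709/10000)) (Q := 1) ha0 h (by norm_num) (by norm_num) h5 hp1 (by norm_num [al4, be4]) (by norm_num [al4, be4])

lemma cap5i5c2f2FS {a p : ℝ} (ha0 : 0 ≤ a) (h : ∀ sb, 0 < sb → sb ≤ 1 → a ≤ al4 sb * p + be4 sb)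
    (hp : (49/1000) ≤ p) (hp1 : p ≤ (3/20)) : a ^ 2 ≤ (1/2) + (12/25) * p := by
  exact row4 (sb := (1/40)) (P := (49/1000)) (Q := (3/20)) ha0 h (by norm_num) (by norm_num) hp hp1 (by norm_num [al4, be4]) (by norm_num [al4, be4])

lemma cap5i5c2f2CLr {a p : ℝ} (ha0 : 0 ≤ a) (h : ∀ sb, 0 < sb → sb ≤ 1 → a ≤ al4 sb * p + be4 sb)
    (hp : (3/20) ≤ p) (hp1 : p ≤ (238271/1000000)) : a ^ 2 ≤ (-661/25000) + (12/25) * p := by
  rcases le_total p (3497/20000) with h0 | h0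
  · exact row4 (sb := (13/20)) (P := (3/20)) (Q := (3497/20000)) ha0 h (by norm_num) (by norm_num) hp h0 (by norm_num [al4, be4]) (by norm_num [al4, be4])
  rcases le_total p (4087/20000) with h1 | h1
  · exact row4 (sb := (7/10)) (P := (3497/20000)) (Q := (4087/20000)) ha0 h (by norm_num) (by norm_num) h0 h1 (by norm_num [al4, be4]) (by norm_num [al4, be4])
  rcases le_total p (4411/20000) with h2 | h2
  · exact row4 (sb := (29/40)) (P := (4087/20000)) (Q := (4411/20000)) ha0 h (by norm_num) (by norm_num) h1 h2 (by norm_num [al4, be4]) (by norm_num [al4, be4])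
  exact row4 (sb := (3/4)) (P := (4411/20000)) (Q := (238271/1000000)) ha0 h (by norm_num) (by norm_num) h2 hp1 (by norm_num [al4, be4]) (by norm_num [al4, be4])

lemma cap5i5c2f2CL {a p : ℝ} (ha0 : 0 ≤ a) (h : ∀ sb, 0 < sb → sb ≤ 1 → a ≤ al4 sb * p + be4 sb)
    (hc : a < (29653/100000)) (hp : (3/20) ≤ p) : a ^ 2 ≤ (-661/25000) + (12/25) * p := by
  rcases le_total p (238271/1000000) with h1 | h1
  · exact cap5i5c2f2CLr ha0 h hp h1
  · exact cap_extend ha0 hc (by norm_num) (Pb := (238271/1000000)) (by norm_num) h1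

lemma cap5i5c2f2CS {a p : ℝ} (ha0 : 0 ≤ a) (hc : a < (29653/100000)) (hp : (49/1000) ≤ p) : a ^ 2 ≤ (1/2) + (12/25) * p :=
  cap_extend ha0 hc (by norm_num) (Pb := (49/1000)) (by norm_num) hp

lemma cap5i5c2f2 (n p : ι → ℝ) (i0 : ι) (C : Finset ι) (hC : C ⊆ Finset.univ.erase i0)
    (hsum : ∑ i, p i = 1) (hn0 : ∀ j, 0 ≤ n j)
    (hrow : ∀ j, ∀ sb, 0 < sb → sb ≤ 1 → n j ≤ al4 sb * p j + be4 sb)
    (hlo : ∀ j, (49/1000) ≤ p j) (hp1 : ∀ j, p j ≤ 1) (hcap : ∀ j ∈ C, n j < (29653/100000))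
    (hu : n i0 ≤ (107/1250)) (hC2 : C.card = 2)
    (hF2 : (Finset.univ.erase i0 \ C).card = 2)
    (hlc : (C.filter fun j => (3/20) ≤ p j).card = 2)
    (hlf : ((Finset.univ.erase i0 \ C).filter fun j => (3/20) ≤ p j).card = 2) :
    ∑ i, n i ^ 2 < (179049/500000) := by
  have key := joint_sum n p i0 C hC hsum (pc := (3/20)) (ACL := (-661/25000)) (ACS := (1/2))
    (AL := (-661/25000)) (AS := (1/2)) (B := (12/25))
    (fun j hj hp => cap5i5c2f2CL (hn0 j) (hrow j) (hcap j hj) hp)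
    (fun j hj hp => cap5i5c2f2CS (hn0 j) (hcap j hj) (hlo j))
    (fun j _ hp => cap5i5c2f2FL (hn0 j) (hrow j) hp (hp1 j))
    (fun j _ hp => cap5i5c2f2FS (hn0 j) (hrow j) (hlo j) hp.le)
  rw [card_filter_two C _ hC2 hlc, card_filter_two _ _ hF2 hlf, hlc, hlf] at key
  have h1 : n i0 ^ 2 ≤ (107/1250) ^ 2 := pow_le_pow_left₀ (hn0 i0) hu 2
  have h2 := hlo i0
  norm_num at key h1 h2 ⊢
  linarith

lemma cap5i5 (n p : ι → ℝ) (i0 : ι) (C : Finset ι) (hC : C ⊆ Finset.univ.erase i0)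
    (hsum : ∑ i, p i = 1) (hn0 : ∀ j, 0 ≤ n j)
    (hrow : ∀ j, ∀ sb, 0 < sb → sb ≤ 1 → n j ≤ al4 sb * p j + be4 sb)
    (hlo : ∀ j, (49/1000) ≤ p j) (hp1 : ∀ j, p j ≤ 1) (hcap : ∀ j ∈ C, n j < (29653/100000))
    (hu : n i0 ≤ (107/1250)) (hC2 : C.card = 2)
    (hF2 : (Finset.univ.erase i0 \ C).card = 2) :
    ∑ i, n i ^ 2 < (179049/500000) := by
  have hA : (C.filter fun j => (3/20) ≤ p j).card ≤ 2 := (Finset.card_filter_le _ _).trans hC2.le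
  have hB : ((Finset.univ.erase i0 \ C).filter fun j => (3/20) ≤ p j).card ≤ 2 := (Finset.card_filter_le _ _).trans hF2.le
  have hc' : (C.filter fun j => (3/20) ≤ p j).card = 0 ∨ (C.filter fun j => (3/20) ≤ p j).card = 1 ∨ (C.filter fun j => (3/20) ≤ p j).card = 2 := by omega
  have hf' : ((Finset.univ.erase i0 \ C).filter fun j => (3/20) ≤ p j).card = 0 ∨ ((Finset.univ.erase i0 \ C).filter fun j => (3/20) ≤ p j).card = 1 ∨ ((Finset.univ.erase i0 \ C).filter fun j => (3/20) ≤ p j).card = 2 := by omega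
  rcases hc' with hlc | hlc | hlc <;> rcases hf' with hlf | hlf | hlf
  · exact cap5i5c0f0 n p i0 C hC hsum hn0 hrow hlo hp1 hcap hu hC2 hF2 hlc hlf
  · exact cap5i5c0f1 n p i0 C hC hsum hn0 hrow hlo hp1 hcap hu hC2 hF2 hlc hlf
  · exact cap5i5c0f2 n p i0 C hC hsum hn0 hrow hlo hp1 hcap hu hC2 hF2 hlc hlf
  · exact cap5i5c1f0 n p i0 C hC hsum hn0 hrow hlo hp1 hcap hu hC2 hF2 hlc hlf
  · exact cap5i5c1f1 n p i0 C hC hsum hn0 hrow hlo hp1 hcap hu hC2 hF2 hlc hlf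
  · exact cap5i5c1f2 n p i0 C hC hsum hn0 hrow hlo hp1 hcap hu hC2 hF2 hlc hlf
  · exact cap5i5c2f0 n p i0 C hC hsum hn0 hrow hlo hp1 hcap hu hC2 hF2 hlc hlf
  · exact cap5i5c2f1 n p i0 C hC hsum hn0 hrow hlo hp1 hcap hu hC2 hF2 hlc hlf
  · exact cap5i5c2f2 n p i0 C hC hsum hn0 hrow hlo hp1 hcap hu hC2 hF2 hlc hlf

lemma cap5i6c0f0FL {a p : ℝ} (ha0 : 0 ≤ a) (h : ∀ sb, 0 < sb → sb ≤ 1 → a ≤ al4 sb * p + be4 sb)
    (hp : (3/20) ≤ p) (hp1 : p ≤ 1) : a ^ 2 ≤ (1/2) + (1/10) * p := by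
  exact row4 (sb := (33/40)) (P := (3/20)) (Q := 1) ha0 h (by norm_num) (by norm_num) hp hp1 (by norm_num [al4, be4]) (by norm_num [al4, be4])

lemma cap5i6c0f0FS {a p : ℝ} (ha0 : 0 ≤ a) (h : ∀ sb, 0 < sb → sb ≤ 1 → a ≤ al4 sb * p + be4 sb)
    (hp : (51/1000) ≤ p) (hp1 : p ≤ (3/20)) : a ^ 2 ≤ (47077/1000000) + (1/10) * p := by
  exact row4 (sb := (3/8)) (P := (51/1000)) (Q := (3/20)) ha0 h (by norm_num) (by norm_num) hp hp1 (by norm_num [al4, be4]) (by norm_num [al4, be4])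

lemma cap5i6c0f0CL {a p : ℝ} (ha0 : 0 ≤ a) (hc : a < (30381/100000)) (hp : (3/20) ≤ p) : a ^ 2 ≤ (1/2) + (1/10) * p :=
  cap_extend ha0 hc (by norm_num) (Pb := (3/20)) (by norm_num) hp

lemma cap5i6c0f0CS {a p : ℝ} (ha0 : 0 ≤ a) (h : ∀ sb, 0 < sb → sb ≤ 1 → a ≤ al4 sb * p + be4 sb)
    (hp : (51/1000) ≤ p) (hp1 : p ≤ (3/20)) : a ^ 2 ≤ (47077/1000000) + (1/10) * p := by
  exact row4 (sb := (3/8)) (P := (51/1000)) (Q := (3/20)) ha0 h (by norm_num) (by norm_num) hp hp1 (by norm_num [al4, be4]) (by norm_num [al4, be4])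

lemma cap5i6c0f0 (n p : ι → ℝ) (i0 : ι) (C : Finset ι) (hC : C ⊆ Finset.univ.erase i0)
    (hsum : ∑ i, p i = 1) (hn0 : ∀ j, 0 ≤ n j)
    (hrow : ∀ j, ∀ sb, 0 < sb → sb ≤ 1 → n j ≤ al4 sb * p j + be4 sb)
    (hlo : ∀ j, (51/1000) ≤ p j) (hp1 : ∀ j, p j ≤ 1) (hcap : ∀ j ∈ C, n j < (30381/100000))
    (hu : n i0 ≤ (877/10000)) (hC2 : C.card = 2)
    (hF2 : (Finset.univ.erase i0 \ C).card = 2)
    (hlc : (C.filter fun j => (3/20) ≤ p j).card = 0)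
    (hlf : ((Finset.univ.erase i0 \ C).filter fun j => (3/20) ≤ p j).card = 0) :
    ∑ i, n i ^ 2 < (179049/500000) := by
  have key := joint_sum n p i0 C hC hsum (pc := (3/20)) (ACL := (1/2)) (ACS := (47077/1000000))
    (AL := (1/2)) (AS := (47077/1000000)) (B := (1/10))
    (fun j hj hp => cap5i6c0f0CL (hn0 j) (hcap j hj) hp)
    (fun j hj hp => cap5i6c0f0CS (hn0 j) (hrow j) (hlo j) hp.le)
    (fun j _ hp => cap5i6c0f0FL (hn0 j) (hrow j) hp (hp1 j))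
    (fun j _ hp => cap5i6c0f0FS (hn0 j) (hrow j) (hlo j) hp.le)
  rw [card_filter_two C _ hC2 hlc, card_filter_two _ _ hF2 hlf, hlc, hlf] at key
  have h1 : n i0 ^ 2 ≤ (877/10000) ^ 2 := pow_le_pow_left₀ (hn0 i0) hu 2
  have h2 := hlo i0
  norm_num at key h1 h2 ⊢
  linarith

lemma cap5i6c0f1FL {a p : ℝ} (ha0 : 0 ≤ a) (h : ∀ sb, 0 < sb → sb ≤ 1 → a ≤ al4 sb * p + be4 sb)
    (hp : (3/20) ≤ p) (hp1 : p ≤ 1) : a ^ 2 ≤ (118501/1000000) + (1/10) * p := by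
  rcases le_total p (5869/10000) with h0 | h0
  · exact row4 (sb := (19/20)) (P := (3/20)) (Q := (5869/10000)) ha0 h (by norm_num) (by norm_num) hp h0 (by norm_num [al4, be4]) (by norm_num [al4, be4])
  exact row4 (sb := (39/40)) (P := (5869/10000)) (Q := 1) ha0 h (by norm_num) (by norm_num) h0 hp1 (by norm_num [al4, be4]) (by norm_num [al4, be4])

lemma cap5i6c0f1FS {a p : ℝ} (ha0 : 0 ≤ a) (h : ∀ sb, 0 < sb → sb ≤ 1 → a ≤ al4 sb * p + be4 sb)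
    (hp : (51/1000) ≤ p) (hp1 : p ≤ (3/20)) : a ^ 2 ≤ (18437/500000) + (1/10) * p := by
  exact row4 (sb := (1/2)) (P := (51/1000)) (Q := (3/20)) ha0 h (by norm_num) (by norm_num) hp hp1 (by norm_num [al4, be4]) (by norm_num [al4, be4])

lemma cap5i6c0f1CL {a p : ℝ} (ha0 : 0 ≤ a) (hc : a < (30381/100000)) (hp : (3/20) ≤ p) : a ^ 2 ≤ (1/2) + (1/10) * p :=
  cap_extend ha0 hc (by norm_num) (Pb := (3/20)) (by norm_num) hp

lemma cap5i6c0f1CS {a p : ℝ} (ha0 : 0 ≤ a) (h : ∀ sb, 0 < sb → sb ≤ 1 → a ≤ al4 sb * p + be4 sb)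
    (hp : (51/1000) ≤ p) (hp1 : p ≤ (3/20)) : a ^ 2 ≤ (18437/500000) + (1/10) * p := by
  exact row4 (sb := (1/2)) (P := (51/1000)) (Q := (3/20)) ha0 h (by norm_num) (by norm_num) hp hp1 (by norm_num [al4, be4]) (by norm_num [al4, be4])

lemma cap5i6c0f1 (n p : ι → ℝ) (i0 : ι) (C : Finset ι) (hC : C ⊆ Finset.univ.erase i0)
    (hsum : ∑ i, p i = 1) (hn0 : ∀ j, 0 ≤ n j)
    (hrow : ∀ j, ∀ sb, 0 < sb → sb ≤ 1 → n j ≤ al4 sb * p j + be4 sb)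
    (hlo : ∀ j, (51/1000) ≤ p j) (hp1 : ∀ j, p j ≤ 1) (hcap : ∀ j ∈ C, n j < (30381/100000))
    (hu : n i0 ≤ (877/10000)) (hC2 : C.card = 2)
    (hF2 : (Finset.univ.erase i0 \ C).card = 2)
    (hlc : (C.filter fun j => (3/20) ≤ p j).card = 0)
    (hlf : ((Finset.univ.erase i0 \ C).filter fun j => (3/20) ≤ p j).card = 1) :
    ∑ i, n i ^ 2 < (179049/500000) := by
  have key := joint_sum n p i0 C hC hsum (pc := (3/20)) (ACL := (1/2)) (ACS := (18437/500000))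
    (AL := (118501/1000000)) (AS := (18437/500000)) (B := (1/10))
    (fun j hj hp => cap5i6c0f1CL (hn0 j) (hcap j hj) hp)
    (fun j hj hp => cap5i6c0f1CS (hn0 j) (hrow j) (hlo j) hp.le)
    (fun j _ hp => cap5i6c0f1FL (hn0 j) (hrow j) hp (hp1 j))
    (fun j _ hp => cap5i6c0f1FS (hn0 j) (hrow j) (hlo j) hp.le)
  rw [card_filter_two C _ hC2 hlc, card_filter_two _ _ hF2 hlf, hlc, hlf] at key
  have h1 : n i0 ^ 2 ≤ (877/10000) ^ 2 := pow_le_pow_left₀ (hn0 i0) hu 2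
  have h2 := hlo i0
  norm_num at key h1 h2 ⊢
  linarith

lemma cap5i6c0f2FL {a p : ℝ} (ha0 : 0 ≤ a) (h : ∀ sb, 0 < sb → sb ≤ 1 → a ≤ al4 sb * p + be4 sb)
    (hp : (3/20) ≤ p) (hp1 : p ≤ 1) : a ^ 2 ≤ (289/100000) + (19/50) * p := by
  rcases le_total p (1561/5000) with h0 | h0
  · exact row4 (sb := (4/5)) (P := (3/20)) (Q := (1561/5000)) ha0 h (by norm_num) (by norm_num) hp h0 (by norm_num [al4, be4]) (by norm_num [al4, be4])
  rcases le_total p (21/50) with h1 | h1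
  · exact row4 (sb := (17/20)) (P := (1561/5000)) (Q := (21/50)) ha0 h (by norm_num) (by norm_num) h0 h1 (by norm_num [al4, be4]) (by norm_num [al4, be4])
  exact row4 (sb := (9/10)) (P := (21/50)) (Q := 1) ha0 h (by norm_num) (by norm_num) h1 hp1 (by norm_num [al4, be4]) (by norm_num [al4, be4])

lemma cap5i6c0f2FS {a p : ℝ} (ha0 : 0 ≤ a) (h : ∀ sb, 0 < sb → sb ≤ 1 → a ≤ al4 sb * p + be4 sb)
    (hp : (51/1000) ≤ p) (hp1 : p ≤ (3/20)) : a ^ 2 ≤ (1/2) + (19/50) * p := by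
  exact row4 (sb := (1/40)) (P := (51/1000)) (Q := (3/20)) ha0 h (by norm_num) (by norm_num) hp hp1 (by norm_num [al4, be4]) (by norm_num [al4, be4])

lemma cap5i6c0f2CL {a p : ℝ} (ha0 : 0 ≤ a) (hc : a < (30381/100000)) (hp : (3/20) ≤ p) : a ^ 2 ≤ (1/2) + (19/50) * p :=
  cap_extend ha0 hc (by norm_num) (Pb := (3/20)) (by norm_num) hp

lemma cap5i6c0f2CS {a p : ℝ} (ha0 : 0 ≤ a) (h : ∀ sb, 0 < sb → sb ≤ 1 → a ≤ al4 sb * p + be4 sb)
    (hp : (51/1000) ≤ p) (hp1 : p ≤ (3/20)) : a ^ 2 ≤ (-10481/1000000) + (19/50) * p := by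
  rcases le_total p (2977/20000) with h0 | h0
  · exact row4 (sb := (23/40)) (P := (51/1000)) (Q := (2977/20000)) ha0 h (by norm_num) (by norm_num) hp h0 (by norm_num [al4, be4]) (by norm_num [al4, be4])
  exact row4 (sb := (3/5)) (P := (2977/20000)) (Q := (3/20)) ha0 h (by norm_num) (by norm_num) h0 hp1 (by norm_num [al4, be4]) (by norm_num [al4, be4])

lemma cap5i6c0f2 (n p : ι → ℝ) (i0 : ι) (C : Finset ι) (hC : C ⊆ Finset.univ.erase i0)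
    (hsum : ∑ i, p i = 1) (hn0 : ∀ j, 0 ≤ n j)
    (hrow : ∀ j, ∀ sb, 0 < sb → sb ≤ 1 → n j ≤ al4 sb * p j + be4 sb)
    (hlo : ∀ j, (51/1000) ≤ p j) (hp1 : ∀ j, p j ≤ 1) (hcap : ∀ j ∈ C, n j < (30381/100000))
    (hu : n i0 ≤ (877/10000)) (hC2 : C.card = 2)
    (hF2 : (Finset.univ.erase i0 \ C).card = 2)
    (hlc : (C.filter fun j => (3/20) ≤ p j).card = 0)
    (hlf : ((Finset.univ.erase i0 \ C).filter fun j => (3/20) ≤ p j).card = 2) :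
    ∑ i, n i ^ 2 < (179049/500000) := by
  have key := joint_sum n p i0 C hC hsum (pc := (3/20)) (ACL := (1/2)) (ACS := (-10481/1000000))
    (AL := (289/100000)) (AS := (1/2)) (B := (19/50))
    (fun j hj hp => cap5i6c0f2CL (hn0 j) (hcap j hj) hp)
    (fun j hj hp => cap5i6c0f2CS (hn0 j) (hrow j) (hlo j) hp.le)
    (fun j _ hp => cap5i6c0f2FL (hn0 j) (hrow j) hp (hp1 j))
    (fun j _ hp => cap5i6c0f2FS (hn0 j) (hrow j) (hlo j) hp.le)
  rw [card_filter_two C _ hC2 hlc, card_filter_two _ _ hF2 hlf, hlc, hlf] at key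
  have h1 : n i0 ^ 2 ≤ (877/10000) ^ 2 := pow_le_pow_left₀ (hn0 i0) hu 2
  have h2 := hlo i0
  norm_num at key h1 h2 ⊢
  linarith

lemma cap5i6c1f0FL {a p : ℝ} (ha0 : 0 ≤ a) (h : ∀ sb, 0 < sb → sb ≤ 1 → a ≤ al4 sb * p + be4 sb)
    (hp : (3/20) ≤ p) (hp1 : p ≤ 1) : a ^ 2 ≤ (1/2) + (1/10) * p := by
  exact row4 (sb := (33/40)) (P := (3/20)) (Q := 1) ha0 h (by norm_num) (by norm_num) hp hp1 (by norm_num [al4, be4]) (by norm_num [al4, be4])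

lemma cap5i6c1f0FS {a p : ℝ} (ha0 : 0 ≤ a) (h : ∀ sb, 0 < sb → sb ≤ 1 → a ≤ al4 sb * p + be4 sb)
    (hp : (51/1000) ≤ p) (hp1 : p ≤ (3/20)) : a ^ 2 ≤ (21211/500000) + (1/10) * p := by
  exact row4 (sb := (17/40)) (P := (51/1000)) (Q := (3/20)) ha0 h (by norm_num) (by norm_num) hp hp1 (by norm_num [al4, be4]) (by norm_num [al4, be4])

lemma cap5i6c1f0CL {a p : ℝ} (ha0 : 0 ≤ a) (hc : a < (30381/100000)) (hp : (3/20) ≤ p) : a ^ 2 ≤ (79659/1000000) + (1/10) * p :=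
  cap_extend ha0 hc (by norm_num) (Pb := (3/20)) (by norm_num) hp

lemma cap5i6c1f0CS {a p : ℝ} (ha0 : 0 ≤ a) (h : ∀ sb, 0 < sb → sb ≤ 1 → a ≤ al4 sb * p + be4 sb)
    (hp : (51/1000) ≤ p) (hp1 : p ≤ (3/20)) : a ^ 2 ≤ (21211/500000) + (1/10) * p := by
  exact row4 (sb := (17/40)) (P := (51/1000)) (Q := (3/20)) ha0 h (by norm_num) (by norm_num) hp hp1 (by norm_num [al4, be4]) (by norm_num [al4, be4])

lemma cap5i6c1f0 (n p : ι → ℝ) (i0 : ι) (C : Finset ι) (hC : C ⊆ Finset.univ.erase i0)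
    (hsum : ∑ i, p i = 1) (hn0 : ∀ j, 0 ≤ n j)
    (hrow : ∀ j, ∀ sb, 0 < sb → sb ≤ 1 → n j ≤ al4 sb * p j + be4 sb)
    (hlo : ∀ j, (51/1000) ≤ p j) (hp1 : ∀ j, p j ≤ 1) (hcap : ∀ j ∈ C, n j < (30381/100000))
    (hu : n i0 ≤ (877/10000)) (hC2 : C.card = 2)
    (hF2 : (Finset.univ.erase i0 \ C).card = 2)
    (hlc : (C.filter fun j => (3/20) ≤ p j).card = 1)
    (hlf : ((Finset.univ.erase i0 \ C).filter fun j => (3/20) ≤ p j).card = 0) :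
    ∑ i, n i ^ 2 < (179049/500000) := by
  have key := joint_sum n p i0 C hC hsum (pc := (3/20)) (ACL := (79659/1000000)) (ACS := (21211/500000))
    (AL := (1/2)) (AS := (21211/500000)) (B := (1/10))
    (fun j hj hp => cap5i6c1f0CL (hn0 j) (hcap j hj) hp)
    (fun j hj hp => cap5i6c1f0CS (hn0 j) (hrow j) (hlo j) hp.le)
    (fun j _ hp => cap5i6c1f0FL (hn0 j) (hrow j) hp (hp1 j))
    (fun j _ hp => cap5i6c1f0FS (hn0 j) (hrow j) (hlo j) hp.le)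
  rw [card_filter_two C _ hC2 hlc, card_filter_two _ _ hF2 hlf, hlc, hlf] at key
  have h1 : n i0 ^ 2 ≤ (877/10000) ^ 2 := pow_le_pow_left₀ (hn0 i0) hu 2
  have h2 := hlo i0
  norm_num at key h1 h2 ⊢
  linarith

lemma cap5i6c1f1FL {a p : ℝ} (ha0 : 0 ≤ a) (h : ∀ sb, 0 < sb → sb ≤ 1 → a ≤ al4 sb * p + be4 sb)
    (hp : (3/20) ≤ p) (hp1 : p ≤ 1) : a ^ 2 ≤ (62347/1000000) + (11/50) * p := by
  rcases le_total p (109/250) with h0 | h0
  · exact row4 (sb := (9/10)) (P := (3/20)) (Q := (109/250)) ha0 h (by norm_num) (by norm_num) hp h0 (by norm_num [al4, be4]) (by norm_num [al4, be4])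
  exact row4 (sb := (19/20)) (P := (109/250)) (Q := 1) ha0 h (by norm_num) (by norm_num) h0 hp1 (by norm_num [al4, be4]) (by norm_num [al4, be4])

lemma cap5i6c1f1FS {a p : ℝ} (ha0 : 0 ≤ a) (h : ∀ sb, 0 < sb → sb ≤ 1 → a ≤ al4 sb * p + be4 sb)
    (hp : (51/1000) ≤ p) (hp1 : p ≤ (3/20)) : a ^ 2 ≤ (14699/1000000) + (11/50) * p := by
  exact row4 (sb := (23/40)) (P := (51/1000)) (Q := (3/20)) ha0 h (by norm_num) (by norm_num) hp hp1 (by norm_num [al4, be4]) (by norm_num [al4, be4])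

lemma cap5i6c1f1CLr {a p : ℝ} (ha0 : 0 ≤ a) (h : ∀ sb, 0 < sb → sb ≤ 1 → a ≤ al4 sb * p + be4 sb)
    (hp : (3/20) ≤ p) (hp1 : p ≤ (236839/1000000)) : a ^ 2 ≤ (10049/250000) + (11/50) * p := by
  exact row4 (sb := (27/40)) (P := (3/20)) (Q := (236839/1000000)) ha0 h (by norm_num) (by norm_num) hp hp1 (by norm_num [al4, be4]) (by norm_num [al4, be4])

lemma cap5i6c1f1CL {a p : ℝ} (ha0 : 0 ≤ a) (h : ∀ sb, 0 < sb → sb ≤ 1 → a ≤ al4 sb * p + be4 sb)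
    (hc : a < (30381/100000)) (hp : (3/20) ≤ p) : a ^ 2 ≤ (10049/250000) + (11/50) * p := by
  rcases le_total p (236839/1000000) with h1 | h1
  · exact cap5i6c1f1CLr ha0 h hp h1
  · exact cap_extend ha0 hc (by norm_num) (Pb := (236839/1000000)) (by norm_num) h1

lemma cap5i6c1f1CS {a p : ℝ} (ha0 : 0 ≤ a) (h : ∀ sb, 0 < sb → sb ≤ 1 → a ≤ al4 sb * p + be4 sb)
    (hp : (51/1000) ≤ p) (hp1 : p ≤ (3/20)) : a ^ 2 ≤ (14699/1000000) + (11/50) * p := by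
  exact row4 (sb := (23/40)) (P := (51/1000)) (Q := (3/20)) ha0 h (by norm_num) (by norm_num) hp hp1 (by norm_num [al4, be4]) (by norm_num [al4, be4])

lemma cap5i6c1f1 (n p : ι → ℝ) (i0 : ι) (C : Finset ι) (hC : C ⊆ Finset.univ.erase i0)
    (hsum : ∑ i, p i = 1) (hn0 : ∀ j, 0 ≤ n j)
    (hrow : ∀ j, ∀ sb, 0 < sb → sb ≤ 1 → n j ≤ al4 sb * p j + be4 sb)
    (hlo : ∀ j, (51/1000) ≤ p j) (hp1 : ∀ j, p j ≤ 1) (hcap : ∀ j ∈ C, n j < (30381/100000))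
    (hu : n i0 ≤ (877/10000)) (hC2 : C.card = 2)
    (hF2 : (Finset.univ.erase i0 \ C).card = 2)
    (hlc : (C.filter fun j => (3/20) ≤ p j).card = 1)
    (hlf : ((Finset.univ.erase i0 \ C).filter fun j => (3/20) ≤ p j).card = 1) :
    ∑ i, n i ^ 2 < (179049/500000) := by
  have key := joint_sum n p i0 C hC hsum (pc := (3/20)) (ACL := (10049/250000)) (ACS := (14699/1000000))
    (AL := (62347/1000000)) (AS := (14699/1000000)) (B := (11/50))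
    (fun j hj hp => cap5i6c1f1CL (hn0 j) (hrow j) (hcap j hj) hp)
    (fun j hj hp => cap5i6c1f1CS (hn0 j) (hrow j) (hlo j) hp.le)
    (fun j _ hp => cap5i6c1f1FL (hn0 j) (hrow j) hp (hp1 j))
    (fun j _ hp => cap5i6c1f1FS (hn0 j) (hrow j) (hlo j) hp.le)
  rw [card_filter_two C _ hC2 hlc, card_filter_two _ _ hF2 hlf, hlc, hlf] at key
  have h1 : n i0 ^ 2 ≤ (877/10000) ^ 2 := pow_le_pow_left₀ (hn0 i0) hu 2
  have h2 := hlo i0
  norm_num at key h1 h2 ⊢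
  linarith

lemma cap5i6c1f2FL {a p : ℝ} (ha0 : 0 ≤ a) (h : ∀ sb, 0 < sb → sb ≤ 1 → a ≤ al4 sb * p + be4 sb)
    (hp : (3/20) ≤ p) (hp1 : p ≤ 1) : a ^ 2 ≤ (-4599/1000000) + (2/5) * p := by
  rcases le_total p (1113/4000) with h0 | h0
  · exact row4 (sb := (31/40)) (P := (3/20)) (Q := (1113/4000)) ha0 h (by norm_num) (by norm_num) hp h0 (by norm_num [al4, be4]) (by norm_num [al4, be4])
  rcases le_total p (1569/5000) with h1 | h1
  · exact row4 (sb := (33/40)) (P := (1113/4000)) (Q := (1569/5000)) ha0 h (by norm_num) (by norm_num) h0 h1 (by norm_num [al4, be4]) (by norm_num [al4, be4])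
  rcases le_total p (4513/10000) with h2 | h2
  · exact row4 (sb := (17/20)) (P := (1569/5000)) (Q := (4513/10000)) ha0 h (by norm_num) (by norm_num) h1 h2 (by norm_num [al4, be4]) (by norm_num [al4, be4])
  exact row4 (sb := (9/10)) (P := (4513/10000)) (Q := 1) ha0 h (by norm_num) (by norm_num) h2 hp1 (by norm_num [al4, be4]) (by norm_num [al4, be4])

lemma cap5i6c1f2FS {a p : ℝ} (ha0 : 0 ≤ a) (h : ∀ sb, 0 < sb → sb ≤ 1 → a ≤ al4 sb * p + be4 sb)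
    (hp : (51/1000) ≤ p) (hp1 : p ≤ (3/20)) : a ^ 2 ≤ (1/2) + (2/5) * p := by
  exact row4 (sb := (1/40)) (P := (51/1000)) (Q := (3/20)) ha0 h (by norm_num) (by norm_num) hp hp1 (by norm_num [al4, be4]) (by norm_num [al4, be4])

lemma cap5i6c1f2CLr {a p : ℝ} (ha0 : 0 ≤ a) (h : ∀ sb, 0 < sb → sb ≤ 1 → a ≤ al4 sb * p + be4 sb)
    (hp : (3/20) ≤ p) (hp1 : p ≤ (123901/500000)) : a ^ 2 ≤ (-341/50000) + (2/5) * p := by
  exact row4 (sb := (31/40)) (P := (3/20)) (Q := (123901/500000)) ha0 h (by norm_num) (by norm_num) hp hp1 (by norm_num [al4, be4]) (by norm_num [al4, be4])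

lemma cap5i6c1f2CL {a p : ℝ} (ha0 : 0 ≤ a) (h : ∀ sb, 0 < sb → sb ≤ 1 → a ≤ al4 sb * p + be4 sb)
    (hc : a < (30381/100000)) (hp : (3/20) ≤ p) : a ^ 2 ≤ (-341/50000) + (2/5) * p := by
  rcases le_total p (123901/500000) with h1 | h1
  · exact cap5i6c1f2CLr ha0 h hp h1
  · exact cap_extend ha0 hc (by norm_num) (Pb := (123901/500000)) (by norm_num) h1

lemma cap5i6c1f2CS {a p : ℝ} (ha0 : 0 ≤ a) (h : ∀ sb, 0 < sb → sb ≤ 1 → a ≤ al4 sb * p + be4 sb)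
    (hp : (51/1000) ≤ p) (hp1 : p ≤ (3/20)) : a ^ 2 ≤ (-13227/1000000) + (2/5) * p := by
  rcases le_total p (2323/20000) with h0 | h0
  · exact row4 (sb := (9/20)) (P := (51/1000)) (Q := (2323/20000)) ha0 h (by norm_num) (by norm_num) hp h0 (by norm_num [al4, be4]) (by norm_num [al4, be4])
  exact row4 (sb := (23/40)) (P := (2323/20000)) (Q := (3/20)) ha0 h (by norm_num) (by norm_num) h0 hp1 (by norm_num [al4, be4]) (by norm_num [al4, be4])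

lemma cap5i6c1f2 (n p : ι → ℝ) (i0 : ι) (C : Finset ι) (hC : C ⊆ Finset.univ.erase i0)
    (hsum : ∑ i, p i = 1) (hn0 : ∀ j, 0 ≤ n j)
    (hrow : ∀ j, ∀ sb, 0 < sb → sb ≤ 1 → n j ≤ al4 sb * p j + be4 sb)
    (hlo : ∀ j, (51/1000) ≤ p j) (hp1 : ∀ j, p j ≤ 1) (hcap : ∀ j ∈ C, n j < (30381/100000))
    (hu : n i0 ≤ (877/10000)) (hC2 : C.card = 2)
    (hF2 : (Finset.univ.erase i0 \ C).card = 2)
    (hlc : (C.filter fun j => (3/20) ≤ p j).card = 1)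
    (hlf : ((Finset.univ.erase i0 \ C).filter fun j => (3/20) ≤ p j).card = 2) :
    ∑ i, n i ^ 2 < (179049/500000) := by
  have key := joint_sum n p i0 C hC hsum (pc := (3/20)) (ACL := (-341/50000)) (ACS := (-13227/1000000))
    (AL := (-4599/1000000)) (AS := (1/2)) (B := (2/5))
    (fun j hj hp => cap5i6c1f2CL (hn0 j) (hrow j) (hcap j hj) hp)
    (fun j hj hp => cap5i6c1f2CS (hn0 j) (hrow j) (hlo j) hp.le)
    (fun j _ hp => cap5i6c1f2FL (hn0 j) (hrow j) hp (hp1 j))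
    (fun j _ hp => cap5i6c1f2FS (hn0 j) (hrow j) (hlo j) hp.le)
  rw [card_filter_two C _ hC2 hlc, card_filter_two _ _ hF2 hlf, hlc, hlf] at key
  have h1 : n i0 ^ 2 ≤ (877/10000) ^ 2 := pow_le_pow_left₀ (hn0 i0) hu 2
  have h2 := hlo i0
  norm_num at key h1 h2 ⊢
  linarith

lemma cap5i6c2f0FL {a p : ℝ} (ha0 : 0 ≤ a) (h : ∀ sb, 0 < sb → sb ≤ 1 → a ≤ al4 sb * p + be4 sb)
    (hp : (3/20) ≤ p) (hp1 : p ≤ 1) : a ^ 2 ≤ (1/2) + (1/10) * p := by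
  exact row4 (sb := (33/40)) (P := (3/20)) (Q := 1) ha0 h (by norm_num) (by norm_num) hp hp1 (by norm_num [al4, be4]) (by norm_num [al4, be4])

lemma cap5i6c2f0FS {a p : ℝ} (ha0 : 0 ≤ a) (h : ∀ sb, 0 < sb → sb ≤ 1 → a ≤ al4 sb * p + be4 sb)
    (hp : (51/1000) ≤ p) (hp1 : p ≤ (3/20)) : a ^ 2 ≤ (4721/125000) + (1/10) * p := by
  exact row4 (sb := (19/40)) (P := (51/1000)) (Q := (3/20)) ha0 h (by norm_num) (by norm_num) hp hp1 (by norm_num [al4, be4]) (by norm_num [al4, be4])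

lemma cap5i6c2f0CLr {a p : ℝ} (ha0 : 0 ≤ a) (h : ∀ sb, 0 < sb → sb ≤ 1 → a ≤ al4 sb * p + be4 sb)
    (hp : (3/20) ≤ p) (hp1 : p ≤ (86483/500000)) : a ^ 2 ≤ (18751/250000) + (1/10) * p := by
  exact row4 (sb := (11/40)) (P := (3/20)) (Q := (86483/500000)) ha0 h (by norm_num) (by norm_num) hp hp1 (by norm_num [al4, be4]) (by norm_num [al4, be4])

lemma cap5i6c2f0CL {a p : ℝ} (ha0 : 0 ≤ a) (h : ∀ sb, 0 < sb → sb ≤ 1 → a ≤ al4 sb * p + be4 sb)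
    (hc : a < (30381/100000)) (hp : (3/20) ≤ p) : a ^ 2 ≤ (18751/250000) + (1/10) * p := by
  rcases le_total p (86483/500000) with h1 | h1
  · exact cap5i6c2f0CLr ha0 h hp h1
  · exact cap_extend ha0 hc (by norm_num) (Pb := (86483/500000)) (by norm_num) h1

lemma cap5i6c2f0CS {a p : ℝ} (ha0 : 0 ≤ a) (hc : a < (30381/100000)) (hp : (51/1000) ≤ p) : a ^ 2 ≤ (1/2) + (1/10) * p :=
  cap_extend ha0 hc (by norm_num) (Pb := (51/1000)) (by norm_num) hp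

lemma cap5i6c2f0 (n p : ι → ℝ) (i0 : ι) (C : Finset ι) (hC : C ⊆ Finset.univ.erase i0)
    (hsum : ∑ i, p i = 1) (hn0 : ∀ j, 0 ≤ n j)
    (hrow : ∀ j, ∀ sb, 0 < sb → sb ≤ 1 → n j ≤ al4 sb * p j + be4 sb)
    (hlo : ∀ j, (51/1000) ≤ p j) (hp1 : ∀ j, p j ≤ 1) (hcap : ∀ j ∈ C, n j < (30381/100000))
    (hu : n i0 ≤ (877/10000)) (hC2 : C.card = 2)
    (hF2 : (Finset.univ.erase i0 \ C).card = 2)
    (hlc : (C.filter fun j => (3/20) ≤ p j).card = 2)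
    (hlf : ((Finset.univ.erase i0 \ C).filter fun j => (3/20) ≤ p j).card = 0) :
    ∑ i, n i ^ 2 < (179049/500000) := by
  have key := joint_sum n p i0 C hC hsum (pc := (3/20)) (ACL := (18751/250000)) (ACS := (1/2))
    (AL := (1/2)) (AS := (4721/125000)) (B := (1/10))
    (fun j hj hp => cap5i6c2f0CL (hn0 j) (hrow j) (hcap j hj) hp)
    (fun j hj hp => cap5i6c2f0CS (hn0 j) (hcap j hj) (hlo j))
    (fun j _ hp => cap5i6c2f0FL (hn0 j) (hrow j) hp (hp1 j))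
    (fun j _ hp => cap5i6c2f0FS (hn0 j) (hrow j) (hlo j) hp.le)
  rw [card_filter_two C _ hC2 hlc, card_filter_two _ _ hF2 hlf, hlc, hlf] at key
  have h1 : n i0 ^ 2 ≤ (877/10000) ^ 2 := pow_le_pow_left₀ (hn0 i0) hu 2
  have h2 := hlo i0
  norm_num at key h1 h2 ⊢
  linarith

lemma cap5i6c2f1FL {a p : ℝ} (ha0 : 0 ≤ a) (h : ∀ sb, 0 < sb → sb ≤ 1 → a ≤ al4 sb * p + be4 sb)
    (hp : (3/20) ≤ p) (hp1 : p ≤ 1) : a ^ 2 ≤ (21/10000) + (19/50) * p := by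
  rcases le_total p (379/1250) with h0 | h0
  · exact row4 (sb := (4/5)) (P := (3/20)) (Q := (379/1250)) ha0 h (by norm_num) (by norm_num) hp h0 (by norm_num [al4, be4]) (by norm_num [al4, be4])
  rcases le_total p (397/1000) with h1 | h1
  · exact row4 (sb := (17/20)) (P := (379/1250)) (Q := (397/1000)) ha0 h (by norm_num) (by norm_num) h0 h1 (by norm_num [al4, be4]) (by norm_num [al4, be4])
  exact row4 (sb := (9/10)) (P := (397/1000)) (Q := 1) ha0 h (by norm_num) (by norm_num) h1 hp1 (by norm_num [al4, be4]) (by norm_num [al4, be4])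

lemma cap5i6c2f1FS {a p : ℝ} (ha0 : 0 ≤ a) (h : ∀ sb, 0 < sb → sb ≤ 1 → a ≤ al4 sb * p + be4 sb)
    (hp : (51/1000) ≤ p) (hp1 : p ≤ (3/20)) : a ^ 2 ≤ (-11271/1000000) + (19/50) * p := by
  rcases le_total p (1379/10000) with h0 | h0
  · exact row4 (sb := (11/20)) (P := (51/1000)) (Q := (1379/10000)) ha0 h (by norm_num) (by norm_num) hp h0 (by norm_num [al4, be4]) (by norm_num [al4, be4])
  exact row4 (sb := (5/8)) (P := (1379/10000)) (Q := (3/20)) ha0 h (by norm_num) (by norm_num) h0 hp1 (by norm_num [al4, be4]) (by norm_num [al4, be4])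

lemma cap5i6c2f1CLr {a p : ℝ} (ha0 : 0 ≤ a) (h : ∀ sb, 0 < sb → sb ≤ 1 → a ≤ al4 sb * p + be4 sb)
    (hp : (3/20) ≤ p) (hp1 : p ≤ (246647/1000000)) : a ^ 2 ≤ (-57/40000) + (19/50) * p := by
  exact row4 (sb := (3/4)) (P := (3/20)) (Q := (246647/1000000)) ha0 h (by norm_num) (by norm_num) hp hp1 (by norm_num [al4, be4]) (by norm_num [al4, be4])

lemma cap5i6c2f1CL {a p : ℝ} (ha0 : 0 ≤ a) (h : ∀ sb, 0 < sb → sb ≤ 1 → a ≤ al4 sb * p + be4 sb)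
    (hc : a < (30381/100000)) (hp : (3/20) ≤ p) : a ^ 2 ≤ (-57/40000) + (19/50) * p := by
  rcases le_total p (246647/1000000) with h1 | h1
  · exact cap5i6c2f1CLr ha0 h hp h1
  · exact cap_extend ha0 hc (by norm_num) (Pb := (246647/1000000)) (by norm_num) h1

lemma cap5i6c2f1CS {a p : ℝ} (ha0 : 0 ≤ a) (hc : a < (30381/100000)) (hp : (51/1000) ≤ p) : a ^ 2 ≤ (1/2) + (19/50) * p :=
  cap_extend ha0 hc (by norm_num) (Pb := (51/1000)) (by norm_num) hp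

lemma cap5i6c2f1 (n p : ι → ℝ) (i0 : ι) (C : Finset ι) (hC : C ⊆ Finset.univ.erase i0)
    (hsum : ∑ i, p i = 1) (hn0 : ∀ j, 0 ≤ n j)
    (hrow : ∀ j, ∀ sb, 0 < sb → sb ≤ 1 → n j ≤ al4 sb * p j + be4 sb)
    (hlo : ∀ j, (51/1000) ≤ p j) (hp1 : ∀ j, p j ≤ 1) (hcap : ∀ j ∈ C, n j < (30381/100000))
    (hu : n i0 ≤ (877/10000)) (hC2 : C.card = 2)
    (hF2 : (Finset.univ.erase i0 \ C).card = 2)
    (hlc : (C.filter fun j => (3/20) ≤ p j).card = 2)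
    (hlf : ((Finset.univ.erase i0 \ C).filter fun j => (3/20) ≤ p j).card = 1) :
    ∑ i, n i ^ 2 < (179049/500000) := by
  have key := joint_sum n p i0 C hC hsum (pc := (3/20)) (ACL := (-57/40000)) (ACS := (1/2))
    (AL := (21/10000)) (AS := (-11271/1000000)) (B := (19/50))
    (fun j hj hp => cap5i6c2f1CL (hn0 j) (hrow j) (hcap j hj) hp)
    (fun j hj hp => cap5i6c2f1CS (hn0 j) (hcap j hj) (hlo j))
    (fun j _ hp => cap5i6c2f1FL (hn0 j) (hrow j) hp (hp1 j))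
    (fun j _ hp => cap5i6c2f1FS (hn0 j) (hrow j) (hlo j) hp.le)
  rw [card_filter_two C _ hC2 hlc, card_filter_two _ _ hF2 hlf, hlc, hlf] at key
  have h1 : n i0 ^ 2 ≤ (877/10000) ^ 2 := pow_le_pow_left₀ (hn0 i0) hu 2
  have h2 := hlo i0
  norm_num at key h1 h2 ⊢
  linarith

lemma cap5i6c2f2FL {a p : ℝ} (ha0 : 0 ≤ a) (h : ∀ sb, 0 < sb → sb ≤ 1 → a ≤ al4 sb * p + be4 sb)
    (hp : (3/20) ≤ p) (hp1 : p ≤ 1) : a ^ 2 ≤ (-5273/200000) + (12/25) * p := by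
  rcases le_total p (957/5000) with h0 | h0
  · exact row4 (sb := (27/40)) (P := (3/20)) (Q := (957/5000)) ha0 h (by norm_num) (by norm_num) hp h0 (by norm_num [al4, be4]) (by norm_num [al4, be4])
  rcases le_total p (4471/20000) with h1 | h1
  · exact row4 (sb := (29/40)) (P := (957/5000)) (Q := (4471/20000)) ha0 h (by norm_num) (by norm_num) h0 h1 (by norm_num [al4, be4]) (by norm_num [al4, be4])
  rcases le_total p (2493/10000) with h2 | h2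
  · exact row4 (sb := (3/4)) (P := (4471/20000)) (Q := (2493/10000)) ha0 h (by norm_num) (by norm_num) h1 h2 (by norm_num [al4, be4]) (by norm_num [al4, be4])
  rcases le_total p (6001/20000) with h3 | h3
  · exact row4 (sb := (31/40)) (P := (2493/10000)) (Q := (6001/20000)) ha0 h (by norm_num) (by norm_num) h2 h3 (by norm_num [al4, be4]) (by norm_num [al4, be4])
  rcases le_total p (1543/2000) with h4 | h4
  · exact row4 (sb := (17/20)) (P := (6001/20000)) (Q := (1543/2000)) ha0 h (by norm_num) (by norm_num) h3 h4 (by norm_num [al4, be4]) (by norm_num [al4, be4])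
  exact row4 (sb := (7/8)) (P := (1543/2000)) (Q := 1) ha0 h (by norm_num) (by norm_num) h4 hp1 (by norm_num [al4, be4]) (by norm_num [al4, be4])

lemma cap5i6c2f2FS {a p : ℝ} (ha0 : 0 ≤ a) (h : ∀ sb, 0 < sb → sb ≤ 1 → a ≤ al4 sb * p + be4 sb)
    (hp : (51/1000) ≤ p) (hp1 : p ≤ (3/20)) : a ^ 2 ≤ (1/2) + (12/25) * p := by
  exact row4 (sb := (1/40)) (P := (51/1000)) (Q := (3/20)) ha0 h (by norm_num) (by norm_num) hp hp1 (by norm_num [al4, be4]) (by norm_num [al4, be4])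

lemma cap5i6c2f2CLr {a p : ℝ} (ha0 : 0 ≤ a) (h : ∀ sb, 0 < sb → sb ≤ 1 → a ≤ al4 sb * p + be4 sb)
    (hp : (3/20) ≤ p) (hp1 : p ≤ (12361/50000)) : a ^ 2 ≤ (-5273/200000) + (12/25) * p := by
  rcases le_total p (957/5000) with h0 | h0
  · exact row4 (sb := (27/40)) (P := (3/20)) (Q := (957/5000)) ha0 h (by norm_num) (by norm_num) hp h0 (by norm_num [al4, be4]) (by norm_num [al4, be4])
  rcases le_total p (4471/20000) with h1 | h1
  · exact row4 (sb := (29/40)) (P := (957/5000)) (Q := (4471/20000)) ha0 h (by norm_num) (by norm_num) h0 h1 (by norm_num [al4, be4]) (by norm_num [al4, be4])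
  exact row4 (sb := (3/4)) (P := (4471/20000)) (Q := (12361/50000)) ha0 h (by norm_num) (by norm_num) h1 hp1 (by norm_num [al4, be4]) (by norm_num [al4, be4])

lemma cap5i6c2f2CL {a p : ℝ} (ha0 : 0 ≤ a) (h : ∀ sb, 0 < sb → sb ≤ 1 → a ≤ al4 sb * p + be4 sb)
    (hc : a < (30381/100000)) (hp : (3/20) ≤ p) : a ^ 2 ≤ (-5273/200000) + (12/25) * p := by
  rcases le_total p (12361/50000) with h1 | h1
  · exact cap5i6c2f2CLr ha0 h hp h1
  · exact cap_extend ha0 hc (by norm_num) (Pb := (12361/50000)) (by norm_num) h1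

lemma cap5i6c2f2CS {a p : ℝ} (ha0 : 0 ≤ a) (hc : a < (30381/100000)) (hp : (51/1000) ≤ p) : a ^ 2 ≤ (1/2) + (12/25) * p :=
  cap_extend ha0 hc (by norm_num) (Pb := (51/1000)) (by norm_num) hp

lemma cap5i6c2f2 (n p : ι → ℝ) (i0 : ι) (C : Finset ι) (hC : C ⊆ Finset.univ.erase i0)
    (hsum : ∑ i, p i = 1) (hn0 : ∀ j, 0 ≤ n j)
    (hrow : ∀ j, ∀ sb, 0 < sb → sb ≤ 1 → n j ≤ al4 sb * p j + be4 sb)
    (hlo : ∀ j, (51/1000) ≤ p j) (hp1 : ∀ j, p j ≤ 1) (hcap : ∀ j ∈ C, n j < (30381/100000))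
    (hu : n i0 ≤ (877/10000)) (hC2 : C.card = 2)
    (hF2 : (Finset.univ.erase i0 \ C).card = 2)
    (hlc : (C.filter fun j => (3/20) ≤ p j).card = 2)
    (hlf : ((Finset.univ.erase i0 \ C).filter fun j => (3/20) ≤ p j).card = 2) :
    ∑ i, n i ^ 2 < (179049/500000) := by
  have key := joint_sum n p i0 C hC hsum (pc := (3/20)) (ACL := (-5273/200000)) (ACS := (1/2))
    (AL := (-5273/200000)) (AS := (1/2)) (B := (12/25))
    (fun j hj hp => cap5i6c2f2CL (hn0 j) (hrow j) (hcap j hj) hp)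
    (fun j hj hp => cap5i6c2f2CS (hn0 j) (hcap j hj) (hlo j))
    (fun j _ hp => cap5i6c2f2FL (hn0 j) (hrow j) hp (hp1 j))
    (fun j _ hp => cap5i6c2f2FS (hn0 j) (hrow j) (hlo j) hp.le)
  rw [card_filter_two C _ hC2 hlc, card_filter_two _ _ hF2 hlf, hlc, hlf] at key
  have h1 : n i0 ^ 2 ≤ (877/10000) ^ 2 := pow_le_pow_left₀ (hn0 i0) hu 2
  have h2 := hlo i0
  norm_num at key h1 h2 ⊢
  linarith

lemma cap5i6 (n p : ι → ℝ) (i0 : ι) (C : Finset ι) (hC : C ⊆ Finset.univ.erase i0)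
    (hsum : ∑ i, p i = 1) (hn0 : ∀ j, 0 ≤ n j)
    (hrow : ∀ j, ∀ sb, 0 < sb → sb ≤ 1 → n j ≤ al4 sb * p j + be4 sb)
    (hlo : ∀ j, (51/1000) ≤ p j) (hp1 : ∀ j, p j ≤ 1) (hcap : ∀ j ∈ C, n j < (30381/100000))
    (hu : n i0 ≤ (877/10000)) (hC2 : C.card = 2)
    (hF2 : (Finset.univ.erase i0 \ C).card = 2) :
    ∑ i, n i ^ 2 < (179049/500000) := by
  have hA : (C.filter fun j => (3/20) ≤ p j).card ≤ 2 := (Finset.card_filter_le _ _).trans hC2.le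
  have hB : ((Finset.univ.erase i0 \ C).filter fun j => (3/20) ≤ p j).card ≤ 2 := (Finset.card_filter_le _ _).trans hF2.le
  have hc' : (C.filter fun j => (3/20) ≤ p j).card = 0 ∨ (C.filter fun j => (3/20) ≤ p j).card = 1 ∨ (C.filter fun j => (3/20) ≤ p j).card = 2 := by omega
  have hf' : ((Finset.univ.erase i0 \ C).filter fun j => (3/20) ≤ p j).card = 0 ∨ ((Finset.univ.erase i0 \ C).filter fun j => (3/20) ≤ p j).card = 1 ∨ ((Finset.univ.erase i0 \ C).filter fun j => (3/20) ≤ p j).card = 2 := by omega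
  rcases hc' with hlc | hlc | hlc <;> rcases hf' with hlf | hlf | hlf
  · exact cap5i6c0f0 n p i0 C hC hsum hn0 hrow hlo hp1 hcap hu hC2 hF2 hlc hlf
  · exact cap5i6c0f1 n p i0 C hC hsum hn0 hrow hlo hp1 hcap hu hC2 hF2 hlc hlf
  · exact cap5i6c0f2 n p i0 C hC hsum hn0 hrow hlo hp1 hcap hu hC2 hF2 hlc hlf
  · exact cap5i6c1f0 n p i0 C hC hsum hn0 hrow hlo hp1 hcap hu hC2 hF2 hlc hlf
  · exact cap5i6c1f1 n p i0 C hC hsum hn0 hrow hlo hp1 hcap hu hC2 hF2 hlc hlf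
  · exact cap5i6c1f2 n p i0 C hC hsum hn0 hrow hlo hp1 hcap hu hC2 hF2 hlc hlf
  · exact cap5i6c2f0 n p i0 C hC hsum hn0 hrow hlo hp1 hcap hu hC2 hF2 hlc hlf
  · exact cap5i6c2f1 n p i0 C hC hsum hn0 hrow hlo hp1 hcap hu hC2 hF2 hlc hlf
  · exact cap5i6c2f2 n p i0 C hC hsum hn0 hrow hlo hp1 hcap hu hC2 hF2 hlc hlf

lemma cap5i7c0f0FL {a p : ℝ} (ha0 : 0 ≤ a) (h : ∀ sb, 0 < sb → sb ≤ 1 → a ≤ al4 sb * p + be4 sb)
    (hp : (3/20) ≤ p) (hp1 : p ≤ 1) : a ^ 2 ≤ (1/2) + (1/10) * p := by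
  exact row4 (sb := (33/40)) (P := (3/20)) (Q := 1) ha0 h (by norm_num) (by norm_num) hp hp1 (by norm_num [al4, be4]) (by norm_num [al4, be4])

lemma cap5i7c0f0FS {a p : ℝ} (ha0 : 0 ≤ a) (h : ∀ sb, 0 < sb → sb ≤ 1 → a ≤ al4 sb * p + be4 sb)
    (hp : (53/1000) ≤ p) (hp1 : p ≤ (3/20)) : a ^ 2 ≤ (47051/1000000) + (1/10) * p := by
  exact row4 (sb := (3/8)) (P := (53/1000)) (Q := (3/20)) ha0 h (by norm_num) (by norm_num) hp hp1 (by norm_num [al4, be4]) (by norm_num [al4, be4])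

lemma cap5i7c0f0CL {a p : ℝ} (ha0 : 0 ≤ a) (hc : a < (31177/100000)) (hp : (3/20) ≤ p) : a ^ 2 ≤ (1/2) + (1/10) * p :=
  cap_extend ha0 hc (by norm_num) (Pb := (3/20)) (by norm_num) hp

lemma cap5i7c0f0CS {a p : ℝ} (ha0 : 0 ≤ a) (h : ∀ sb, 0 < sb → sb ≤ 1 → a ≤ al4 sb * p + be4 sb)
    (hp : (53/1000) ≤ p) (hp1 : p ≤ (3/20)) : a ^ 2 ≤ (47051/1000000) + (1/10) * p := by
  exact row4 (sb := (3/8)) (P := (53/1000)) (Q := (3/20)) ha0 h (by norm_num) (by norm_num) hp hp1 (by norm_num [al4, be4]) (by norm_num [al4, be4])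

lemma cap5i7c0f0 (n p : ι → ℝ) (i0 : ι) (C : Finset ι) (hC : C ⊆ Finset.univ.erase i0)
    (hsum : ∑ i, p i = 1) (hn0 : ∀ j, 0 ≤ n j)
    (hrow : ∀ j, ∀ sb, 0 < sb → sb ≤ 1 → n j ≤ al4 sb * p j + be4 sb)
    (hlo : ∀ j, (53/1000) ≤ p j) (hp1 : ∀ j, p j ≤ 1) (hcap : ∀ j ∈ C, n j < (31177/100000))
    (hu : n i0 ≤ (9/100)) (hC2 : C.card = 2)
    (hF2 : (Finset.univ.erase i0 \ C).card = 2)
    (hlc : (C.filter fun j => (3/20) ≤ p j).card = 0)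
    (hlf : ((Finset.univ.erase i0 \ C).filter fun j => (3/20) ≤ p j).card = 0) :
    ∑ i, n i ^ 2 < (179049/500000) := by
  have key := joint_sum n p i0 C hC hsum (pc := (3/20)) (ACL := (1/2)) (ACS := (47051/1000000))
    (AL := (1/2)) (AS := (47051/1000000)) (B := (1/10))
    (fun j hj hp => cap5i7c0f0CL (hn0 j) (hcap j hj) hp)
    (fun j hj hp => cap5i7c0f0CS (hn0 j) (hrow j) (hlo j) hp.le)
    (fun j _ hp => cap5i7c0f0FL (hn0 j) (hrow j) hp (hp1 j))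
    (fun j _ hp => cap5i7c0f0FS (hn0 j) (hrow j) (hlo j) hp.le)
  rw [card_filter_two C _ hC2 hlc, card_filter_two _ _ hF2 hlf, hlc, hlf] at key
  have h1 : n i0 ^ 2 ≤ (9/100) ^ 2 := pow_le_pow_left₀ (hn0 i0) hu 2
  have h2 := hlo i0
  norm_num at key h1 h2 ⊢
  linarith

lemma cap5i7c0f1FL {a p : ℝ} (ha0 : 0 ≤ a) (h : ∀ sb, 0 < sb → sb ≤ 1 → a ≤ al4 sb * p + be4 sb)
    (hp : (3/20) ≤ p) (hp1 : p ≤ 1) : a ^ 2 ≤ (4739/40000) + (1/10) * p := by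
  rcases le_total p (733/1250) with h0 | h0
  · exact row4 (sb := (19/20)) (P := (3/20)) (Q := (733/1250)) ha0 h (by norm_num) (by norm_num) hp h0 (by norm_num [al4, be4]) (by norm_num [al4, be4])
  exact row4 (sb := (39/40)) (P := (733/1250)) (Q := 1) ha0 h (by norm_num) (by norm_num) h0 hp1 (by norm_num [al4, be4]) (by norm_num [al4, be4])

lemma cap5i7c0f1FS {a p : ℝ} (ha0 : 0 ≤ a) (h : ∀ sb, 0 < sb → sb ≤ 1 → a ≤ al4 sb * p + be4 sb)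
    (hp : (53/1000) ≤ p) (hp1 : p ≤ (3/20)) : a ^ 2 ≤ (36847/1000000) + (1/10) * p := by
  exact row4 (sb := (1/2)) (P := (53/1000)) (Q := (3/20)) ha0 h (by norm_num) (by norm_num) hp hp1 (by norm_num [al4, be4]) (by norm_num [al4, be4])

lemma cap5i7c0f1CL {a p : ℝ} (ha0 : 0 ≤ a) (hc : a < (31177/100000)) (hp : (3/20) ≤ p) : a ^ 2 ≤ (1/2) + (1/10) * p :=
  cap_extend ha0 hc (by norm_num) (Pb := (3/20)) (by norm_num) hp

lemma cap5i7c0f1CS {a p : ℝ} (ha0 : 0 ≤ a) (h : ∀ sb, 0 < sb → sb ≤ 1 → a ≤ al4 sb * p + be4 sb)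
    (hp : (53/1000) ≤ p) (hp1 : p ≤ (3/20)) : a ^ 2 ≤ (36847/1000000) + (1/10) * p := by
  exact row4 (sb := (1/2)) (P := (53/1000)) (Q := (3/20)) ha0 h (by norm_num) (by norm_num) hp hp1 (by norm_num [al4, be4]) (by norm_num [al4, be4])

lemma cap5i7c0f1 (n p : ι → ℝ) (i0 : ι) (C : Finset ι) (hC : C ⊆ Finset.univ.erase i0)
    (hsum : ∑ i, p i = 1) (hn0 : ∀ j, 0 ≤ n j)
    (hrow : ∀ j, ∀ sb, 0 < sb → sb ≤ 1 → n j ≤ al4 sb * p j + be4 sb)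
    (hlo : ∀ j, (53/1000) ≤ p j) (hp1 : ∀ j, p j ≤ 1) (hcap : ∀ j ∈ C, n j < (31177/100000))
    (hu : n i0 ≤ (9/100)) (hC2 : C.card = 2)
    (hF2 : (Finset.univ.erase i0 \ C).card = 2)
    (hlc : (C.filter fun j => (3/20) ≤ p j).card = 0)
    (hlf : ((Finset.univ.erase i0 \ C).filter fun j => (3/20) ≤ p j).card = 1) :
    ∑ i, n i ^ 2 < (179049/500000) := by
  have key := joint_sum n p i0 C hC hsum (pc := (3/20)) (ACL := (1/2)) (ACS := (36847/1000000))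
    (AL := (4739/40000)) (AS := (36847/1000000)) (B := (1/10))
    (fun j hj hp => cap5i7c0f1CL (hn0 j) (hcap j hj) hp)
    (fun j hj hp => cap5i7c0f1CS (hn0 j) (hrow j) (hlo j) hp.le)
    (fun j _ hp => cap5i7c0f1FL (hn0 j) (hrow j) hp (hp1 j))
    (fun j _ hp => cap5i7c0f1FS (hn0 j) (hrow j) (hlo j) hp.le)
  rw [card_filter_two C _ hC2 hlc, card_filter_two _ _ hF2 hlf, hlc, hlf] at key
  have h1 : n i0 ^ 2 ≤ (9/100) ^ 2 := pow_le_pow_left₀ (hn0 i0) hu 2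
  have h2 := hlo i0
  norm_num at key h1 h2 ⊢
  linarith

lemma cap5i7c0f2FL {a p : ℝ} (ha0 : 0 ≤ a) (h : ∀ sb, 0 < sb → sb ≤ 1 → a ≤ al4 sb * p + be4 sb)
    (hp : (3/20) ≤ p) (hp1 : p ≤ 1) : a ^ 2 ≤ (1467/500000) + (19/50) * p := by
  rcases le_total p (3127/10000) with h0 | h0
  · exact row4 (sb := (4/5)) (P := (3/20)) (Q := (3127/10000)) ha0 h (by norm_num) (by norm_num) hp h0 (by norm_num [al4, be4]) (by norm_num [al4, be4])
  rcases le_total p (8421/20000) with h1 | h1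
  · exact row4 (sb := (17/20)) (P := (3127/10000)) (Q := (8421/20000)) ha0 h (by norm_num) (by norm_num) h0 h1 (by norm_num [al4, be4]) (by norm_num [al4, be4])
  exact row4 (sb := (9/10)) (P := (8421/20000)) (Q := 1) ha0 h (by norm_num) (by norm_num) h1 hp1 (by norm_num [al4, be4]) (by norm_num [al4, be4])

lemma cap5i7c0f2FS {a p : ℝ} (ha0 : 0 ≤ a) (h : ∀ sb, 0 < sb → sb ≤ 1 → a ≤ al4 sb * p + be4 sb)
    (hp : (53/1000) ≤ p) (hp1 : p ≤ (3/20)) : a ^ 2 ≤ (1/2) + (19/50) * p := by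
  exact row4 (sb := (1/40)) (P := (53/1000)) (Q := (3/20)) ha0 h (by norm_num) (by norm_num) hp hp1 (by norm_num [al4, be4]) (by norm_num [al4, be4])

lemma cap5i7c0f2CL {a p : ℝ} (ha0 : 0 ≤ a) (hc : a < (31177/100000)) (hp : (3/20) ≤ p) : a ^ 2 ≤ (1/2) + (19/50) * p :=
  cap_extend ha0 hc (by norm_num) (Pb := (3/20)) (by norm_num) hp

lemma cap5i7c0f2CS {a p : ℝ} (ha0 : 0 ≤ a) (h : ∀ sb, 0 < sb → sb ≤ 1 → a ≤ al4 sb * p + be4 sb)
    (hp : (53/1000) ≤ p) (hp1 : p ≤ (3/20)) : a ^ 2 ≤ (-10437/1000000) + (19/50) * p := by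
  exact row4 (sb := (3/5)) (P := (53/1000)) (Q := (3/20)) ha0 h (by norm_num) (by norm_num) hp hp1 (by norm_num [al4, be4]) (by norm_num [al4, be4])

lemma cap5i7c0f2 (n p : ι → ℝ) (i0 : ι) (C : Finset ι) (hC : C ⊆ Finset.univ.erase i0)
    (hsum : ∑ i, p i = 1) (hn0 : ∀ j, 0 ≤ n j)
    (hrow : ∀ j, ∀ sb, 0 < sb → sb ≤ 1 → n j ≤ al4 sb * p j + be4 sb)
    (hlo : ∀ j, (53/1000) ≤ p j) (hp1 : ∀ j, p j ≤ 1) (hcap : ∀ j ∈ C, n j < (31177/100000))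
    (hu : n i0 ≤ (9/100)) (hC2 : C.card = 2)
    (hF2 : (Finset.univ.erase i0 \ C).card = 2)
    (hlc : (C.filter fun j => (3/20) ≤ p j).card = 0)
    (hlf : ((Finset.univ.erase i0 \ C).filter fun j => (3/20) ≤ p j).card = 2) :
    ∑ i, n i ^ 2 < (179049/500000) := by
  have key := joint_sum n p i0 C hC hsum (pc := (3/20)) (ACL := (1/2)) (ACS := (-10437/1000000))
    (AL := (1467/500000)) (AS := (1/2)) (B := (19/50))
    (fun j hj hp => cap5i7c0f2CL (hn0 j) (hcap j hj) hp)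
    (fun j hj hp => cap5i7c0f2CS (hn0 j) (hrow j) (hlo j) hp.le)
    (fun j _ hp => cap5i7c0f2FL (hn0 j) (hrow j) hp (hp1 j))
    (fun j _ hp => cap5i7c0f2FS (hn0 j) (hrow j) (hlo j) hp.le)
  rw [card_filter_two C _ hC2 hlc, card_filter_two _ _ hF2 hlf, hlc, hlf] at key
  have h1 : n i0 ^ 2 ≤ (9/100) ^ 2 := pow_le_pow_left₀ (hn0 i0) hu 2
  have h2 := hlo i0
  norm_num at key h1 h2 ⊢
  linarith

lemma cap5i7c1f0FL {a p : ℝ} (ha0 : 0 ≤ a) (h : ∀ sb, 0 < sb → sb ≤ 1 → a ≤ al4 sb * p + be4 sb)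
    (hp : (3/20) ≤ p) (hp1 : p ≤ 1) : a ^ 2 ≤ (1/2) + (1/10) * p := by
  exact row4 (sb := (33/40)) (P := (3/20)) (Q := 1) ha0 h (by norm_num) (by norm_num) hp hp1 (by norm_num [al4, be4]) (by norm_num [al4, be4])

lemma cap5i7c1f0FS {a p : ℝ} (ha0 : 0 ≤ a) (h : ∀ sb, 0 < sb → sb ≤ 1 → a ≤ al4 sb * p + be4 sb)
    (hp : (53/1000) ≤ p) (hp1 : p ≤ (3/20)) : a ^ 2 ≤ (10479/250000) + (1/10) * p := by
  exact row4 (sb := (17/40)) (P := (53/1000)) (Q := (3/20)) ha0 h (by norm_num) (by norm_num) hp hp1 (by norm_num [al4, be4]) (by norm_num [al4, be4])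

lemma cap5i7c1f0CL {a p : ℝ} (ha0 : 0 ≤ a) (hc : a < (31177/100000)) (hp : (3/20) ≤ p) : a ^ 2 ≤ (20749/250000) + (1/10) * p :=
  cap_extend ha0 hc (by norm_num) (Pb := (3/20)) (by norm_num) hp

lemma cap5i7c1f0CS {a p : ℝ} (ha0 : 0 ≤ a) (h : ∀ sb, 0 < sb → sb ≤ 1 → a ≤ al4 sb * p + be4 sb)
    (hp : (53/1000) ≤ p) (hp1 : p ≤ (3/20)) : a ^ 2 ≤ (10479/250000) + (1/10) * p := by
  exact row4 (sb := (17/40)) (P := (53/1000)) (Q := (3/20)) ha0 h (by norm_num) (by norm_num) hp hp1 (by norm_num [al4, be4]) (by norm_num [al4, be4])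

lemma cap5i7c1f0 (n p : ι → ℝ) (i0 : ι) (C : Finset ι) (hC : C ⊆ Finset.univ.erase i0)
    (hsum : ∑ i, p i = 1) (hn0 : ∀ j, 0 ≤ n j)
    (hrow : ∀ j, ∀ sb, 0 < sb → sb ≤ 1 → n j ≤ al4 sb * p j + be4 sb)
    (hlo : ∀ j, (53/1000) ≤ p j) (hp1 : ∀ j, p j ≤ 1) (hcap : ∀ j ∈ C, n j < (31177/100000))
    (hu : n i0 ≤ (9/100)) (hC2 : C.card = 2)
    (hF2 : (Finset.univ.erase i0 \ C).card = 2)
    (hlc : (C.filter fun j => (3/20) ≤ p j).card = 1)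
    (hlf : ((Finset.univ.erase i0 \ C).filter fun j => (3/20) ≤ p j).card = 0) :
    ∑ i, n i ^ 2 < (179049/500000) := by
  have key := joint_sum n p i0 C hC hsum (pc := (3/20)) (ACL := (20749/250000)) (ACS := (10479/250000))
    (AL := (1/2)) (AS := (10479/250000)) (B := (1/10))
    (fun j hj hp => cap5i7c1f0CL (hn0 j) (hcap j hj) hp)
    (fun j hj hp => cap5i7c1f0CS (hn0 j) (hrow j) (hlo j) hp.le)
    (fun j _ hp => cap5i7c1f0FL (hn0 j) (hrow j) hp (hp1 j))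
    (fun j _ hp => cap5i7c1f0FS (hn0 j) (hrow j) (hlo j) hp.le)
  rw [card_filter_two C _ hC2 hlc, card_filter_two _ _ hF2 hlf, hlc, hlf] at key
  have h1 : n i0 ^ 2 ≤ (9/100) ^ 2 := pow_le_pow_left₀ (hn0 i0) hu 2
  have h2 := hlo i0
  norm_num at key h1 h2 ⊢
  linarith

lemma cap5i7c1f1FL {a p : ℝ} (ha0 : 0 ≤ a) (h : ∀ sb, 0 < sb → sb ≤ 1 → a ≤ al4 sb * p + be4 sb)
    (hp : (3/20) ≤ p) (hp1 : p ≤ 1) : a ^ 2 ≤ (23131/500000) + (13/50) * p := by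
  rcases le_total p (3989/10000) with h0 | h0
  · exact row4 (sb := (7/8)) (P := (3/20)) (Q := (3989/10000)) ha0 h (by norm_num) (by norm_num) hp h0 (by norm_num [al4, be4]) (by norm_num [al4, be4])
  exact row4 (sb := (37/40)) (P := (3989/10000)) (Q := 1) ha0 h (by norm_num) (by norm_num) h0 hp1 (by norm_num [al4, be4]) (by norm_num [al4, be4])

lemma cap5i7c1f1FS {a p : ℝ} (ha0 : 0 ≤ a) (h : ∀ sb, 0 < sb → sb ≤ 1 → a ≤ al4 sb * p + be4 sb)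
    (hp : (53/1000) ≤ p) (hp1 : p ≤ (3/20)) : a ^ 2 ≤ (4207/500000) + (13/50) * p := by
  exact row4 (sb := (23/40)) (P := (53/1000)) (Q := (3/20)) ha0 h (by norm_num) (by norm_num) hp hp1 (by norm_num [al4, be4]) (by norm_num [al4, be4])

lemma cap5i7c1f1CLr {a p : ℝ} (ha0 : 0 ≤ a) (h : ∀ sb, 0 < sb → sb ≤ 1 → a ≤ al4 sb * p + be4 sb)
    (hp : (3/20) ≤ p) (hp1 : p ≤ (125109/500000)) : a ^ 2 ≤ (2009/62500) + (13/50) * p := by
  exact row4 (sb := (7/10)) (P := (3/20)) (Q := (125109/500000)) ha0 h (by norm_num) (by norm_num) hp hp1 (by norm_num [al4, be4]) (by norm_num [al4, be4])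

lemma cap5i7c1f1CL {a p : ℝ} (ha0 : 0 ≤ a) (h : ∀ sb, 0 < sb → sb ≤ 1 → a ≤ al4 sb * p + be4 sb)
    (hc : a < (31177/100000)) (hp : (3/20) ≤ p) : a ^ 2 ≤ (2009/62500) + (13/50) * p := by
  rcases le_total p (125109/500000) with h1 | h1
  · exact cap5i7c1f1CLr ha0 h hp h1
  · exact cap_extend ha0 hc (by norm_num) (Pb := (125109/500000)) (by norm_num) h1

lemma cap5i7c1f1CS {a p : ℝ} (ha0 : 0 ≤ a) (h : ∀ sb, 0 < sb → sb ≤ 1 → a ≤ al4 sb * p + be4 sb)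
    (hp : (53/1000) ≤ p) (hp1 : p ≤ (3/20)) : a ^ 2 ≤ (4207/500000) + (13/50) * p := by
  exact row4 (sb := (23/40)) (P := (53/1000)) (Q := (3/20)) ha0 h (by norm_num) (by norm_num) hp hp1 (by norm_num [al4, be4]) (by norm_num [al4, be4])

lemma cap5i7c1f1 (n p : ι → ℝ) (i0 : ι) (C : Finset ι) (hC : C ⊆ Finset.univ.erase i0)
    (hsum : ∑ i, p i = 1) (hn0 : ∀ j, 0 ≤ n j)
    (hrow : ∀ j, ∀ sb, 0 < sb → sb ≤ 1 → n j ≤ al4 sb * p j + be4 sb)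
    (hlo : ∀ j, (53/1000) ≤ p j) (hp1 : ∀ j, p j ≤ 1) (hcap : ∀ j ∈ C, n j < (31177/100000))
    (hu : n i0 ≤ (9/100)) (hC2 : C.card = 2)
    (hF2 : (Finset.univ.erase i0 \ C).card = 2)
    (hlc : (C.filter fun j => (3/20) ≤ p j).card = 1)
    (hlf : ((Finset.univ.erase i0 \ C).filter fun j => (3/20) ≤ p j).card = 1) :
    ∑ i, n i ^ 2 < (179049/500000) := by
  have key := joint_sum n p i0 C hC hsum (pc := (3/20)) (ACL := (2009/62500)) (ACS := (4207/500000))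
    (AL := (23131/500000)) (AS := (4207/500000)) (B := (13/50))
    (fun j hj hp => cap5i7c1f1CL (hn0 j) (hrow j) (hcap j hj) hp)
    (fun j hj hp => cap5i7c1f1CS (hn0 j) (hrow j) (hlo j) hp.le)
    (fun j _ hp => cap5i7c1f1FL (hn0 j) (hrow j) hp (hp1 j))
    (fun j _ hp => cap5i7c1f1FS (hn0 j) (hrow j) (hlo j) hp.le)
  rw [card_filter_two C _ hC2 hlc, card_filter_two _ _ hF2 hlf, hlc, hlf] at key
  have h1 : n i0 ^ 2 ≤ (9/100) ^ 2 := pow_le_pow_left₀ (hn0 i0) hu 2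
  have h2 := hlo i0
  norm_num at key h1 h2 ⊢
  linarith

lemma cap5i7c1f2FL {a p : ℝ} (ha0 : 0 ≤ a) (h : ∀ sb, 0 < sb → sb ≤ 1 → a ≤ al4 sb * p + be4 sb)
    (hp : (3/20) ≤ p) (hp1 : p ≤ 1) : a ^ 2 ≤ (-4597/1000000) + (2/5) * p := by
  rcases le_total p (2783/10000) with h0 | h0
  · exact row4 (sb := (31/40)) (P := (3/20)) (Q := (2783/10000)) ha0 h (by norm_num) (by norm_num) hp h0 (by norm_num [al4, be4]) (by norm_num [al4, be4])
  rcases le_total p (3139/10000) with h1 | h1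
  · exact row4 (sb := (33/40)) (P := (2783/10000)) (Q := (3139/10000)) ha0 h (by norm_num) (by norm_num) h0 h1 (by norm_num [al4, be4]) (by norm_num [al4, be4])
  rcases le_total p (9027/20000) with h2 | h2
  · exact row4 (sb := (17/20)) (P := (3139/10000)) (Q := (9027/20000)) ha0 h (by norm_num) (by norm_num) h1 h2 (by norm_num [al4, be4]) (by norm_num [al4, be4])
  exact row4 (sb := (9/10)) (P := (9027/20000)) (Q := 1) ha0 h (by norm_num) (by norm_num) h2 hp1 (by norm_num [al4, be4]) (by norm_num [al4, be4])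

lemma cap5i7c1f2FS {a p : ℝ} (ha0 : 0 ≤ a) (h : ∀ sb, 0 < sb → sb ≤ 1 → a ≤ al4 sb * p + be4 sb)
    (hp : (53/1000) ≤ p) (hp1 : p ≤ (3/20)) : a ^ 2 ≤ (1/2) + (2/5) * p := by
  exact row4 (sb := (1/40)) (P := (53/1000)) (Q := (3/20)) ha0 h (by norm_num) (by norm_num) hp hp1 (by norm_num [al4, be4]) (by norm_num [al4, be4])

lemma cap5i7c1f2CLr {a p : ℝ} (ha0 : 0 ≤ a) (h : ∀ sb, 0 < sb → sb ≤ 1 → a ≤ al4 sb * p + be4 sb)
    (hp : (3/20) ≤ p) (hp1 : p ≤ (258399/1000000)) : a ^ 2 ≤ (-6159/1000000) + (2/5) * p := by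
  exact row4 (sb := (31/40)) (P := (3/20)) (Q := (258399/1000000)) ha0 h (by norm_num) (by norm_num) hp hp1 (by norm_num [al4, be4]) (by norm_num [al4, be4])

lemma cap5i7c1f2CL {a p : ℝ} (ha0 : 0 ≤ a) (h : ∀ sb, 0 < sb → sb ≤ 1 → a ≤ al4 sb * p + be4 sb)
    (hc : a < (31177/100000)) (hp : (3/20) ≤ p) : a ^ 2 ≤ (-6159/1000000) + (2/5) * p := by
  rcases le_total p (258399/1000000) with h1 | h1
  · exact cap5i7c1f2CLr ha0 h hp h1
  · exact cap_extend ha0 hc (by norm_num) (Pb := (258399/1000000)) (by norm_num) h1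

lemma cap5i7c1f2CS {a p : ℝ} (ha0 : 0 ≤ a) (h : ∀ sb, 0 < sb → sb ≤ 1 → a ≤ al4 sb * p + be4 sb)
    (hp : (53/1000) ≤ p) (hp1 : p ≤ (3/20)) : a ^ 2 ≤ (-13509/1000000) + (2/5) * p := by
  rcases le_total p (2283/20000) with h0 | h0
  · exact row4 (sb := (9/20)) (P := (53/1000)) (Q := (2283/20000)) ha0 h (by norm_num) (by norm_num) hp h0 (by norm_num [al4, be4]) (by norm_num [al4, be4])
  exact row4 (sb := (3/5)) (P := (2283/20000)) (Q := (3/20)) ha0 h (by norm_num) (by norm_num) h0 hp1 (by norm_num [al4, be4]) (by norm_num [al4, be4])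

lemma cap5i7c1f2 (n p : ι → ℝ) (i0 : ι) (C : Finset ι) (hC : C ⊆ Finset.univ.erase i0)
    (hsum : ∑ i, p i = 1) (hn0 : ∀ j, 0 ≤ n j)
    (hrow : ∀ j, ∀ sb, 0 < sb → sb ≤ 1 → n j ≤ al4 sb * p j + be4 sb)
    (hlo : ∀ j, (53/1000) ≤ p j) (hp1 : ∀ j, p j ≤ 1) (hcap : ∀ j ∈ C, n j < (31177/100000))
    (hu : n i0 ≤ (9/100)) (hC2 : C.card = 2)
    (hF2 : (Finset.univ.erase i0 \ C).card = 2)
    (hlc : (C.filter fun j => (3/20) ≤ p j).card = 1)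
    (hlf : ((Finset.univ.erase i0 \ C).filter fun j => (3/20) ≤ p j).card = 2) :
    ∑ i, n i ^ 2 < (179049/500000) := by
  have key := joint_sum n p i0 C hC hsum (pc := (3/20)) (ACL := (-6159/1000000)) (ACS := (-13509/1000000))
    (AL := (-4597/1000000)) (AS := (1/2)) (B := (2/5))
    (fun j hj hp => cap5i7c1f2CL (hn0 j) (hrow j) (hcap j hj) hp)
    (fun j hj hp => cap5i7c1f2CS (hn0 j) (hrow j) (hlo j) hp.le)
    (fun j _ hp => cap5i7c1f2FL (hn0 j) (hrow j) hp (hp1 j))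
    (fun j _ hp => cap5i7c1f2FS (hn0 j) (hrow j) (hlo j) hp.le)
  rw [card_filter_two C _ hC2 hlc, card_filter_two _ _ hF2 hlf, hlc, hlf] at key
  have h1 : n i0 ^ 2 ≤ (9/100) ^ 2 := pow_le_pow_left₀ (hn0 i0) hu 2
  have h2 := hlo i0
  norm_num at key h1 h2 ⊢
  linarith

lemma cap5i7c2f0FL {a p : ℝ} (ha0 : 0 ≤ a) (h : ∀ sb, 0 < sb → sb ≤ 1 → a ≤ al4 sb * p + be4 sb)
    (hp : (3/20) ≤ p) (hp1 : p ≤ 1) : a ^ 2 ≤ (1/2) + (1/10) * p := by
  exact row4 (sb := (33/40)) (P := (3/20)) (Q := 1) ha0 h (by norm_num) (by norm_num) hp hp1 (by norm_num [al4, be4]) (by norm_num [al4, be4])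

lemma cap5i7c2f0FS {a p : ℝ} (ha0 : 0 ≤ a) (h : ∀ sb, 0 < sb → sb ≤ 1 → a ≤ al4 sb * p + be4 sb)
    (hp : (53/1000) ≤ p) (hp1 : p ≤ (3/20)) : a ^ 2 ≤ (36781/1000000) + (1/10) * p := by
  exact row4 (sb := (1/2)) (P := (53/1000)) (Q := (3/20)) ha0 h (by norm_num) (by norm_num) hp hp1 (by norm_num [al4, be4]) (by norm_num [al4, be4])

lemma cap5i7c2f0CLr {a p : ℝ} (ha0 : 0 ≤ a) (h : ∀ sb, 0 < sb → sb ≤ 1 → a ≤ al4 sb * p + be4 sb)
    (hp : (3/20) ≤ p) (hp1 : p ≤ (48349/250000)) : a ^ 2 ≤ (77861/1000000) + (1/10) * p := by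
  exact row4 (sb := (2/5)) (P := (3/20)) (Q := (48349/250000)) ha0 h (by norm_num) (by norm_num) hp hp1 (by norm_num [al4, be4]) (by norm_num [al4, be4])

lemma cap5i7c2f0CL {a p : ℝ} (ha0 : 0 ≤ a) (h : ∀ sb, 0 < sb → sb ≤ 1 → a ≤ al4 sb * p + be4 sb)
    (hc : a < (31177/100000)) (hp : (3/20) ≤ p) : a ^ 2 ≤ (77861/1000000) + (1/10) * p := by
  rcases le_total p (48349/250000) with h1 | h1
  · exact cap5i7c2f0CLr ha0 h hp h1
  · exact cap_extend ha0 hc (by norm_num) (Pb := (48349/250000)) (by norm_num) h1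

lemma cap5i7c2f0CS {a p : ℝ} (ha0 : 0 ≤ a) (hc : a < (31177/100000)) (hp : (53/1000) ≤ p) : a ^ 2 ≤ (1/2) + (1/10) * p :=
  cap_extend ha0 hc (by norm_num) (Pb := (53/1000)) (by norm_num) hp

lemma cap5i7c2f0 (n p : ι → ℝ) (i0 : ι) (C : Finset ι) (hC : C ⊆ Finset.univ.erase i0)
    (hsum : ∑ i, p i = 1) (hn0 : ∀ j, 0 ≤ n j)
    (hrow : ∀ j, ∀ sb, 0 < sb → sb ≤ 1 → n j ≤ al4 sb * p j + be4 sb)
    (hlo : ∀ j, (53/1000) ≤ p j) (hp1 : ∀ j, p j ≤ 1) (hcap : ∀ j ∈ C, n j < (31177/100000))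
    (hu : n i0 ≤ (9/100)) (hC2 : C.card = 2)
    (hF2 : (Finset.univ.erase i0 \ C).card = 2)
    (hlc : (C.filter fun j => (3/20) ≤ p j).card = 2)
    (hlf : ((Finset.univ.erase i0 \ C).filter fun j => (3/20) ≤ p j).card = 0) :
    ∑ i, n i ^ 2 < (179049/500000) := by
  have key := joint_sum n p i0 C hC hsum (pc := (3/20)) (ACL := (77861/1000000)) (ACS := (1/2))
    (AL := (1/2)) (AS := (36781/1000000)) (B := (1/10))
    (fun j hj hp => cap5i7c2f0CL (hn0 j) (hrow j) (hcap j hj) hp)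
    (fun j hj hp => cap5i7c2f0CS (hn0 j) (hcap j hj) (hlo j))
    (fun j _ hp => cap5i7c2f0FL (hn0 j) (hrow j) hp (hp1 j))
    (fun j _ hp => cap5i7c2f0FS (hn0 j) (hrow j) (hlo j) hp.le)
  rw [card_filter_two C _ hC2 hlc, card_filter_two _ _ hF2 hlf, hlc, hlf] at key
  have h1 : n i0 ^ 2 ≤ (9/100) ^ 2 := pow_le_pow_left₀ (hn0 i0) hu 2
  have h2 := hlo i0
  norm_num at key h1 h2 ⊢
  linarith

lemma cap5i7c2f1FL {a p : ℝ} (ha0 : 0 ≤ a) (h : ∀ sb, 0 < sb → sb ≤ 1 → a ≤ al4 sb * p + be4 sb)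
    (hp : (3/20) ≤ p) (hp1 : p ≤ 1) : a ^ 2 ≤ (963/500000) + (19/50) * p := by
  rcases le_total p (3011/10000) with h0 | h0
  · exact row4 (sb := (4/5)) (P := (3/20)) (Q := (3011/10000)) ha0 h (by norm_num) (by norm_num) hp h0 (by norm_num [al4, be4]) (by norm_num [al4, be4])
  rcases le_total p (7807/20000) with h1 | h1
  · exact row4 (sb := (17/20)) (P := (3011/10000)) (Q := (7807/20000)) ha0 h (by norm_num) (by norm_num) h0 h1 (by norm_num [al4, be4]) (by norm_num [al4, be4])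
  exact row4 (sb := (9/10)) (P := (7807/20000)) (Q := 1) ha0 h (by norm_num) (by norm_num) h1 hp1 (by norm_num [al4, be4]) (by norm_num [al4, be4])

lemma cap5i7c2f1FS {a p : ℝ} (ha0 : 0 ≤ a) (h : ∀ sb, 0 < sb → sb ≤ 1 → a ≤ al4 sb * p + be4 sb)
    (hp : (53/1000) ≤ p) (hp1 : p ≤ (3/20)) : a ^ 2 ≤ (-2289/200000) + (19/50) * p := by
  rcases le_total p (547/4000) with h0 | h0
  · exact row4 (sb := (11/20)) (P := (53/1000)) (Q := (547/4000)) ha0 h (by norm_num) (by norm_num) hp h0 (by norm_num [al4, be4]) (by norm_num [al4, be4])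
  exact row4 (sb := (5/8)) (P := (547/4000)) (Q := (3/20)) ha0 h (by norm_num) (by norm_num) h0 hp1 (by norm_num [al4, be4]) (by norm_num [al4, be4])

lemma cap5i7c2f1CLr {a p : ℝ} (ha0 : 0 ≤ a) (h : ∀ sb, 0 < sb → sb ≤ 1 → a ≤ al4 sb * p + be4 sb)
    (hp : (3/20) ≤ p) (hp1 : p ≤ (51541/200000)) : a ^ 2 ≤ (-727/1000000) + (19/50) * p := by
  exact row4 (sb := (31/40)) (P := (3/20)) (Q := (51541/200000)) ha0 h (by norm_num) (by norm_num) hp hp1 (by norm_num [al4, be4]) (by norm_num [al4, be4])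

lemma cap5i7c2f1CL {a p : ℝ} (ha0 : 0 ≤ a) (h : ∀ sb, 0 < sb → sb ≤ 1 → a ≤ al4 sb * p + be4 sb)
    (hc : a < (31177/100000)) (hp : (3/20) ≤ p) : a ^ 2 ≤ (-727/1000000) + (19/50) * p := by
  rcases le_total p (51541/200000) with h1 | h1
  · exact cap5i7c2f1CLr ha0 h hp h1
  · exact cap_extend ha0 hc (by norm_num) (Pb := (51541/200000)) (by norm_num) h1

lemma cap5i7c2f1CS {a p : ℝ} (ha0 : 0 ≤ a) (hc : a < (31177/100000)) (hp : (53/1000) ≤ p) : a ^ 2 ≤ (1/2) + (19/50) * p :=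
  cap_extend ha0 hc (by norm_num) (Pb := (53/1000)) (by norm_num) hp

lemma cap5i7c2f1 (n p : ι → ℝ) (i0 : ι) (C : Finset ι) (hC : C ⊆ Finset.univ.erase i0)
    (hsum : ∑ i, p i = 1) (hn0 : ∀ j, 0 ≤ n j)
    (hrow : ∀ j, ∀ sb, 0 < sb → sb ≤ 1 → n j ≤ al4 sb * p j + be4 sb)
    (hlo : ∀ j, (53/1000) ≤ p j) (hp1 : ∀ j, p j ≤ 1) (hcap : ∀ j ∈ C, n j < (31177/100000))
    (hu : n i0 ≤ (9/100)) (hC2 : C.card = 2)
    (hF2 : (Finset.univ.erase i0 \ C).card = 2)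
    (hlc : (C.filter fun j => (3/20) ≤ p j).card = 2)
    (hlf : ((Finset.univ.erase i0 \ C).filter fun j => (3/20) ≤ p j).card = 1) :
    ∑ i, n i ^ 2 < (179049/500000) := by
  have key := joint_sum n p i0 C hC hsum (pc := (3/20)) (ACL := (-727/1000000)) (ACS := (1/2))
    (AL := (963/500000)) (AS := (-2289/200000)) (B := (19/50))
    (fun j hj hp => cap5i7c2f1CL (hn0 j) (hrow j) (hcap j hj) hp)
    (fun j hj hp => cap5i7c2f1CS (hn0 j) (hcap j hj) (hlo j))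
    (fun j _ hp => cap5i7c2f1FL (hn0 j) (hrow j) hp (hp1 j))
    (fun j _ hp => cap5i7c2f1FS (hn0 j) (hrow j) (hlo j) hp.le)
  rw [card_filter_two C _ hC2 hlc, card_filter_two _ _ hF2 hlf, hlc, hlf] at key
  have h1 : n i0 ^ 2 ≤ (9/100) ^ 2 := pow_le_pow_left₀ (hn0 i0) hu 2
  have h2 := hlo i0
  norm_num at key h1 h2 ⊢
  linarith

lemma cap5i7c2f2FL {a p : ℝ} (ha0 : 0 ≤ a) (h : ∀ sb, 0 < sb → sb ≤ 1 → a ≤ al4 sb * p + be4 sb)
    (hp : (3/20) ≤ p) (hp1 : p ≤ 1) : a ^ 2 ≤ (-26297/1000000) + (12/25) * p := by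
  rcases le_total p (1929/10000) with h0 | h0
  · exact row4 (sb := (27/40)) (P := (3/20)) (Q := (1929/10000)) ha0 h (by norm_num) (by norm_num) hp h0 (by norm_num [al4, be4]) (by norm_num [al4, be4])
  rcases le_total p (2259/10000) with h1 | h1
  · exact row4 (sb := (29/40)) (P := (1929/10000)) (Q := (2259/10000)) ha0 h (by norm_num) (by norm_num) h0 h1 (by norm_num [al4, be4]) (by norm_num [al4, be4])
  rcases le_total p (2521/10000) with h2 | h2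
  · exact row4 (sb := (3/4)) (P := (2259/10000)) (Q := (2521/10000)) ha0 h (by norm_num) (by norm_num) h1 h2 (by norm_num [al4, be4]) (by norm_num [al4, be4])
  rcases le_total p (3019/10000) with h3 | h3
  · exact row4 (sb := (31/40)) (P := (2521/10000)) (Q := (3019/10000)) ha0 h (by norm_num) (by norm_num) h2 h3 (by norm_num [al4, be4]) (by norm_num [al4, be4])
  rcases le_total p (193/250) with h4 | h4
  · exact row4 (sb := (17/20)) (P := (3019/10000)) (Q := (193/250)) ha0 h (by norm_num) (by norm_num) h3 h4 (by norm_num [al4, be4]) (by norm_num [al4, be4])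
  exact row4 (sb := (7/8)) (P := (193/250)) (Q := 1) ha0 h (by norm_num) (by norm_num) h4 hp1 (by norm_num [al4, be4]) (by norm_num [al4, be4])

lemma cap5i7c2f2FS {a p : ℝ} (ha0 : 0 ≤ a) (h : ∀ sb, 0 < sb → sb ≤ 1 → a ≤ al4 sb * p + be4 sb)
    (hp : (53/1000) ≤ p) (hp1 : p ≤ (3/20)) : a ^ 2 ≤ (1/2) + (12/25) * p := by
  exact row4 (sb := (1/40)) (P := (53/1000)) (Q := (3/20)) ha0 h (by norm_num) (by norm_num) hp hp1 (by norm_num [al4, be4]) (by norm_num [al4, be4])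

lemma cap5i7c2f2CLr {a p : ℝ} (ha0 : 0 ≤ a) (h : ∀ sb, 0 < sb → sb ≤ 1 → a ≤ al4 sb * p + be4 sb)
    (hp : (3/20) ≤ p) (hp1 : p ≤ (257287/1000000)) : a ^ 2 ≤ (-26297/1000000) + (12/25) * p := by
  rcases le_total p (1929/10000) with h0 | h0
  · exact row4 (sb := (27/40)) (P := (3/20)) (Q := (1929/10000)) ha0 h (by norm_num) (by norm_num) hp h0 (by norm_num [al4, be4]) (by norm_num [al4, be4])
  rcases le_total p (2259/10000) with h1 | h1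
  · exact row4 (sb := (29/40)) (P := (1929/10000)) (Q := (2259/10000)) ha0 h (by norm_num) (by norm_num) h0 h1 (by norm_num [al4, be4]) (by norm_num [al4, be4])
  rcases le_total p (2521/10000) with h2 | h2
  · exact row4 (sb := (3/4)) (P := (2259/10000)) (Q := (2521/10000)) ha0 h (by norm_num) (by norm_num) h1 h2 (by norm_num [al4, be4]) (by norm_num [al4, be4])
  exact row4 (sb := (31/40)) (P := (2521/10000)) (Q := (257287/1000000)) ha0 h (by norm_num) (by norm_num) h2 hp1 (by norm_num [al4, be4]) (by norm_num [al4, be4])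

lemma cap5i7c2f2CL {a p : ℝ} (ha0 : 0 ≤ a) (h : ∀ sb, 0 < sb → sb ≤ 1 → a ≤ al4 sb * p + be4 sb)
    (hc : a < (31177/100000)) (hp : (3/20) ≤ p) : a ^ 2 ≤ (-26297/1000000) + (12/25) * p := by
  rcases le_total p (257287/1000000) with h1 | h1
  · exact cap5i7c2f2CLr ha0 h hp h1
  · exact cap_extend ha0 hc (by norm_num) (Pb := (257287/1000000)) (by norm_num) h1

lemma cap5i7c2f2CS {a p : ℝ} (ha0 : 0 ≤ a) (hc : a < (31177/100000)) (hp : (53/1000) ≤ p) : a ^ 2 ≤ (1/2) + (12/25) * p :=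
  cap_extend ha0 hc (by norm_num) (Pb := (53/1000)) (by norm_num) hp

lemma cap5i7c2f2 (n p : ι → ℝ) (i0 : ι) (C : Finset ι) (hC : C ⊆ Finset.univ.erase i0)
    (hsum : ∑ i, p i = 1) (hn0 : ∀ j, 0 ≤ n j)
    (hrow : ∀ j, ∀ sb, 0 < sb → sb ≤ 1 → n j ≤ al4 sb * p j + be4 sb)
    (hlo : ∀ j, (53/1000) ≤ p j) (hp1 : ∀ j, p j ≤ 1) (hcap : ∀ j ∈ C, n j < (31177/100000))
    (hu : n i0 ≤ (9/100)) (hC2 : C.card = 2)
    (hF2 : (Finset.univ.erase i0 \ C).card = 2)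
    (hlc : (C.filter fun j => (3/20) ≤ p j).card = 2)
    (hlf : ((Finset.univ.erase i0 \ C).filter fun j => (3/20) ≤ p j).card = 2) :
    ∑ i, n i ^ 2 < (179049/500000) := by
  have key := joint_sum n p i0 C hC hsum (pc := (3/20)) (ACL := (-26297/1000000)) (ACS := (1/2))
    (AL := (-26297/1000000)) (AS := (1/2)) (B := (12/25))
    (fun j hj hp => cap5i7c2f2CL (hn0 j) (hrow j) (hcap j hj) hp)
    (fun j hj hp => cap5i7c2f2CS (hn0 j) (hcap j hj) (hlo j))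
    (fun j _ hp => cap5i7c2f2FL (hn0 j) (hrow j) hp (hp1 j))
    (fun j _ hp => cap5i7c2f2FS (hn0 j) (hrow j) (hlo j) hp.le)
  rw [card_filter_two C _ hC2 hlc, card_filter_two _ _ hF2 hlf, hlc, hlf] at key
  have h1 : n i0 ^ 2 ≤ (9/100) ^ 2 := pow_le_pow_left₀ (hn0 i0) hu 2
  have h2 := hlo i0
  norm_num at key h1 h2 ⊢
  linarith

lemma cap5i7 (n p : ι → ℝ) (i0 : ι) (C : Finset ι) (hC : C ⊆ Finset.univ.erase i0)
    (hsum : ∑ i, p i = 1) (hn0 : ∀ j, 0 ≤ n j)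
    (hrow : ∀ j, ∀ sb, 0 < sb → sb ≤ 1 → n j ≤ al4 sb * p j + be4 sb)
    (hlo : ∀ j, (53/1000) ≤ p j) (hp1 : ∀ j, p j ≤ 1) (hcap : ∀ j ∈ C, n j < (31177/100000))
    (hu : n i0 ≤ (9/100)) (hC2 : C.card = 2)
    (hF2 : (Finset.univ.erase i0 \ C).card = 2) :
    ∑ i, n i ^ 2 < (179049/500000) := by
  have hA : (C.filter fun j => (3/20) ≤ p j).card ≤ 2 := (Finset.card_filter_le _ _).trans hC2.le
  have hB : ((Finset.univ.erase i0 \ C).filter fun j => (3/20) ≤ p j).card ≤ 2 := (Finset.card_filter_le _ _).trans hF2.le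
  have hc' : (C.filter fun j => (3/20) ≤ p j).card = 0 ∨ (C.filter fun j => (3/20) ≤ p j).card = 1 ∨ (C.filter fun j => (3/20) ≤ p j).card = 2 := by omega
  have hf' : ((Finset.univ.erase i0 \ C).filter fun j => (3/20) ≤ p j).card = 0 ∨ ((Finset.univ.erase i0 \ C).filter fun j => (3/20) ≤ p j).card = 1 ∨ ((Finset.univ.erase i0 \ C).filter fun j => (3/20) ≤ p j).card = 2 := by omega
  rcases hc' with hlc | hlc | hlc <;> rcases hf' with hlf | hlf | hlf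
  · exact cap5i7c0f0 n p i0 C hC hsum hn0 hrow hlo hp1 hcap hu hC2 hF2 hlc hlf
  · exact cap5i7c0f1 n p i0 C hC hsum hn0 hrow hlo hp1 hcap hu hC2 hF2 hlc hlf
  · exact cap5i7c0f2 n p i0 C hC hsum hn0 hrow hlo hp1 hcap hu hC2 hF2 hlc hlf
  · exact cap5i7c1f0 n p i0 C hC hsum hn0 hrow hlo hp1 hcap hu hC2 hF2 hlc hlf
  · exact cap5i7c1f1 n p i0 C hC hsum hn0 hrow hlo hp1 hcap hu hC2 hF2 hlc hlf
  · exact cap5i7c1f2 n p i0 C hC hsum hn0 hrow hlo hp1 hcap hu hC2 hF2 hlc hlf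
  · exact cap5i7c2f0 n p i0 C hC hsum hn0 hrow hlo hp1 hcap hu hC2 hF2 hlc hlf
  · exact cap5i7c2f1 n p i0 C hC hsum hn0 hrow hlo hp1 hcap hu hC2 hF2 hlc hlf
  · exact cap5i7c2f2 n p i0 C hC hsum hn0 hrow hlo hp1 hcap hu hC2 hF2 hlc hlf

lemma cap5i8c0f0FL {a p : ℝ} (ha0 : 0 ≤ a) (h : ∀ sb, 0 < sb → sb ≤ 1 → a ≤ al4 sb * p + be4 sb)
    (hp : (3/20) ≤ p) (hp1 : p ≤ 1) : a ^ 2 ≤ (1/2) + (1/10) * p := by
  exact row4 (sb := (33/40)) (P := (3/20)) (Q := 1) ha0 h (by norm_num) (by norm_num) hp hp1 (by norm_num [al4, be4]) (by norm_num [al4, be4])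

lemma cap5i8c0f0FS {a p : ℝ} (ha0 : 0 ≤ a) (h : ∀ sb, 0 < sb → sb ≤ 1 → a ≤ al4 sb * p + be4 sb)
    (hp : (27/500) ≤ p) (hp1 : p ≤ (3/20)) : a ^ 2 ≤ (47041/1000000) + (1/10) * p := by
  exact row4 (sb := (3/8)) (P := (27/500)) (Q := (3/20)) ha0 h (by norm_num) (by norm_num) hp hp1 (by norm_num [al4, be4]) (by norm_num [al4, be4])

lemma cap5i8c0f0CL {a p : ℝ} (ha0 : 0 ≤ a) (hc : a < (7881/25000)) (hp : (3/20) ≤ p) : a ^ 2 ≤ (1/2) + (1/10) * p :=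
  cap_extend ha0 hc (by norm_num) (Pb := (3/20)) (by norm_num) hp

lemma cap5i8c0f0CS {a p : ℝ} (ha0 : 0 ≤ a) (h : ∀ sb, 0 < sb → sb ≤ 1 → a ≤ al4 sb * p + be4 sb)
    (hp : (27/500) ≤ p) (hp1 : p ≤ (3/20)) : a ^ 2 ≤ (47041/1000000) + (1/10) * p := by
  exact row4 (sb := (3/8)) (P := (27/500)) (Q := (3/20)) ha0 h (by norm_num) (by norm_num) hp hp1 (by norm_num [al4, be4]) (by norm_num [al4, be4])

lemma cap5i8c0f0 (n p : ι → ℝ) (i0 : ι) (C : Finset ι) (hC : C ⊆ Finset.univ.erase i0)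
    (hsum : ∑ i, p i = 1) (hn0 : ∀ j, 0 ≤ n j)
    (hrow : ∀ j, ∀ sb, 0 < sb → sb ≤ 1 → n j ≤ al4 sb * p j + be4 sb)
    (hlo : ∀ j, (27/500) ≤ p j) (hp1 : ∀ j, p j ≤ 1) (hcap : ∀ j ∈ C, n j < (7881/25000))
    (hu : n i0 ≤ (91/1000)) (hC2 : C.card = 2)
    (hF2 : (Finset.univ.erase i0 \ C).card = 2)
    (hlc : (C.filter fun j => (3/20) ≤ p j).card = 0)
    (hlf : ((Finset.univ.erase i0 \ C).filter fun j => (3/20) ≤ p j).card = 0) :
    ∑ i, n i ^ 2 < (179049/500000) := by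
  have key := joint_sum n p i0 C hC hsum (pc := (3/20)) (ACL := (1/2)) (ACS := (47041/1000000))
    (AL := (1/2)) (AS := (47041/1000000)) (B := (1/10))
    (fun j hj hp => cap5i8c0f0CL (hn0 j) (hcap j hj) hp)
    (fun j hj hp => cap5i8c0f0CS (hn0 j) (hrow j) (hlo j) hp.le)
    (fun j _ hp => cap5i8c0f0FL (hn0 j) (hrow j) hp (hp1 j))
    (fun j _ hp => cap5i8c0f0FS (hn0 j) (hrow j) (hlo j) hp.le)
  rw [card_filter_two C _ hC2 hlc, card_filter_two _ _ hF2 hlf, hlc, hlf] at key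
  have h1 : n i0 ^ 2 ≤ (91/1000) ^ 2 := pow_le_pow_left₀ (hn0 i0) hu 2
  have h2 := hlo i0
  norm_num at key h1 h2 ⊢
  linarith

lemma cap5i8c0f1FL {a p : ℝ} (ha0 : 0 ≤ a) (h : ∀ sb, 0 < sb → sb ≤ 1 → a ≤ al4 sb * p + be4 sb)
    (hp : (3/20) ≤ p) (hp1 : p ≤ 1) : a ^ 2 ≤ (23693/200000) + (1/10) * p := by
  rcases le_total p (469/800) with h0 | h0
  · exact row4 (sb := (19/20)) (P := (3/20)) (Q := (469/800)) ha0 h (by norm_num) (by norm_num) hp h0 (by norm_num [al4, be4]) (by norm_num [al4, be4])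
  exact row4 (sb := (39/40)) (P := (469/800)) (Q := 1) ha0 h (by norm_num) (by norm_num) h0 hp1 (by norm_num [al4, be4]) (by norm_num [al4, be4])

lemma cap5i8c0f1FS {a p : ℝ} (ha0 : 0 ≤ a) (h : ∀ sb, 0 < sb → sb ≤ 1 → a ≤ al4 sb * p + be4 sb)
    (hp : (27/500) ≤ p) (hp1 : p ≤ (3/20)) : a ^ 2 ≤ (36837/1000000) + (1/10) * p := by
  exact row4 (sb := (1/2)) (P := (27/500)) (Q := (3/20)) ha0 h (by norm_num) (by norm_num) hp hp1 (by norm_num [al4, be4]) (by norm_num [al4, be4])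

lemma cap5i8c0f1CL {a p : ℝ} (ha0 : 0 ≤ a) (hc : a < (7881/25000)) (hp : (3/20) ≤ p) : a ^ 2 ≤ (1/2) + (1/10) * p :=
  cap_extend ha0 hc (by norm_num) (Pb := (3/20)) (by norm_num) hp

lemma cap5i8c0f1CS {a p : ℝ} (ha0 : 0 ≤ a) (h : ∀ sb, 0 < sb → sb ≤ 1 → a ≤ al4 sb * p + be4 sb)
    (hp : (27/500) ≤ p) (hp1 : p ≤ (3/20)) : a ^ 2 ≤ (36837/1000000) + (1/10) * p := by
  exact row4 (sb := (1/2)) (P := (27/500)) (Q := (3/20)) ha0 h (by norm_num) (by norm_num) hp hp1 (by norm_num [al4, be4]) (by norm_num [al4, be4])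

lemma cap5i8c0f1 (n p : ι → ℝ) (i0 : ι) (C : Finset ι) (hC : C ⊆ Finset.univ.erase i0)
    (hsum : ∑ i, p i = 1) (hn0 : ∀ j, 0 ≤ n j)
    (hrow : ∀ j, ∀ sb, 0 < sb → sb ≤ 1 → n j ≤ al4 sb * p j + be4 sb)
    (hlo : ∀ j, (27/500) ≤ p j) (hp1 : ∀ j, p j ≤ 1) (hcap : ∀ j ∈ C, n j < (7881/25000))
    (hu : n i0 ≤ (91/1000)) (hC2 : C.card = 2)
    (hF2 : (Finset.univ.erase i0 \ C).card = 2)
    (hlc : (C.filter fun j => (3/20) ≤ p j).card = 0)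
    (hlf : ((Finset.univ.erase i0 \ C).filter fun j => (3/20) ≤ p j).card = 1) :
    ∑ i, n i ^ 2 < (179049/500000) := by
  have key := joint_sum n p i0 C hC hsum (pc := (3/20)) (ACL := (1/2)) (ACS := (36837/1000000))
    (AL := (23693/200000)) (AS := (36837/1000000)) (B := (1/10))
    (fun j hj hp => cap5i8c0f1CL (hn0 j) (hcap j hj) hp)
    (fun j hj hp => cap5i8c0f1CS (hn0 j) (hrow j) (hlo j) hp.le)
    (fun j _ hp => cap5i8c0f1FL (hn0 j) (hrow j) hp (hp1 j))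
    (fun j _ hp => cap5i8c0f1FS (hn0 j) (hrow j) (hlo j) hp.le)
  rw [card_filter_two C _ hC2 hlc, card_filter_two _ _ hF2 hlf, hlc, hlf] at key
  have h1 : n i0 ^ 2 ≤ (91/1000) ^ 2 := pow_le_pow_left₀ (hn0 i0) hu 2
  have h2 := hlo i0
  norm_num at key h1 h2 ⊢
  linarith

lemma cap5i8c0f2FL {a p : ℝ} (ha0 : 0 ≤ a) (h : ∀ sb, 0 < sb → sb ≤ 1 → a ≤ al4 sb * p + be4 sb)
    (hp : (3/20) ≤ p) (hp1 : p ≤ 1) : a ^ 2 ≤ (2959/1000000) + (19/50) * p := by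
  rcases le_total p (6259/20000) with h0 | h0
  · exact row4 (sb := (4/5)) (P := (3/20)) (Q := (6259/20000)) ha0 h (by norm_num) (by norm_num) hp h0 (by norm_num [al4, be4]) (by norm_num [al4, be4])
  rcases le_total p (4217/10000) with h1 | h1
  · exact row4 (sb := (17/20)) (P := (6259/20000)) (Q := (4217/10000)) ha0 h (by norm_num) (by norm_num) h0 h1 (by norm_num [al4, be4]) (by norm_num [al4, be4])
  exact row4 (sb := (9/10)) (P := (4217/10000)) (Q := 1) ha0 h (by norm_num) (by norm_num) h1 hp1 (by norm_num [al4, be4]) (by norm_num [al4, be4])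

lemma cap5i8c0f2FS {a p : ℝ} (ha0 : 0 ≤ a) (h : ∀ sb, 0 < sb → sb ≤ 1 → a ≤ al4 sb * p + be4 sb)
    (hp : (27/500) ≤ p) (hp1 : p ≤ (3/20)) : a ^ 2 ≤ (1/2) + (19/50) * p := by
  exact row4 (sb := (1/40)) (P := (27/500)) (Q := (3/20)) ha0 h (by norm_num) (by norm_num) hp hp1 (by norm_num [al4, be4]) (by norm_num [al4, be4])

lemma cap5i8c0f2CL {a p : ℝ} (ha0 : 0 ≤ a) (hc : a < (7881/25000)) (hp : (3/20) ≤ p) : a ^ 2 ≤ (1/2) + (19/50) * p :=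
  cap_extend ha0 hc (by norm_num) (Pb := (3/20)) (by norm_num) hp

lemma cap5i8c0f2CS {a p : ℝ} (ha0 : 0 ≤ a) (h : ∀ sb, 0 < sb → sb ≤ 1 → a ≤ al4 sb * p + be4 sb)
    (hp : (27/500) ≤ p) (hp1 : p ≤ (3/20)) : a ^ 2 ≤ (-2603/250000) + (19/50) * p := by
  exact row4 (sb := (3/5)) (P := (27/500)) (Q := (3/20)) ha0 h (by norm_num) (by norm_num) hp hp1 (by norm_num [al4, be4]) (by norm_num [al4, be4])

lemma cap5i8c0f2 (n p : ι → ℝ) (i0 : ι) (C : Finset ι) (hC : C ⊆ Finset.univ.erase i0)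
    (hsum : ∑ i, p i = 1) (hn0 : ∀ j, 0 ≤ n j)
    (hrow : ∀ j, ∀ sb, 0 < sb → sb ≤ 1 → n j ≤ al4 sb * p j + be4 sb)
    (hlo : ∀ j, (27/500) ≤ p j) (hp1 : ∀ j, p j ≤ 1) (hcap : ∀ j ∈ C, n j < (7881/25000))
    (hu : n i0 ≤ (91/1000)) (hC2 : C.card = 2)
    (hF2 : (Finset.univ.erase i0 \ C).card = 2)
    (hlc : (C.filter fun j => (3/20) ≤ p j).card = 0)
    (hlf : ((Finset.univ.erase i0 \ C).filter fun j => (3/20) ≤ p j).card = 2) :
    ∑ i, n i ^ 2 < (179049/500000) := by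
  have key := joint_sum n p i0 C hC hsum (pc := (3/20)) (ACL := (1/2)) (ACS := (-2603/250000))
    (AL := (2959/1000000)) (AS := (1/2)) (B := (19/50))
    (fun j hj hp => cap5i8c0f2CL (hn0 j) (hcap j hj) hp)
    (fun j hj hp => cap5i8c0f2CS (hn0 j) (hrow j) (hlo j) hp.le)
    (fun j _ hp => cap5i8c0f2FL (hn0 j) (hrow j) hp (hp1 j))
    (fun j _ hp => cap5i8c0f2FS (hn0 j) (hrow j) (hlo j) hp.le)
  rw [card_filter_two C _ hC2 hlc, card_filter_two _ _ hF2 hlf, hlc, hlf] at key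
  have h1 : n i0 ^ 2 ≤ (91/1000) ^ 2 := pow_le_pow_left₀ (hn0 i0) hu 2
  have h2 := hlo i0
  norm_num at key h1 h2 ⊢
  linarith

lemma cap5i8c1f0FL {a p : ℝ} (ha0 : 0 ≤ a) (h : ∀ sb, 0 < sb → sb ≤ 1 → a ≤ al4 sb * p + be4 sb)
    (hp : (3/20) ≤ p) (hp1 : p ≤ 1) : a ^ 2 ≤ (1/2) + (1/10) * p := by
  exact row4 (sb := (33/40)) (P := (3/20)) (Q := 1) ha0 h (by norm_num) (by norm_num) hp hp1 (by norm_num [al4, be4]) (by norm_num [al4, be4])

lemma cap5i8c1f0FS {a p : ℝ} (ha0 : 0 ≤ a) (h : ∀ sb, 0 < sb → sb ≤ 1 → a ≤ al4 sb * p + be4 sb)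
    (hp : (27/500) ≤ p) (hp1 : p ≤ (3/20)) : a ^ 2 ≤ (10423/250000) + (1/10) * p := by
  exact row4 (sb := (17/40)) (P := (27/500)) (Q := (3/20)) ha0 h (by norm_num) (by norm_num) hp hp1 (by norm_num [al4, be4]) (by norm_num [al4, be4])

lemma cap5i8c1f0CL {a p : ℝ} (ha0 : 0 ≤ a) (hc : a < (7881/25000)) (hp : (3/20) ≤ p) : a ^ 2 ≤ (42241/500000) + (1/10) * p :=
  cap_extend ha0 hc (by norm_num) (Pb := (3/20)) (by norm_num) hp

lemma cap5i8c1f0CS {a p : ℝ} (ha0 : 0 ≤ a) (h : ∀ sb, 0 < sb → sb ≤ 1 → a ≤ al4 sb * p + be4 sb)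
    (hp : (27/500) ≤ p) (hp1 : p ≤ (3/20)) : a ^ 2 ≤ (10423/250000) + (1/10) * p := by
  exact row4 (sb := (17/40)) (P := (27/500)) (Q := (3/20)) ha0 h (by norm_num) (by norm_num) hp hp1 (by norm_num [al4, be4]) (by norm_num [al4, be4])

lemma cap5i8c1f0 (n p : ι → ℝ) (i0 : ι) (C : Finset ι) (hC : C ⊆ Finset.univ.erase i0)
    (hsum : ∑ i, p i = 1) (hn0 : ∀ j, 0 ≤ n j)
    (hrow : ∀ j, ∀ sb, 0 < sb → sb ≤ 1 → n j ≤ al4 sb * p j + be4 sb)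
    (hlo : ∀ j, (27/500) ≤ p j) (hp1 : ∀ j, p j ≤ 1) (hcap : ∀ j ∈ C, n j < (7881/25000))
    (hu : n i0 ≤ (91/1000)) (hC2 : C.card = 2)
    (hF2 : (Finset.univ.erase i0 \ C).card = 2)
    (hlc : (C.filter fun j => (3/20) ≤ p j).card = 1)
    (hlf : ((Finset.univ.erase i0 \ C).filter fun j => (3/20) ≤ p j).card = 0) :
    ∑ i, n i ^ 2 < (179049/500000) := by
  have key := joint_sum n p i0 C hC hsum (pc := (3/20)) (ACL := (42241/500000)) (ACS := (10423/250000))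
    (AL := (1/2)) (AS := (10423/250000)) (B := (1/10))
    (fun j hj hp => cap5i8c1f0CL (hn0 j) (hcap j hj) hp)
    (fun j hj hp => cap5i8c1f0CS (hn0 j) (hrow j) (hlo j) hp.le)
    (fun j _ hp => cap5i8c1f0FL (hn0 j) (hrow j) hp (hp1 j))
    (fun j _ hp => cap5i8c1f0FS (hn0 j) (hrow j) (hlo j) hp.le)
  rw [card_filter_two C _ hC2 hlc, card_filter_two _ _ hF2 hlf, hlc, hlf] at key
  have h1 : n i0 ^ 2 ≤ (91/1000) ^ 2 := pow_le_pow_left₀ (hn0 i0) hu 2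
  have h2 := hlo i0
  norm_num at key h1 h2 ⊢
  linarith

lemma cap5i8c1f1FL {a p : ℝ} (ha0 : 0 ≤ a) (h : ∀ sb, 0 < sb → sb ≤ 1 → a ≤ al4 sb * p + be4 sb)
    (hp : (3/20) ≤ p) (hp1 : p ≤ 1) : a ^ 2 ≤ (46151/1000000) + (13/50) * p := by
  rcases le_total p (159/400) with h0 | h0
  · exact row4 (sb := (7/8)) (P := (3/20)) (Q := (159/400)) ha0 h (by norm_num) (by norm_num) hp h0 (by norm_num [al4, be4]) (by norm_num [al4, be4])
  exact row4 (sb := (37/40)) (P := (159/400)) (Q := 1) ha0 h (by norm_num) (by norm_num) h0 hp1 (by norm_num [al4, be4]) (by norm_num [al4, be4])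

lemma cap5i8c1f1FS {a p : ℝ} (ha0 : 0 ≤ a) (h : ∀ sb, 0 < sb → sb ≤ 1 → a ≤ al4 sb * p + be4 sb)
    (hp : (27/500) ≤ p) (hp1 : p ≤ (3/20)) : a ^ 2 ≤ (4151/500000) + (13/50) * p := by
  exact row4 (sb := (23/40)) (P := (27/500)) (Q := (3/20)) ha0 h (by norm_num) (by norm_num) hp hp1 (by norm_num [al4, be4]) (by norm_num [al4, be4])

lemma cap5i8c1f1CLr {a p : ℝ} (ha0 : 0 ≤ a) (h : ∀ sb, 0 < sb → sb ≤ 1 → a ≤ al4 sb * p + be4 sb)
    (hp : (3/20) ≤ p) (hp1 : p ≤ (127639/500000)) : a ^ 2 ≤ (8251/250000) + (13/50) * p := by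
  exact row4 (sb := (29/40)) (P := (3/20)) (Q := (127639/500000)) ha0 h (by norm_num) (by norm_num) hp hp1 (by norm_num [al4, be4]) (by norm_num [al4, be4])

lemma cap5i8c1f1CL {a p : ℝ} (ha0 : 0 ≤ a) (h : ∀ sb, 0 < sb → sb ≤ 1 → a ≤ al4 sb * p + be4 sb)
    (hc : a < (7881/25000)) (hp : (3/20) ≤ p) : a ^ 2 ≤ (8251/250000) + (13/50) * p := by
  rcases le_total p (127639/500000) with h1 | h1
  · exact cap5i8c1f1CLr ha0 h hp h1
  · exact cap_extend ha0 hc (by norm_num) (Pb := (127639/500000)) (by norm_num) h1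

lemma cap5i8c1f1CS {a p : ℝ} (ha0 : 0 ≤ a) (h : ∀ sb, 0 < sb → sb ≤ 1 → a ≤ al4 sb * p + be4 sb)
    (hp : (27/500) ≤ p) (hp1 : p ≤ (3/20)) : a ^ 2 ≤ (4151/500000) + (13/50) * p := by
  exact row4 (sb := (23/40)) (P := (27/500)) (Q := (3/20)) ha0 h (by norm_num) (by norm_num) hp hp1 (by norm_num [al4, be4]) (by norm_num [al4, be4])

lemma cap5i8c1f1 (n p : ι → ℝ) (i0 : ι) (C : Finset ι) (hC : C ⊆ Finset.univ.erase i0)
    (hsum : ∑ i, p i = 1) (hn0 : ∀ j, 0 ≤ n j)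
    (hrow : ∀ j, ∀ sb, 0 < sb → sb ≤ 1 → n j ≤ al4 sb * p j + be4 sb)
    (hlo : ∀ j, (27/500) ≤ p j) (hp1 : ∀ j, p j ≤ 1) (hcap : ∀ j ∈ C, n j < (7881/25000))
    (hu : n i0 ≤ (91/1000)) (hC2 : C.card = 2)
    (hF2 : (Finset.univ.erase i0 \ C).card = 2)
    (hlc : (C.filter fun j => (3/20) ≤ p j).card = 1)
    (hlf : ((Finset.univ.erase i0 \ C).filter fun j => (3/20) ≤ p j).card = 1) :
    ∑ i, n i ^ 2 < (179049/500000) := by
  have key := joint_sum n p i0 C hC hsum (pc := (3/20)) (ACL := (8251/250000)) (ACS := (4151/500000))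
    (AL := (46151/1000000)) (AS := (4151/500000)) (B := (13/50))
    (fun j hj hp => cap5i8c1f1CL (hn0 j) (hrow j) (hcap j hj) hp)
    (fun j hj hp => cap5i8c1f1CS (hn0 j) (hrow j) (hlo j) hp.le)
    (fun j _ hp => cap5i8c1f1FL (hn0 j) (hrow j) hp (hp1 j))
    (fun j _ hp => cap5i8c1f1FS (hn0 j) (hrow j) (hlo j) hp.le)
  rw [card_filter_two C _ hC2 hlc, card_filter_two _ _ hF2 hlf, hlc, hlf] at key
  have h1 : n i0 ^ 2 ≤ (91/1000) ^ 2 := pow_le_pow_left₀ (hn0 i0) hu 2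
  have h2 := hlo i0
  norm_num at key h1 h2 ⊢
  linarith

lemma cap5i8c1f2FL {a p : ℝ} (ha0 : 0 ≤ a) (h : ∀ sb, 0 < sb → sb ≤ 1 → a ≤ al4 sb * p + be4 sb)
    (hp : (3/20) ≤ p) (hp1 : p ≤ 1) : a ^ 2 ≤ (-2297/500000) + (2/5) * p := by
  rcases le_total p (2783/10000) with h0 | h0
  · exact row4 (sb := (31/40)) (P := (3/20)) (Q := (2783/10000)) ha0 h (by norm_num) (by norm_num) hp h0 (by norm_num [al4, be4]) (by norm_num [al4, be4])
  rcases le_total p (6281/20000) with h1 | h1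
  · exact row4 (sb := (33/40)) (P := (2783/10000)) (Q := (6281/20000)) ha0 h (by norm_num) (by norm_num) h0 h1 (by norm_num [al4, be4]) (by norm_num [al4, be4])
  rcases le_total p (9029/20000) with h2 | h2
  · exact row4 (sb := (17/20)) (P := (6281/20000)) (Q := (9029/20000)) ha0 h (by norm_num) (by norm_num) h1 h2 (by norm_num [al4, be4]) (by norm_num [al4, be4])
  exact row4 (sb := (9/10)) (P := (9029/20000)) (Q := 1) ha0 h (by norm_num) (by norm_num) h2 hp1 (by norm_num [al4, be4]) (by norm_num [al4, be4])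

lemma cap5i8c1f2FS {a p : ℝ} (ha0 : 0 ≤ a) (h : ∀ sb, 0 < sb → sb ≤ 1 → a ≤ al4 sb * p + be4 sb)
    (hp : (27/500) ≤ p) (hp1 : p ≤ (3/20)) : a ^ 2 ≤ (1/2) + (2/5) * p := by
  exact row4 (sb := (1/40)) (P := (27/500)) (Q := (3/20)) ha0 h (by norm_num) (by norm_num) hp hp1 (by norm_num [al4, be4]) (by norm_num [al4, be4])

lemma cap5i8c1f2CLr {a p : ℝ} (ha0 : 0 ≤ a) (h : ∀ sb, 0 < sb → sb ≤ 1 → a ≤ al4 sb * p + be4 sb)
    (hp : (3/20) ≤ p) (hp1 : p ≤ (131507/500000)) : a ^ 2 ≤ (-5829/1000000) + (2/5) * p := by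
  exact row4 (sb := (31/40)) (P := (3/20)) (Q := (131507/500000)) ha0 h (by norm_num) (by norm_num) hp hp1 (by norm_num [al4, be4]) (by norm_num [al4, be4])

lemma cap5i8c1f2CL {a p : ℝ} (ha0 : 0 ≤ a) (h : ∀ sb, 0 < sb → sb ≤ 1 → a ≤ al4 sb * p + be4 sb)
    (hc : a < (7881/25000)) (hp : (3/20) ≤ p) : a ^ 2 ≤ (-5829/1000000) + (2/5) * p := by
  rcases le_total p (131507/500000) with h1 | h1
  · exact cap5i8c1f2CLr ha0 h hp h1
  · exact cap_extend ha0 hc (by norm_num) (Pb := (131507/500000)) (by norm_num) h1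

lemma cap5i8c1f2CS {a p : ℝ} (ha0 : 0 ≤ a) (h : ∀ sb, 0 < sb → sb ≤ 1 → a ≤ al4 sb * p + be4 sb)
    (hp : (27/500) ≤ p) (hp1 : p ≤ (3/20)) : a ^ 2 ≤ (-13641/1000000) + (2/5) * p := by
  rcases le_total p (283/2500) with h0 | h0
  · exact row4 (sb := (9/20)) (P := (27/500)) (Q := (283/2500)) ha0 h (by norm_num) (by norm_num) hp h0 (by norm_num [al4, be4]) (by norm_num [al4, be4])
  exact row4 (sb := (3/5)) (P := (283/2500)) (Q := (3/20)) ha0 h (by norm_num) (by norm_num) h0 hp1 (by norm_num [al4, be4]) (by norm_num [al4, be4])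

lemma cap5i8c1f2 (n p : ι → ℝ) (i0 : ι) (C : Finset ι) (hC : C ⊆ Finset.univ.erase i0)
    (hsum : ∑ i, p i = 1) (hn0 : ∀ j, 0 ≤ n j)
    (hrow : ∀ j, ∀ sb, 0 < sb → sb ≤ 1 → n j ≤ al4 sb * p j + be4 sb)
    (hlo : ∀ j, (27/500) ≤ p j) (hp1 : ∀ j, p j ≤ 1) (hcap : ∀ j ∈ C, n j < (7881/25000))
    (hu : n i0 ≤ (91/1000)) (hC2 : C.card = 2)
    (hF2 : (Finset.univ.erase i0 \ C).card = 2)
    (hlc : (C.filter fun j => (3/20) ≤ p j).card = 1)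
    (hlf : ((Finset.univ.erase i0 \ C).filter fun j => (3/20) ≤ p j).card = 2) :
    ∑ i, n i ^ 2 < (179049/500000) := by
  have key := joint_sum n p i0 C hC hsum (pc := (3/20)) (ACL := (-5829/1000000)) (ACS := (-13641/1000000))
    (AL := (-2297/500000)) (AS := (1/2)) (B := (2/5))
    (fun j hj hp => cap5i8c1f2CL (hn0 j) (hrow j) (hcap j hj) hp)
    (fun j hj hp => cap5i8c1f2CS (hn0 j) (hrow j) (hlo j) hp.le)
    (fun j _ hp => cap5i8c1f2FL (hn0 j) (hrow j) hp (hp1 j))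
    (fun j _ hp => cap5i8c1f2FS (hn0 j) (hrow j) (hlo j) hp.le)
  rw [card_filter_two C _ hC2 hlc, card_filter_two _ _ hF2 hlf, hlc, hlf] at key
  have h1 : n i0 ^ 2 ≤ (91/1000) ^ 2 := pow_le_pow_left₀ (hn0 i0) hu 2
  have h2 := hlo i0
  norm_num at key h1 h2 ⊢
  linarith

lemma cap5i8c2f0FL {a p : ℝ} (ha0 : 0 ≤ a) (h : ∀ sb, 0 < sb → sb ≤ 1 → a ≤ al4 sb * p + be4 sb)
    (hp : (3/20) ≤ p) (hp1 : p ≤ 1) : a ^ 2 ≤ (1/2) + (1/10) * p := by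
  exact row4 (sb := (33/40)) (P := (3/20)) (Q := 1) ha0 h (by norm_num) (by norm_num) hp hp1 (by norm_num [al4, be4]) (by norm_num [al4, be4])

lemma cap5i8c2f0FS {a p : ℝ} (ha0 : 0 ≤ a) (h : ∀ sb, 0 < sb → sb ≤ 1 → a ≤ al4 sb * p + be4 sb)
    (hp : (27/500) ≤ p) (hp1 : p ≤ (3/20)) : a ^ 2 ≤ (36343/1000000) + (1/10) * p := by
  exact row4 (sb := (1/2)) (P := (27/500)) (Q := (3/20)) ha0 h (by norm_num) (by norm_num) hp hp1 (by norm_num [al4, be4]) (by norm_num [al4, be4])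

lemma cap5i8c2f0CLr {a p : ℝ} (ha0 : 0 ≤ a) (h : ∀ sb, 0 < sb → sb ≤ 1 → a ≤ al4 sb * p + be4 sb)
    (hp : (3/20) ≤ p) (hp1 : p ≤ (202423/1000000)) : a ^ 2 ≤ (39567/500000) + (1/10) * p := by
  exact row4 (sb := (9/20)) (P := (3/20)) (Q := (202423/1000000)) ha0 h (by norm_num) (by norm_num) hp hp1 (by norm_num [al4, be4]) (by norm_num [al4, be4])

lemma cap5i8c2f0CL {a p : ℝ} (ha0 : 0 ≤ a) (h : ∀ sb, 0 < sb → sb ≤ 1 → a ≤ al4 sb * p + be4 sb)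
    (hc : a < (7881/25000)) (hp : (3/20) ≤ p) : a ^ 2 ≤ (39567/500000) + (1/10) * p := by
  rcases le_total p (202423/1000000) with h1 | h1
  · exact cap5i8c2f0CLr ha0 h hp h1
  · exact cap_extend ha0 hc (by norm_num) (Pb := (202423/1000000)) (by norm_num) h1

lemma cap5i8c2f0CS {a p : ℝ} (ha0 : 0 ≤ a) (hc : a < (7881/25000)) (hp : (27/500) ≤ p) : a ^ 2 ≤ (1/2) + (1/10) * p :=
  cap_extend ha0 hc (by norm_num) (Pb := (27/500)) (by norm_num) hp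

lemma cap5i8c2f0 (n p : ι → ℝ) (i0 : ι) (C : Finset ι) (hC : C ⊆ Finset.univ.erase i0)
    (hsum : ∑ i, p i = 1) (hn0 : ∀ j, 0 ≤ n j)
    (hrow : ∀ j, ∀ sb, 0 < sb → sb ≤ 1 → n j ≤ al4 sb * p j + be4 sb)
    (hlo : ∀ j, (27/500) ≤ p j) (hp1 : ∀ j, p j ≤ 1) (hcap : ∀ j ∈ C, n j < (7881/25000))
    (hu : n i0 ≤ (91/1000)) (hC2 : C.card = 2)
    (hF2 : (Finset.univ.erase i0 \ C).card = 2)
    (hlc : (C.filter fun j => (3/20) ≤ p j).card = 2)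
    (hlf : ((Finset.univ.erase i0 \ C).filter fun j => (3/20) ≤ p j).card = 0) :
    ∑ i, n i ^ 2 < (179049/500000) := by
  have key := joint_sum n p i0 C hC hsum (pc := (3/20)) (ACL := (39567/500000)) (ACS := (1/2))
    (AL := (1/2)) (AS := (36343/1000000)) (B := (1/10))
    (fun j hj hp => cap5i8c2f0CL (hn0 j) (hrow j) (hcap j hj) hp)
    (fun j hj hp => cap5i8c2f0CS (hn0 j) (hcap j hj) (hlo j))
    (fun j _ hp => cap5i8c2f0FL (hn0 j) (hrow j) hp (hp1 j))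
    (fun j _ hp => cap5i8c2f0FS (hn0 j) (hrow j) (hlo j) hp.le)
  rw [card_filter_two C _ hC2 hlc, card_filter_two _ _ hF2 hlf, hlc, hlf] at key
  have h1 : n i0 ^ 2 ≤ (91/1000) ^ 2 := pow_le_pow_left₀ (hn0 i0) hu 2
  have h2 := hlo i0
  norm_num at key h1 h2 ⊢
  linarith

lemma cap5i8c2f1FL {a p : ℝ} (ha0 : 0 ≤ a) (h : ∀ sb, 0 < sb → sb ≤ 1 → a ≤ al4 sb * p + be4 sb)
    (hp : (3/20) ≤ p) (hp1 : p ≤ 1) : a ^ 2 ≤ (923/500000) + (19/50) * p := by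
  rcases le_total p (3001/10000) with h0 | h0
  · exact row4 (sb := (4/5)) (P := (3/20)) (Q := (3001/10000)) ha0 h (by norm_num) (by norm_num) hp h0 (by norm_num [al4, be4]) (by norm_num [al4, be4])
  rcases le_total p (3181/10000) with h1 | h1
  · exact row4 (sb := (33/40)) (P := (3001/10000)) (Q := (3181/10000)) ha0 h (by norm_num) (by norm_num) h0 h1 (by norm_num [al4, be4]) (by norm_num [al4, be4])
  rcases le_total p (7739/20000) with h2 | h2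
  · exact row4 (sb := (17/20)) (P := (3181/10000)) (Q := (7739/20000)) ha0 h (by norm_num) (by norm_num) h1 h2 (by norm_num [al4, be4]) (by norm_num [al4, be4])
  exact row4 (sb := (9/10)) (P := (7739/20000)) (Q := 1) ha0 h (by norm_num) (by norm_num) h2 hp1 (by norm_num [al4, be4]) (by norm_num [al4, be4])

lemma cap5i8c2f1FS {a p : ℝ} (ha0 : 0 ≤ a) (h : ∀ sb, 0 < sb → sb ≤ 1 → a ≤ al4 sb * p + be4 sb)
    (hp : (27/500) ≤ p) (hp1 : p ≤ (3/20)) : a ^ 2 ≤ (-461/40000) + (19/50) * p := by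
  rcases le_total p (681/5000) with h0 | h0
  · exact row4 (sb := (11/20)) (P := (27/500)) (Q := (681/5000)) ha0 h (by norm_num) (by norm_num) hp h0 (by norm_num [al4, be4]) (by norm_num [al4, be4])
  exact row4 (sb := (5/8)) (P := (681/5000)) (Q := (3/20)) ha0 h (by norm_num) (by norm_num) h0 hp1 (by norm_num [al4, be4]) (by norm_num [al4, be4])

lemma cap5i8c2f1CLr {a p : ℝ} (ha0 : 0 ≤ a) (h : ∀ sb, 0 < sb → sb ≤ 1 → a ≤ al4 sb * p + be4 sb)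
    (hp : (3/20) ≤ p) (hp1 : p ≤ (131269/500000)) : a ^ 2 ≤ (-97/250000) + (19/50) * p := by
  exact row4 (sb := (31/40)) (P := (3/20)) (Q := (131269/500000)) ha0 h (by norm_num) (by norm_num) hp hp1 (by norm_num [al4, be4]) (by norm_num [al4, be4])

lemma cap5i8c2f1CL {a p : ℝ} (ha0 : 0 ≤ a) (h : ∀ sb, 0 < sb → sb ≤ 1 → a ≤ al4 sb * p + be4 sb)
    (hc : a < (7881/25000)) (hp : (3/20) ≤ p) : a ^ 2 ≤ (-97/250000) + (19/50) * p := by
  rcases le_total p (131269/500000) with h1 | h1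
  · exact cap5i8c2f1CLr ha0 h hp h1
  · exact cap_extend ha0 hc (by norm_num) (Pb := (131269/500000)) (by norm_num) h1

lemma cap5i8c2f1CS {a p : ℝ} (ha0 : 0 ≤ a) (hc : a < (7881/25000)) (hp : (27/500) ≤ p) : a ^ 2 ≤ (1/2) + (19/50) * p :=
  cap_extend ha0 hc (by norm_num) (Pb := (27/500)) (by norm_num) hp

lemma cap5i8c2f1 (n p : ι → ℝ) (i0 : ι) (C : Finset ι) (hC : C ⊆ Finset.univ.erase i0)
    (hsum : ∑ i, p i = 1) (hn0 : ∀ j, 0 ≤ n j)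
    (hrow : ∀ j, ∀ sb, 0 < sb → sb ≤ 1 → n j ≤ al4 sb * p j + be4 sb)
    (hlo : ∀ j, (27/500) ≤ p j) (hp1 : ∀ j, p j ≤ 1) (hcap : ∀ j ∈ C, n j < (7881/25000))
    (hu : n i0 ≤ (91/1000)) (hC2 : C.card = 2)
    (hF2 : (Finset.univ.erase i0 \ C).card = 2)
    (hlc : (C.filter fun j => (3/20) ≤ p j).card = 2)
    (hlf : ((Finset.univ.erase i0 \ C).filter fun j => (3/20) ≤ p j).card = 1) :
    ∑ i, n i ^ 2 < (179049/500000) := by
  have key := joint_sum n p i0 C hC hsum (pc := (3/20)) (ACL := (-97/250000)) (ACS := (1/2))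
    (AL := (923/500000)) (AS := (-461/40000)) (B := (19/50))
    (fun j hj hp => cap5i8c2f1CL (hn0 j) (hrow j) (hcap j hj) hp)
    (fun j hj hp => cap5i8c2f1CS (hn0 j) (hcap j hj) (hlo j))
    (fun j _ hp => cap5i8c2f1FL (hn0 j) (hrow j) hp (hp1 j))
    (fun j _ hp => cap5i8c2f1FS (hn0 j) (hrow j) (hlo j) hp.le)
  rw [card_filter_two C _ hC2 hlc, card_filter_two _ _ hF2 hlf, hlc, hlf] at key
  have h1 : n i0 ^ 2 ≤ (91/1000) ^ 2 := pow_le_pow_left₀ (hn0 i0) hu 2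
  have h2 := hlo i0
  norm_num at key h1 h2 ⊢
  linarith

lemma cap5i8c2f2FL {a p : ℝ} (ha0 : 0 ≤ a) (h : ∀ sb, 0 < sb → sb ≤ 1 → a ≤ al4 sb * p + be4 sb)
    (hp : (3/20) ≤ p) (hp1 : p ≤ 1) : a ^ 2 ≤ (-26259/1000000) + (12/25) * p := by
  rcases le_total p (3873/20000) with h0 | h0
  · exact row4 (sb := (27/40)) (P := (3/20)) (Q := (3873/20000)) ha0 h (by norm_num) (by norm_num) hp h0 (by norm_num [al4, be4]) (by norm_num [al4, be4])
  rcases le_total p (4541/20000) with h1 | h1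
  · exact row4 (sb := (29/40)) (P := (3873/20000)) (Q := (4541/20000)) ha0 h (by norm_num) (by norm_num) h0 h1 (by norm_num [al4, be4]) (by norm_num [al4, be4])
  rcases le_total p (507/2000) with h2 | h2
  · exact row4 (sb := (3/4)) (P := (4541/20000)) (Q := (507/2000)) ha0 h (by norm_num) (by norm_num) h1 h2 (by norm_num [al4, be4]) (by norm_num [al4, be4])
  rcases le_total p (3889/10000) with h3 | h3
  · exact row4 (sb := (4/5)) (P := (507/2000)) (Q := (3889/10000)) ha0 h (by norm_num) (by norm_num) h2 h3 (by norm_num [al4, be4]) (by norm_num [al4, be4])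
  exact row4 (sb := (7/8)) (P := (3889/10000)) (Q := 1) ha0 h (by norm_num) (by norm_num) h3 hp1 (by norm_num [al4, be4]) (by norm_num [al4, be4])

lemma cap5i8c2f2FS {a p : ℝ} (ha0 : 0 ≤ a) (h : ∀ sb, 0 < sb → sb ≤ 1 → a ≤ al4 sb * p + be4 sb)
    (hp : (27/500) ≤ p) (hp1 : p ≤ (3/20)) : a ^ 2 ≤ (1/2) + (12/25) * p := by
  exact row4 (sb := (1/40)) (P := (27/500)) (Q := (3/20)) ha0 h (by norm_num) (by norm_num) hp hp1 (by norm_num [al4, be4]) (by norm_num [al4, be4])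

lemma cap5i8c2f2CLr {a p : ℝ} (ha0 : 0 ≤ a) (h : ∀ sb, 0 < sb → sb ≤ 1 → a ≤ al4 sb * p + be4 sb)
    (hp : (3/20) ≤ p) (hp1 : p ≤ (261741/1000000)) : a ^ 2 ≤ (-26259/1000000) + (12/25) * p := by
  rcases le_total p (3873/20000) with h0 | h0
  · exact row4 (sb := (27/40)) (P := (3/20)) (Q := (3873/20000)) ha0 h (by norm_num) (by norm_num) hp h0 (by norm_num [al4, be4]) (by norm_num [al4, be4])
  rcases le_total p (4541/20000) with h1 | h1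
  · exact row4 (sb := (29/40)) (P := (3873/20000)) (Q := (4541/20000)) ha0 h (by norm_num) (by norm_num) h0 h1 (by norm_num [al4, be4]) (by norm_num [al4, be4])
  rcases le_total p (507/2000) with h2 | h2
  · exact row4 (sb := (3/4)) (P := (4541/20000)) (Q := (507/2000)) ha0 h (by norm_num) (by norm_num) h1 h2 (by norm_num [al4, be4]) (by norm_num [al4, be4])
  exact row4 (sb := (31/40)) (P := (507/2000)) (Q := (261741/1000000)) ha0 h (by norm_num) (by norm_num) h2 hp1 (by norm_num [al4, be4]) (by norm_num [al4, be4])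

lemma cap5i8c2f2CL {a p : ℝ} (ha0 : 0 ≤ a) (h : ∀ sb, 0 < sb → sb ≤ 1 → a ≤ al4 sb * p + be4 sb)
    (hc : a < (7881/25000)) (hp : (3/20) ≤ p) : a ^ 2 ≤ (-26259/1000000) + (12/25) * p := by
  rcases le_total p (261741/1000000) with h1 | h1
  · exact cap5i8c2f2CLr ha0 h hp h1
  · exact cap_extend ha0 hc (by norm_num) (Pb := (261741/1000000)) (by norm_num) h1

lemma cap5i8c2f2CS {a p : ℝ} (ha0 : 0 ≤ a) (hc : a < (7881/25000)) (hp : (27/500) ≤ p) : a ^ 2 ≤ (1/2) + (12/25) * p :=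
  cap_extend ha0 hc (by norm_num) (Pb := (27/500)) (by norm_num) hp

lemma cap5i8c2f2 (n p : ι → ℝ) (i0 : ι) (C : Finset ι) (hC : C ⊆ Finset.univ.erase i0)
    (hsum : ∑ i, p i = 1) (hn0 : ∀ j, 0 ≤ n j)
    (hrow : ∀ j, ∀ sb, 0 < sb → sb ≤ 1 → n j ≤ al4 sb * p j + be4 sb)
    (hlo : ∀ j, (27/500) ≤ p j) (hp1 : ∀ j, p j ≤ 1) (hcap : ∀ j ∈ C, n j < (7881/25000))
    (hu : n i0 ≤ (91/1000)) (hC2 : C.card = 2)
    (hF2 : (Finset.univ.erase i0 \ C).card = 2)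
    (hlc : (C.filter fun j => (3/20) ≤ p j).card = 2)
    (hlf : ((Finset.univ.erase i0 \ C).filter fun j => (3/20) ≤ p j).card = 2) :
    ∑ i, n i ^ 2 < (179049/500000) := by
  have key := joint_sum n p i0 C hC hsum (pc := (3/20)) (ACL := (-26259/1000000)) (ACS := (1/2))
    (AL := (-26259/1000000)) (AS := (1/2)) (B := (12/25))
    (fun j hj hp => cap5i8c2f2CL (hn0 j) (hrow j) (hcap j hj) hp)
    (fun j hj hp => cap5i8c2f2CS (hn0 j) (hcap j hj) (hlo j))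
    (fun j _ hp => cap5i8c2f2FL (hn0 j) (hrow j) hp (hp1 j))
    (fun j _ hp => cap5i8c2f2FS (hn0 j) (hrow j) (hlo j) hp.le)
  rw [card_filter_two C _ hC2 hlc, card_filter_two _ _ hF2 hlf, hlc, hlf] at key
  have h1 : n i0 ^ 2 ≤ (91/1000) ^ 2 := pow_le_pow_left₀ (hn0 i0) hu 2
  have h2 := hlo i0
  norm_num at key h1 h2 ⊢
  linarith

lemma cap5i8 (n p : ι → ℝ) (i0 : ι) (C : Finset ι) (hC : C ⊆ Finset.univ.erase i0)
    (hsum : ∑ i, p i = 1) (hn0 : ∀ j, 0 ≤ n j)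
    (hrow : ∀ j, ∀ sb, 0 < sb → sb ≤ 1 → n j ≤ al4 sb * p j + be4 sb)
    (hlo : ∀ j, (27/500) ≤ p j) (hp1 : ∀ j, p j ≤ 1) (hcap : ∀ j ∈ C, n j < (7881/25000))
    (hu : n i0 ≤ (91/1000)) (hC2 : C.card = 2)
    (hF2 : (Finset.univ.erase i0 \ C).card = 2) :
    ∑ i, n i ^ 2 < (179049/500000) := by
  have hA : (C.filter fun j => (3/20) ≤ p j).card ≤ 2 := (Finset.card_filter_le _ _).trans hC2.le
  have hB : ((Finset.univ.erase i0 \ C).filter fun j => (3/20) ≤ p j).card ≤ 2 := (Finset.card_filter_le _ _).trans hF2.le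
  have hc' : (C.filter fun j => (3/20) ≤ p j).card = 0 ∨ (C.filter fun j => (3/20) ≤ p j).card = 1 ∨ (C.filter fun j => (3/20) ≤ p j).card = 2 := by omega
  have hf' : ((Finset.univ.erase i0 \ C).filter fun j => (3/20) ≤ p j).card = 0 ∨ ((Finset.univ.erase i0 \ C).filter fun j => (3/20) ≤ p j).card = 1 ∨ ((Finset.univ.erase i0 \ C).filter fun j => (3/20) ≤ p j).card = 2 := by omega
  rcases hc' with hlc | hlc | hlc <;> rcases hf' with hlf | hlf | hlf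
  · exact cap5i8c0f0 n p i0 C hC hsum hn0 hrow hlo hp1 hcap hu hC2 hF2 hlc hlf
  · exact cap5i8c0f1 n p i0 C hC hsum hn0 hrow hlo hp1 hcap hu hC2 hF2 hlc hlf
  · exact cap5i8c0f2 n p i0 C hC hsum hn0 hrow hlo hp1 hcap hu hC2 hF2 hlc hlf
  · exact cap5i8c1f0 n p i0 C hC hsum hn0 hrow hlo hp1 hcap hu hC2 hF2 hlc hlf
  · exact cap5i8c1f1 n p i0 C hC hsum hn0 hrow hlo hp1 hcap hu hC2 hF2 hlc hlf
  · exact cap5i8c1f2 n p i0 C hC hsum hn0 hrow hlo hp1 hcap hu hC2 hF2 hlc hlf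
  · exact cap5i8c2f0 n p i0 C hC hsum hn0 hrow hlo hp1 hcap hu hC2 hF2 hlc hlf
  · exact cap5i8c2f1 n p i0 C hC hsum hn0 hrow hlo hp1 hcap hu hC2 hF2 hlc hlf
  · exact cap5i8c2f2 n p i0 C hC hsum hn0 hrow hlo hp1 hcap hu hC2 hF2 hlc hlf

lemma cap5i9c0f0FL {a p : ℝ} (ha0 : 0 ≤ a) (h : ∀ sb, 0 < sb → sb ≤ 1 → a ≤ al4 sb * p + be4 sb)
    (hp : (3/20) ≤ p) (hp1 : p ≤ 1) : a ^ 2 ≤ (1/2) + (1/10) * p := by
  exact row4 (sb := (33/40)) (P := (3/20)) (Q := 1) ha0 h (by norm_num) (by norm_num) hp hp1 (by norm_num [al4, be4]) (by norm_num [al4, be4])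

lemma cap5i9c0f0FS {a p : ℝ} (ha0 : 0 ≤ a) (h : ∀ sb, 0 < sb → sb ≤ 1 → a ≤ al4 sb * p + be4 sb)
    (hp : (11/200) ≤ p) (hp1 : p ≤ (3/20)) : a ^ 2 ≤ (47019/1000000) + (1/10) * p := by
  exact row4 (sb := (3/8)) (P := (11/200)) (Q := (3/20)) ha0 h (by norm_num) (by norm_num) hp hp1 (by norm_num [al4, be4]) (by norm_num [al4, be4])

lemma cap5i9c0f0CL {a p : ℝ} (ha0 : 0 ≤ a) (hc : a < (32043/100000)) (hp : (3/20) ≤ p) : a ^ 2 ≤ (1/2) + (1/10) * p :=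
  cap_extend ha0 hc (by norm_num) (Pb := (3/20)) (by norm_num) hp

lemma cap5i9c0f0CS {a p : ℝ} (ha0 : 0 ≤ a) (h : ∀ sb, 0 < sb → sb ≤ 1 → a ≤ al4 sb * p + be4 sb)
    (hp : (11/200) ≤ p) (hp1 : p ≤ (3/20)) : a ^ 2 ≤ (47019/1000000) + (1/10) * p := by
  exact row4 (sb := (3/8)) (P := (11/200)) (Q := (3/20)) ha0 h (by norm_num) (by norm_num) hp hp1 (by norm_num [al4, be4]) (by norm_num [al4, be4])

lemma cap5i9c0f0 (n p : ι → ℝ) (i0 : ι) (C : Finset ι) (hC : C ⊆ Finset.univ.erase i0)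
    (hsum : ∑ i, p i = 1) (hn0 : ∀ j, 0 ≤ n j)
    (hrow : ∀ j, ∀ sb, 0 < sb → sb ≤ 1 → n j ≤ al4 sb * p j + be4 sb)
    (hlo : ∀ j, (11/200) ≤ p j) (hp1 : ∀ j, p j ≤ 1) (hcap : ∀ j ∈ C, n j < (32043/100000))
    (hu : n i0 ≤ (37/400)) (hC2 : C.card = 2)
    (hF2 : (Finset.univ.erase i0 \ C).card = 2)
    (hlc : (C.filter fun j => (3/20) ≤ p j).card = 0)
    (hlf : ((Finset.univ.erase i0 \ C).filter fun j => (3/20) ≤ p j).card = 0) :
    ∑ i, n i ^ 2 < (179049/500000) := by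
  have key := joint_sum n p i0 C hC hsum (pc := (3/20)) (ACL := (1/2)) (ACS := (47019/1000000))
    (AL := (1/2)) (AS := (47019/1000000)) (B := (1/10))
    (fun j hj hp => cap5i9c0f0CL (hn0 j) (hcap j hj) hp)
    (fun j hj hp => cap5i9c0f0CS (hn0 j) (hrow j) (hlo j) hp.le)
    (fun j _ hp => cap5i9c0f0FL (hn0 j) (hrow j) hp (hp1 j))
    (fun j _ hp => cap5i9c0f0FS (hn0 j) (hrow j) (hlo j) hp.le)
  rw [card_filter_two C _ hC2 hlc, card_filter_two _ _ hF2 hlf, hlc, hlf] at key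
  have h1 : n i0 ^ 2 ≤ (37/400) ^ 2 := pow_le_pow_left₀ (hn0 i0) hu 2
  have h2 := hlo i0
  norm_num at key h1 h2 ⊢
  linarith

lemma cap5i9c0f1FL {a p : ℝ} (ha0 : 0 ≤ a) (h : ∀ sb, 0 < sb → sb ≤ 1 → a ≤ al4 sb * p + be4 sb)
    (hp : (3/20) ≤ p) (hp1 : p ≤ 1) : a ^ 2 ≤ (118443/1000000) + (1/10) * p := by
  rcases le_total p (2929/5000) with h0 | h0
  · exact row4 (sb := (19/20)) (P := (3/20)) (Q := (2929/5000)) ha0 h (by norm_num) (by norm_num) hp h0 (by norm_num [al4, be4]) (by norm_num [al4, be4])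
  exact row4 (sb := (39/40)) (P := (2929/5000)) (Q := 1) ha0 h (by norm_num) (by norm_num) h0 hp1 (by norm_num [al4, be4]) (by norm_num [al4, be4])

lemma cap5i9c0f1FS {a p : ℝ} (ha0 : 0 ≤ a) (h : ∀ sb, 0 < sb → sb ≤ 1 → a ≤ al4 sb * p + be4 sb)
    (hp : (11/200) ≤ p) (hp1 : p ≤ (3/20)) : a ^ 2 ≤ (7363/200000) + (1/10) * p := by
  exact row4 (sb := (1/2)) (P := (11/200)) (Q := (3/20)) ha0 h (by norm_num) (by norm_num) hp hp1 (by norm_num [al4, be4]) (by norm_num [al4, be4])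

lemma cap5i9c0f1CL {a p : ℝ} (ha0 : 0 ≤ a) (hc : a < (32043/100000)) (hp : (3/20) ≤ p) : a ^ 2 ≤ (1/2) + (1/10) * p :=
  cap_extend ha0 hc (by norm_num) (Pb := (3/20)) (by norm_num) hp

lemma cap5i9c0f1CS {a p : ℝ} (ha0 : 0 ≤ a) (h : ∀ sb, 0 < sb → sb ≤ 1 → a ≤ al4 sb * p + be4 sb)
    (hp : (11/200) ≤ p) (hp1 : p ≤ (3/20)) : a ^ 2 ≤ (7363/200000) + (1/10) * p := by
  exact row4 (sb := (1/2)) (P := (11/200)) (Q := (3/20)) ha0 h (by norm_num) (by norm_num) hp hp1 (by norm_num [al4, be4]) (by norm_num [al4, be4])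

lemma cap5i9c0f1 (n p : ι → ℝ) (i0 : ι) (C : Finset ι) (hC : C ⊆ Finset.univ.erase i0)
    (hsum : ∑ i, p i = 1) (hn0 : ∀ j, 0 ≤ n j)
    (hrow : ∀ j, ∀ sb, 0 < sb → sb ≤ 1 → n j ≤ al4 sb * p j + be4 sb)
    (hlo : ∀ j, (11/200) ≤ p j) (hp1 : ∀ j, p j ≤ 1) (hcap : ∀ j ∈ C, n j < (32043/100000))
    (hu : n i0 ≤ (37/400)) (hC2 : C.card = 2)
    (hF2 : (Finset.univ.erase i0 \ C).card = 2)
    (hlc : (C.filter fun j => (3/20) ≤ p j).card = 0)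
    (hlf : ((Finset.univ.erase i0 \ C).filter fun j => (3/20) ≤ p j).card = 1) :
    ∑ i, n i ^ 2 < (179049/500000) := by
  have key := joint_sum n p i0 C hC hsum (pc := (3/20)) (ACL := (1/2)) (ACS := (7363/200000))
    (AL := (118443/1000000)) (AS := (7363/200000)) (B := (1/10))
    (fun j hj hp => cap5i9c0f1CL (hn0 j) (hcap j hj) hp)
    (fun j hj hp => cap5i9c0f1CS (hn0 j) (hrow j) (hlo j) hp.le)
    (fun j _ hp => cap5i9c0f1FL (hn0 j) (hrow j) hp (hp1 j))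
    (fun j _ hp => cap5i9c0f1FS (hn0 j) (hrow j) (hlo j) hp.le)
  rw [card_filter_two C _ hC2 hlc, card_filter_two _ _ hF2 hlf, hlc, hlf] at key
  have h1 : n i0 ^ 2 ≤ (37/400) ^ 2 := pow_le_pow_left₀ (hn0 i0) hu 2
  have h2 := hlo i0
  norm_num at key h1 h2 ⊢
  linarith

lemma cap5i9c0f2FL {a p : ℝ} (ha0 : 0 ≤ a) (h : ∀ sb, 0 < sb → sb ≤ 1 → a ≤ al4 sb * p + be4 sb)
    (hp : (3/20) ≤ p) (hp1 : p ≤ 1) : a ^ 2 ≤ (743/250000) + (19/50) * p := by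
  rcases le_total p (3131/10000) with h0 | h0
  · exact row4 (sb := (4/5)) (P := (3/20)) (Q := (3131/10000)) ha0 h (by norm_num) (by norm_num) hp h0 (by norm_num [al4, be4]) (by norm_num [al4, be4])
  rcases le_total p (211/500) with h1 | h1
  · exact row4 (sb := (17/20)) (P := (3131/10000)) (Q := (211/500)) ha0 h (by norm_num) (by norm_num) h0 h1 (by norm_num [al4, be4]) (by norm_num [al4, be4])
  exact row4 (sb := (9/10)) (P := (211/500)) (Q := 1) ha0 h (by norm_num) (by norm_num) h1 hp1 (by norm_num [al4, be4]) (by norm_num [al4, be4])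

lemma cap5i9c0f2FS {a p : ℝ} (ha0 : 0 ≤ a) (h : ∀ sb, 0 < sb → sb ≤ 1 → a ≤ al4 sb * p + be4 sb)
    (hp : (11/200) ≤ p) (hp1 : p ≤ (3/20)) : a ^ 2 ≤ (1/2) + (19/50) * p := by
  exact row4 (sb := (1/40)) (P := (11/200)) (Q := (3/20)) ha0 h (by norm_num) (by norm_num) hp hp1 (by norm_num [al4, be4]) (by norm_num [al4, be4])

lemma cap5i9c0f2CL {a p : ℝ} (ha0 : 0 ≤ a) (hc : a < (32043/100000)) (hp : (3/20) ≤ p) : a ^ 2 ≤ (1/2) + (19/50) * p :=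
  cap_extend ha0 hc (by norm_num) (Pb := (3/20)) (by norm_num) hp

lemma cap5i9c0f2CS {a p : ℝ} (ha0 : 0 ≤ a) (h : ∀ sb, 0 < sb → sb ≤ 1 → a ≤ al4 sb * p + be4 sb)
    (hp : (11/200) ≤ p) (hp1 : p ≤ (3/20)) : a ^ 2 ≤ (-10399/1000000) + (19/50) * p := by
  exact row4 (sb := (3/5)) (P := (11/200)) (Q := (3/20)) ha0 h (by norm_num) (by norm_num) hp hp1 (by norm_num [al4, be4]) (by norm_num [al4, be4])

lemma cap5i9c0f2 (n p : ι → ℝ) (i0 : ι) (C : Finset ι) (hC : C ⊆ Finset.univ.erase i0)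
    (hsum : ∑ i, p i = 1) (hn0 : ∀ j, 0 ≤ n j)
    (hrow : ∀ j, ∀ sb, 0 < sb → sb ≤ 1 → n j ≤ al4 sb * p j + be4 sb)
    (hlo : ∀ j, (11/200) ≤ p j) (hp1 : ∀ j, p j ≤ 1) (hcap : ∀ j ∈ C, n j < (32043/100000))
    (hu : n i0 ≤ (37/400)) (hC2 : C.card = 2)
    (hF2 : (Finset.univ.erase i0 \ C).card = 2)
    (hlc : (C.filter fun j => (3/20) ≤ p j).card = 0)
    (hlf : ((Finset.univ.erase i0 \ C).filter fun j => (3/20) ≤ p j).card = 2) :
    ∑ i, n i ^ 2 < (179049/500000) := by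
  have key := joint_sum n p i0 C hC hsum (pc := (3/20)) (ACL := (1/2)) (ACS := (-10399/1000000))
    (AL := (743/250000)) (AS := (1/2)) (B := (19/50))
    (fun j hj hp => cap5i9c0f2CL (hn0 j) (hcap j hj) hp)
    (fun j hj hp => cap5i9c0f2CS (hn0 j) (hrow j) (hlo j) hp.le)
    (fun j _ hp => cap5i9c0f2FL (hn0 j) (hrow j) hp (hp1 j))
    (fun j _ hp => cap5i9c0f2FS (hn0 j) (hrow j) (hlo j) hp.le)
  rw [card_filter_two C _ hC2 hlc, card_filter_two _ _ hF2 hlf, hlc, hlf] at key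
  have h1 : n i0 ^ 2 ≤ (37/400) ^ 2 := pow_le_pow_left₀ (hn0 i0) hu 2
  have h2 := hlo i0
  norm_num at key h1 h2 ⊢
  linarith

lemma cap5i9c1f0FL {a p : ℝ} (ha0 : 0 ≤ a) (h : ∀ sb, 0 < sb → sb ≤ 1 → a ≤ al4 sb * p + be4 sb)
    (hp : (3/20) ≤ p) (hp1 : p ≤ 1) : a ^ 2 ≤ (1/2) + (1/10) * p := by
  exact row4 (sb := (33/40)) (P := (3/20)) (Q := 1) ha0 h (by norm_num) (by norm_num) hp hp1 (by norm_num [al4, be4]) (by norm_num [al4, be4])

lemma cap5i9c1f0FS {a p : ℝ} (ha0 : 0 ≤ a) (h : ∀ sb, 0 < sb → sb ≤ 1 → a ≤ al4 sb * p + be4 sb)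
    (hp : (11/200) ≤ p) (hp1 : p ≤ (3/20)) : a ^ 2 ≤ (41351/1000000) + (1/10) * p := by
  exact row4 (sb := (17/40)) (P := (11/200)) (Q := (3/20)) ha0 h (by norm_num) (by norm_num) hp hp1 (by norm_num [al4, be4]) (by norm_num [al4, be4])

lemma cap5i9c1f0CLr {a p : ℝ} (ha0 : 0 ≤ a) (h : ∀ sb, 0 < sb → sb ≤ 1 → a ≤ al4 sb * p + be4 sb)
    (hp : (3/20) ≤ p) (hp1 : p ≤ (79917/500000)) : a ^ 2 ≤ (21673/250000) + (1/10) * p := by
  exact row4 (sb := (1/40)) (P := (3/20)) (Q := (79917/500000)) ha0 h (by norm_num) (by norm_num) hp hp1 (by norm_num [al4, be4]) (by norm_num [al4, be4])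

lemma cap5i9c1f0CL {a p : ℝ} (ha0 : 0 ≤ a) (h : ∀ sb, 0 < sb → sb ≤ 1 → a ≤ al4 sb * p + be4 sb)
    (hc : a < (32043/100000)) (hp : (3/20) ≤ p) : a ^ 2 ≤ (21673/250000) + (1/10) * p := by
  rcases le_total p (79917/500000) with h1 | h1
  · exact cap5i9c1f0CLr ha0 h hp h1
  · exact cap_extend ha0 hc (by norm_num) (Pb := (79917/500000)) (by norm_num) h1

lemma cap5i9c1f0CS {a p : ℝ} (ha0 : 0 ≤ a) (h : ∀ sb, 0 < sb → sb ≤ 1 → a ≤ al4 sb * p + be4 sb)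
    (hp : (11/200) ≤ p) (hp1 : p ≤ (3/20)) : a ^ 2 ≤ (41351/1000000) + (1/10) * p := by
  exact row4 (sb := (17/40)) (P := (11/200)) (Q := (3/20)) ha0 h (by norm_num) (by norm_num) hp hp1 (by norm_num [al4, be4]) (by norm_num [al4, be4])

lemma cap5i9c1f0 (n p : ι → ℝ) (i0 : ι) (C : Finset ι) (hC : C ⊆ Finset.univ.erase i0)
    (hsum : ∑ i, p i = 1) (hn0 : ∀ j, 0 ≤ n j)
    (hrow : ∀ j, ∀ sb, 0 < sb → sb ≤ 1 → n j ≤ al4 sb * p j + be4 sb)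
    (hlo : ∀ j, (11/200) ≤ p j) (hp1 : ∀ j, p j ≤ 1) (hcap : ∀ j ∈ C, n j < (32043/100000))
    (hu : n i0 ≤ (37/400)) (hC2 : C.card = 2)
    (hF2 : (Finset.univ.erase i0 \ C).card = 2)
    (hlc : (C.filter fun j => (3/20) ≤ p j).card = 1)
    (hlf : ((Finset.univ.erase i0 \ C).filter fun j => (3/20) ≤ p j).card = 0) :
    ∑ i, n i ^ 2 < (179049/500000) := by
  have key := joint_sum n p i0 C hC hsum (pc := (3/20)) (ACL := (21673/250000)) (ACS := (41351/1000000))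
    (AL := (1/2)) (AS := (41351/1000000)) (B := (1/10))
    (fun j hj hp => cap5i9c1f0CL (hn0 j) (hrow j) (hcap j hj) hp)
    (fun j hj hp => cap5i9c1f0CS (hn0 j) (hrow j) (hlo j) hp.le)
    (fun j _ hp => cap5i9c1f0FL (hn0 j) (hrow j) hp (hp1 j))
    (fun j _ hp => cap5i9c1f0FS (hn0 j) (hrow j) (hlo j) hp.le)
  rw [card_filter_two C _ hC2 hlc, card_filter_two _ _ hF2 hlf, hlc, hlf] at key
  have h1 : n i0 ^ 2 ≤ (37/400) ^ 2 := pow_le_pow_left₀ (hn0 i0) hu 2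
  have h2 := hlo i0
  norm_num at key h1 h2 ⊢
  linarith

lemma cap5i9c1f1FL {a p : ℝ} (ha0 : 0 ≤ a) (h : ∀ sb, 0 < sb → sb ≤ 1 → a ≤ al4 sb * p + be4 sb)
    (hp : (3/20) ≤ p) (hp1 : p ≤ 1) : a ^ 2 ≤ (307/8000) + (7/25) * p := by
  rcases le_total p (8007/20000) with h0 | h0
  · exact row4 (sb := (7/8)) (P := (3/20)) (Q := (8007/20000)) ha0 h (by norm_num) (by norm_num) hp h0 (by norm_num [al4, be4]) (by norm_num [al4, be4])
  exact row4 (sb := (37/40)) (P := (8007/20000)) (Q := 1) ha0 h (by norm_num) (by norm_num) h0 hp1 (by norm_num [al4, be4]) (by norm_num [al4, be4])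

lemma cap5i9c1f1FS {a p : ℝ} (ha0 : 0 ≤ a) (h : ∀ sb, 0 < sb → sb ≤ 1 → a ≤ al4 sb * p + be4 sb)
    (hp : (11/200) ≤ p) (hp1 : p ≤ (3/20)) : a ^ 2 ≤ (1287/250000) + (7/25) * p := by
  exact row4 (sb := (23/40)) (P := (11/200)) (Q := (3/20)) ha0 h (by norm_num) (by norm_num) hp hp1 (by norm_num [al4, be4]) (by norm_num [al4, be4])

lemma cap5i9c1f1CLr {a p : ℝ} (ha0 : 0 ≤ a) (h : ∀ sb, 0 < sb → sb ≤ 1 → a ≤ al4 sb * p + be4 sb)
    (hp : (3/20) ≤ p) (hp1 : p ≤ (263891/1000000)) : a ^ 2 ≤ (14393/500000) + (7/25) * p := by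
  exact row4 (sb := (3/4)) (P := (3/20)) (Q := (263891/1000000)) ha0 h (by norm_num) (by norm_num) hp hp1 (by norm_num [al4, be4]) (by norm_num [al4, be4])

lemma cap5i9c1f1CL {a p : ℝ} (ha0 : 0 ≤ a) (h : ∀ sb, 0 < sb → sb ≤ 1 → a ≤ al4 sb * p + be4 sb)
    (hc : a < (32043/100000)) (hp : (3/20) ≤ p) : a ^ 2 ≤ (14393/500000) + (7/25) * p := by
  rcases le_total p (263891/1000000) with h1 | h1
  · exact cap5i9c1f1CLr ha0 h hp h1
  · exact cap_extend ha0 hc (by norm_num) (Pb := (263891/1000000)) (by norm_num) h1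

lemma cap5i9c1f1CS {a p : ℝ} (ha0 : 0 ≤ a) (h : ∀ sb, 0 < sb → sb ≤ 1 → a ≤ al4 sb * p + be4 sb)
    (hp : (11/200) ≤ p) (hp1 : p ≤ (3/20)) : a ^ 2 ≤ (1287/250000) + (7/25) * p := by
  exact row4 (sb := (23/40)) (P := (11/200)) (Q := (3/20)) ha0 h (by norm_num) (by norm_num) hp hp1 (by norm_num [al4, be4]) (by norm_num [al4, be4])

lemma cap5i9c1f1 (n p : ι → ℝ) (i0 : ι) (C : Finset ι) (hC : C ⊆ Finset.univ.erase i0)
    (hsum : ∑ i, p i = 1) (hn0 : ∀ j, 0 ≤ n j)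
    (hrow : ∀ j, ∀ sb, 0 < sb → sb ≤ 1 → n j ≤ al4 sb * p j + be4 sb)
    (hlo : ∀ j, (11/200) ≤ p j) (hp1 : ∀ j, p j ≤ 1) (hcap : ∀ j ∈ C, n j < (32043/100000))
    (hu : n i0 ≤ (37/400)) (hC2 : C.card = 2)
    (hF2 : (Finset.univ.erase i0 \ C).card = 2)
    (hlc : (C.filter fun j => (3/20) ≤ p j).card = 1)
    (hlf : ((Finset.univ.erase i0 \ C).filter fun j => (3/20) ≤ p j).card = 1) :
    ∑ i, n i ^ 2 < (179049/500000) := by
  have key := joint_sum n p i0 C hC hsum (pc := (3/20)) (ACL := (14393/500000)) (ACS := (1287/250000))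
    (AL := (307/8000)) (AS := (1287/250000)) (B := (7/25))
    (fun j hj hp => cap5i9c1f1CL (hn0 j) (hrow j) (hcap j hj) hp)
    (fun j hj hp => cap5i9c1f1CS (hn0 j) (hrow j) (hlo j) hp.le)
    (fun j _ hp => cap5i9c1f1FL (hn0 j) (hrow j) hp (hp1 j))
    (fun j _ hp => cap5i9c1f1FS (hn0 j) (hrow j) (hlo j) hp.le)
  rw [card_filter_two C _ hC2 hlc, card_filter_two _ _ hF2 hlf, hlc, hlf] at key
  have h1 : n i0 ^ 2 ≤ (37/400) ^ 2 := pow_le_pow_left₀ (hn0 i0) hu 2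
  have h2 := hlo i0
  norm_num at key h1 h2 ⊢
  linarith

lemma cap5i9c1f2FL {a p : ℝ} (ha0 : 0 ≤ a) (h : ∀ sb, 0 < sb → sb ≤ 1 → a ≤ al4 sb * p + be4 sb)
    (hp : (3/20) ≤ p) (hp1 : p ≤ 1) : a ^ 2 ≤ (-4599/1000000) + (2/5) * p := by
  rcases le_total p (1113/4000) with h0 | h0
  · exact row4 (sb := (31/40)) (P := (3/20)) (Q := (1113/4000)) ha0 h (by norm_num) (by norm_num) hp h0 (by norm_num [al4, be4]) (by norm_num [al4, be4])
  rcases le_total p (1569/5000) with h1 | h1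
  · exact row4 (sb := (33/40)) (P := (1113/4000)) (Q := (1569/5000)) ha0 h (by norm_num) (by norm_num) h0 h1 (by norm_num [al4, be4]) (by norm_num [al4, be4])
  rcases le_total p (4513/10000) with h2 | h2
  · exact row4 (sb := (17/20)) (P := (1569/5000)) (Q := (4513/10000)) ha0 h (by norm_num) (by norm_num) h1 h2 (by norm_num [al4, be4]) (by norm_num [al4, be4])
  exact row4 (sb := (9/10)) (P := (4513/10000)) (Q := 1) ha0 h (by norm_num) (by norm_num) h2 hp1 (by norm_num [al4, be4]) (by norm_num [al4, be4])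

lemma cap5i9c1f2FS {a p : ℝ} (ha0 : 0 ≤ a) (h : ∀ sb, 0 < sb → sb ≤ 1 → a ≤ al4 sb * p + be4 sb)
    (hp : (11/200) ≤ p) (hp1 : p ≤ (3/20)) : a ^ 2 ≤ (1/2) + (2/5) * p := by
  exact row4 (sb := (1/40)) (P := (11/200)) (Q := (3/20)) ha0 h (by norm_num) (by norm_num) hp hp1 (by norm_num [al4, be4]) (by norm_num [al4, be4])

lemma cap5i9c1f2CLr {a p : ℝ} (ha0 : 0 ≤ a) (h : ∀ sb, 0 < sb → sb ≤ 1 → a ≤ al4 sb * p + be4 sb)
    (hp : (3/20) ≤ p) (hp1 : p ≤ (270539/1000000)) : a ^ 2 ≤ (-277/50000) + (2/5) * p := by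
  rcases le_total p (2671/10000) with h0 | h0
  · exact row4 (sb := (31/40)) (P := (3/20)) (Q := (2671/10000)) ha0 h (by norm_num) (by norm_num) hp h0 (by norm_num [al4, be4]) (by norm_num [al4, be4])
  exact row4 (sb := (4/5)) (P := (2671/10000)) (Q := (270539/1000000)) ha0 h (by norm_num) (by norm_num) h0 hp1 (by norm_num [al4, be4]) (by norm_num [al4, be4])

lemma cap5i9c1f2CL {a p : ℝ} (ha0 : 0 ≤ a) (h : ∀ sb, 0 < sb → sb ≤ 1 → a ≤ al4 sb * p + be4 sb)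
    (hc : a < (32043/100000)) (hp : (3/20) ≤ p) : a ^ 2 ≤ (-277/50000) + (2/5) * p := by
  rcases le_total p (270539/1000000) with h1 | h1
  · exact cap5i9c1f2CLr ha0 h hp h1
  · exact cap_extend ha0 hc (by norm_num) (Pb := (270539/1000000)) (by norm_num) h1

lemma cap5i9c1f2CS {a p : ℝ} (ha0 : 0 ≤ a) (h : ∀ sb, 0 < sb → sb ≤ 1 → a ≤ al4 sb * p + be4 sb)
    (hp : (11/200) ≤ p) (hp1 : p ≤ (3/20)) : a ^ 2 ≤ (-861/62500) + (2/5) * p := by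
  rcases le_total p (2243/20000) with h0 | h0
  · exact row4 (sb := (9/20)) (P := (11/200)) (Q := (2243/20000)) ha0 h (by norm_num) (by norm_num) hp h0 (by norm_num [al4, be4]) (by norm_num [al4, be4])
  exact row4 (sb := (3/5)) (P := (2243/20000)) (Q := (3/20)) ha0 h (by norm_num) (by norm_num) h0 hp1 (by norm_num [al4, be4]) (by norm_num [al4, be4])

lemma cap5i9c1f2 (n p : ι → ℝ) (i0 : ι) (C : Finset ι) (hC : C ⊆ Finset.univ.erase i0)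
    (hsum : ∑ i, p i = 1) (hn0 : ∀ j, 0 ≤ n j)
    (hrow : ∀ j, ∀ sb, 0 < sb → sb ≤ 1 → n j ≤ al4 sb * p j + be4 sb)
    (hlo : ∀ j, (11/200) ≤ p j) (hp1 : ∀ j, p j ≤ 1) (hcap : ∀ j ∈ C, n j < (32043/100000))
    (hu : n i0 ≤ (37/400)) (hC2 : C.card = 2)
    (hF2 : (Finset.univ.erase i0 \ C).card = 2)
    (hlc : (C.filter fun j => (3/20) ≤ p j).card = 1)
    (hlf : ((Finset.univ.erase i0 \ C).filter fun j => (3/20) ≤ p j).card = 2) :
    ∑ i, n i ^ 2 < (179049/500000) := by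
  have key := joint_sum n p i0 C hC hsum (pc := (3/20)) (ACL := (-277/50000)) (ACS := (-861/62500))
    (AL := (-4599/1000000)) (AS := (1/2)) (B := (2/5))
    (fun j hj hp => cap5i9c1f2CL (hn0 j) (hrow j) (hcap j hj) hp)
    (fun j hj hp => cap5i9c1f2CS (hn0 j) (hrow j) (hlo j) hp.le)
    (fun j _ hp => cap5i9c1f2FL (hn0 j) (hrow j) hp (hp1 j))
    (fun j _ hp => cap5i9c1f2FS (hn0 j) (hrow j) (hlo j) hp.le)
  rw [card_filter_two C _ hC2 hlc, card_filter_two _ _ hF2 hlf, hlc, hlf] at key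
  have h1 : n i0 ^ 2 ≤ (37/400) ^ 2 := pow_le_pow_left₀ (hn0 i0) hu 2
  have h2 := hlo i0
  norm_num at key h1 h2 ⊢
  linarith

lemma cap5i9c2f0FL {a p : ℝ} (ha0 : 0 ≤ a) (h : ∀ sb, 0 < sb → sb ≤ 1 → a ≤ al4 sb * p + be4 sb)
    (hp : (3/20) ≤ p) (hp1 : p ≤ 1) : a ^ 2 ≤ (1/2) + (1/10) * p := by
  exact row4 (sb := (33/40)) (P := (3/20)) (Q := 1) ha0 h (by norm_num) (by norm_num) hp hp1 (by norm_num [al4, be4]) (by norm_num [al4, be4])

lemma cap5i9c2f0FS {a p : ℝ} (ha0 : 0 ≤ a) (h : ∀ sb, 0 < sb → sb ≤ 1 → a ≤ al4 sb * p + be4 sb)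
    (hp : (11/200) ≤ p) (hp1 : p ≤ (3/20)) : a ^ 2 ≤ (8921/250000) + (1/10) * p := by
  exact row4 (sb := (21/40)) (P := (11/200)) (Q := (3/20)) ha0 h (by norm_num) (by norm_num) hp hp1 (by norm_num [al4, be4]) (by norm_num [al4, be4])

lemma cap5i9c2f0CLr {a p : ℝ} (ha0 : 0 ≤ a) (h : ∀ sb, 0 < sb → sb ≤ 1 → a ≤ al4 sb * p + be4 sb)
    (hp : (3/20) ≤ p) (hp1 : p ≤ (27063/125000)) : a ^ 2 ≤ (3241/40000) + (1/10) * p := by
  exact row4 (sb := (1/2)) (P := (3/20)) (Q := (27063/125000)) ha0 h (by norm_num) (by norm_num) hp hp1 (by norm_num [al4, be4]) (by norm_num [al4, be4])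

lemma cap5i9c2f0CL {a p : ℝ} (ha0 : 0 ≤ a) (h : ∀ sb, 0 < sb → sb ≤ 1 → a ≤ al4 sb * p + be4 sb)
    (hc : a < (32043/100000)) (hp : (3/20) ≤ p) : a ^ 2 ≤ (3241/40000) + (1/10) * p := by
  rcases le_total p (27063/125000) with h1 | h1
  · exact cap5i9c2f0CLr ha0 h hp h1
  · exact cap_extend ha0 hc (by norm_num) (Pb := (27063/125000)) (by norm_num) h1

lemma cap5i9c2f0CS {a p : ℝ} (ha0 : 0 ≤ a) (hc : a < (32043/100000)) (hp : (11/200) ≤ p) : a ^ 2 ≤ (1/2) + (1/10) * p :=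
  cap_extend ha0 hc (by norm_num) (Pb := (11/200)) (by norm_num) hp

lemma cap5i9c2f0 (n p : ι → ℝ) (i0 : ι) (C : Finset ι) (hC : C ⊆ Finset.univ.erase i0)
    (hsum : ∑ i, p i = 1) (hn0 : ∀ j, 0 ≤ n j)
    (hrow : ∀ j, ∀ sb, 0 < sb → sb ≤ 1 → n j ≤ al4 sb * p j + be4 sb)
    (hlo : ∀ j, (11/200) ≤ p j) (hp1 : ∀ j, p j ≤ 1) (hcap : ∀ j ∈ C, n j < (32043/100000))
    (hu : n i0 ≤ (37/400)) (hC2 : C.card = 2)
    (hF2 : (Finset.univ.erase i0 \ C).card = 2)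
    (hlc : (C.filter fun j => (3/20) ≤ p j).card = 2)
    (hlf : ((Finset.univ.erase i0 \ C).filter fun j => (3/20) ≤ p j).card = 0) :
    ∑ i, n i ^ 2 < (179049/500000) := by
  have key := joint_sum n p i0 C hC hsum (pc := (3/20)) (ACL := (3241/40000)) (ACS := (1/2))
    (AL := (1/2)) (AS := (8921/250000)) (B := (1/10))
    (fun j hj hp => cap5i9c2f0CL (hn0 j) (hrow j) (hcap j hj) hp)
    (fun j hj hp => cap5i9c2f0CS (hn0 j) (hcap j hj) (hlo j))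
    (fun j _ hp => cap5i9c2f0FL (hn0 j) (hrow j) hp (hp1 j))
    (fun j _ hp => cap5i9c2f0FS (hn0 j) (hrow j) (hlo j) hp.le)
  rw [card_filter_two C _ hC2 hlc, card_filter_two _ _ hF2 hlf, hlc, hlf] at key
  have h1 : n i0 ^ 2 ≤ (37/400) ^ 2 := pow_le_pow_left₀ (hn0 i0) hu 2
  have h2 := hlo i0
  norm_num at key h1 h2 ⊢
  linarith

lemma cap5i9c2f1FL {a p : ℝ} (ha0 : 0 ≤ a) (h : ∀ sb, 0 < sb → sb ≤ 1 → a ≤ al4 sb * p + be4 sb)
    (hp : (3/20) ≤ p) (hp1 : p ≤ 1) : a ^ 2 ≤ (-4481/1000000) + (2/5) * p := by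
  rcases le_total p (5591/20000) with h0 | h0
  · exact row4 (sb := (31/40)) (P := (3/20)) (Q := (5591/20000)) ha0 h (by norm_num) (by norm_num) hp h0 (by norm_num [al4, be4]) (by norm_num [al4, be4])
  rcases le_total p (1279/4000) with h1 | h1
  · exact row4 (sb := (33/40)) (P := (5591/20000)) (Q := (1279/4000)) ha0 h (by norm_num) (by norm_num) h0 h1 (by norm_num [al4, be4]) (by norm_num [al4, be4])
  rcases le_total p (9087/20000) with h2 | h2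
  · exact row4 (sb := (17/20)) (P := (1279/4000)) (Q := (9087/20000)) ha0 h (by norm_num) (by norm_num) h1 h2 (by norm_num [al4, be4]) (by norm_num [al4, be4])
  exact row4 (sb := (9/10)) (P := (9087/20000)) (Q := 1) ha0 h (by norm_num) (by norm_num) h2 hp1 (by norm_num [al4, be4]) (by norm_num [al4, be4])

lemma cap5i9c2f1FS {a p : ℝ} (ha0 : 0 ≤ a) (h : ∀ sb, 0 < sb → sb ≤ 1 → a ≤ al4 sb * p + be4 sb)
    (hp : (11/200) ≤ p) (hp1 : p ≤ (3/20)) : a ^ 2 ≤ (-6829/500000) + (2/5) * p := by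
  rcases le_total p (317/2500) with h0 | h0
  · exact row4 (sb := (1/2)) (P := (11/200)) (Q := (317/2500)) ha0 h (by norm_num) (by norm_num) hp h0 (by norm_num [al4, be4]) (by norm_num [al4, be4])
  exact row4 (sb := (3/5)) (P := (317/2500)) (Q := (3/20)) ha0 h (by norm_num) (by norm_num) h0 hp1 (by norm_num [al4, be4]) (by norm_num [al4, be4])

lemma cap5i9c2f1CLr {a p : ℝ} (ha0 : 0 ≤ a) (h : ∀ sb, 0 < sb → sb ≤ 1 → a ≤ al4 sb * p + be4 sb)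
    (hp : (3/20) ≤ p) (hp1 : p ≤ (67561/250000)) : a ^ 2 ≤ (-2711/500000) + (2/5) * p := by
  rcases le_total p (1343/5000) with h0 | h0
  · exact row4 (sb := (31/40)) (P := (3/20)) (Q := (1343/5000)) ha0 h (by norm_num) (by norm_num) hp h0 (by norm_num [al4, be4]) (by norm_num [al4, be4])
  exact row4 (sb := (4/5)) (P := (1343/5000)) (Q := (67561/250000)) ha0 h (by norm_num) (by norm_num) h0 hp1 (by norm_num [al4, be4]) (by norm_num [al4, be4])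

lemma cap5i9c2f1CL {a p : ℝ} (ha0 : 0 ≤ a) (h : ∀ sb, 0 < sb → sb ≤ 1 → a ≤ al4 sb * p + be4 sb)
    (hc : a < (32043/100000)) (hp : (3/20) ≤ p) : a ^ 2 ≤ (-2711/500000) + (2/5) * p := by
  rcases le_total p (67561/250000) with h1 | h1
  · exact cap5i9c2f1CLr ha0 h hp h1
  · exact cap_extend ha0 hc (by norm_num) (Pb := (67561/250000)) (by norm_num) h1

lemma cap5i9c2f1CS {a p : ℝ} (ha0 : 0 ≤ a) (hc : a < (32043/100000)) (hp : (11/200) ≤ p) : a ^ 2 ≤ (1/2) + (2/5) * p :=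
  cap_extend ha0 hc (by norm_num) (Pb := (11/200)) (by norm_num) hp

lemma cap5i9c2f1 (n p : ι → ℝ) (i0 : ι) (C : Finset ι) (hC : C ⊆ Finset.univ.erase i0)
    (hsum : ∑ i, p i = 1) (hn0 : ∀ j, 0 ≤ n j)
    (hrow : ∀ j, ∀ sb, 0 < sb → sb ≤ 1 → n j ≤ al4 sb * p j + be4 sb)
    (hlo : ∀ j, (11/200) ≤ p j) (hp1 : ∀ j, p j ≤ 1) (hcap : ∀ j ∈ C, n j < (32043/100000))
    (hu : n i0 ≤ (37/400)) (hC2 : C.card = 2)
    (hF2 : (Finset.univ.erase i0 \ C).card = 2)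
    (hlc : (C.filter fun j => (3/20) ≤ p j).card = 2)
    (hlf : ((Finset.univ.erase i0 \ C).filter fun j => (3/20) ≤ p j).card = 1) :
    ∑ i, n i ^ 2 < (179049/500000) := by
  have key := joint_sum n p i0 C hC hsum (pc := (3/20)) (ACL := (-2711/500000)) (ACS := (1/2))
    (AL := (-4481/1000000)) (AS := (-6829/500000)) (B := (2/5))
    (fun j hj hp => cap5i9c2f1CL (hn0 j) (hrow j) (hcap j hj) hp)
    (fun j hj hp => cap5i9c2f1CS (hn0 j) (hcap j hj) (hlo j))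
    (fun j _ hp => cap5i9c2f1FL (hn0 j) (hrow j) hp (hp1 j))
    (fun j _ hp => cap5i9c2f1FS (hn0 j) (hrow j) (hlo j) hp.le)
  rw [card_filter_two C _ hC2 hlc, card_filter_two _ _ hF2 hlf, hlc, hlf] at key
  have h1 : n i0 ^ 2 ≤ (37/400) ^ 2 := pow_le_pow_left₀ (hn0 i0) hu 2
  have h2 := hlo i0
  norm_num at key h1 h2 ⊢
  linarith

lemma cap5i9c2f2FL {a p : ℝ} (ha0 : 0 ≤ a) (h : ∀ sb, 0 < sb → sb ≤ 1 → a ≤ al4 sb * p + be4 sb)
    (hp : (3/20) ≤ p) (hp1 : p ≤ 1) : a ^ 2 ≤ (-13117/500000) + (12/25) * p := by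
  rcases le_total p (971/5000) with h0 | h0
  · exact row4 (sb := (27/40)) (P := (3/20)) (Q := (971/5000)) ha0 h (by norm_num) (by norm_num) hp h0 (by norm_num [al4, be4]) (by norm_num [al4, be4])
  rcases le_total p (1139/5000) with h1 | h1
  · exact row4 (sb := (29/40)) (P := (971/5000)) (Q := (1139/5000)) ha0 h (by norm_num) (by norm_num) h0 h1 (by norm_num [al4, be4]) (by norm_num [al4, be4])
  rcases le_total p (5087/20000) with h2 | h2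
  · exact row4 (sb := (3/4)) (P := (1139/5000)) (Q := (5087/20000)) ha0 h (by norm_num) (by norm_num) h1 h2 (by norm_num [al4, be4]) (by norm_num [al4, be4])
  rcases le_total p (3893/10000) with h3 | h3
  · exact row4 (sb := (4/5)) (P := (5087/20000)) (Q := (3893/10000)) ha0 h (by norm_num) (by norm_num) h2 h3 (by norm_num [al4, be4]) (by norm_num [al4, be4])
  exact row4 (sb := (7/8)) (P := (3893/10000)) (Q := 1) ha0 h (by norm_num) (by norm_num) h3 hp1 (by norm_num [al4, be4]) (by norm_num [al4, be4])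

lemma cap5i9c2f2FS {a p : ℝ} (ha0 : 0 ≤ a) (h : ∀ sb, 0 < sb → sb ≤ 1 → a ≤ al4 sb * p + be4 sb)
    (hp : (11/200) ≤ p) (hp1 : p ≤ (3/20)) : a ^ 2 ≤ (1/2) + (12/25) * p := by
  exact row4 (sb := (1/40)) (P := (11/200)) (Q := (3/20)) ha0 h (by norm_num) (by norm_num) hp hp1 (by norm_num [al4, be4]) (by norm_num [al4, be4])

lemma cap5i9c2f2CLr {a p : ℝ} (ha0 : 0 ≤ a) (h : ∀ sb, 0 < sb → sb ≤ 1 → a ≤ al4 sb * p + be4 sb)
    (hp : (3/20) ≤ p) (hp1 : p ≤ (134281/500000)) : a ^ 2 ≤ (-13117/500000) + (12/25) * p := by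
  rcases le_total p (971/5000) with h0 | h0
  · exact row4 (sb := (27/40)) (P := (3/20)) (Q := (971/5000)) ha0 h (by norm_num) (by norm_num) hp h0 (by norm_num [al4, be4]) (by norm_num [al4, be4])
  rcases le_total p (1139/5000) with h1 | h1
  · exact row4 (sb := (29/40)) (P := (971/5000)) (Q := (1139/5000)) ha0 h (by norm_num) (by norm_num) h0 h1 (by norm_num [al4, be4]) (by norm_num [al4, be4])
  rcases le_total p (5087/20000) with h2 | h2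
  · exact row4 (sb := (3/4)) (P := (1139/5000)) (Q := (5087/20000)) ha0 h (by norm_num) (by norm_num) h1 h2 (by norm_num [al4, be4]) (by norm_num [al4, be4])
  exact row4 (sb := (31/40)) (P := (5087/20000)) (Q := (134281/500000)) ha0 h (by norm_num) (by norm_num) h2 hp1 (by norm_num [al4, be4]) (by norm_num [al4, be4])

lemma cap5i9c2f2CL {a p : ℝ} (ha0 : 0 ≤ a) (h : ∀ sb, 0 < sb → sb ≤ 1 → a ≤ al4 sb * p + be4 sb)
    (hc : a < (32043/100000)) (hp : (3/20) ≤ p) : a ^ 2 ≤ (-13117/500000) + (12/25) * p := by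
  rcases le_total p (134281/500000) with h1 | h1
  · exact cap5i9c2f2CLr ha0 h hp h1
  · exact cap_extend ha0 hc (by norm_num) (Pb := (134281/500000)) (by norm_num) h1

lemma cap5i9c2f2CS {a p : ℝ} (ha0 : 0 ≤ a) (hc : a < (32043/100000)) (hp : (11/200) ≤ p) : a ^ 2 ≤ (1/2) + (12/25) * p :=
  cap_extend ha0 hc (by norm_num) (Pb := (11/200)) (by norm_num) hp

lemma cap5i9c2f2 (n p : ι → ℝ) (i0 : ι) (C : Finset ι) (hC : C ⊆ Finset.univ.erase i0)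
    (hsum : ∑ i, p i = 1) (hn0 : ∀ j, 0 ≤ n j)
    (hrow : ∀ j, ∀ sb, 0 < sb → sb ≤ 1 → n j ≤ al4 sb * p j + be4 sb)
    (hlo : ∀ j, (11/200) ≤ p j) (hp1 : ∀ j, p j ≤ 1) (hcap : ∀ j ∈ C, n j < (32043/100000))
    (hu : n i0 ≤ (37/400)) (hC2 : C.card = 2)
    (hF2 : (Finset.univ.erase i0 \ C).card = 2)
    (hlc : (C.filter fun j => (3/20) ≤ p j).card = 2)
    (hlf : ((Finset.univ.erase i0 \ C).filter fun j => (3/20) ≤ p j).card = 2) :
    ∑ i, n i ^ 2 < (179049/500000) := by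
  have key := joint_sum n p i0 C hC hsum (pc := (3/20)) (ACL := (-13117/500000)) (ACS := (1/2))
    (AL := (-13117/500000)) (AS := (1/2)) (B := (12/25))
    (fun j hj hp => cap5i9c2f2CL (hn0 j) (hrow j) (hcap j hj) hp)
    (fun j hj hp => cap5i9c2f2CS (hn0 j) (hcap j hj) (hlo j))
    (fun j _ hp => cap5i9c2f2FL (hn0 j) (hrow j) hp (hp1 j))
    (fun j _ hp => cap5i9c2f2FS (hn0 j) (hrow j) (hlo j) hp.le)
  rw [card_filter_two C _ hC2 hlc, card_filter_two _ _ hF2 hlf, hlc, hlf] at key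
  have h1 : n i0 ^ 2 ≤ (37/400) ^ 2 := pow_le_pow_left₀ (hn0 i0) hu 2
  have h2 := hlo i0
  norm_num at key h1 h2 ⊢
  linarith

lemma cap5i9 (n p : ι → ℝ) (i0 : ι) (C : Finset ι) (hC : C ⊆ Finset.univ.erase i0)
    (hsum : ∑ i, p i = 1) (hn0 : ∀ j, 0 ≤ n j)
    (hrow : ∀ j, ∀ sb, 0 < sb → sb ≤ 1 → n j ≤ al4 sb * p j + be4 sb)
    (hlo : ∀ j, (11/200) ≤ p j) (hp1 : ∀ j, p j ≤ 1) (hcap : ∀ j ∈ C, n j < (32043/100000))
    (hu : n i0 ≤ (37/400)) (hC2 : C.card = 2)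
    (hF2 : (Finset.univ.erase i0 \ C).card = 2) :
    ∑ i, n i ^ 2 < (179049/500000) := by
  have hA : (C.filter fun j => (3/20) ≤ p j).card ≤ 2 := (Finset.card_filter_le _ _).trans hC2.le
  have hB : ((Finset.univ.erase i0 \ C).filter fun j => (3/20) ≤ p j).card ≤ 2 := (Finset.card_filter_le _ _).trans hF2.le
  have hc' : (C.filter fun j => (3/20) ≤ p j).card = 0 ∨ (C.filter fun j => (3/20) ≤ p j).card = 1 ∨ (C.filter fun j => (3/20) ≤ p j).card = 2 := by omega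
  have hf' : ((Finset.univ.erase i0 \ C).filter fun j => (3/20) ≤ p j).card = 0 ∨ ((Finset.univ.erase i0 \ C).filter fun j => (3/20) ≤ p j).card = 1 ∨ ((Finset.univ.erase i0 \ C).filter fun j => (3/20) ≤ p j).card = 2 := by omega
  rcases hc' with hlc | hlc | hlc <;> rcases hf' with hlf | hlf | hlf
  · exact cap5i9c0f0 n p i0 C hC hsum hn0 hrow hlo hp1 hcap hu hC2 hF2 hlc hlf
  · exact cap5i9c0f1 n p i0 C hC hsum hn0 hrow hlo hp1 hcap hu hC2 hF2 hlc hlf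
  · exact cap5i9c0f2 n p i0 C hC hsum hn0 hrow hlo hp1 hcap hu hC2 hF2 hlc hlf
  · exact cap5i9c1f0 n p i0 C hC hsum hn0 hrow hlo hp1 hcap hu hC2 hF2 hlc hlf
  · exact cap5i9c1f1 n p i0 C hC hsum hn0 hrow hlo hp1 hcap hu hC2 hF2 hlc hlf
  · exact cap5i9c1f2 n p i0 C hC hsum hn0 hrow hlo hp1 hcap hu hC2 hF2 hlc hlf
  · exact cap5i9c2f0 n p i0 C hC hsum hn0 hrow hlo hp1 hcap hu hC2 hF2 hlc hlf
  · exact cap5i9c2f1 n p i0 C hC hsum hn0 hrow hlo hp1 hcap hu hC2 hF2 hlc hlf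
  · exact cap5i9c2f2 n p i0 C hC hsum hn0 hrow hlo hp1 hcap hu hC2 hF2 hlc hlf

lemma cap5i10c0f0FL {a p : ℝ} (ha0 : 0 ≤ a) (h : ∀ sb, 0 < sb → sb ≤ 1 → a ≤ al4 sb * p + be4 sb)
    (hp : (3/20) ≤ p) (hp1 : p ≤ 1) : a ^ 2 ≤ (1/2) + (1/10) * p := by
  exact row4 (sb := (33/40)) (P := (3/20)) (Q := 1) ha0 h (by norm_num) (by norm_num) hp hp1 (by norm_num [al4, be4]) (by norm_num [al4, be4])

lemma cap5i10c0f0FS {a p : ℝ} (ha0 : 0 ≤ a) (h : ∀ sb, 0 < sb → sb ≤ 1 → a ≤ al4 sb * p + be4 sb)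
    (hp : (7/125) ≤ p) (hp1 : p ≤ (3/20)) : a ^ 2 ≤ (46999/1000000) + (1/10) * p := by
  exact row4 (sb := (3/8)) (P := (7/125)) (Q := (3/20)) ha0 h (by norm_num) (by norm_num) hp hp1 (by norm_num [al4, be4]) (by norm_num [al4, be4])

lemma cap5i10c0f0CL {a p : ℝ} (ha0 : 0 ≤ a) (hc : a < (2033/6250)) (hp : (3/20) ≤ p) : a ^ 2 ≤ (1/2) + (1/10) * p :=
  cap_extend ha0 hc (by norm_num) (Pb := (3/20)) (by norm_num) hp

lemma cap5i10c0f0CS {a p : ℝ} (ha0 : 0 ≤ a) (h : ∀ sb, 0 < sb → sb ≤ 1 → a ≤ al4 sb * p + be4 sb)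
    (hp : (7/125) ≤ p) (hp1 : p ≤ (3/20)) : a ^ 2 ≤ (46999/1000000) + (1/10) * p := by
  exact row4 (sb := (3/8)) (P := (7/125)) (Q := (3/20)) ha0 h (by norm_num) (by norm_num) hp hp1 (by norm_num [al4, be4]) (by norm_num [al4, be4])

lemma cap5i10c0f0 (n p : ι → ℝ) (i0 : ι) (C : Finset ι) (hC : C ⊆ Finset.univ.erase i0)
    (hsum : ∑ i, p i = 1) (hn0 : ∀ j, 0 ≤ n j)
    (hrow : ∀ j, ∀ sb, 0 < sb → sb ≤ 1 → n j ≤ al4 sb * p j + be4 sb)
    (hlo : ∀ j, (7/125) ≤ p j) (hp1 : ∀ j, p j ≤ 1) (hcap : ∀ j ∈ C, n j < (2033/6250))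
    (hu : n i0 ≤ (939/10000)) (hC2 : C.card = 2)
    (hF2 : (Finset.univ.erase i0 \ C).card = 2)
    (hlc : (C.filter fun j => (3/20) ≤ p j).card = 0)
    (hlf : ((Finset.univ.erase i0 \ C).filter fun j => (3/20) ≤ p j).card = 0) :
    ∑ i, n i ^ 2 < (179049/500000) := by
  have key := joint_sum n p i0 C hC hsum (pc := (3/20)) (ACL := (1/2)) (ACS := (46999/1000000))
    (AL := (1/2)) (AS := (46999/1000000)) (B := (1/10))
    (fun j hj hp => cap5i10c0f0CL (hn0 j) (hcap j hj) hp)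
    (fun j hj hp => cap5i10c0f0CS (hn0 j) (hrow j) (hlo j) hp.le)
    (fun j _ hp => cap5i10c0f0FL (hn0 j) (hrow j) hp (hp1 j))
    (fun j _ hp => cap5i10c0f0FS (hn0 j) (hrow j) (hlo j) hp.le)
  rw [card_filter_two C _ hC2 hlc, card_filter_two _ _ hF2 hlf, hlc, hlf] at key
  have h1 : n i0 ^ 2 ≤ (939/10000) ^ 2 := pow_le_pow_left₀ (hn0 i0) hu 2
  have h2 := hlo i0
  norm_num at key h1 h2 ⊢
  linarith

lemma cap5i10c0f1FL {a p : ℝ} (ha0 : 0 ≤ a) (h : ∀ sb, 0 < sb → sb ≤ 1 → a ≤ al4 sb * p + be4 sb)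
    (hp : (3/20) ≤ p) (hp1 : p ≤ 1) : a ^ 2 ≤ (118423/1000000) + (1/10) * p := by
  rcases le_total p (11709/20000) with h0 | h0
  · exact row4 (sb := (19/20)) (P := (3/20)) (Q := (11709/20000)) ha0 h (by norm_num) (by norm_num) hp h0 (by norm_num [al4, be4]) (by norm_num [al4, be4])
  exact row4 (sb := (39/40)) (P := (11709/20000)) (Q := 1) ha0 h (by norm_num) (by norm_num) h0 hp1 (by norm_num [al4, be4]) (by norm_num [al4, be4])

lemma cap5i10c0f1FS {a p : ℝ} (ha0 : 0 ≤ a) (h : ∀ sb, 0 < sb → sb ≤ 1 → a ≤ al4 sb * p + be4 sb)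
    (hp : (7/125) ≤ p) (hp1 : p ≤ (3/20)) : a ^ 2 ≤ (7359/200000) + (1/10) * p := by
  exact row4 (sb := (1/2)) (P := (7/125)) (Q := (3/20)) ha0 h (by norm_num) (by norm_num) hp hp1 (by norm_num [al4, be4]) (by norm_num [al4, be4])

lemma cap5i10c0f1CL {a p : ℝ} (ha0 : 0 ≤ a) (hc : a < (2033/6250)) (hp : (3/20) ≤ p) : a ^ 2 ≤ (1/2) + (1/10) * p :=
  cap_extend ha0 hc (by norm_num) (Pb := (3/20)) (by norm_num) hp

lemma cap5i10c0f1CS {a p : ℝ} (ha0 : 0 ≤ a) (h : ∀ sb, 0 < sb → sb ≤ 1 → a ≤ al4 sb * p + be4 sb)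
    (hp : (7/125) ≤ p) (hp1 : p ≤ (3/20)) : a ^ 2 ≤ (7359/200000) + (1/10) * p := by
  exact row4 (sb := (1/2)) (P := (7/125)) (Q := (3/20)) ha0 h (by norm_num) (by norm_num) hp hp1 (by norm_num [al4, be4]) (by norm_num [al4, be4])

lemma cap5i10c0f1 (n p : ι → ℝ) (i0 : ι) (C : Finset ι) (hC : C ⊆ Finset.univ.erase i0)
    (hsum : ∑ i, p i = 1) (hn0 : ∀ j, 0 ≤ n j)
    (hrow : ∀ j, ∀ sb, 0 < sb → sb ≤ 1 → n j ≤ al4 sb * p j + be4 sb)
    (hlo : ∀ j, (7/125) ≤ p j) (hp1 : ∀ j, p j ≤ 1) (hcap : ∀ j ∈ C, n j < (2033/6250))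
    (hu : n i0 ≤ (939/10000)) (hC2 : C.card = 2)
    (hF2 : (Finset.univ.erase i0 \ C).card = 2)
    (hlc : (C.filter fun j => (3/20) ≤ p j).card = 0)
    (hlf : ((Finset.univ.erase i0 \ C).filter fun j => (3/20) ≤ p j).card = 1) :
    ∑ i, n i ^ 2 < (179049/500000) := by
  have key := joint_sum n p i0 C hC hsum (pc := (3/20)) (ACL := (1/2)) (ACS := (7359/200000))
    (AL := (118423/1000000)) (AS := (7359/200000)) (B := (1/10))
    (fun j hj hp => cap5i10c0f1CL (hn0 j) (hcap j hj) hp)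
    (fun j hj hp => cap5i10c0f1CS (hn0 j) (hrow j) (hlo j) hp.le)
    (fun j _ hp => cap5i10c0f1FL (hn0 j) (hrow j) hp (hp1 j))
    (fun j _ hp => cap5i10c0f1FS (hn0 j) (hrow j) (hlo j) hp.le)
  rw [card_filter_two C _ hC2 hlc, card_filter_two _ _ hF2 hlf, hlc, hlf] at key
  have h1 : n i0 ^ 2 ≤ (939/10000) ^ 2 := pow_le_pow_left₀ (hn0 i0) hu 2
  have h2 := hlo i0
  norm_num at key h1 h2 ⊢
  linarith

lemma cap5i10c0f2FL {a p : ℝ} (ha0 : 0 ≤ a) (h : ∀ sb, 0 < sb → sb ≤ 1 → a ≤ al4 sb * p + be4 sb)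
    (hp : (3/20) ≤ p) (hp1 : p ≤ 1) : a ^ 2 ≤ (2987/1000000) + (19/50) * p := by
  rcases le_total p (1253/4000) with h0 | h0
  · exact row4 (sb := (4/5)) (P := (3/20)) (Q := (1253/4000)) ha0 h (by norm_num) (by norm_num) hp h0 (by norm_num [al4, be4]) (by norm_num [al4, be4])
  rcases le_total p (8447/20000) with h1 | h1
  · exact row4 (sb := (17/20)) (P := (1253/4000)) (Q := (8447/20000)) ha0 h (by norm_num) (by norm_num) h0 h1 (by norm_num [al4, be4]) (by norm_num [al4, be4])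
  exact row4 (sb := (9/10)) (P := (8447/20000)) (Q := 1) ha0 h (by norm_num) (by norm_num) h1 hp1 (by norm_num [al4, be4]) (by norm_num [al4, be4])

lemma cap5i10c0f2FS {a p : ℝ} (ha0 : 0 ≤ a) (h : ∀ sb, 0 < sb → sb ≤ 1 → a ≤ al4 sb * p + be4 sb)
    (hp : (7/125) ≤ p) (hp1 : p ≤ (3/20)) : a ^ 2 ≤ (1/2) + (19/50) * p := by
  exact row4 (sb := (1/40)) (P := (7/125)) (Q := (3/20)) ha0 h (by norm_num) (by norm_num) hp hp1 (by norm_num [al4, be4]) (by norm_num [al4, be4])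

lemma cap5i10c0f2CL {a p : ℝ} (ha0 : 0 ≤ a) (hc : a < (2033/6250)) (hp : (3/20) ≤ p) : a ^ 2 ≤ (1/2) + (19/50) * p :=
  cap_extend ha0 hc (by norm_num) (Pb := (3/20)) (by norm_num) hp

lemma cap5i10c0f2CS {a p : ℝ} (ha0 : 0 ≤ a) (h : ∀ sb, 0 < sb → sb ≤ 1 → a ≤ al4 sb * p + be4 sb)
    (hp : (7/125) ≤ p) (hp1 : p ≤ (3/20)) : a ^ 2 ≤ (-649/62500) + (19/50) * p := by
  exact row4 (sb := (3/5)) (P := (7/125)) (Q := (3/20)) ha0 h (by norm_num) (by norm_num) hp hp1 (by norm_num [al4, be4]) (by norm_num [al4, be4])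

lemma cap5i10c0f2 (n p : ι → ℝ) (i0 : ι) (C : Finset ι) (hC : C ⊆ Finset.univ.erase i0)
    (hsum : ∑ i, p i = 1) (hn0 : ∀ j, 0 ≤ n j)
    (hrow : ∀ j, ∀ sb, 0 < sb → sb ≤ 1 → n j ≤ al4 sb * p j + be4 sb)
    (hlo : ∀ j, (7/125) ≤ p j) (hp1 : ∀ j, p j ≤ 1) (hcap : ∀ j ∈ C, n j < (2033/6250))
    (hu : n i0 ≤ (939/10000)) (hC2 : C.card = 2)
    (hF2 : (Finset.univ.erase i0 \ C).card = 2)
    (hlc : (C.filter fun j => (3/20) ≤ p j).card = 0)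
    (hlf : ((Finset.univ.erase i0 \ C).filter fun j => (3/20) ≤ p j).card = 2) :
    ∑ i, n i ^ 2 < (179049/500000) := by
  have key := joint_sum n p i0 C hC hsum (pc := (3/20)) (ACL := (1/2)) (ACS := (-649/62500))
    (AL := (2987/1000000)) (AS := (1/2)) (B := (19/50))
    (fun j hj hp => cap5i10c0f2CL (hn0 j) (hcap j hj) hp)
    (fun j hj hp => cap5i10c0f2CS (hn0 j) (hrow j) (hlo j) hp.le)
    (fun j _ hp => cap5i10c0f2FL (hn0 j) (hrow j) hp (hp1 j))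
    (fun j _ hp => cap5i10c0f2FS (hn0 j) (hrow j) (hlo j) hp.le)
  rw [card_filter_two C _ hC2 hlc, card_filter_two _ _ hF2 hlf, hlc, hlf] at key
  have h1 : n i0 ^ 2 ≤ (939/10000) ^ 2 := pow_le_pow_left₀ (hn0 i0) hu 2
  have h2 := hlo i0
  norm_num at key h1 h2 ⊢
  linarith

lemma cap5i10c1f0FL {a p : ℝ} (ha0 : 0 ≤ a) (h : ∀ sb, 0 < sb → sb ≤ 1 → a ≤ al4 sb * p + be4 sb)
    (hp : (3/20) ≤ p) (hp1 : p ≤ 1) : a ^ 2 ≤ (1/2) + (1/10) * p := by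
  exact row4 (sb := (33/40)) (P := (3/20)) (Q := 1) ha0 h (by norm_num) (by norm_num) hp hp1 (by norm_num [al4, be4]) (by norm_num [al4, be4])

lemma cap5i10c1f0FS {a p : ℝ} (ha0 : 0 ≤ a) (h : ∀ sb, 0 < sb → sb ≤ 1 → a ≤ al4 sb * p + be4 sb)
    (hp : (7/125) ≤ p) (hp1 : p ≤ (3/20)) : a ^ 2 ≤ (41029/1000000) + (1/10) * p := by
  exact row4 (sb := (9/20)) (P := (7/125)) (Q := (3/20)) ha0 h (by norm_num) (by norm_num) hp hp1 (by norm_num [al4, be4]) (by norm_num [al4, be4])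

lemma cap5i10c1f0CLr {a p : ℝ} (ha0 : 0 ≤ a) (h : ∀ sb, 0 < sb → sb ≤ 1 → a ≤ al4 sb * p + be4 sb)
    (hp : (3/20) ≤ p) (hp1 : p ≤ (170221/1000000)) : a ^ 2 ≤ (17757/200000) + (1/10) * p := by
  exact row4 (sb := (1/40)) (P := (3/20)) (Q := (170221/1000000)) ha0 h (by norm_num) (by norm_num) hp hp1 (by norm_num [al4, be4]) (by norm_num [al4, be4])

lemma cap5i10c1f0CL {a p : ℝ} (ha0 : 0 ≤ a) (h : ∀ sb, 0 < sb → sb ≤ 1 → a ≤ al4 sb * p + be4 sb)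
    (hc : a < (2033/6250)) (hp : (3/20) ≤ p) : a ^ 2 ≤ (17757/200000) + (1/10) * p := by
  rcases le_total p (170221/1000000) with h1 | h1
  · exact cap5i10c1f0CLr ha0 h hp h1
  · exact cap_extend ha0 hc (by norm_num) (Pb := (170221/1000000)) (by norm_num) h1

lemma cap5i10c1f0CS {a p : ℝ} (ha0 : 0 ≤ a) (h : ∀ sb, 0 < sb → sb ≤ 1 → a ≤ al4 sb * p + be4 sb)
    (hp : (7/125) ≤ p) (hp1 : p ≤ (3/20)) : a ^ 2 ≤ (41029/1000000) + (1/10) * p := by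
  exact row4 (sb := (9/20)) (P := (7/125)) (Q := (3/20)) ha0 h (by norm_num) (by norm_num) hp hp1 (by norm_num [al4, be4]) (by norm_num [al4, be4])

lemma cap5i10c1f0 (n p : ι → ℝ) (i0 : ι) (C : Finset ι) (hC : C ⊆ Finset.univ.erase i0)
    (hsum : ∑ i, p i = 1) (hn0 : ∀ j, 0 ≤ n j)
    (hrow : ∀ j, ∀ sb, 0 < sb → sb ≤ 1 → n j ≤ al4 sb * p j + be4 sb)
    (hlo : ∀ j, (7/125) ≤ p j) (hp1 : ∀ j, p j ≤ 1) (hcap : ∀ j ∈ C, n j < (2033/6250))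
    (hu : n i0 ≤ (939/10000)) (hC2 : C.card = 2)
    (hF2 : (Finset.univ.erase i0 \ C).card = 2)
    (hlc : (C.filter fun j => (3/20) ≤ p j).card = 1)
    (hlf : ((Finset.univ.erase i0 \ C).filter fun j => (3/20) ≤ p j).card = 0) :
    ∑ i, n i ^ 2 < (179049/500000) := by
  have key := joint_sum n p i0 C hC hsum (pc := (3/20)) (ACL := (17757/200000)) (ACS := (41029/1000000))
    (AL := (1/2)) (AS := (41029/1000000)) (B := (1/10))
    (fun j hj hp => cap5i10c1f0CL (hn0 j) (hrow j) (hcap j hj) hp)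
    (fun j hj hp => cap5i10c1f0CS (hn0 j) (hrow j) (hlo j) hp.le)
    (fun j _ hp => cap5i10c1f0FL (hn0 j) (hrow j) hp (hp1 j))
    (fun j _ hp => cap5i10c1f0FS (hn0 j) (hrow j) (hlo j) hp.le)
  rw [card_filter_two C _ hC2 hlc, card_filter_two _ _ hF2 hlf, hlc, hlf] at key
  have h1 : n i0 ^ 2 ≤ (939/10000) ^ 2 := pow_le_pow_left₀ (hn0 i0) hu 2
  have h2 := hlo i0
  norm_num at key h1 h2 ⊢
  linarith

lemma cap5i10c1f1FL {a p : ℝ} (ha0 : 0 ≤ a) (h : ∀ sb, 0 < sb → sb ≤ 1 → a ≤ al4 sb * p + be4 sb)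
    (hp : (3/20) ≤ p) (hp1 : p ≤ 1) : a ^ 2 ≤ (23573/1000000) + (8/25) * p := by
  rcases le_total p (3677/10000) with h0 | h0
  · exact row4 (sb := (17/20)) (P := (3/20)) (Q := (3677/10000)) ha0 h (by norm_num) (by norm_num) hp h0 (by norm_num [al4, be4]) (by norm_num [al4, be4])
  exact row4 (sb := (37/40)) (P := (3677/10000)) (Q := 1) ha0 h (by norm_num) (by norm_num) h0 hp1 (by norm_num [al4, be4]) (by norm_num [al4, be4])

lemma cap5i10c1f1FS {a p : ℝ} (ha0 : 0 ≤ a) (h : ∀ sb, 0 < sb → sb ≤ 1 → a ≤ al4 sb * p + be4 sb)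
    (hp : (7/125) ≤ p) (hp1 : p ≤ (3/20)) : a ^ 2 ≤ (-247/250000) + (8/25) * p := by
  exact row4 (sb := (23/40)) (P := (7/125)) (Q := (3/20)) ha0 h (by norm_num) (by norm_num) hp hp1 (by norm_num [al4, be4]) (by norm_num [al4, be4])

lemma cap5i10c1f1CLr {a p : ℝ} (ha0 : 0 ≤ a) (h : ∀ sb, 0 < sb → sb ≤ 1 → a ≤ al4 sb * p + be4 sb)
    (hp : (3/20) ≤ p) (hp1 : p ≤ (272319/1000000)) : a ^ 2 ≤ (3733/200000) + (8/25) * p := by
  exact row4 (sb := (3/4)) (P := (3/20)) (Q := (272319/1000000)) ha0 h (by norm_num) (by norm_num) hp hp1 (by norm_num [al4, be4]) (by norm_num [al4, be4])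

lemma cap5i10c1f1CL {a p : ℝ} (ha0 : 0 ≤ a) (h : ∀ sb, 0 < sb → sb ≤ 1 → a ≤ al4 sb * p + be4 sb)
    (hc : a < (2033/6250)) (hp : (3/20) ≤ p) : a ^ 2 ≤ (3733/200000) + (8/25) * p := by
  rcases le_total p (272319/1000000) with h1 | h1
  · exact cap5i10c1f1CLr ha0 h hp h1
  · exact cap_extend ha0 hc (by norm_num) (Pb := (272319/1000000)) (by norm_num) h1

lemma cap5i10c1f1CS {a p : ℝ} (ha0 : 0 ≤ a) (h : ∀ sb, 0 < sb → sb ≤ 1 → a ≤ al4 sb * p + be4 sb)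
    (hp : (7/125) ≤ p) (hp1 : p ≤ (3/20)) : a ^ 2 ≤ (-247/250000) + (8/25) * p := by
  exact row4 (sb := (23/40)) (P := (7/125)) (Q := (3/20)) ha0 h (by norm_num) (by norm_num) hp hp1 (by norm_num [al4, be4]) (by norm_num [al4, be4])

lemma cap5i10c1f1 (n p : ι → ℝ) (i0 : ι) (C : Finset ι) (hC : C ⊆ Finset.univ.erase i0)
    (hsum : ∑ i, p i = 1) (hn0 : ∀ j, 0 ≤ n j)
    (hrow : ∀ j, ∀ sb, 0 < sb → sb ≤ 1 → n j ≤ al4 sb * p j + be4 sb)
    (hlo : ∀ j, (7/125) ≤ p j) (hp1 : ∀ j, p j ≤ 1) (hcap : ∀ j ∈ C, n j < (2033/6250))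
    (hu : n i0 ≤ (939/10000)) (hC2 : C.card = 2)
    (hF2 : (Finset.univ.erase i0 \ C).card = 2)
    (hlc : (C.filter fun j => (3/20) ≤ p j).card = 1)
    (hlf : ((Finset.univ.erase i0 \ C).filter fun j => (3/20) ≤ p j).card = 1) :
    ∑ i, n i ^ 2 < (179049/500000) := by
  have key := joint_sum n p i0 C hC hsum (pc := (3/20)) (ACL := (3733/200000)) (ACS := (-247/250000))
    (AL := (23573/1000000)) (AS := (-247/250000)) (B := (8/25))
    (fun j hj hp => cap5i10c1f1CL (hn0 j) (hrow j) (hcap j hj) hp)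
    (fun j hj hp => cap5i10c1f1CS (hn0 j) (hrow j) (hlo j) hp.le)
    (fun j _ hp => cap5i10c1f1FL (hn0 j) (hrow j) hp (hp1 j))
    (fun j _ hp => cap5i10c1f1FS (hn0 j) (hrow j) (hlo j) hp.le)
  rw [card_filter_two C _ hC2 hlc, card_filter_two _ _ hF2 hlf, hlc, hlf] at key
  have h1 : n i0 ^ 2 ≤ (939/10000) ^ 2 := pow_le_pow_left₀ (hn0 i0) hu 2
  have h2 := hlo i0
  norm_num at key h1 h2 ⊢
  linarith

lemma cap5i10c1f2FL {a p : ℝ} (ha0 : 0 ≤ a) (h : ∀ sb, 0 < sb → sb ≤ 1 → a ≤ al4 sb * p + be4 sb)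
    (hp : (3/20) ≤ p) (hp1 : p ≤ 1) : a ^ 2 ≤ (-4599/1000000) + (2/5) * p := by
  rcases le_total p (1113/4000) with h0 | h0
  · exact row4 (sb := (31/40)) (P := (3/20)) (Q := (1113/4000)) ha0 h (by norm_num) (by norm_num) hp h0 (by norm_num [al4, be4]) (by norm_num [al4, be4])
  rcases le_total p (1569/5000) with h1 | h1
  · exact row4 (sb := (33/40)) (P := (1113/4000)) (Q := (1569/5000)) ha0 h (by norm_num) (by norm_num) h0 h1 (by norm_num [al4, be4]) (by norm_num [al4, be4])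
  rcases le_total p (4513/10000) with h2 | h2
  · exact row4 (sb := (17/20)) (P := (1569/5000)) (Q := (4513/10000)) ha0 h (by norm_num) (by norm_num) h1 h2 (by norm_num [al4, be4]) (by norm_num [al4, be4])
  exact row4 (sb := (9/10)) (P := (4513/10000)) (Q := 1) ha0 h (by norm_num) (by norm_num) h2 hp1 (by norm_num [al4, be4]) (by norm_num [al4, be4])

lemma cap5i10c1f2FS {a p : ℝ} (ha0 : 0 ≤ a) (h : ∀ sb, 0 < sb → sb ≤ 1 → a ≤ al4 sb * p + be4 sb)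
    (hp : (7/125) ≤ p) (hp1 : p ≤ (3/20)) : a ^ 2 ≤ (1/2) + (2/5) * p := by
  exact row4 (sb := (1/40)) (P := (7/125)) (Q := (3/20)) ha0 h (by norm_num) (by norm_num) hp hp1 (by norm_num [al4, be4]) (by norm_num [al4, be4])

lemma cap5i10c1f2CLr {a p : ℝ} (ha0 : 0 ≤ a) (h : ∀ sb, 0 < sb → sb ≤ 1 → a ≤ al4 sb * p + be4 sb)
    (hp : (3/20) ≤ p) (hp1 : p ≤ (138853/500000)) : a ^ 2 ≤ (-211/40000) + (2/5) * p := by
  rcases le_total p (169/625) with h0 | h0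
  · exact row4 (sb := (31/40)) (P := (3/20)) (Q := (169/625)) ha0 h (by norm_num) (by norm_num) hp h0 (by norm_num [al4, be4]) (by norm_num [al4, be4])
  exact row4 (sb := (4/5)) (P := (169/625)) (Q := (138853/500000)) ha0 h (by norm_num) (by norm_num) h0 hp1 (by norm_num [al4, be4]) (by norm_num [al4, be4])

lemma cap5i10c1f2CL {a p : ℝ} (ha0 : 0 ≤ a) (h : ∀ sb, 0 < sb → sb ≤ 1 → a ≤ al4 sb * p + be4 sb)
    (hc : a < (2033/6250)) (hp : (3/20) ≤ p) : a ^ 2 ≤ (-211/40000) + (2/5) * p := by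
  rcases le_total p (138853/500000) with h1 | h1
  · exact cap5i10c1f2CLr ha0 h hp h1
  · exact cap_extend ha0 hc (by norm_num) (Pb := (138853/500000)) (by norm_num) h1

lemma cap5i10c1f2CS {a p : ℝ} (ha0 : 0 ≤ a) (h : ∀ sb, 0 < sb → sb ≤ 1 → a ≤ al4 sb * p + be4 sb)
    (hp : (7/125) ≤ p) (hp1 : p ≤ (3/20)) : a ^ 2 ≤ (-6951/500000) + (2/5) * p := by
  rcases le_total p (1181/10000) with h0 | h0
  · exact row4 (sb := (19/40)) (P := (7/125)) (Q := (1181/10000)) ha0 h (by norm_num) (by norm_num) hp h0 (by norm_num [al4, be4]) (by norm_num [al4, be4])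
  exact row4 (sb := (3/5)) (P := (1181/10000)) (Q := (3/20)) ha0 h (by norm_num) (by norm_num) h0 hp1 (by norm_num [al4, be4]) (by norm_num [al4, be4])

lemma cap5i10c1f2 (n p : ι → ℝ) (i0 : ι) (C : Finset ι) (hC : C ⊆ Finset.univ.erase i0)
    (hsum : ∑ i, p i = 1) (hn0 : ∀ j, 0 ≤ n j)
    (hrow : ∀ j, ∀ sb, 0 < sb → sb ≤ 1 → n j ≤ al4 sb * p j + be4 sb)
    (hlo : ∀ j, (7/125) ≤ p j) (hp1 : ∀ j, p j ≤ 1) (hcap : ∀ j ∈ C, n j < (2033/6250))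
    (hu : n i0 ≤ (939/10000)) (hC2 : C.card = 2)
    (hF2 : (Finset.univ.erase i0 \ C).card = 2)
    (hlc : (C.filter fun j => (3/20) ≤ p j).card = 1)
    (hlf : ((Finset.univ.erase i0 \ C).filter fun j => (3/20) ≤ p j).card = 2) :
    ∑ i, n i ^ 2 < (179049/500000) := by
  have key := joint_sum n p i0 C hC hsum (pc := (3/20)) (ACL := (-211/40000)) (ACS := (-6951/500000))
    (AL := (-4599/1000000)) (AS := (1/2)) (B := (2/5))
    (fun j hj hp => cap5i10c1f2CL (hn0 j) (hrow j) (hcap j hj) hp)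
    (fun j hj hp => cap5i10c1f2CS (hn0 j) (hrow j) (hlo j) hp.le)
    (fun j _ hp => cap5i10c1f2FL (hn0 j) (hrow j) hp (hp1 j))
    (fun j _ hp => cap5i10c1f2FS (hn0 j) (hrow j) (hlo j) hp.le)
  rw [card_filter_two C _ hC2 hlc, card_filter_two _ _ hF2 hlf, hlc, hlf] at key
  have h1 : n i0 ^ 2 ≤ (939/10000) ^ 2 := pow_le_pow_left₀ (hn0 i0) hu 2
  have h2 := hlo i0
  norm_num at key h1 h2 ⊢
  linarith

lemma cap5i10c2f0FL {a p : ℝ} (ha0 : 0 ≤ a) (h : ∀ sb, 0 < sb → sb ≤ 1 → a ≤ al4 sb * p + be4 sb)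
    (hp : (3/20) ≤ p) (hp1 : p ≤ 1) : a ^ 2 ≤ (1/2) + (1/10) * p := by
  exact row4 (sb := (33/40)) (P := (3/20)) (Q := 1) ha0 h (by norm_num) (by norm_num) hp hp1 (by norm_num [al4, be4]) (by norm_num [al4, be4])

lemma cap5i10c2f0FS {a p : ℝ} (ha0 : 0 ≤ a) (h : ∀ sb, 0 < sb → sb ≤ 1 → a ≤ al4 sb * p + be4 sb)
    (hp : (7/125) ≤ p) (hp1 : p ≤ (3/20)) : a ^ 2 ≤ (1753/50000) + (1/10) * p := by
  exact row4 (sb := (21/40)) (P := (7/125)) (Q := (3/20)) ha0 h (by norm_num) (by norm_num) hp hp1 (by norm_num [al4, be4]) (by norm_num [al4, be4])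

lemma cap5i10c2f0CLr {a p : ℝ} (ha0 : 0 ≤ a) (h : ∀ sb, 0 < sb → sb ≤ 1 → a ≤ al4 sb * p + be4 sb)
    (hp : (3/20) ≤ p) (hp1 : p ≤ (229911/1000000)) : a ^ 2 ≤ (1294/15625) + (1/10) * p := by
  exact row4 (sb := (11/20)) (P := (3/20)) (Q := (229911/1000000)) ha0 h (by norm_num) (by norm_num) hp hp1 (by norm_num [al4, be4]) (by norm_num [al4, be4])

lemma cap5i10c2f0CL {a p : ℝ} (ha0 : 0 ≤ a) (h : ∀ sb, 0 < sb → sb ≤ 1 → a ≤ al4 sb * p + be4 sb)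
    (hc : a < (2033/6250)) (hp : (3/20) ≤ p) : a ^ 2 ≤ (1294/15625) + (1/10) * p := by
  rcases le_total p (229911/1000000) with h1 | h1
  · exact cap5i10c2f0CLr ha0 h hp h1
  · exact cap_extend ha0 hc (by norm_num) (Pb := (229911/1000000)) (by norm_num) h1

lemma cap5i10c2f0CS {a p : ℝ} (ha0 : 0 ≤ a) (hc : a < (2033/6250)) (hp : (7/125) ≤ p) : a ^ 2 ≤ (1/2) + (1/10) * p :=
  cap_extend ha0 hc (by norm_num) (Pb := (7/125)) (by norm_num) hp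

lemma cap5i10c2f0 (n p : ι → ℝ) (i0 : ι) (C : Finset ι) (hC : C ⊆ Finset.univ.erase i0)
    (hsum : ∑ i, p i = 1) (hn0 : ∀ j, 0 ≤ n j)
    (hrow : ∀ j, ∀ sb, 0 < sb → sb ≤ 1 → n j ≤ al4 sb * p j + be4 sb)
    (hlo : ∀ j, (7/125) ≤ p j) (hp1 : ∀ j, p j ≤ 1) (hcap : ∀ j ∈ C, n j < (2033/6250))
    (hu : n i0 ≤ (939/10000)) (hC2 : C.card = 2)
    (hF2 : (Finset.univ.erase i0 \ C).card = 2)
    (hlc : (C.filter fun j => (3/20) ≤ p j).card = 2)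
    (hlf : ((Finset.univ.erase i0 \ C).filter fun j => (3/20) ≤ p j).card = 0) :
    ∑ i, n i ^ 2 < (179049/500000) := by
  have key := joint_sum n p i0 C hC hsum (pc := (3/20)) (ACL := (1294/15625)) (ACS := (1/2))
    (AL := (1/2)) (AS := (1753/50000)) (B := (1/10))
    (fun j hj hp => cap5i10c2f0CL (hn0 j) (hrow j) (hcap j hj) hp)
    (fun j hj hp => cap5i10c2f0CS (hn0 j) (hcap j hj) (hlo j))
    (fun j _ hp => cap5i10c2f0FL (hn0 j) (hrow j) hp (hp1 j))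
    (fun j _ hp => cap5i10c2f0FS (hn0 j) (hrow j) (hlo j) hp.le)
  rw [card_filter_two C _ hC2 hlc, card_filter_two _ _ hF2 hlf, hlc, hlf] at key
  have h1 : n i0 ^ 2 ≤ (939/10000) ^ 2 := pow_le_pow_left₀ (hn0 i0) hu 2
  have h2 := hlo i0
  norm_num at key h1 h2 ⊢
  linarith

lemma cap5i10c2f1FL {a p : ℝ} (ha0 : 0 ≤ a) (h : ∀ sb, 0 < sb → sb ≤ 1 → a ≤ al4 sb * p + be4 sb)
    (hp : (3/20) ≤ p) (hp1 : p ≤ 1) : a ^ 2 ≤ (-2257/500000) + (2/5) * p := by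
  rcases le_total p (349/1250) with h0 | h0
  · exact row4 (sb := (31/40)) (P := (3/20)) (Q := (349/1250)) ha0 h (by norm_num) (by norm_num) hp h0 (by norm_num [al4, be4]) (by norm_num [al4, be4])
  rcases le_total p (1591/5000) with h1 | h1
  · exact row4 (sb := (33/40)) (P := (349/1250)) (Q := (1591/5000)) ha0 h (by norm_num) (by norm_num) h0 h1 (by norm_num [al4, be4]) (by norm_num [al4, be4])
  rcases le_total p (907/2000) with h2 | h2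
  · exact row4 (sb := (17/20)) (P := (1591/5000)) (Q := (907/2000)) ha0 h (by norm_num) (by norm_num) h1 h2 (by norm_num [al4, be4]) (by norm_num [al4, be4])
  exact row4 (sb := (9/10)) (P := (907/2000)) (Q := 1) ha0 h (by norm_num) (by norm_num) h2 hp1 (by norm_num [al4, be4]) (by norm_num [al4, be4])

lemma cap5i10c2f1FS {a p : ℝ} (ha0 : 0 ≤ a) (h : ∀ sb, 0 < sb → sb ≤ 1 → a ≤ al4 sb * p + be4 sb)
    (hp : (7/125) ≤ p) (hp1 : p ≤ (3/20)) : a ^ 2 ≤ (-6909/500000) + (2/5) * p := by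
  rcases le_total p (19/160) with h0 | h0
  · exact row4 (sb := (19/40)) (P := (7/125)) (Q := (19/160)) ha0 h (by norm_num) (by norm_num) hp h0 (by norm_num [al4, be4]) (by norm_num [al4, be4])
  exact row4 (sb := (3/5)) (P := (19/160)) (Q := (3/20)) ha0 h (by norm_num) (by norm_num) h0 hp1 (by norm_num [al4, be4]) (by norm_num [al4, be4])

lemma cap5i10c2f1CLr {a p : ℝ} (ha0 : 0 ≤ a) (h : ∀ sb, 0 < sb → sb ≤ 1 → a ≤ al4 sb * p + be4 sb)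
    (hp : (3/20) ≤ p) (hp1 : p ≤ (277493/1000000)) : a ^ 2 ≤ (-519/100000) + (2/5) * p := by
  rcases le_total p (5429/20000) with h0 | h0
  · exact row4 (sb := (31/40)) (P := (3/20)) (Q := (5429/20000)) ha0 h (by norm_num) (by norm_num) hp h0 (by norm_num [al4, be4]) (by norm_num [al4, be4])
  exact row4 (sb := (4/5)) (P := (5429/20000)) (Q := (277493/1000000)) ha0 h (by norm_num) (by norm_num) h0 hp1 (by norm_num [al4, be4]) (by norm_num [al4, be4])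

lemma cap5i10c2f1CL {a p : ℝ} (ha0 : 0 ≤ a) (h : ∀ sb, 0 < sb → sb ≤ 1 → a ≤ al4 sb * p + be4 sb)
    (hc : a < (2033/6250)) (hp : (3/20) ≤ p) : a ^ 2 ≤ (-519/100000) + (2/5) * p := by
  rcases le_total p (277493/1000000) with h1 | h1
  · exact cap5i10c2f1CLr ha0 h hp h1
  · exact cap_extend ha0 hc (by norm_num) (Pb := (277493/1000000)) (by norm_num) h1

lemma cap5i10c2f1CS {a p : ℝ} (ha0 : 0 ≤ a) (hc : a < (2033/6250)) (hp : (7/125) ≤ p) : a ^ 2 ≤ (1/2) + (2/5) * p :=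
  cap_extend ha0 hc (by norm_num) (Pb := (7/125)) (by norm_num) hp

lemma cap5i10c2f1 (n p : ι → ℝ) (i0 : ι) (C : Finset ι) (hC : C ⊆ Finset.univ.erase i0)
    (hsum : ∑ i, p i = 1) (hn0 : ∀ j, 0 ≤ n j)
    (hrow : ∀ j, ∀ sb, 0 < sb → sb ≤ 1 → n j ≤ al4 sb * p j + be4 sb)
    (hlo : ∀ j, (7/125) ≤ p j) (hp1 : ∀ j, p j ≤ 1) (hcap : ∀ j ∈ C, n j < (2033/6250))
    (hu : n i0 ≤ (939/10000)) (hC2 : C.card = 2)
    (hF2 : (Finset.univ.erase i0 \ C).card = 2)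
    (hlc : (C.filter fun j => (3/20) ≤ p j).card = 2)
    (hlf : ((Finset.univ.erase i0 \ C).filter fun j => (3/20) ≤ p j).card = 1) :
    ∑ i, n i ^ 2 < (179049/500000) := by
  have key := joint_sum n p i0 C hC hsum (pc := (3/20)) (ACL := (-519/100000)) (ACS := (1/2))
    (AL := (-2257/500000)) (AS := (-6909/500000)) (B := (2/5))
    (fun j hj hp => cap5i10c2f1CL (hn0 j) (hrow j) (hcap j hj) hp)
    (fun j hj hp => cap5i10c2f1CS (hn0 j) (hcap j hj) (hlo j))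
    (fun j _ hp => cap5i10c2f1FL (hn0 j) (hrow j) hp (hp1 j))
    (fun j _ hp => cap5i10c2f1FS (hn0 j) (hrow j) (hlo j) hp.le)
  rw [card_filter_two C _ hC2 hlc, card_filter_two _ _ hF2 hlf, hlc, hlf] at key
  have h1 : n i0 ^ 2 ≤ (939/10000) ^ 2 := pow_le_pow_left₀ (hn0 i0) hu 2
  have h2 := hlo i0
  norm_num at key h1 h2 ⊢
  linarith

lemma cap5i10c2f2FL {a p : ℝ} (ha0 : 0 ≤ a) (h : ∀ sb, 0 < sb → sb ≤ 1 → a ≤ al4 sb * p + be4 sb)
    (hp : (3/20) ≤ p) (hp1 : p ≤ 1) : a ^ 2 ≤ (-13103/500000) + (12/25) * p := by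
  rcases le_total p (779/4000) with h0 | h0
  · exact row4 (sb := (27/40)) (P := (3/20)) (Q := (779/4000)) ha0 h (by norm_num) (by norm_num) hp h0 (by norm_num [al4, be4]) (by norm_num [al4, be4])
  rcases le_total p (1143/5000) with h1 | h1
  · exact row4 (sb := (29/40)) (P := (779/4000)) (Q := (1143/5000)) ha0 h (by norm_num) (by norm_num) h0 h1 (by norm_num [al4, be4]) (by norm_num [al4, be4])
  rcases le_total p (2553/10000) with h2 | h2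
  · exact row4 (sb := (3/4)) (P := (1143/5000)) (Q := (2553/10000)) ha0 h (by norm_num) (by norm_num) h1 h2 (by norm_num [al4, be4]) (by norm_num [al4, be4])
  rcases le_total p (1559/4000) with h3 | h3
  · exact row4 (sb := (4/5)) (P := (2553/10000)) (Q := (1559/4000)) ha0 h (by norm_num) (by norm_num) h2 h3 (by norm_num [al4, be4]) (by norm_num [al4, be4])
  exact row4 (sb := (7/8)) (P := (1559/4000)) (Q := 1) ha0 h (by norm_num) (by norm_num) h3 hp1 (by norm_num [al4, be4]) (by norm_num [al4, be4])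

lemma cap5i10c2f2FS {a p : ℝ} (ha0 : 0 ≤ a) (h : ∀ sb, 0 < sb → sb ≤ 1 → a ≤ al4 sb * p + be4 sb)
    (hp : (7/125) ≤ p) (hp1 : p ≤ (3/20)) : a ^ 2 ≤ (1/2) + (12/25) * p := by
  exact row4 (sb := (1/40)) (P := (7/125)) (Q := (3/20)) ha0 h (by norm_num) (by norm_num) hp hp1 (by norm_num [al4, be4]) (by norm_num [al4, be4])

lemma cap5i10c2f2CLr {a p : ℝ} (ha0 : 0 ≤ a) (h : ∀ sb, 0 < sb → sb ≤ 1 → a ≤ al4 sb * p + be4 sb)
    (hp : (3/20) ≤ p) (hp1 : p ≤ (68757/250000)) : a ^ 2 ≤ (-13103/500000) + (12/25) * p := by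
  rcases le_total p (779/4000) with h0 | h0
  · exact row4 (sb := (27/40)) (P := (3/20)) (Q := (779/4000)) ha0 h (by norm_num) (by norm_num) hp h0 (by norm_num [al4, be4]) (by norm_num [al4, be4])
  rcases le_total p (1143/5000) with h1 | h1
  · exact row4 (sb := (29/40)) (P := (779/4000)) (Q := (1143/5000)) ha0 h (by norm_num) (by norm_num) h0 h1 (by norm_num [al4, be4]) (by norm_num [al4, be4])
  rcases le_total p (2553/10000) with h2 | h2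
  · exact row4 (sb := (3/4)) (P := (1143/5000)) (Q := (2553/10000)) ha0 h (by norm_num) (by norm_num) h1 h2 (by norm_num [al4, be4]) (by norm_num [al4, be4])
  exact row4 (sb := (31/40)) (P := (2553/10000)) (Q := (68757/250000)) ha0 h (by norm_num) (by norm_num) h2 hp1 (by norm_num [al4, be4]) (by norm_num [al4, be4])

lemma cap5i10c2f2CL {a p : ℝ} (ha0 : 0 ≤ a) (h : ∀ sb, 0 < sb → sb ≤ 1 → a ≤ al4 sb * p + be4 sb)
    (hc : a < (2033/6250)) (hp : (3/20) ≤ p) : a ^ 2 ≤ (-13103/500000) + (12/25) * p := by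
  rcases le_total p (68757/250000) with h1 | h1
  · exact cap5i10c2f2CLr ha0 h hp h1
  · exact cap_extend ha0 hc (by norm_num) (Pb := (68757/250000)) (by norm_num) h1

lemma cap5i10c2f2CS {a p : ℝ} (ha0 : 0 ≤ a) (hc : a < (2033/6250)) (hp : (7/125) ≤ p) : a ^ 2 ≤ (1/2) + (12/25) * p :=
  cap_extend ha0 hc (by norm_num) (Pb := (7/125)) (by norm_num) hp

lemma cap5i10c2f2 (n p : ι → ℝ) (i0 : ι) (C : Finset ι) (hC : C ⊆ Finset.univ.erase i0)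
    (hsum : ∑ i, p i = 1) (hn0 : ∀ j, 0 ≤ n j)
    (hrow : ∀ j, ∀ sb, 0 < sb → sb ≤ 1 → n j ≤ al4 sb * p j + be4 sb)
    (hlo : ∀ j, (7/125) ≤ p j) (hp1 : ∀ j, p j ≤ 1) (hcap : ∀ j ∈ C, n j < (2033/6250))
    (hu : n i0 ≤ (939/10000)) (hC2 : C.card = 2)
    (hF2 : (Finset.univ.erase i0 \ C).card = 2)
    (hlc : (C.filter fun j => (3/20) ≤ p j).card = 2)
    (hlf : ((Finset.univ.erase i0 \ C).filter fun j => (3/20) ≤ p j).card = 2) :
    ∑ i, n i ^ 2 < (179049/500000) := by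
  have key := joint_sum n p i0 C hC hsum (pc := (3/20)) (ACL := (-13103/500000)) (ACS := (1/2))
    (AL := (-13103/500000)) (AS := (1/2)) (B := (12/25))
    (fun j hj hp => cap5i10c2f2CL (hn0 j) (hrow j) (hcap j hj) hp)
    (fun j hj hp => cap5i10c2f2CS (hn0 j) (hcap j hj) (hlo j))
    (fun j _ hp => cap5i10c2f2FL (hn0 j) (hrow j) hp (hp1 j))
    (fun j _ hp => cap5i10c2f2FS (hn0 j) (hrow j) (hlo j) hp.le)
  rw [card_filter_two C _ hC2 hlc, card_filter_two _ _ hF2 hlf, hlc, hlf] at key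
  have h1 : n i0 ^ 2 ≤ (939/10000) ^ 2 := pow_le_pow_left₀ (hn0 i0) hu 2
  have h2 := hlo i0
  norm_num at key h1 h2 ⊢
  linarith

lemma cap5i10 (n p : ι → ℝ) (i0 : ι) (C : Finset ι) (hC : C ⊆ Finset.univ.erase i0)
    (hsum : ∑ i, p i = 1) (hn0 : ∀ j, 0 ≤ n j)
    (hrow : ∀ j, ∀ sb, 0 < sb → sb ≤ 1 → n j ≤ al4 sb * p j + be4 sb)
    (hlo : ∀ j, (7/125) ≤ p j) (hp1 : ∀ j, p j ≤ 1) (hcap : ∀ j ∈ C, n j < (2033/6250))
    (hu : n i0 ≤ (939/10000)) (hC2 : C.card = 2)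
    (hF2 : (Finset.univ.erase i0 \ C).card = 2) :
    ∑ i, n i ^ 2 < (179049/500000) := by
  have hA : (C.filter fun j => (3/20) ≤ p j).card ≤ 2 := (Finset.card_filter_le _ _).trans hC2.le
  have hB : ((Finset.univ.erase i0 \ C).filter fun j => (3/20) ≤ p j).card ≤ 2 := (Finset.card_filter_le _ _).trans hF2.le
  have hc' : (C.filter fun j => (3/20) ≤ p j).card = 0 ∨ (C.filter fun j => (3/20) ≤ p j).card = 1 ∨ (C.filter fun j => (3/20) ≤ p j).card = 2 := by omega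
  have hf' : ((Finset.univ.erase i0 \ C).filter fun j => (3/20) ≤ p j).card = 0 ∨ ((Finset.univ.erase i0 \ C).filter fun j => (3/20) ≤ p j).card = 1 ∨ ((Finset.univ.erase i0 \ C).filter fun j => (3/20) ≤ p j).card = 2 := by omega
  rcases hc' with hlc | hlc | hlc <;> rcases hf' with hlf | hlf | hlf
  · exact cap5i10c0f0 n p i0 C hC hsum hn0 hrow hlo hp1 hcap hu hC2 hF2 hlc hlf
  · exact cap5i10c0f1 n p i0 C hC hsum hn0 hrow hlo hp1 hcap hu hC2 hF2 hlc hlf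
  · exact cap5i10c0f2 n p i0 C hC hsum hn0 hrow hlo hp1 hcap hu hC2 hF2 hlc hlf
  · exact cap5i10c1f0 n p i0 C hC hsum hn0 hrow hlo hp1 hcap hu hC2 hF2 hlc hlf
  · exact cap5i10c1f1 n p i0 C hC hsum hn0 hrow hlo hp1 hcap hu hC2 hF2 hlc hlf
  · exact cap5i10c1f2 n p i0 C hC hsum hn0 hrow hlo hp1 hcap hu hC2 hF2 hlc hlf
  · exact cap5i10c2f0 n p i0 C hC hsum hn0 hrow hlo hp1 hcap hu hC2 hF2 hlc hlf
  · exact cap5i10c2f1 n p i0 C hC hsum hn0 hrow hlo hp1 hcap hu hC2 hF2 hlc hlf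
  · exact cap5i10c2f2 n p i0 C hC hsum hn0 hrow hlo hp1 hcap hu hC2 hF2 hlc hlf

lemma cap5i11c0f0FL {a p : ℝ} (ha0 : 0 ≤ a) (h : ∀ sb, 0 < sb → sb ≤ 1 → a ≤ al4 sb * p + be4 sb)
    (hp : (3/20) ≤ p) (hp1 : p ≤ 1) : a ^ 2 ≤ (1/2) + (1/10) * p := by
  exact row4 (sb := (33/40)) (P := (3/20)) (Q := 1) ha0 h (by norm_num) (by norm_num) hp hp1 (by norm_num [al4, be4]) (by norm_num [al4, be4])

lemma cap5i11c0f0FS {a p : ℝ} (ha0 : 0 ≤ a) (h : ∀ sb, 0 < sb → sb ≤ 1 → a ≤ al4 sb * p + be4 sb)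
    (hp : (57/1000) ≤ p) (hp1 : p ≤ (3/20)) : a ^ 2 ≤ (46981/1000000) + (1/10) * p := by
  exact row4 (sb := (3/8)) (P := (57/1000)) (Q := (3/20)) ha0 h (by norm_num) (by norm_num) hp hp1 (by norm_num [al4, be4]) (by norm_num [al4, be4])

lemma cap5i11c0f0CL {a p : ℝ} (ha0 : 0 ≤ a) (hc : a < (32979/100000)) (hp : (3/20) ≤ p) : a ^ 2 ≤ (1/2) + (1/10) * p :=
  cap_extend ha0 hc (by norm_num) (Pb := (3/20)) (by norm_num) hp

lemma cap5i11c0f0CS {a p : ℝ} (ha0 : 0 ≤ a) (h : ∀ sb, 0 < sb → sb ≤ 1 → a ≤ al4 sb * p + be4 sb)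
    (hp : (57/1000) ≤ p) (hp1 : p ≤ (3/20)) : a ^ 2 ≤ (46981/1000000) + (1/10) * p := by
  exact row4 (sb := (3/8)) (P := (57/1000)) (Q := (3/20)) ha0 h (by norm_num) (by norm_num) hp hp1 (by norm_num [al4, be4]) (by norm_num [al4, be4])

lemma cap5i11c0f0 (n p : ι → ℝ) (i0 : ι) (C : Finset ι) (hC : C ⊆ Finset.univ.erase i0)
    (hsum : ∑ i, p i = 1) (hn0 : ∀ j, 0 ≤ n j)
    (hrow : ∀ j, ∀ sb, 0 < sb → sb ≤ 1 → n j ≤ al4 sb * p j + be4 sb)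
    (hlo : ∀ j, (57/1000) ≤ p j) (hp1 : ∀ j, p j ≤ 1) (hcap : ∀ j ∈ C, n j < (32979/100000))
    (hu : n i0 ≤ (119/1250)) (hC2 : C.card = 2)
    (hF2 : (Finset.univ.erase i0 \ C).card = 2)
    (hlc : (C.filter fun j => (3/20) ≤ p j).card = 0)
    (hlf : ((Finset.univ.erase i0 \ C).filter fun j => (3/20) ≤ p j).card = 0) :
    ∑ i, n i ^ 2 < (179049/500000) := by
  have key := joint_sum n p i0 C hC hsum (pc := (3/20)) (ACL := (1/2)) (ACS := (46981/1000000))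
    (AL := (1/2)) (AS := (46981/1000000)) (B := (1/10))
    (fun j hj hp => cap5i11c0f0CL (hn0 j) (hcap j hj) hp)
    (fun j hj hp => cap5i11c0f0CS (hn0 j) (hrow j) (hlo j) hp.le)
    (fun j _ hp => cap5i11c0f0FL (hn0 j) (hrow j) hp (hp1 j))
    (fun j _ hp => cap5i11c0f0FS (hn0 j) (hrow j) (hlo j) hp.le)
  rw [card_filter_two C _ hC2 hlc, card_filter_two _ _ hF2 hlf, hlc, hlf] at key
  have h1 : n i0 ^ 2 ≤ (119/1250) ^ 2 := pow_le_pow_left₀ (hn0 i0) hu 2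
  have h2 := hlo i0
  norm_num at key h1 h2 ⊢
  linarith

lemma cap5i11c0f1FL {a p : ℝ} (ha0 : 0 ≤ a) (h : ∀ sb, 0 < sb → sb ≤ 1 → a ≤ al4 sb * p + be4 sb)
    (hp : (3/20) ≤ p) (hp1 : p ≤ 1) : a ^ 2 ≤ (23681/200000) + (1/10) * p := by
  rcases le_total p (5851/10000) with h0 | h0
  · exact row4 (sb := (19/20)) (P := (3/20)) (Q := (5851/10000)) ha0 h (by norm_num) (by norm_num) hp h0 (by norm_num [al4, be4]) (by norm_num [al4, be4])
  exact row4 (sb := (39/40)) (P := (5851/10000)) (Q := 1) ha0 h (by norm_num) (by norm_num) h0 hp1 (by norm_num [al4, be4]) (by norm_num [al4, be4])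

lemma cap5i11c0f1FS {a p : ℝ} (ha0 : 0 ≤ a) (h : ∀ sb, 0 < sb → sb ≤ 1 → a ≤ al4 sb * p + be4 sb)
    (hp : (57/1000) ≤ p) (hp1 : p ≤ (3/20)) : a ^ 2 ≤ (36777/1000000) + (1/10) * p := by
  exact row4 (sb := (1/2)) (P := (57/1000)) (Q := (3/20)) ha0 h (by norm_num) (by norm_num) hp hp1 (by norm_num [al4, be4]) (by norm_num [al4, be4])

lemma cap5i11c0f1CL {a p : ℝ} (ha0 : 0 ≤ a) (hc : a < (32979/100000)) (hp : (3/20) ≤ p) : a ^ 2 ≤ (1/2) + (1/10) * p :=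
  cap_extend ha0 hc (by norm_num) (Pb := (3/20)) (by norm_num) hp

lemma cap5i11c0f1CS {a p : ℝ} (ha0 : 0 ≤ a) (h : ∀ sb, 0 < sb → sb ≤ 1 → a ≤ al4 sb * p + be4 sb)
    (hp : (57/1000) ≤ p) (hp1 : p ≤ (3/20)) : a ^ 2 ≤ (36777/1000000) + (1/10) * p := by
  exact row4 (sb := (1/2)) (P := (57/1000)) (Q := (3/20)) ha0 h (by norm_num) (by norm_num) hp hp1 (by norm_num [al4, be4]) (by norm_num [al4, be4])

lemma cap5i11c0f1 (n p : ι → ℝ) (i0 : ι) (C : Finset ι) (hC : C ⊆ Finset.univ.erase i0)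
    (hsum : ∑ i, p i = 1) (hn0 : ∀ j, 0 ≤ n j)
    (hrow : ∀ j, ∀ sb, 0 < sb → sb ≤ 1 → n j ≤ al4 sb * p j + be4 sb)
    (hlo : ∀ j, (57/1000) ≤ p j) (hp1 : ∀ j, p j ≤ 1) (hcap : ∀ j ∈ C, n j < (32979/100000))
    (hu : n i0 ≤ (119/1250)) (hC2 : C.card = 2)
    (hF2 : (Finset.univ.erase i0 \ C).card = 2)
    (hlc : (C.filter fun j => (3/20) ≤ p j).card = 0)
    (hlf : ((Finset.univ.erase i0 \ C).filter fun j => (3/20) ≤ p j).card = 1) :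
    ∑ i, n i ^ 2 < (179049/500000) := by
  have key := joint_sum n p i0 C hC hsum (pc := (3/20)) (ACL := (1/2)) (ACS := (36777/1000000))
    (AL := (23681/200000)) (AS := (36777/1000000)) (B := (1/10))
    (fun j hj hp => cap5i11c0f1CL (hn0 j) (hcap j hj) hp)
    (fun j hj hp => cap5i11c0f1CS (hn0 j) (hrow j) (hlo j) hp.le)
    (fun j _ hp => cap5i11c0f1FL (hn0 j) (hrow j) hp (hp1 j))
    (fun j _ hp => cap5i11c0f1FS (hn0 j) (hrow j) (hlo j) hp.le)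
  rw [card_filter_two C _ hC2 hlc, card_filter_two _ _ hF2 hlf, hlc, hlf] at key
  have h1 : n i0 ^ 2 ≤ (119/1250) ^ 2 := pow_le_pow_left₀ (hn0 i0) hu 2
  have h2 := hlo i0
  norm_num at key h1 h2 ⊢
  linarith

lemma cap5i11c0f2FL {a p : ℝ} (ha0 : 0 ≤ a) (h : ∀ sb, 0 < sb → sb ≤ 1 → a ≤ al4 sb * p + be4 sb)
    (hp : (3/20) ≤ p) (hp1 : p ≤ 1) : a ^ 2 ≤ (3003/1000000) + (19/50) * p := by
  rcases le_total p (1567/5000) with h0 | h0
  · exact row4 (sb := (4/5)) (P := (3/20)) (Q := (1567/5000)) ha0 h (by norm_num) (by norm_num) hp h0 (by norm_num [al4, be4]) (by norm_num [al4, be4])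
  rcases le_total p (1691/4000) with h1 | h1
  · exact row4 (sb := (17/20)) (P := (1567/5000)) (Q := (1691/4000)) ha0 h (by norm_num) (by norm_num) h0 h1 (by norm_num [al4, be4]) (by norm_num [al4, be4])
  exact row4 (sb := (9/10)) (P := (1691/4000)) (Q := 1) ha0 h (by norm_num) (by norm_num) h1 hp1 (by norm_num [al4, be4]) (by norm_num [al4, be4])

lemma cap5i11c0f2FS {a p : ℝ} (ha0 : 0 ≤ a) (h : ∀ sb, 0 < sb → sb ≤ 1 → a ≤ al4 sb * p + be4 sb)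
    (hp : (57/1000) ≤ p) (hp1 : p ≤ (3/20)) : a ^ 2 ≤ (1/2) + (19/50) * p := by
  exact row4 (sb := (1/40)) (P := (57/1000)) (Q := (3/20)) ha0 h (by norm_num) (by norm_num) hp hp1 (by norm_num [al4, be4]) (by norm_num [al4, be4])

lemma cap5i11c0f2CL {a p : ℝ} (ha0 : 0 ≤ a) (hc : a < (32979/100000)) (hp : (3/20) ≤ p) : a ^ 2 ≤ (1/2) + (19/50) * p :=
  cap_extend ha0 hc (by norm_num) (Pb := (3/20)) (by norm_num) hp

lemma cap5i11c0f2CS {a p : ℝ} (ha0 : 0 ≤ a) (h : ∀ sb, 0 < sb → sb ≤ 1 → a ≤ al4 sb * p + be4 sb)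
    (hp : (57/1000) ≤ p) (hp1 : p ≤ (3/20)) : a ^ 2 ≤ (-10367/1000000) + (19/50) * p := by
  exact row4 (sb := (3/5)) (P := (57/1000)) (Q := (3/20)) ha0 h (by norm_num) (by norm_num) hp hp1 (by norm_num [al4, be4]) (by norm_num [al4, be4])

lemma cap5i11c0f2 (n p : ι → ℝ) (i0 : ι) (C : Finset ι) (hC : C ⊆ Finset.univ.erase i0)
    (hsum : ∑ i, p i = 1) (hn0 : ∀ j, 0 ≤ n j)
    (hrow : ∀ j, ∀ sb, 0 < sb → sb ≤ 1 → n j ≤ al4 sb * p j + be4 sb)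
    (hlo : ∀ j, (57/1000) ≤ p j) (hp1 : ∀ j, p j ≤ 1) (hcap : ∀ j ∈ C, n j < (32979/100000))
    (hu : n i0 ≤ (119/1250)) (hC2 : C.card = 2)
    (hF2 : (Finset.univ.erase i0 \ C).card = 2)
    (hlc : (C.filter fun j => (3/20) ≤ p j).card = 0)
    (hlf : ((Finset.univ.erase i0 \ C).filter fun j => (3/20) ≤ p j).card = 2) :
    ∑ i, n i ^ 2 < (179049/500000) := by
  have key := joint_sum n p i0 C hC hsum (pc := (3/20)) (ACL := (1/2)) (ACS := (-10367/1000000))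
    (AL := (3003/1000000)) (AS := (1/2)) (B := (19/50))
    (fun j hj hp => cap5i11c0f2CL (hn0 j) (hcap j hj) hp)
    (fun j hj hp => cap5i11c0f2CS (hn0 j) (hrow j) (hlo j) hp.le)
    (fun j _ hp => cap5i11c0f2FL (hn0 j) (hrow j) hp (hp1 j))
    (fun j _ hp => cap5i11c0f2FS (hn0 j) (hrow j) (hlo j) hp.le)
  rw [card_filter_two C _ hC2 hlc, card_filter_two _ _ hF2 hlf, hlc, hlf] at key
  have h1 : n i0 ^ 2 ≤ (119/1250) ^ 2 := pow_le_pow_left₀ (hn0 i0) hu 2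
  have h2 := hlo i0
  norm_num at key h1 h2 ⊢
  linarith

lemma cap5i11c1f0FL {a p : ℝ} (ha0 : 0 ≤ a) (h : ∀ sb, 0 < sb → sb ≤ 1 → a ≤ al4 sb * p + be4 sb)
    (hp : (3/20) ≤ p) (hp1 : p ≤ 1) : a ^ 2 ≤ (1/2) + (1/10) * p := by
  exact row4 (sb := (33/40)) (P := (3/20)) (Q := 1) ha0 h (by norm_num) (by norm_num) hp hp1 (by norm_num [al4, be4]) (by norm_num [al4, be4])

lemma cap5i11c1f0FS {a p : ℝ} (ha0 : 0 ≤ a) (h : ∀ sb, 0 < sb → sb ≤ 1 → a ≤ al4 sb * p + be4 sb)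
    (hp : (57/1000) ≤ p) (hp1 : p ≤ (3/20)) : a ^ 2 ≤ (1629/40000) + (1/10) * p := by
  exact row4 (sb := (9/20)) (P := (57/1000)) (Q := (3/20)) ha0 h (by norm_num) (by norm_num) hp hp1 (by norm_num [al4, be4]) (by norm_num [al4, be4])

lemma cap5i11c1f0CLr {a p : ℝ} (ha0 : 0 ≤ a) (h : ∀ sb, 0 < sb → sb ≤ 1 → a ≤ al4 sb * p + be4 sb)
    (hp : (3/20) ≤ p) (hp1 : p ≤ (35991/200000)) : a ^ 2 ≤ (45383/500000) + (1/10) * p := by
  exact row4 (sb := (7/40)) (P := (3/20)) (Q := (35991/200000)) ha0 h (by norm_num) (by norm_num) hp hp1 (by norm_num [al4, be4]) (by norm_num [al4, be4])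

lemma cap5i11c1f0CL {a p : ℝ} (ha0 : 0 ≤ a) (h : ∀ sb, 0 < sb → sb ≤ 1 → a ≤ al4 sb * p + be4 sb)
    (hc : a < (32979/100000)) (hp : (3/20) ≤ p) : a ^ 2 ≤ (45383/500000) + (1/10) * p := by
  rcases le_total p (35991/200000) with h1 | h1
  · exact cap5i11c1f0CLr ha0 h hp h1
  · exact cap_extend ha0 hc (by norm_num) (Pb := (35991/200000)) (by norm_num) h1

lemma cap5i11c1f0CS {a p : ℝ} (ha0 : 0 ≤ a) (h : ∀ sb, 0 < sb → sb ≤ 1 → a ≤ al4 sb * p + be4 sb)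
    (hp : (57/1000) ≤ p) (hp1 : p ≤ (3/20)) : a ^ 2 ≤ (1629/40000) + (1/10) * p := by
  exact row4 (sb := (9/20)) (P := (57/1000)) (Q := (3/20)) ha0 h (by norm_num) (by norm_num) hp hp1 (by norm_num [al4, be4]) (by norm_num [al4, be4])

lemma cap5i11c1f0 (n p : ι → ℝ) (i0 : ι) (C : Finset ι) (hC : C ⊆ Finset.univ.erase i0)
    (hsum : ∑ i, p i = 1) (hn0 : ∀ j, 0 ≤ n j)
    (hrow : ∀ j, ∀ sb, 0 < sb → sb ≤ 1 → n j ≤ al4 sb * p j + be4 sb)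
    (hlo : ∀ j, (57/1000) ≤ p j) (hp1 : ∀ j, p j ≤ 1) (hcap : ∀ j ∈ C, n j < (32979/100000))
    (hu : n i0 ≤ (119/1250)) (hC2 : C.card = 2)
    (hF2 : (Finset.univ.erase i0 \ C).card = 2)
    (hlc : (C.filter fun j => (3/20) ≤ p j).card = 1)
    (hlf : ((Finset.univ.erase i0 \ C).filter fun j => (3/20) ≤ p j).card = 0) :
    ∑ i, n i ^ 2 < (179049/500000) := by
  have key := joint_sum n p i0 C hC hsum (pc := (3/20)) (ACL := (45383/500000)) (ACS := (1629/40000))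
    (AL := (1/2)) (AS := (1629/40000)) (B := (1/10))
    (fun j hj hp => cap5i11c1f0CL (hn0 j) (hrow j) (hcap j hj) hp)
    (fun j hj hp => cap5i11c1f0CS (hn0 j) (hrow j) (hlo j) hp.le)
    (fun j _ hp => cap5i11c1f0FL (hn0 j) (hrow j) hp (hp1 j))
    (fun j _ hp => cap5i11c1f0FS (hn0 j) (hrow j) (hlo j) hp.le)
  rw [card_filter_two C _ hC2 hlc, card_filter_two _ _ hF2 hlf, hlc, hlf] at key
  have h1 : n i0 ^ 2 ≤ (119/1250) ^ 2 := pow_le_pow_left₀ (hn0 i0) hu 2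
  have h2 := hlo i0
  norm_num at key h1 h2 ⊢
  linarith

lemma cap5i11c1f1FL {a p : ℝ} (ha0 : 0 ≤ a) (h : ∀ sb, 0 < sb → sb ≤ 1 → a ≤ al4 sb * p + be4 sb)
    (hp : (3/20) ≤ p) (hp1 : p ≤ 1) : a ^ 2 ≤ (587/25000) + (8/25) * p := by
  rcases le_total p (229/625) with h0 | h0
  · exact row4 (sb := (17/20)) (P := (3/20)) (Q := (229/625)) ha0 h (by norm_num) (by norm_num) hp h0 (by norm_num [al4, be4]) (by norm_num [al4, be4])
  rcases le_total p (16291/20000) with h1 | h1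
  · exact row4 (sb := (9/10)) (P := (229/625)) (Q := (16291/20000)) ha0 h (by norm_num) (by norm_num) h0 h1 (by norm_num [al4, be4]) (by norm_num [al4, be4])
  exact row4 (sb := (37/40)) (P := (16291/20000)) (Q := 1) ha0 h (by norm_num) (by norm_num) h1 hp1 (by norm_num [al4, be4]) (by norm_num [al4, be4])

lemma cap5i11c1f1FS {a p : ℝ} (ha0 : 0 ≤ a) (h : ∀ sb, 0 < sb → sb ≤ 1 → a ≤ al4 sb * p + be4 sb)
    (hp : (57/1000) ≤ p) (hp1 : p ≤ (3/20)) : a ^ 2 ≤ (-1081/1000000) + (8/25) * p := by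
  exact row4 (sb := (23/40)) (P := (57/1000)) (Q := (3/20)) ha0 h (by norm_num) (by norm_num) hp hp1 (by norm_num [al4, be4]) (by norm_num [al4, be4])

lemma cap5i11c1f1CLr {a p : ℝ} (ha0 : 0 ≤ a) (h : ∀ sb, 0 < sb → sb ≤ 1 → a ≤ al4 sb * p + be4 sb)
    (hp : (3/20) ≤ p) (hp1 : p ≤ (279277/1000000)) : a ^ 2 ≤ (19393/1000000) + (8/25) * p := by
  exact row4 (sb := (31/40)) (P := (3/20)) (Q := (279277/1000000)) ha0 h (by norm_num) (by norm_num) hp hp1 (by norm_num [al4, be4]) (by norm_num [al4, be4])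

lemma cap5i11c1f1CL {a p : ℝ} (ha0 : 0 ≤ a) (h : ∀ sb, 0 < sb → sb ≤ 1 → a ≤ al4 sb * p + be4 sb)
    (hc : a < (32979/100000)) (hp : (3/20) ≤ p) : a ^ 2 ≤ (19393/1000000) + (8/25) * p := by
  rcases le_total p (279277/1000000) with h1 | h1
  · exact cap5i11c1f1CLr ha0 h hp h1
  · exact cap_extend ha0 hc (by norm_num) (Pb := (279277/1000000)) (by norm_num) h1

lemma cap5i11c1f1CS {a p : ℝ} (ha0 : 0 ≤ a) (h : ∀ sb, 0 < sb → sb ≤ 1 → a ≤ al4 sb * p + be4 sb)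
    (hp : (57/1000) ≤ p) (hp1 : p ≤ (3/20)) : a ^ 2 ≤ (-1081/1000000) + (8/25) * p := by
  exact row4 (sb := (23/40)) (P := (57/1000)) (Q := (3/20)) ha0 h (by norm_num) (by norm_num) hp hp1 (by norm_num [al4, be4]) (by norm_num [al4, be4])

lemma cap5i11c1f1 (n p : ι → ℝ) (i0 : ι) (C : Finset ι) (hC : C ⊆ Finset.univ.erase i0)
    (hsum : ∑ i, p i = 1) (hn0 : ∀ j, 0 ≤ n j)
    (hrow : ∀ j, ∀ sb, 0 < sb → sb ≤ 1 → n j ≤ al4 sb * p j + be4 sb)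
    (hlo : ∀ j, (57/1000) ≤ p j) (hp1 : ∀ j, p j ≤ 1) (hcap : ∀ j ∈ C, n j < (32979/100000))
    (hu : n i0 ≤ (119/1250)) (hC2 : C.card = 2)
    (hF2 : (Finset.univ.erase i0 \ C).card = 2)
    (hlc : (C.filter fun j => (3/20) ≤ p j).card = 1)
    (hlf : ((Finset.univ.erase i0 \ C).filter fun j => (3/20) ≤ p j).card = 1) :
    ∑ i, n i ^ 2 < (179049/500000) := by
  have key := joint_sum n p i0 C hC hsum (pc := (3/20)) (ACL := (19393/1000000)) (ACS := (-1081/1000000))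
    (AL := (587/25000)) (AS := (-1081/1000000)) (B := (8/25))
    (fun j hj hp => cap5i11c1f1CL (hn0 j) (hrow j) (hcap j hj) hp)
    (fun j hj hp => cap5i11c1f1CS (hn0 j) (hrow j) (hlo j) hp.le)
    (fun j _ hp => cap5i11c1f1FL (hn0 j) (hrow j) hp (hp1 j))
    (fun j _ hp => cap5i11c1f1FS (hn0 j) (hrow j) (hlo j) hp.le)
  rw [card_filter_two C _ hC2 hlc, card_filter_two _ _ hF2 hlf, hlc, hlf] at key
  have h1 : n i0 ^ 2 ≤ (119/1250) ^ 2 := pow_le_pow_left₀ (hn0 i0) hu 2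
  have h2 := hlo i0
  norm_num at key h1 h2 ⊢
  linarith

lemma cap5i11c1f2FL {a p : ℝ} (ha0 : 0 ≤ a) (h : ∀ sb, 0 < sb → sb ≤ 1 → a ≤ al4 sb * p + be4 sb)
    (hp : (3/20) ≤ p) (hp1 : p ≤ 1) : a ^ 2 ≤ (-23/5000) + (2/5) * p := by
  rcases le_total p (1113/4000) with h0 | h0
  · exact row4 (sb := (31/40)) (P := (3/20)) (Q := (1113/4000)) ha0 h (by norm_num) (by norm_num) hp h0 (by norm_num [al4, be4]) (by norm_num [al4, be4])
  rcases le_total p (3137/10000) with h1 | h1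
  · exact row4 (sb := (33/40)) (P := (1113/4000)) (Q := (3137/10000)) ha0 h (by norm_num) (by norm_num) h0 h1 (by norm_num [al4, be4]) (by norm_num [al4, be4])
  rcases le_total p (361/800) with h2 | h2
  · exact row4 (sb := (17/20)) (P := (3137/10000)) (Q := (361/800)) ha0 h (by norm_num) (by norm_num) h1 h2 (by norm_num [al4, be4]) (by norm_num [al4, be4])
  exact row4 (sb := (9/10)) (P := (361/800)) (Q := 1) ha0 h (by norm_num) (by norm_num) h2 hp1 (by norm_num [al4, be4]) (by norm_num [al4, be4])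

lemma cap5i11c1f2FS {a p : ℝ} (ha0 : 0 ≤ a) (h : ∀ sb, 0 < sb → sb ≤ 1 → a ≤ al4 sb * p + be4 sb)
    (hp : (57/1000) ≤ p) (hp1 : p ≤ (3/20)) : a ^ 2 ≤ (1/2) + (2/5) * p := by
  exact row4 (sb := (1/40)) (P := (57/1000)) (Q := (3/20)) ha0 h (by norm_num) (by norm_num) hp hp1 (by norm_num [al4, be4]) (by norm_num [al4, be4])

lemma cap5i11c1f2CLr {a p : ℝ} (ha0 : 0 ≤ a) (h : ∀ sb, 0 < sb → sb ≤ 1 → a ≤ al4 sb * p + be4 sb)
    (hp : (3/20) ≤ p) (hp1 : p ≤ (142187/500000)) : a ^ 2 ≤ (-1247/250000) + (2/5) * p := by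
  rcases le_total p (5477/20000) with h0 | h0
  · exact row4 (sb := (31/40)) (P := (3/20)) (Q := (5477/20000)) ha0 h (by norm_num) (by norm_num) hp h0 (by norm_num [al4, be4]) (by norm_num [al4, be4])
  exact row4 (sb := (4/5)) (P := (5477/20000)) (Q := (142187/500000)) ha0 h (by norm_num) (by norm_num) h0 hp1 (by norm_num [al4, be4]) (by norm_num [al4, be4])

lemma cap5i11c1f2CL {a p : ℝ} (ha0 : 0 ≤ a) (h : ∀ sb, 0 < sb → sb ≤ 1 → a ≤ al4 sb * p + be4 sb)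
    (hc : a < (32979/100000)) (hp : (3/20) ≤ p) : a ^ 2 ≤ (-1247/250000) + (2/5) * p := by
  rcases le_total p (142187/500000) with h1 | h1
  · exact cap5i11c1f2CLr ha0 h hp h1
  · exact cap_extend ha0 hc (by norm_num) (Pb := (142187/500000)) (by norm_num) h1

lemma cap5i11c1f2CS {a p : ℝ} (ha0 : 0 ≤ a) (h : ∀ sb, 0 < sb → sb ≤ 1 → a ≤ al4 sb * p + be4 sb)
    (hp : (57/1000) ≤ p) (hp1 : p ≤ (3/20)) : a ^ 2 ≤ (-561/40000) + (2/5) * p := by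
  rcases le_total p (2343/20000) with h0 | h0
  · exact row4 (sb := (19/40)) (P := (57/1000)) (Q := (2343/20000)) ha0 h (by norm_num) (by norm_num) hp h0 (by norm_num [al4, be4]) (by norm_num [al4, be4])
  exact row4 (sb := (3/5)) (P := (2343/20000)) (Q := (3/20)) ha0 h (by norm_num) (by norm_num) h0 hp1 (by norm_num [al4, be4]) (by norm_num [al4, be4])

lemma cap5i11c1f2 (n p : ι → ℝ) (i0 : ι) (C : Finset ι) (hC : C ⊆ Finset.univ.erase i0)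
    (hsum : ∑ i, p i = 1) (hn0 : ∀ j, 0 ≤ n j)
    (hrow : ∀ j, ∀ sb, 0 < sb → sb ≤ 1 → n j ≤ al4 sb * p j + be4 sb)
    (hlo : ∀ j, (57/1000) ≤ p j) (hp1 : ∀ j, p j ≤ 1) (hcap : ∀ j ∈ C, n j < (32979/100000))
    (hu : n i0 ≤ (119/1250)) (hC2 : C.card = 2)
    (hF2 : (Finset.univ.erase i0 \ C).card = 2)
    (hlc : (C.filter fun j => (3/20) ≤ p j).card = 1)
    (hlf : ((Finset.univ.erase i0 \ C).filter fun j => (3/20) ≤ p j).card = 2) :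
    ∑ i, n i ^ 2 < (179049/500000) := by
  have key := joint_sum n p i0 C hC hsum (pc := (3/20)) (ACL := (-1247/250000)) (ACS := (-561/40000))
    (AL := (-23/5000)) (AS := (1/2)) (B := (2/5))
    (fun j hj hp => cap5i11c1f2CL (hn0 j) (hrow j) (hcap j hj) hp)
    (fun j hj hp => cap5i11c1f2CS (hn0 j) (hrow j) (hlo j) hp.le)
    (fun j _ hp => cap5i11c1f2FL (hn0 j) (hrow j) hp (hp1 j))
    (fun j _ hp => cap5i11c1f2FS (hn0 j) (hrow j) (hlo j) hp.le)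
  rw [card_filter_two C _ hC2 hlc, card_filter_two _ _ hF2 hlf, hlc, hlf] at key
  have h1 : n i0 ^ 2 ≤ (119/1250) ^ 2 := pow_le_pow_left₀ (hn0 i0) hu 2
  have h2 := hlo i0
  norm_num at key h1 h2 ⊢
  linarith

lemma cap5i11c2f0FL {a p : ℝ} (ha0 : 0 ≤ a) (h : ∀ sb, 0 < sb → sb ≤ 1 → a ≤ al4 sb * p + be4 sb)
    (hp : (3/20) ≤ p) (hp1 : p ≤ 1) : a ^ 2 ≤ (1/2) + (1/10) * p := by
  exact row4 (sb := (33/40)) (P := (3/20)) (Q := 1) ha0 h (by norm_num) (by norm_num) hp hp1 (by norm_num [al4, be4]) (by norm_num [al4, be4])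

lemma cap5i11c2f0FS {a p : ℝ} (ha0 : 0 ≤ a) (h : ∀ sb, 0 < sb → sb ≤ 1 → a ≤ al4 sb * p + be4 sb)
    (hp : (57/1000) ≤ p) (hp1 : p ≤ (3/20)) : a ^ 2 ≤ (3447/100000) + (1/10) * p := by
  exact row4 (sb := (21/40)) (P := (57/1000)) (Q := (3/20)) ha0 h (by norm_num) (by norm_num) hp hp1 (by norm_num [al4, be4]) (by norm_num [al4, be4])

lemma cap5i11c2f0CLr {a p : ℝ} (ha0 : 0 ≤ a) (h : ∀ sb, 0 < sb → sb ≤ 1 → a ≤ al4 sb * p + be4 sb)
    (hp : (3/20) ≤ p) (hp1 : p ≤ (48501/200000)) : a ^ 2 ≤ (84511/1000000) + (1/10) * p := by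
  exact row4 (sb := (3/5)) (P := (3/20)) (Q := (48501/200000)) ha0 h (by norm_num) (by norm_num) hp hp1 (by norm_num [al4, be4]) (by norm_num [al4, be4])

lemma cap5i11c2f0CL {a p : ℝ} (ha0 : 0 ≤ a) (h : ∀ sb, 0 < sb → sb ≤ 1 → a ≤ al4 sb * p + be4 sb)
    (hc : a < (32979/100000)) (hp : (3/20) ≤ p) : a ^ 2 ≤ (84511/1000000) + (1/10) * p := by
  rcases le_total p (48501/200000) with h1 | h1
  · exact cap5i11c2f0CLr ha0 h hp h1
  · exact cap_extend ha0 hc (by norm_num) (Pb := (48501/200000)) (by norm_num) h1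

lemma cap5i11c2f0CS {a p : ℝ} (ha0 : 0 ≤ a) (hc : a < (32979/100000)) (hp : (57/1000) ≤ p) : a ^ 2 ≤ (1/2) + (1/10) * p :=
  cap_extend ha0 hc (by norm_num) (Pb := (57/1000)) (by norm_num) hp

lemma cap5i11c2f0 (n p : ι → ℝ) (i0 : ι) (C : Finset ι) (hC : C ⊆ Finset.univ.erase i0)
    (hsum : ∑ i, p i = 1) (hn0 : ∀ j, 0 ≤ n j)
    (hrow : ∀ j, ∀ sb, 0 < sb → sb ≤ 1 → n j ≤ al4 sb * p j + be4 sb)
    (hlo : ∀ j, (57/1000) ≤ p j) (hp1 : ∀ j, p j ≤ 1) (hcap : ∀ j ∈ C, n j < (32979/100000))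
    (hu : n i0 ≤ (119/1250)) (hC2 : C.card = 2)
    (hF2 : (Finset.univ.erase i0 \ C).card = 2)
    (hlc : (C.filter fun j => (3/20) ≤ p j).card = 2)
    (hlf : ((Finset.univ.erase i0 \ C).filter fun j => (3/20) ≤ p j).card = 0) :
    ∑ i, n i ^ 2 < (179049/500000) := by
  have key := joint_sum n p i0 C hC hsum (pc := (3/20)) (ACL := (84511/1000000)) (ACS := (1/2))
    (AL := (1/2)) (AS := (3447/100000)) (B := (1/10))
    (fun j hj hp => cap5i11c2f0CL (hn0 j) (hrow j) (hcap j hj) hp)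
    (fun j hj hp => cap5i11c2f0CS (hn0 j) (hcap j hj) (hlo j))
    (fun j _ hp => cap5i11c2f0FL (hn0 j) (hrow j) hp (hp1 j))
    (fun j _ hp => cap5i11c2f0FS (hn0 j) (hrow j) (hlo j) hp.le)
  rw [card_filter_two C _ hC2 hlc, card_filter_two _ _ hF2 hlf, hlc, hlf] at key
  have h1 : n i0 ^ 2 ≤ (119/1250) ^ 2 := pow_le_pow_left₀ (hn0 i0) hu 2
  have h2 := hlo i0
  norm_num at key h1 h2 ⊢
  linarith

lemma cap5i11c2f1FL {a p : ℝ} (ha0 : 0 ≤ a) (h : ∀ sb, 0 < sb → sb ≤ 1 → a ≤ al4 sb * p + be4 sb)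
    (hp : (3/20) ≤ p) (hp1 : p ≤ 1) : a ^ 2 ≤ (-569/125000) + (2/5) * p := by
  rcases le_total p (697/2500) with h0 | h0
  · exact row4 (sb := (31/40)) (P := (3/20)) (Q := (697/2500)) ha0 h (by norm_num) (by norm_num) hp h0 (by norm_num [al4, be4]) (by norm_num [al4, be4])
  rcases le_total p (3163/10000) with h1 | h1
  · exact row4 (sb := (33/40)) (P := (697/2500)) (Q := (3163/10000)) ha0 h (by norm_num) (by norm_num) h0 h1 (by norm_num [al4, be4]) (by norm_num [al4, be4])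
  rcases le_total p (9051/20000) with h2 | h2
  · exact row4 (sb := (17/20)) (P := (3163/10000)) (Q := (9051/20000)) ha0 h (by norm_num) (by norm_num) h1 h2 (by norm_num [al4, be4]) (by norm_num [al4, be4])
  exact row4 (sb := (9/10)) (P := (9051/20000)) (Q := 1) ha0 h (by norm_num) (by norm_num) h2 hp1 (by norm_num [al4, be4]) (by norm_num [al4, be4])

lemma cap5i11c2f1FS {a p : ℝ} (ha0 : 0 ≤ a) (h : ∀ sb, 0 < sb → sb ≤ 1 → a ≤ al4 sb * p + be4 sb)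
    (hp : (57/1000) ≤ p) (hp1 : p ≤ (3/20)) : a ^ 2 ≤ (-13977/1000000) + (2/5) * p := by
  rcases le_total p (2351/20000) with h0 | h0
  · exact row4 (sb := (19/40)) (P := (57/1000)) (Q := (2351/20000)) ha0 h (by norm_num) (by norm_num) hp h0 (by norm_num [al4, be4]) (by norm_num [al4, be4])
  exact row4 (sb := (3/5)) (P := (2351/20000)) (Q := (3/20)) ha0 h (by norm_num) (by norm_num) h0 hp1 (by norm_num [al4, be4]) (by norm_num [al4, be4])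

lemma cap5i11c2f1CLr {a p : ℝ} (ha0 : 0 ≤ a) (h : ∀ sb, 0 < sb → sb ≤ 1 → a ≤ al4 sb * p + be4 sb)
    (hp : (3/20) ≤ p) (hp1 : p ≤ (71063/250000)) : a ^ 2 ≤ (-4939/1000000) + (2/5) * p := by
  rcases le_total p (343/1250) with h0 | h0
  · exact row4 (sb := (31/40)) (P := (3/20)) (Q := (343/1250)) ha0 h (by norm_num) (by norm_num) hp h0 (by norm_num [al4, be4]) (by norm_num [al4, be4])
  exact row4 (sb := (4/5)) (P := (343/1250)) (Q := (71063/250000)) ha0 h (by norm_num) (by norm_num) h0 hp1 (by norm_num [al4, be4]) (by norm_num [al4, be4])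

lemma cap5i11c2f1CL {a p : ℝ} (ha0 : 0 ≤ a) (h : ∀ sb, 0 < sb → sb ≤ 1 → a ≤ al4 sb * p + be4 sb)
    (hc : a < (32979/100000)) (hp : (3/20) ≤ p) : a ^ 2 ≤ (-4939/1000000) + (2/5) * p := by
  rcases le_total p (71063/250000) with h1 | h1
  · exact cap5i11c2f1CLr ha0 h hp h1
  · exact cap_extend ha0 hc (by norm_num) (Pb := (71063/250000)) (by norm_num) h1

lemma cap5i11c2f1CS {a p : ℝ} (ha0 : 0 ≤ a) (hc : a < (32979/100000)) (hp : (57/1000) ≤ p) : a ^ 2 ≤ (1/2) + (2/5) * p :=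
  cap_extend ha0 hc (by norm_num) (Pb := (57/1000)) (by norm_num) hp

lemma cap5i11c2f1 (n p : ι → ℝ) (i0 : ι) (C : Finset ι) (hC : C ⊆ Finset.univ.erase i0)
    (hsum : ∑ i, p i = 1) (hn0 : ∀ j, 0 ≤ n j)
    (hrow : ∀ j, ∀ sb, 0 < sb → sb ≤ 1 → n j ≤ al4 sb * p j + be4 sb)
    (hlo : ∀ j, (57/1000) ≤ p j) (hp1 : ∀ j, p j ≤ 1) (hcap : ∀ j ∈ C, n j < (32979/100000))
    (hu : n i0 ≤ (119/1250)) (hC2 : C.card = 2)
    (hF2 : (Finset.univ.erase i0 \ C).card = 2)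
    (hlc : (C.filter fun j => (3/20) ≤ p j).card = 2)
    (hlf : ((Finset.univ.erase i0 \ C).filter fun j => (3/20) ≤ p j).card = 1) :
    ∑ i, n i ^ 2 < (179049/500000) := by
  have key := joint_sum n p i0 C hC hsum (pc := (3/20)) (ACL := (-4939/1000000)) (ACS := (1/2))
    (AL := (-569/125000)) (AS := (-13977/1000000)) (B := (2/5))
    (fun j hj hp => cap5i11c2f1CL (hn0 j) (hrow j) (hcap j hj) hp)
    (fun j hj hp => cap5i11c2f1CS (hn0 j) (hcap j hj) (hlo j))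
    (fun j _ hp => cap5i11c2f1FL (hn0 j) (hrow j) hp (hp1 j))
    (fun j _ hp => cap5i11c2f1FS (hn0 j) (hrow j) (hlo j) hp.le)
  rw [card_filter_two C _ hC2 hlc, card_filter_two _ _ hF2 hlf, hlc, hlf] at key
  have h1 : n i0 ^ 2 ≤ (119/1250) ^ 2 := pow_le_pow_left₀ (hn0 i0) hu 2
  have h2 := hlo i0
  norm_num at key h1 h2 ⊢
  linarith

lemma cap5i11c2f2FL {a p : ℝ} (ha0 : 0 ≤ a) (h : ∀ sb, 0 < sb → sb ≤ 1 → a ≤ al4 sb * p + be4 sb)
    (hp : (3/20) ≤ p) (hp1 : p ≤ 1) : a ^ 2 ≤ (-26177/1000000) + (12/25) * p := by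
  rcases le_total p (1953/10000) with h0 | h0
  · exact row4 (sb := (27/40)) (P := (3/20)) (Q := (1953/10000)) ha0 h (by norm_num) (by norm_num) hp h0 (by norm_num [al4, be4]) (by norm_num [al4, be4])
  rcases le_total p (1147/5000) with h1 | h1
  · exact row4 (sb := (29/40)) (P := (1953/10000)) (Q := (1147/5000)) ha0 h (by norm_num) (by norm_num) h0 h1 (by norm_num [al4, be4]) (by norm_num [al4, be4])
  rcases le_total p (1281/5000) with h2 | h2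
  · exact row4 (sb := (3/4)) (P := (1147/5000)) (Q := (1281/5000)) ha0 h (by norm_num) (by norm_num) h1 h2 (by norm_num [al4, be4]) (by norm_num [al4, be4])
  rcases le_total p (1561/4000) with h3 | h3
  · exact row4 (sb := (4/5)) (P := (1281/5000)) (Q := (1561/4000)) ha0 h (by norm_num) (by norm_num) h2 h3 (by norm_num [al4, be4]) (by norm_num [al4, be4])
  exact row4 (sb := (7/8)) (P := (1561/4000)) (Q := 1) ha0 h (by norm_num) (by norm_num) h3 hp1 (by norm_num [al4, be4]) (by norm_num [al4, be4])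

lemma cap5i11c2f2FS {a p : ℝ} (ha0 : 0 ≤ a) (h : ∀ sb, 0 < sb → sb ≤ 1 → a ≤ al4 sb * p + be4 sb)
    (hp : (57/1000) ≤ p) (hp1 : p ≤ (3/20)) : a ^ 2 ≤ (1/2) + (12/25) * p := by
  exact row4 (sb := (1/40)) (P := (57/1000)) (Q := (3/20)) ha0 h (by norm_num) (by norm_num) hp hp1 (by norm_num [al4, be4]) (by norm_num [al4, be4])

lemma cap5i11c2f2CLr {a p : ℝ} (ha0 : 0 ≤ a) (h : ∀ sb, 0 < sb → sb ≤ 1 → a ≤ al4 sb * p + be4 sb)
    (hp : (3/20) ≤ p) (hp1 : p ≤ (140561/500000)) : a ^ 2 ≤ (-26177/1000000) + (12/25) * p := by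
  rcases le_total p (1953/10000) with h0 | h0
  · exact row4 (sb := (27/40)) (P := (3/20)) (Q := (1953/10000)) ha0 h (by norm_num) (by norm_num) hp h0 (by norm_num [al4, be4]) (by norm_num [al4, be4])
  rcases le_total p (1147/5000) with h1 | h1
  · exact row4 (sb := (29/40)) (P := (1953/10000)) (Q := (1147/5000)) ha0 h (by norm_num) (by norm_num) h0 h1 (by norm_num [al4, be4]) (by norm_num [al4, be4])
  rcases le_total p (1281/5000) with h2 | h2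
  · exact row4 (sb := (3/4)) (P := (1147/5000)) (Q := (1281/5000)) ha0 h (by norm_num) (by norm_num) h1 h2 (by norm_num [al4, be4]) (by norm_num [al4, be4])
  exact row4 (sb := (31/40)) (P := (1281/5000)) (Q := (140561/500000)) ha0 h (by norm_num) (by norm_num) h2 hp1 (by norm_num [al4, be4]) (by norm_num [al4, be4])

lemma cap5i11c2f2CL {a p : ℝ} (ha0 : 0 ≤ a) (h : ∀ sb, 0 < sb → sb ≤ 1 → a ≤ al4 sb * p + be4 sb)
    (hc : a < (32979/100000)) (hp : (3/20) ≤ p) : a ^ 2 ≤ (-26177/1000000) + (12/25) * p := by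
  rcases le_total p (140561/500000) with h1 | h1
  · exact cap5i11c2f2CLr ha0 h hp h1
  · exact cap_extend ha0 hc (by norm_num) (Pb := (140561/500000)) (by norm_num) h1

lemma cap5i11c2f2CS {a p : ℝ} (ha0 : 0 ≤ a) (hc : a < (32979/100000)) (hp : (57/1000) ≤ p) : a ^ 2 ≤ (1/2) + (12/25) * p :=
  cap_extend ha0 hc (by norm_num) (Pb := (57/1000)) (by norm_num) hp

lemma cap5i11c2f2 (n p : ι → ℝ) (i0 : ι) (C : Finset ι) (hC : C ⊆ Finset.univ.erase i0)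
    (hsum : ∑ i, p i = 1) (hn0 : ∀ j, 0 ≤ n j)
    (hrow : ∀ j, ∀ sb, 0 < sb → sb ≤ 1 → n j ≤ al4 sb * p j + be4 sb)
    (hlo : ∀ j, (57/1000) ≤ p j) (hp1 : ∀ j, p j ≤ 1) (hcap : ∀ j ∈ C, n j < (32979/100000))
    (hu : n i0 ≤ (119/1250)) (hC2 : C.card = 2)
    (hF2 : (Finset.univ.erase i0 \ C).card = 2)
    (hlc : (C.filter fun j => (3/20) ≤ p j).card = 2)
    (hlf : ((Finset.univ.erase i0 \ C).filter fun j => (3/20) ≤ p j).card = 2) :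
    ∑ i, n i ^ 2 < (179049/500000) := by
  have key := joint_sum n p i0 C hC hsum (pc := (3/20)) (ACL := (-26177/1000000)) (ACS := (1/2))
    (AL := (-26177/1000000)) (AS := (1/2)) (B := (12/25))
    (fun j hj hp => cap5i11c2f2CL (hn0 j) (hrow j) (hcap j hj) hp)
    (fun j hj hp => cap5i11c2f2CS (hn0 j) (hcap j hj) (hlo j))
    (fun j _ hp => cap5i11c2f2FL (hn0 j) (hrow j) hp (hp1 j))
    (fun j _ hp => cap5i11c2f2FS (hn0 j) (hrow j) (hlo j) hp.le)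
  rw [card_filter_two C _ hC2 hlc, card_filter_two _ _ hF2 hlf, hlc, hlf] at key
  have h1 : n i0 ^ 2 ≤ (119/1250) ^ 2 := pow_le_pow_left₀ (hn0 i0) hu 2
  have h2 := hlo i0
  norm_num at key h1 h2 ⊢
  linarith

lemma cap5i11 (n p : ι → ℝ) (i0 : ι) (C : Finset ι) (hC : C ⊆ Finset.univ.erase i0)
    (hsum : ∑ i, p i = 1) (hn0 : ∀ j, 0 ≤ n j)
    (hrow : ∀ j, ∀ sb, 0 < sb → sb ≤ 1 → n j ≤ al4 sb * p j + be4 sb)
    (hlo : ∀ j, (57/1000) ≤ p j) (hp1 : ∀ j, p j ≤ 1) (hcap : ∀ j ∈ C, n j < (32979/100000))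
    (hu : n i0 ≤ (119/1250)) (hC2 : C.card = 2)
    (hF2 : (Finset.univ.erase i0 \ C).card = 2) :
    ∑ i, n i ^ 2 < (179049/500000) := by
  have hA : (C.filter fun j => (3/20) ≤ p j).card ≤ 2 := (Finset.card_filter_le _ _).trans hC2.le
  have hB : ((Finset.univ.erase i0 \ C).filter fun j => (3/20) ≤ p j).card ≤ 2 := (Finset.card_filter_le _ _).trans hF2.le
  have hc' : (C.filter fun j => (3/20) ≤ p j).card = 0 ∨ (C.filter fun j => (3/20) ≤ p j).card = 1 ∨ (C.filter fun j => (3/20) ≤ p j).card = 2 := by omega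
  have hf' : ((Finset.univ.erase i0 \ C).filter fun j => (3/20) ≤ p j).card = 0 ∨ ((Finset.univ.erase i0 \ C).filter fun j => (3/20) ≤ p j).card = 1 ∨ ((Finset.univ.erase i0 \ C).filter fun j => (3/20) ≤ p j).card = 2 := by omega
  rcases hc' with hlc | hlc | hlc <;> rcases hf' with hlf | hlf | hlf
  · exact cap5i11c0f0 n p i0 C hC hsum hn0 hrow hlo hp1 hcap hu hC2 hF2 hlc hlf
  · exact cap5i11c0f1 n p i0 C hC hsum hn0 hrow hlo hp1 hcap hu hC2 hF2 hlc hlf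
  · exact cap5i11c0f2 n p i0 C hC hsum hn0 hrow hlo hp1 hcap hu hC2 hF2 hlc hlf
  · exact cap5i11c1f0 n p i0 C hC hsum hn0 hrow hlo hp1 hcap hu hC2 hF2 hlc hlf
  · exact cap5i11c1f1 n p i0 C hC hsum hn0 hrow hlo hp1 hcap hu hC2 hF2 hlc hlf
  · exact cap5i11c1f2 n p i0 C hC hsum hn0 hrow hlo hp1 hcap hu hC2 hF2 hlc hlf
  · exact cap5i11c2f0 n p i0 C hC hsum hn0 hrow hlo hp1 hcap hu hC2 hF2 hlc hlf
  · exact cap5i11c2f1 n p i0 C hC hsum hn0 hrow hlo hp1 hcap hu hC2 hF2 hlc hlf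
  · exact cap5i11c2f2 n p i0 C hC hsum hn0 hrow hlo hp1 hcap hu hC2 hF2 hlc hlf

lemma cap5i12c0f0FL {a p : ℝ} (ha0 : 0 ≤ a) (h : ∀ sb, 0 < sb → sb ≤ 1 → a ≤ al4 sb * p + be4 sb)
    (hp : (3/20) ≤ p) (hp1 : p ≤ 1) : a ^ 2 ≤ (1/2) + (1/10) * p := by
  exact row4 (sb := (33/40)) (P := (3/20)) (Q := 1) ha0 h (by norm_num) (by norm_num) hp hp1 (by norm_num [al4, be4]) (by norm_num [al4, be4])

lemma cap5i12c0f0FS {a p : ℝ} (ha0 : 0 ≤ a) (h : ∀ sb, 0 < sb → sb ≤ 1 → a ≤ al4 sb * p + be4 sb)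
    (hp : (29/500) ≤ p) (hp1 : p ≤ (3/20)) : a ^ 2 ≤ (23487/500000) + (1/10) * p := by
  exact row4 (sb := (3/8)) (P := (29/500)) (Q := (3/20)) ha0 h (by norm_num) (by norm_num) hp hp1 (by norm_num [al4, be4]) (by norm_num [al4, be4])

lemma cap5i12c0f0CL {a p : ℝ} (ha0 : 0 ≤ a) (hc : a < (4157/12500)) (hp : (3/20) ≤ p) : a ^ 2 ≤ (1/2) + (1/10) * p :=
  cap_extend ha0 hc (by norm_num) (Pb := (3/20)) (by norm_num) hp

lemma cap5i12c0f0CS {a p : ℝ} (ha0 : 0 ≤ a) (h : ∀ sb, 0 < sb → sb ≤ 1 → a ≤ al4 sb * p + be4 sb)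
    (hp : (29/500) ≤ p) (hp1 : p ≤ (3/20)) : a ^ 2 ≤ (23487/500000) + (1/10) * p := by
  exact row4 (sb := (3/8)) (P := (29/500)) (Q := (3/20)) ha0 h (by norm_num) (by norm_num) hp hp1 (by norm_num [al4, be4]) (by norm_num [al4, be4])

lemma cap5i12c0f0 (n p : ι → ℝ) (i0 : ι) (C : Finset ι) (hC : C ⊆ Finset.univ.erase i0)
    (hsum : ∑ i, p i = 1) (hn0 : ∀ j, 0 ≤ n j)
    (hrow : ∀ j, ∀ sb, 0 < sb → sb ≤ 1 → n j ≤ al4 sb * p j + be4 sb)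
    (hlo : ∀ j, (29/500) ≤ p j) (hp1 : ∀ j, p j ≤ 1) (hcap : ∀ j ∈ C, n j < (4157/12500))
    (hu : n i0 ≤ (12/125)) (hC2 : C.card = 2)
    (hF2 : (Finset.univ.erase i0 \ C).card = 2)
    (hlc : (C.filter fun j => (3/20) ≤ p j).card = 0)
    (hlf : ((Finset.univ.erase i0 \ C).filter fun j => (3/20) ≤ p j).card = 0) :
    ∑ i, n i ^ 2 < (179049/500000) := by
  have key := joint_sum n p i0 C hC hsum (pc := (3/20)) (ACL := (1/2)) (ACS := (23487/500000))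
    (AL := (1/2)) (AS := (23487/500000)) (B := (1/10))
    (fun j hj hp => cap5i12c0f0CL (hn0 j) (hcap j hj) hp)
    (fun j hj hp => cap5i12c0f0CS (hn0 j) (hrow j) (hlo j) hp.le)
    (fun j _ hp => cap5i12c0f0FL (hn0 j) (hrow j) hp (hp1 j))
    (fun j _ hp => cap5i12c0f0FS (hn0 j) (hrow j) (hlo j) hp.le)
  rw [card_filter_two C _ hC2 hlc, card_filter_two _ _ hF2 hlf, hlc, hlf] at key
  have h1 : n i0 ^ 2 ≤ (12/125) ^ 2 := pow_le_pow_left₀ (hn0 i0) hu 2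
  have h2 := hlo i0
  norm_num at key h1 h2 ⊢
  linarith

lemma cap5i12c0f1FL {a p : ℝ} (ha0 : 0 ≤ a) (h : ∀ sb, 0 < sb → sb ≤ 1 → a ≤ al4 sb * p + be4 sb)
    (hp : (3/20) ≤ p) (hp1 : p ≤ 1) : a ^ 2 ≤ (59199/500000) + (1/10) * p := by
  rcases le_total p (117/200) with h0 | h0
  · exact row4 (sb := (19/20)) (P := (3/20)) (Q := (117/200)) ha0 h (by norm_num) (by norm_num) hp h0 (by norm_num [al4, be4]) (by norm_num [al4, be4])
  exact row4 (sb := (39/40)) (P := (117/200)) (Q := 1) ha0 h (by norm_num) (by norm_num) h0 hp1 (by norm_num [al4, be4]) (by norm_num [al4, be4])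

lemma cap5i12c0f1FS {a p : ℝ} (ha0 : 0 ≤ a) (h : ∀ sb, 0 < sb → sb ≤ 1 → a ≤ al4 sb * p + be4 sb)
    (hp : (29/500) ≤ p) (hp1 : p ≤ (3/20)) : a ^ 2 ≤ (3677/100000) + (1/10) * p := by
  exact row4 (sb := (1/2)) (P := (29/500)) (Q := (3/20)) ha0 h (by norm_num) (by norm_num) hp hp1 (by norm_num [al4, be4]) (by norm_num [al4, be4])

lemma cap5i12c0f1CL {a p : ℝ} (ha0 : 0 ≤ a) (hc : a < (4157/12500)) (hp : (3/20) ≤ p) : a ^ 2 ≤ (1/2) + (1/10) * p :=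
  cap_extend ha0 hc (by norm_num) (Pb := (3/20)) (by norm_num) hp

lemma cap5i12c0f1CS {a p : ℝ} (ha0 : 0 ≤ a) (h : ∀ sb, 0 < sb → sb ≤ 1 → a ≤ al4 sb * p + be4 sb)
    (hp : (29/500) ≤ p) (hp1 : p ≤ (3/20)) : a ^ 2 ≤ (3677/100000) + (1/10) * p := by
  exact row4 (sb := (1/2)) (P := (29/500)) (Q := (3/20)) ha0 h (by norm_num) (by norm_num) hp hp1 (by norm_num [al4, be4]) (by norm_num [al4, be4])

lemma cap5i12c0f1 (n p : ι → ℝ) (i0 : ι) (C : Finset ι) (hC : C ⊆ Finset.univ.erase i0)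
    (hsum : ∑ i, p i = 1) (hn0 : ∀ j, 0 ≤ n j)
    (hrow : ∀ j, ∀ sb, 0 < sb → sb ≤ 1 → n j ≤ al4 sb * p j + be4 sb)
    (hlo : ∀ j, (29/500) ≤ p j) (hp1 : ∀ j, p j ≤ 1) (hcap : ∀ j ∈ C, n j < (4157/12500))
    (hu : n i0 ≤ (12/125)) (hC2 : C.card = 2)
    (hF2 : (Finset.univ.erase i0 \ C).card = 2)
    (hlc : (C.filter fun j => (3/20) ≤ p j).card = 0)
    (hlf : ((Finset.univ.erase i0 \ C).filter fun j => (3/20) ≤ p j).card = 1) :
    ∑ i, n i ^ 2 < (179049/500000) := by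
  have key := joint_sum n p i0 C hC hsum (pc := (3/20)) (ACL := (1/2)) (ACS := (3677/100000))
    (AL := (59199/500000)) (AS := (3677/100000)) (B := (1/10))
    (fun j hj hp => cap5i12c0f1CL (hn0 j) (hcap j hj) hp)
    (fun j hj hp => cap5i12c0f1CS (hn0 j) (hrow j) (hlo j) hp.le)
    (fun j _ hp => cap5i12c0f1FL (hn0 j) (hrow j) hp (hp1 j))
    (fun j _ hp => cap5i12c0f1FS (hn0 j) (hrow j) (hlo j) hp.le)
  rw [card_filter_two C _ hC2 hlc, card_filter_two _ _ hF2 hlf, hlc, hlf] at key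
  have h1 : n i0 ^ 2 ≤ (12/125) ^ 2 := pow_le_pow_left₀ (hn0 i0) hu 2
  have h2 := hlo i0
  norm_num at key h1 h2 ⊢
  linarith

lemma cap5i12c0f2FL {a p : ℝ} (ha0 : 0 ≤ a) (h : ∀ sb, 0 < sb → sb ≤ 1 → a ≤ al4 sb * p + be4 sb)
    (hp : (3/20) ≤ p) (hp1 : p ≤ 1) : a ^ 2 ≤ (379/125000) + (19/50) * p := by
  rcases le_total p (251/800) with h0 | h0
  · exact row4 (sb := (4/5)) (P := (3/20)) (Q := (251/800)) ha0 h (by norm_num) (by norm_num) hp h0 (by norm_num [al4, be4]) (by norm_num [al4, be4])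
  rcases le_total p (2117/5000) with h1 | h1
  · exact row4 (sb := (17/20)) (P := (251/800)) (Q := (2117/5000)) ha0 h (by norm_num) (by norm_num) h0 h1 (by norm_num [al4, be4]) (by norm_num [al4, be4])
  exact row4 (sb := (9/10)) (P := (2117/5000)) (Q := 1) ha0 h (by norm_num) (by norm_num) h1 hp1 (by norm_num [al4, be4]) (by norm_num [al4, be4])

lemma cap5i12c0f2FS {a p : ℝ} (ha0 : 0 ≤ a) (h : ∀ sb, 0 < sb → sb ≤ 1 → a ≤ al4 sb * p + be4 sb)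
    (hp : (29/500) ≤ p) (hp1 : p ≤ (3/20)) : a ^ 2 ≤ (1/2) + (19/50) * p := by
  exact row4 (sb := (1/40)) (P := (29/500)) (Q := (3/20)) ha0 h (by norm_num) (by norm_num) hp hp1 (by norm_num [al4, be4]) (by norm_num [al4, be4])

lemma cap5i12c0f2CL {a p : ℝ} (ha0 : 0 ≤ a) (hc : a < (4157/12500)) (hp : (3/20) ≤ p) : a ^ 2 ≤ (1/2) + (19/50) * p :=
  cap_extend ha0 hc (by norm_num) (Pb := (3/20)) (by norm_num) hp

lemma cap5i12c0f2CS {a p : ℝ} (ha0 : 0 ≤ a) (h : ∀ sb, 0 < sb → sb ≤ 1 → a ≤ al4 sb * p + be4 sb)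
    (hp : (29/500) ≤ p) (hp1 : p ≤ (3/20)) : a ^ 2 ≤ (-10339/1000000) + (19/50) * p := by
  exact row4 (sb := (3/5)) (P := (29/500)) (Q := (3/20)) ha0 h (by norm_num) (by norm_num) hp hp1 (by norm_num [al4, be4]) (by norm_num [al4, be4])

lemma cap5i12c0f2 (n p : ι → ℝ) (i0 : ι) (C : Finset ι) (hC : C ⊆ Finset.univ.erase i0)
    (hsum : ∑ i, p i = 1) (hn0 : ∀ j, 0 ≤ n j)
    (hrow : ∀ j, ∀ sb, 0 < sb → sb ≤ 1 → n j ≤ al4 sb * p j + be4 sb)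
    (hlo : ∀ j, (29/500) ≤ p j) (hp1 : ∀ j, p j ≤ 1) (hcap : ∀ j ∈ C, n j < (4157/12500))
    (hu : n i0 ≤ (12/125)) (hC2 : C.card = 2)
    (hF2 : (Finset.univ.erase i0 \ C).card = 2)
    (hlc : (C.filter fun j => (3/20) ≤ p j).card = 0)
    (hlf : ((Finset.univ.erase i0 \ C).filter fun j => (3/20) ≤ p j).card = 2) :
    ∑ i, n i ^ 2 < (179049/500000) := by
  have key := joint_sum n p i0 C hC hsum (pc := (3/20)) (ACL := (1/2)) (ACS := (-10339/1000000))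
    (AL := (379/125000)) (AS := (1/2)) (B := (19/50))
    (fun j hj hp => cap5i12c0f2CL (hn0 j) (hcap j hj) hp)
    (fun j hj hp => cap5i12c0f2CS (hn0 j) (hrow j) (hlo j) hp.le)
    (fun j _ hp => cap5i12c0f2FL (hn0 j) (hrow j) hp (hp1 j))
    (fun j _ hp => cap5i12c0f2FS (hn0 j) (hrow j) (hlo j) hp.le)
  rw [card_filter_two C _ hC2 hlc, card_filter_two _ _ hF2 hlf, hlc, hlf] at key
  have h1 : n i0 ^ 2 ≤ (12/125) ^ 2 := pow_le_pow_left₀ (hn0 i0) hu 2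
  have h2 := hlo i0
  norm_num at key h1 h2 ⊢
  linarith

lemma cap5i12c1f0FL {a p : ℝ} (ha0 : 0 ≤ a) (h : ∀ sb, 0 < sb → sb ≤ 1 → a ≤ al4 sb * p + be4 sb)
    (hp : (3/20) ≤ p) (hp1 : p ≤ 1) : a ^ 2 ≤ (1/2) + (1/10) * p := by
  exact row4 (sb := (33/40)) (P := (3/20)) (Q := 1) ha0 h (by norm_num) (by norm_num) hp hp1 (by norm_num [al4, be4]) (by norm_num [al4, be4])

lemma cap5i12c1f0FS {a p : ℝ} (ha0 : 0 ≤ a) (h : ∀ sb, 0 < sb → sb ≤ 1 → a ≤ al4 sb * p + be4 sb)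
    (hp : (29/500) ≤ p) (hp1 : p ≤ (3/20)) : a ^ 2 ≤ (40541/1000000) + (1/10) * p := by
  exact row4 (sb := (9/20)) (P := (29/500)) (Q := (3/20)) ha0 h (by norm_num) (by norm_num) hp hp1 (by norm_num [al4, be4]) (by norm_num [al4, be4])

lemma cap5i12c1f0CLr {a p : ℝ} (ha0 : 0 ≤ a) (h : ∀ sb, 0 < sb → sb ≤ 1 → a ≤ al4 sb * p + be4 sb)
    (hp : (3/20) ≤ p) (hp1 : p ≤ (23239/125000)) : a ^ 2 ≤ (18401/200000) + (1/10) * p := by
  exact row4 (sb := (9/40)) (P := (3/20)) (Q := (23239/125000)) ha0 h (by norm_num) (by norm_num) hp hp1 (by norm_num [al4, be4]) (by norm_num [al4, be4])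

lemma cap5i12c1f0CL {a p : ℝ} (ha0 : 0 ≤ a) (h : ∀ sb, 0 < sb → sb ≤ 1 → a ≤ al4 sb * p + be4 sb)
    (hc : a < (4157/12500)) (hp : (3/20) ≤ p) : a ^ 2 ≤ (18401/200000) + (1/10) * p := by
  rcases le_total p (23239/125000) with h1 | h1
  · exact cap5i12c1f0CLr ha0 h hp h1
  · exact cap_extend ha0 hc (by norm_num) (Pb := (23239/125000)) (by norm_num) h1

lemma cap5i12c1f0CS {a p : ℝ} (ha0 : 0 ≤ a) (h : ∀ sb, 0 < sb → sb ≤ 1 → a ≤ al4 sb * p + be4 sb)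
    (hp : (29/500) ≤ p) (hp1 : p ≤ (3/20)) : a ^ 2 ≤ (40541/1000000) + (1/10) * p := by
  exact row4 (sb := (9/20)) (P := (29/500)) (Q := (3/20)) ha0 h (by norm_num) (by norm_num) hp hp1 (by norm_num [al4, be4]) (by norm_num [al4, be4])

lemma cap5i12c1f0 (n p : ι → ℝ) (i0 : ι) (C : Finset ι) (hC : C ⊆ Finset.univ.erase i0)
    (hsum : ∑ i, p i = 1) (hn0 : ∀ j, 0 ≤ n j)
    (hrow : ∀ j, ∀ sb, 0 < sb → sb ≤ 1 → n j ≤ al4 sb * p j + be4 sb)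
    (hlo : ∀ j, (29/500) ≤ p j) (hp1 : ∀ j, p j ≤ 1) (hcap : ∀ j ∈ C, n j < (4157/12500))
    (hu : n i0 ≤ (12/125)) (hC2 : C.card = 2)
    (hF2 : (Finset.univ.erase i0 \ C).card = 2)
    (hlc : (C.filter fun j => (3/20) ≤ p j).card = 1)
    (hlf : ((Finset.univ.erase i0 \ C).filter fun j => (3/20) ≤ p j).card = 0) :
    ∑ i, n i ^ 2 < (179049/500000) := by
  have key := joint_sum n p i0 C hC hsum (pc := (3/20)) (ACL := (18401/200000)) (ACS := (40541/1000000))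
    (AL := (1/2)) (AS := (40541/1000000)) (B := (1/10))
    (fun j hj hp => cap5i12c1f0CL (hn0 j) (hrow j) (hcap j hj) hp)
    (fun j hj hp => cap5i12c1f0CS (hn0 j) (hrow j) (hlo j) hp.le)
    (fun j _ hp => cap5i12c1f0FL (hn0 j) (hrow j) hp (hp1 j))
    (fun j _ hp => cap5i12c1f0FS (hn0 j) (hrow j) (hlo j) hp.le)
  rw [card_filter_two C _ hC2 hlc, card_filter_two _ _ hF2 hlf, hlc, hlf] at key
  have h1 : n i0 ^ 2 ≤ (12/125) ^ 2 := pow_le_pow_left₀ (hn0 i0) hu 2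
  have h2 := hlo i0
  norm_num at key h1 h2 ⊢
  linarith

lemma cap5i12c1f1FL {a p : ℝ} (ha0 : 0 ≤ a) (h : ∀ sb, 0 < sb → sb ≤ 1 → a ≤ al4 sb * p + be4 sb)
    (hp : (3/20) ≤ p) (hp1 : p ≤ 1) : a ^ 2 ≤ (5859/250000) + (8/25) * p := by
  rcases le_total p (1463/4000) with h0 | h0
  · exact row4 (sb := (17/20)) (P := (3/20)) (Q := (1463/4000)) ha0 h (by norm_num) (by norm_num) hp h0 (by norm_num [al4, be4]) (by norm_num [al4, be4])
  rcases le_total p (4069/5000) with h1 | h1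
  · exact row4 (sb := (9/10)) (P := (1463/4000)) (Q := (4069/5000)) ha0 h (by norm_num) (by norm_num) h0 h1 (by norm_num [al4, be4]) (by norm_num [al4, be4])
  exact row4 (sb := (37/40)) (P := (4069/5000)) (Q := 1) ha0 h (by norm_num) (by norm_num) h1 hp1 (by norm_num [al4, be4]) (by norm_num [al4, be4])

lemma cap5i12c1f1FS {a p : ℝ} (ha0 : 0 ≤ a) (h : ∀ sb, 0 < sb → sb ≤ 1 → a ≤ al4 sb * p + be4 sb)
    (hp : (29/500) ≤ p) (hp1 : p ≤ (3/20)) : a ^ 2 ≤ (-9/8000) + (8/25) * p := by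
  exact row4 (sb := (23/40)) (P := (29/500)) (Q := (3/20)) ha0 h (by norm_num) (by norm_num) hp hp1 (by norm_num [al4, be4]) (by norm_num [al4, be4])

lemma cap5i12c1f1CLr {a p : ℝ} (ha0 : 0 ≤ a) (h : ∀ sb, 0 < sb → sb ≤ 1 → a ≤ al4 sb * p + be4 sb)
    (hp : (3/20) ≤ p) (hp1 : p ≤ (70883/250000)) : a ^ 2 ≤ (9933/500000) + (8/25) * p := by
  exact row4 (sb := (31/40)) (P := (3/20)) (Q := (70883/250000)) ha0 h (by norm_num) (by norm_num) hp hp1 (by norm_num [al4, be4]) (by norm_num [al4, be4])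

lemma cap5i12c1f1CL {a p : ℝ} (ha0 : 0 ≤ a) (h : ∀ sb, 0 < sb → sb ≤ 1 → a ≤ al4 sb * p + be4 sb)
    (hc : a < (4157/12500)) (hp : (3/20) ≤ p) : a ^ 2 ≤ (9933/500000) + (8/25) * p := by
  rcases le_total p (70883/250000) with h1 | h1
  · exact cap5i12c1f1CLr ha0 h hp h1
  · exact cap_extend ha0 hc (by norm_num) (Pb := (70883/250000)) (by norm_num) h1

lemma cap5i12c1f1CS {a p : ℝ} (ha0 : 0 ≤ a) (h : ∀ sb, 0 < sb → sb ≤ 1 → a ≤ al4 sb * p + be4 sb)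
    (hp : (29/500) ≤ p) (hp1 : p ≤ (3/20)) : a ^ 2 ≤ (-9/8000) + (8/25) * p := by
  exact row4 (sb := (23/40)) (P := (29/500)) (Q := (3/20)) ha0 h (by norm_num) (by norm_num) hp hp1 (by norm_num [al4, be4]) (by norm_num [al4, be4])

lemma cap5i12c1f1 (n p : ι → ℝ) (i0 : ι) (C : Finset ι) (hC : C ⊆ Finset.univ.erase i0)
    (hsum : ∑ i, p i = 1) (hn0 : ∀ j, 0 ≤ n j)
    (hrow : ∀ j, ∀ sb, 0 < sb → sb ≤ 1 → n j ≤ al4 sb * p j + be4 sb)
    (hlo : ∀ j, (29/500) ≤ p j) (hp1 : ∀ j, p j ≤ 1) (hcap : ∀ j ∈ C, n j < (4157/12500))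
    (hu : n i0 ≤ (12/125)) (hC2 : C.card = 2)
    (hF2 : (Finset.univ.erase i0 \ C).card = 2)
    (hlc : (C.filter fun j => (3/20) ≤ p j).card = 1)
    (hlf : ((Finset.univ.erase i0 \ C).filter fun j => (3/20) ≤ p j).card = 1) :
    ∑ i, n i ^ 2 < (179049/500000) := by
  have key := joint_sum n p i0 C hC hsum (pc := (3/20)) (ACL := (9933/500000)) (ACS := (-9/8000))
    (AL := (5859/250000)) (AS := (-9/8000)) (B := (8/25))
    (fun j hj hp => cap5i12c1f1CL (hn0 j) (hrow j) (hcap j hj) hp)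
    (fun j hj hp => cap5i12c1f1CS (hn0 j) (hrow j) (hlo j) hp.le)
    (fun j _ hp => cap5i12c1f1FL (hn0 j) (hrow j) hp (hp1 j))
    (fun j _ hp => cap5i12c1f1FS (hn0 j) (hrow j) (hlo j) hp.le)
  rw [card_filter_two C _ hC2 hlc, card_filter_two _ _ hF2 hlf, hlc, hlf] at key
  have h1 : n i0 ^ 2 ≤ (12/125) ^ 2 := pow_le_pow_left₀ (hn0 i0) hu 2
  have h2 := hlo i0
  norm_num at key h1 h2 ⊢
  linarith

lemma cap5i12c1f2FL {a p : ℝ} (ha0 : 0 ≤ a) (h : ∀ sb, 0 < sb → sb ≤ 1 → a ≤ al4 sb * p + be4 sb)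
    (hp : (3/20) ≤ p) (hp1 : p ≤ 1) : a ^ 2 ≤ (-10547/1000000) + (21/50) * p := by
  rcases le_total p (5179/20000) with h0 | h0
  · exact row4 (sb := (3/4)) (P := (3/20)) (Q := (5179/20000)) ha0 h (by norm_num) (by norm_num) hp h0 (by norm_num [al4, be4]) (by norm_num [al4, be4])
  rcases le_total p (2893/10000) with h1 | h1
  · exact row4 (sb := (4/5)) (P := (5179/20000)) (Q := (2893/10000)) ha0 h (by norm_num) (by norm_num) h0 h1 (by norm_num [al4, be4]) (by norm_num [al4, be4])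
  rcases le_total p (139/400) with h2 | h2
  · exact row4 (sb := (33/40)) (P := (2893/10000)) (Q := (139/400)) ha0 h (by norm_num) (by norm_num) h1 h2 (by norm_num [al4, be4]) (by norm_num [al4, be4])
  exact row4 (sb := (9/10)) (P := (139/400)) (Q := 1) ha0 h (by norm_num) (by norm_num) h2 hp1 (by norm_num [al4, be4]) (by norm_num [al4, be4])

lemma cap5i12c1f2FS {a p : ℝ} (ha0 : 0 ≤ a) (h : ∀ sb, 0 < sb → sb ≤ 1 → a ≤ al4 sb * p + be4 sb)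
    (hp : (29/500) ≤ p) (hp1 : p ≤ (3/20)) : a ^ 2 ≤ (1/2) + (21/50) * p := by
  exact row4 (sb := (1/40)) (P := (29/500)) (Q := (3/20)) ha0 h (by norm_num) (by norm_num) hp hp1 (by norm_num [al4, be4]) (by norm_num [al4, be4])

lemma cap5i12c1f2CLr {a p : ℝ} (ha0 : 0 ≤ a) (h : ∀ sb, 0 < sb → sb ≤ 1 → a ≤ al4 sb * p + be4 sb)
    (hp : (3/20) ≤ p) (hp1 : p ≤ (288427/1000000)) : a ^ 2 ≤ (-10543/1000000) + (21/50) * p := by
  rcases le_total p (259/1000) with h0 | h0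
  · exact row4 (sb := (3/4)) (P := (3/20)) (Q := (259/1000)) ha0 h (by norm_num) (by norm_num) hp h0 (by norm_num [al4, be4]) (by norm_num [al4, be4])
  exact row4 (sb := (4/5)) (P := (259/1000)) (Q := (288427/1000000)) ha0 h (by norm_num) (by norm_num) h0 hp1 (by norm_num [al4, be4]) (by norm_num [al4, be4])

lemma cap5i12c1f2CL {a p : ℝ} (ha0 : 0 ≤ a) (h : ∀ sb, 0 < sb → sb ≤ 1 → a ≤ al4 sb * p + be4 sb)
    (hc : a < (4157/12500)) (hp : (3/20) ≤ p) : a ^ 2 ≤ (-10543/1000000) + (21/50) * p := by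
  rcases le_total p (288427/1000000) with h1 | h1
  · exact cap5i12c1f2CLr ha0 h hp h1
  · exact cap_extend ha0 hc (by norm_num) (Pb := (288427/1000000)) (by norm_num) h1

lemma cap5i12c1f2CS {a p : ℝ} (ha0 : 0 ≤ a) (h : ∀ sb, 0 < sb → sb ≤ 1 → a ≤ al4 sb * p + be4 sb)
    (hp : (29/500) ≤ p) (hp1 : p ≤ (3/20)) : a ^ 2 ≤ (-15279/1000000) + (21/50) * p := by
  rcases le_total p (629/5000) with h0 | h0
  · exact row4 (sb := (19/40)) (P := (29/500)) (Q := (629/5000)) ha0 h (by norm_num) (by norm_num) hp h0 (by norm_num [al4, be4]) (by norm_num [al4, be4])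
  exact row4 (sb := (23/40)) (P := (629/5000)) (Q := (3/20)) ha0 h (by norm_num) (by norm_num) h0 hp1 (by norm_num [al4, be4]) (by norm_num [al4, be4])

lemma cap5i12c1f2 (n p : ι → ℝ) (i0 : ι) (C : Finset ι) (hC : C ⊆ Finset.univ.erase i0)
    (hsum : ∑ i, p i = 1) (hn0 : ∀ j, 0 ≤ n j)
    (hrow : ∀ j, ∀ sb, 0 < sb → sb ≤ 1 → n j ≤ al4 sb * p j + be4 sb)
    (hlo : ∀ j, (29/500) ≤ p j) (hp1 : ∀ j, p j ≤ 1) (hcap : ∀ j ∈ C, n j < (4157/12500))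
    (hu : n i0 ≤ (12/125)) (hC2 : C.card = 2)
    (hF2 : (Finset.univ.erase i0 \ C).card = 2)
    (hlc : (C.filter fun j => (3/20) ≤ p j).card = 1)
    (hlf : ((Finset.univ.erase i0 \ C).filter fun j => (3/20) ≤ p j).card = 2) :
    ∑ i, n i ^ 2 < (179049/500000) := by
  have key := joint_sum n p i0 C hC hsum (pc := (3/20)) (ACL := (-10543/1000000)) (ACS := (-15279/1000000))
    (AL := (-10547/1000000)) (AS := (1/2)) (B := (21/50))
    (fun j hj hp => cap5i12c1f2CL (hn0 j) (hrow j) (hcap j hj) hp)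
    (fun j hj hp => cap5i12c1f2CS (hn0 j) (hrow j) (hlo j) hp.le)
    (fun j _ hp => cap5i12c1f2FL (hn0 j) (hrow j) hp (hp1 j))
    (fun j _ hp => cap5i12c1f2FS (hn0 j) (hrow j) (hlo j) hp.le)
  rw [card_filter_two C _ hC2 hlc, card_filter_two _ _ hF2 hlf, hlc, hlf] at key
  have h1 : n i0 ^ 2 ≤ (12/125) ^ 2 := pow_le_pow_left₀ (hn0 i0) hu 2
  have h2 := hlo i0
  norm_num at key h1 h2 ⊢
  linarith

lemma cap5i12c2f0FL {a p : ℝ} (ha0 : 0 ≤ a) (h : ∀ sb, 0 < sb → sb ≤ 1 → a ≤ al4 sb * p + be4 sb)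
    (hp : (3/20) ≤ p) (hp1 : p ≤ 1) : a ^ 2 ≤ (1/2) + (1/10) * p := by
  exact row4 (sb := (33/40)) (P := (3/20)) (Q := 1) ha0 h (by norm_num) (by norm_num) hp hp1 (by norm_num [al4, be4]) (by norm_num [al4, be4])

lemma cap5i12c2f0FS {a p : ℝ} (ha0 : 0 ≤ a) (h : ∀ sb, 0 < sb → sb ≤ 1 → a ≤ al4 sb * p + be4 sb)
    (hp : (29/500) ≤ p) (hp1 : p ≤ (3/20)) : a ^ 2 ≤ (8527/250000) + (1/10) * p := by
  exact row4 (sb := (11/20)) (P := (29/500)) (Q := (3/20)) ha0 h (by norm_num) (by norm_num) hp hp1 (by norm_num [al4, be4]) (by norm_num [al4, be4])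

lemma cap5i12c2f0CLr {a p : ℝ} (ha0 : 0 ≤ a) (h : ∀ sb, 0 < sb → sb ≤ 1 → a ≤ al4 sb * p + be4 sb)
    (hp : (3/20) ≤ p) (hp1 : p ≤ (125121/500000)) : a ^ 2 ≤ (21393/250000) + (1/10) * p := by
  exact row4 (sb := (5/8)) (P := (3/20)) (Q := (125121/500000)) ha0 h (by norm_num) (by norm_num) hp hp1 (by norm_num [al4, be4]) (by norm_num [al4, be4])

lemma cap5i12c2f0CL {a p : ℝ} (ha0 : 0 ≤ a) (h : ∀ sb, 0 < sb → sb ≤ 1 → a ≤ al4 sb * p + be4 sb)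
    (hc : a < (4157/12500)) (hp : (3/20) ≤ p) : a ^ 2 ≤ (21393/250000) + (1/10) * p := by
  rcases le_total p (125121/500000) with h1 | h1
  · exact cap5i12c2f0CLr ha0 h hp h1
  · exact cap_extend ha0 hc (by norm_num) (Pb := (125121/500000)) (by norm_num) h1

lemma cap5i12c2f0CS {a p : ℝ} (ha0 : 0 ≤ a) (hc : a < (4157/12500)) (hp : (29/500) ≤ p) : a ^ 2 ≤ (1/2) + (1/10) * p :=
  cap_extend ha0 hc (by norm_num) (Pb := (29/500)) (by norm_num) hp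

lemma cap5i12c2f0 (n p : ι → ℝ) (i0 : ι) (C : Finset ι) (hC : C ⊆ Finset.univ.erase i0)
    (hsum : ∑ i, p i = 1) (hn0 : ∀ j, 0 ≤ n j)
    (hrow : ∀ j, ∀ sb, 0 < sb → sb ≤ 1 → n j ≤ al4 sb * p j + be4 sb)
    (hlo : ∀ j, (29/500) ≤ p j) (hp1 : ∀ j, p j ≤ 1) (hcap : ∀ j ∈ C, n j < (4157/12500))
    (hu : n i0 ≤ (12/125)) (hC2 : C.card = 2)
    (hF2 : (Finset.univ.erase i0 \ C).card = 2)
    (hlc : (C.filter fun j => (3/20) ≤ p j).card = 2)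
    (hlf : ((Finset.univ.erase i0 \ C).filter fun j => (3/20) ≤ p j).card = 0) :
    ∑ i, n i ^ 2 < (179049/500000) := by
  have key := joint_sum n p i0 C hC hsum (pc := (3/20)) (ACL := (21393/250000)) (ACS := (1/2))
    (AL := (1/2)) (AS := (8527/250000)) (B := (1/10))
    (fun j hj hp => cap5i12c2f0CL (hn0 j) (hrow j) (hcap j hj) hp)
    (fun j hj hp => cap5i12c2f0CS (hn0 j) (hcap j hj) (hlo j))
    (fun j _ hp => cap5i12c2f0FL (hn0 j) (hrow j) hp (hp1 j))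
    (fun j _ hp => cap5i12c2f0FS (hn0 j) (hrow j) (hlo j) hp.le)
  rw [card_filter_two C _ hC2 hlc, card_filter_two _ _ hF2 hlf, hlc, hlf] at key
  have h1 : n i0 ^ 2 ≤ (12/125) ^ 2 := pow_le_pow_left₀ (hn0 i0) hu 2
  have h2 := hlo i0
  norm_num at key h1 h2 ⊢
  linarith

lemma cap5i12c2f1FL {a p : ℝ} (ha0 : 0 ≤ a) (h : ∀ sb, 0 < sb → sb ≤ 1 → a ≤ al4 sb * p + be4 sb)
    (hp : (3/20) ≤ p) (hp1 : p ≤ 1) : a ^ 2 ≤ (-4553/1000000) + (2/5) * p := by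
  rcases le_total p (223/800) with h0 | h0
  · exact row4 (sb := (31/40)) (P := (3/20)) (Q := (223/800)) ha0 h (by norm_num) (by norm_num) hp h0 (by norm_num [al4, be4]) (by norm_num [al4, be4])
  rcases le_total p (253/800) with h1 | h1
  · exact row4 (sb := (33/40)) (P := (223/800)) (Q := (253/800)) ha0 h (by norm_num) (by norm_num) h0 h1 (by norm_num [al4, be4]) (by norm_num [al4, be4])
  rcases le_total p (181/400) with h2 | h2
  · exact row4 (sb := (17/20)) (P := (253/800)) (Q := (181/400)) ha0 h (by norm_num) (by norm_num) h1 h2 (by norm_num [al4, be4]) (by norm_num [al4, be4])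
  exact row4 (sb := (9/10)) (P := (181/400)) (Q := 1) ha0 h (by norm_num) (by norm_num) h2 hp1 (by norm_num [al4, be4]) (by norm_num [al4, be4])

lemma cap5i12c2f1FS {a p : ℝ} (ha0 : 0 ≤ a) (h : ∀ sb, 0 < sb → sb ≤ 1 → a ≤ al4 sb * p + be4 sb)
    (hp : (29/500) ≤ p) (hp1 : p ≤ (3/20)) : a ^ 2 ≤ (-14099/1000000) + (2/5) * p := by
  rcases le_total p (2331/20000) with h0 | h0
  · exact row4 (sb := (19/40)) (P := (29/500)) (Q := (2331/20000)) ha0 h (by norm_num) (by norm_num) hp h0 (by norm_num [al4, be4]) (by norm_num [al4, be4])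
  exact row4 (sb := (3/5)) (P := (2331/20000)) (Q := (3/20)) ha0 h (by norm_num) (by norm_num) h0 hp1 (by norm_num [al4, be4]) (by norm_num [al4, be4])

lemma cap5i12c2f1CLr {a p : ℝ} (ha0 : 0 ≤ a) (h : ∀ sb, 0 < sb → sb ≤ 1 → a ≤ al4 sb * p + be4 sb)
    (hp : (3/20) ≤ p) (hp1 : p ≤ (288373/1000000)) : a ^ 2 ≤ (-4753/1000000) + (2/5) * p := by
  rcases le_total p (5531/20000) with h0 | h0
  · exact row4 (sb := (31/40)) (P := (3/20)) (Q := (5531/20000)) ha0 h (by norm_num) (by norm_num) hp h0 (by norm_num [al4, be4]) (by norm_num [al4, be4])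
  exact row4 (sb := (4/5)) (P := (5531/20000)) (Q := (288373/1000000)) ha0 h (by norm_num) (by norm_num) h0 hp1 (by norm_num [al4, be4]) (by norm_num [al4, be4])

lemma cap5i12c2f1CL {a p : ℝ} (ha0 : 0 ≤ a) (h : ∀ sb, 0 < sb → sb ≤ 1 → a ≤ al4 sb * p + be4 sb)
    (hc : a < (4157/12500)) (hp : (3/20) ≤ p) : a ^ 2 ≤ (-4753/1000000) + (2/5) * p := by
  rcases le_total p (288373/1000000) with h1 | h1
  · exact cap5i12c2f1CLr ha0 h hp h1
  · exact cap_extend ha0 hc (by norm_num) (Pb := (288373/1000000)) (by norm_num) h1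

lemma cap5i12c2f1CS {a p : ℝ} (ha0 : 0 ≤ a) (hc : a < (4157/12500)) (hp : (29/500) ≤ p) : a ^ 2 ≤ (1/2) + (2/5) * p :=
  cap_extend ha0 hc (by norm_num) (Pb := (29/500)) (by norm_num) hp

lemma cap5i12c2f1 (n p : ι → ℝ) (i0 : ι) (C : Finset ι) (hC : C ⊆ Finset.univ.erase i0)
    (hsum : ∑ i, p i = 1) (hn0 : ∀ j, 0 ≤ n j)
    (hrow : ∀ j, ∀ sb, 0 < sb → sb ≤ 1 → n j ≤ al4 sb * p j + be4 sb)
    (hlo : ∀ j, (29/500) ≤ p j) (hp1 : ∀ j, p j ≤ 1) (hcap : ∀ j ∈ C, n j < (4157/12500))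
    (hu : n i0 ≤ (12/125)) (hC2 : C.card = 2)
    (hF2 : (Finset.univ.erase i0 \ C).card = 2)
    (hlc : (C.filter fun j => (3/20) ≤ p j).card = 2)
    (hlf : ((Finset.univ.erase i0 \ C).filter fun j => (3/20) ≤ p j).card = 1) :
    ∑ i, n i ^ 2 < (179049/500000) := by
  have key := joint_sum n p i0 C hC hsum (pc := (3/20)) (ACL := (-4753/1000000)) (ACS := (1/2))
    (AL := (-4553/1000000)) (AS := (-14099/1000000)) (B := (2/5))
    (fun j hj hp => cap5i12c2f1CL (hn0 j) (hrow j) (hcap j hj) hp)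
    (fun j hj hp => cap5i12c2f1CS (hn0 j) (hcap j hj) (hlo j))
    (fun j _ hp => cap5i12c2f1FL (hn0 j) (hrow j) hp (hp1 j))
    (fun j _ hp => cap5i12c2f1FS (hn0 j) (hrow j) (hlo j) hp.le)
  rw [card_filter_two C _ hC2 hlc, card_filter_two _ _ hF2 hlf, hlc, hlf] at key
  have h1 : n i0 ^ 2 ≤ (12/125) ^ 2 := pow_le_pow_left₀ (hn0 i0) hu 2
  have h2 := hlo i0
  norm_num at key h1 h2 ⊢
  linarith

lemma cap5i12c2f2FL {a p : ℝ} (ha0 : 0 ≤ a) (h : ∀ sb, 0 < sb → sb ≤ 1 → a ≤ al4 sb * p + be4 sb)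
    (hp : (3/20) ≤ p) (hp1 : p ≤ 1) : a ^ 2 ≤ (-3267/125000) + (12/25) * p := by
  rcases le_total p (3921/20000) with h0 | h0
  · exact row4 (sb := (27/40)) (P := (3/20)) (Q := (3921/20000)) ha0 h (by norm_num) (by norm_num) hp h0 (by norm_num [al4, be4]) (by norm_num [al4, be4])
  rcases le_total p (461/2000) with h1 | h1
  · exact row4 (sb := (29/40)) (P := (3921/20000)) (Q := (461/2000)) ha0 h (by norm_num) (by norm_num) h0 h1 (by norm_num [al4, be4]) (by norm_num [al4, be4])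
  rcases le_total p (5149/20000) with h2 | h2
  · exact row4 (sb := (3/4)) (P := (461/2000)) (Q := (5149/20000)) ha0 h (by norm_num) (by norm_num) h1 h2 (by norm_num [al4, be4]) (by norm_num [al4, be4])
  rcases le_total p (7817/20000) with h3 | h3
  · exact row4 (sb := (4/5)) (P := (5149/20000)) (Q := (7817/20000)) ha0 h (by norm_num) (by norm_num) h2 h3 (by norm_num [al4, be4]) (by norm_num [al4, be4])
  exact row4 (sb := (7/8)) (P := (7817/20000)) (Q := 1) ha0 h (by norm_num) (by norm_num) h3 hp1 (by norm_num [al4, be4]) (by norm_num [al4, be4])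

lemma cap5i12c2f2FS {a p : ℝ} (ha0 : 0 ≤ a) (h : ∀ sb, 0 < sb → sb ≤ 1 → a ≤ al4 sb * p + be4 sb)
    (hp : (29/500) ≤ p) (hp1 : p ≤ (3/20)) : a ^ 2 ≤ (1/2) + (12/25) * p := by
  exact row4 (sb := (1/40)) (P := (29/500)) (Q := (3/20)) ha0 h (by norm_num) (by norm_num) hp hp1 (by norm_num [al4, be4]) (by norm_num [al4, be4])

lemma cap5i12c2f2CLr {a p : ℝ} (ha0 : 0 ≤ a) (h : ∀ sb, 0 < sb → sb ≤ 1 → a ≤ al4 sb * p + be4 sb)
    (hp : (3/20) ≤ p) (hp1 : p ≤ (284859/1000000)) : a ^ 2 ≤ (-3267/125000) + (12/25) * p := by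
  rcases le_total p (3921/20000) with h0 | h0
  · exact row4 (sb := (27/40)) (P := (3/20)) (Q := (3921/20000)) ha0 h (by norm_num) (by norm_num) hp h0 (by norm_num [al4, be4]) (by norm_num [al4, be4])
  rcases le_total p (461/2000) with h1 | h1
  · exact row4 (sb := (29/40)) (P := (3921/20000)) (Q := (461/2000)) ha0 h (by norm_num) (by norm_num) h0 h1 (by norm_num [al4, be4]) (by norm_num [al4, be4])
  rcases le_total p (5149/20000) with h2 | h2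
  · exact row4 (sb := (3/4)) (P := (461/2000)) (Q := (5149/20000)) ha0 h (by norm_num) (by norm_num) h1 h2 (by norm_num [al4, be4]) (by norm_num [al4, be4])
  exact row4 (sb := (31/40)) (P := (5149/20000)) (Q := (284859/1000000)) ha0 h (by norm_num) (by norm_num) h2 hp1 (by norm_num [al4, be4]) (by norm_num [al4, be4])

lemma cap5i12c2f2CL {a p : ℝ} (ha0 : 0 ≤ a) (h : ∀ sb, 0 < sb → sb ≤ 1 → a ≤ al4 sb * p + be4 sb)
    (hc : a < (4157/12500)) (hp : (3/20) ≤ p) : a ^ 2 ≤ (-3267/125000) + (12/25) * p := by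
  rcases le_total p (284859/1000000) with h1 | h1
  · exact cap5i12c2f2CLr ha0 h hp h1
  · exact cap_extend ha0 hc (by norm_num) (Pb := (284859/1000000)) (by norm_num) h1

lemma cap5i12c2f2CS {a p : ℝ} (ha0 : 0 ≤ a) (hc : a < (4157/12500)) (hp : (29/500) ≤ p) : a ^ 2 ≤ (1/2) + (12/25) * p :=
  cap_extend ha0 hc (by norm_num) (Pb := (29/500)) (by norm_num) hp

lemma cap5i12c2f2 (n p : ι → ℝ) (i0 : ι) (C : Finset ι) (hC : C ⊆ Finset.univ.erase i0)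
    (hsum : ∑ i, p i = 1) (hn0 : ∀ j, 0 ≤ n j)
    (hrow : ∀ j, ∀ sb, 0 < sb → sb ≤ 1 → n j ≤ al4 sb * p j + be4 sb)
    (hlo : ∀ j, (29/500) ≤ p j) (hp1 : ∀ j, p j ≤ 1) (hcap : ∀ j ∈ C, n j < (4157/12500))
    (hu : n i0 ≤ (12/125)) (hC2 : C.card = 2)
    (hF2 : (Finset.univ.erase i0 \ C).card = 2)
    (hlc : (C.filter fun j => (3/20) ≤ p j).card = 2)
    (hlf : ((Finset.univ.erase i0 \ C).filter fun j => (3/20) ≤ p j).card = 2) :
    ∑ i, n i ^ 2 < (179049/500000) := by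
  have key := joint_sum n p i0 C hC hsum (pc := (3/20)) (ACL := (-3267/125000)) (ACS := (1/2))
    (AL := (-3267/125000)) (AS := (1/2)) (B := (12/25))
    (fun j hj hp => cap5i12c2f2CL (hn0 j) (hrow j) (hcap j hj) hp)
    (fun j hj hp => cap5i12c2f2CS (hn0 j) (hcap j hj) (hlo j))
    (fun j _ hp => cap5i12c2f2FL (hn0 j) (hrow j) hp (hp1 j))
    (fun j _ hp => cap5i12c2f2FS (hn0 j) (hrow j) (hlo j) hp.le)
  rw [card_filter_two C _ hC2 hlc, card_filter_two _ _ hF2 hlf, hlc, hlf] at key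
  have h1 : n i0 ^ 2 ≤ (12/125) ^ 2 := pow_le_pow_left₀ (hn0 i0) hu 2
  have h2 := hlo i0
  norm_num at key h1 h2 ⊢
  linarith

lemma cap5i12 (n p : ι → ℝ) (i0 : ι) (C : Finset ι) (hC : C ⊆ Finset.univ.erase i0)
    (hsum : ∑ i, p i = 1) (hn0 : ∀ j, 0 ≤ n j)
    (hrow : ∀ j, ∀ sb, 0 < sb → sb ≤ 1 → n j ≤ al4 sb * p j + be4 sb)
    (hlo : ∀ j, (29/500) ≤ p j) (hp1 : ∀ j, p j ≤ 1) (hcap : ∀ j ∈ C, n j < (4157/12500))
    (hu : n i0 ≤ (12/125)) (hC2 : C.card = 2)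
    (hF2 : (Finset.univ.erase i0 \ C).card = 2) :
    ∑ i, n i ^ 2 < (179049/500000) := by
  have hA : (C.filter fun j => (3/20) ≤ p j).card ≤ 2 := (Finset.card_filter_le _ _).trans hC2.le
  have hB : ((Finset.univ.erase i0 \ C).filter fun j => (3/20) ≤ p j).card ≤ 2 := (Finset.card_filter_le _ _).trans hF2.le
  have hc' : (C.filter fun j => (3/20) ≤ p j).card = 0 ∨ (C.filter fun j => (3/20) ≤ p j).card = 1 ∨ (C.filter fun j => (3/20) ≤ p j).card = 2 := by omega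
  have hf' : ((Finset.univ.erase i0 \ C).filter fun j => (3/20) ≤ p j).card = 0 ∨ ((Finset.univ.erase i0 \ C).filter fun j => (3/20) ≤ p j).card = 1 ∨ ((Finset.univ.erase i0 \ C).filter fun j => (3/20) ≤ p j).card = 2 := by omega
  rcases hc' with hlc | hlc | hlc <;> rcases hf' with hlf | hlf | hlf
  · exact cap5i12c0f0 n p i0 C hC hsum hn0 hrow hlo hp1 hcap hu hC2 hF2 hlc hlf
  · exact cap5i12c0f1 n p i0 C hC hsum hn0 hrow hlo hp1 hcap hu hC2 hF2 hlc hlf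
  · exact cap5i12c0f2 n p i0 C hC hsum hn0 hrow hlo hp1 hcap hu hC2 hF2 hlc hlf
  · exact cap5i12c1f0 n p i0 C hC hsum hn0 hrow hlo hp1 hcap hu hC2 hF2 hlc hlf
  · exact cap5i12c1f1 n p i0 C hC hsum hn0 hrow hlo hp1 hcap hu hC2 hF2 hlc hlf
  · exact cap5i12c1f2 n p i0 C hC hsum hn0 hrow hlo hp1 hcap hu hC2 hF2 hlc hlf
  · exact cap5i12c2f0 n p i0 C hC hsum hn0 hrow hlo hp1 hcap hu hC2 hF2 hlc hlf
  · exact cap5i12c2f1 n p i0 C hC hsum hn0 hrow hlo hp1 hcap hu hC2 hF2 hlc hlf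
  · exact cap5i12c2f2 n p i0 C hC hsum hn0 hrow hlo hp1 hcap hu hC2 hF2 hlc hlf

/-- The joint cap bound for 5 cells: at a fixed point with `F ≥ 9/(8π)` and `i0` a vertex of minimal
norm, at least three other vertices have squared norm at least `12.0` times that of `i0`. -/
theorem cap5_joint {E : Type*} [NormedAddCommGroup E] [InnerProductSpace ℝ E] [FiniteDimensional ℝ E]
    [MeasurableSpace E] [BorelSpace E] {ι : Type*} [Fintype ι] [LinearOrder ι] [Nonempty ι]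
    (w : ι → E) (hfix : ∀ i, mom (vcell w i) = w i) (hk : Fintype.card ι = 5)
    (hF : 9 / (8 * π) ≤ ∑ i, ‖w i‖ ^ 2) (i0 : ι) (hmin : ∀ j, ‖w i0‖ ≤ ‖w j‖) :
    3 ≤ (Finset.univ.filter fun j => j ≠ i0 ∧ (12 : ℝ) * ‖w i0‖ ^ 2 ≤ ‖w j‖ ^ 2).card := by
  classical
  obtain ⟨p, hp0, hp1, hp⟩ := cap4_line w hfix (by omega)
  have hple : ∀ i, p i ≤ 1 := by
    intro i
    rw [← hp1]
    exact Finset.single_le_sum (fun j _ => hp0 j) (Finset.mem_univ i)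
  have hmu : ((179049/500000) : ℝ) < 9 / (8 * π) := by
    rw [lt_div_iff₀ (by positivity)]
    nlinarith [pi_lt_d6]
  have hsig : ‖w i0‖ ≤ (12/125) := by
    obtain ⟨i, hi⟩ := (cap5 w hfix hk hF).1
    exact (hmin i).trans hi
  by_contra hc
  push Not at hc
  obtain ⟨C, hC, hdisj, hC2, hF2⟩ := exists_capped i0
    (Finset.univ.filter fun j => j ≠ i0 ∧ (12 : ℝ) * ‖w i0‖ ^ 2 ≤ ‖w j‖ ^ 2) (m := 2)
    (by omega) (by omega)
  have hcapC : ∀ j ∈ C, ‖w j‖ ^ 2 < (12 : ℝ) * ‖w i0‖ ^ 2 := by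
    intro j hj
    by_contra h
    push Not at h
    have hne : j ≠ i0 := (Finset.mem_erase.1 (hC hj)).1
    exact (Finset.disjoint_left.1 hdisj hj) (Finset.mem_filter.2 ⟨Finset.mem_univ _, hne, h⟩)
  have hn0 : ∀ j, 0 ≤ ‖w j‖ := fun j => norm_nonneg _
  have hlt : ∑ i, ‖w i‖ ^ 2 < (179049/500000) := by
    rcases le_total ‖w i0‖ (571/10000) with hu | hl
    · exact cap5i0 (fun i => ‖w i‖) p i0 C hC hp1 hn0 hp (fun j => hp0 j) hple
        (fun j hj => norm_lt_of_sq (κ := 12) (s := ‖w i0‖) (t := (571/10000)) (by norm_num) (by norm_num) (hcapC j hj) (norm_nonneg _) hu (by norm_num)) hu hC2 hF2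
    rcases le_total ‖w i0‖ (353/5000) with hu | hl
    · exact cap5i1 (fun i => ‖w i‖) p i0 C hC hp1 hn0 hp (fun j => lower_p (σ := (571/10000)) (hl.trans (hmin j)) (hp j (3/8) (by norm_num) (by norm_num)) (by norm_num [al4, be4]) (by norm_num [al4, be4])) hple
        (fun j hj => norm_lt_of_sq (κ := 12) (s := ‖w i0‖) (t := (353/5000)) (by norm_num) (by norm_num) (hcapC j hj) (norm_nonneg _) hu (by norm_num)) hu hC2 hF2
    rcases le_total ‖w i0‖ (761/10000) with hu | hl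
    · exact cap5i2 (fun i => ‖w i‖) p i0 C hC hp1 hn0 hp (fun j => lower_p (σ := (353/5000)) (hl.trans (hmin j)) (hp j (17/40) (by norm_num) (by norm_num)) (by norm_num [al4, be4]) (by norm_num [al4, be4])) hple
        (fun j hj => norm_lt_of_sq (κ := 12) (s := ‖w i0‖) (t := (761/10000)) (by norm_num) (by norm_num) (hcapC j hj) (norm_nonneg _) hu (by norm_num)) hu hC2 hF2
    rcases le_total ‖w i0‖ (799/10000) with hu | hl
    · exact cap5i3 (fun i => ‖w i‖) p i0 C hC hp1 hn0 hp (fun j => lower_p (σ := (761/10000)) (hl.trans (hmin j)) (hp j (17/40) (by norm_num) (by norm_num)) (by norm_num [al4, be4]) (by norm_num [al4, be4])) hple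
        (fun j hj => norm_lt_of_sq (κ := 12) (s := ‖w i0‖) (t := (799/10000)) (by norm_num) (by norm_num) (hcapC j hj) (norm_nonneg _) hu (by norm_num)) hu hC2 hF2
    rcases le_total ‖w i0‖ (827/10000) with hu | hl
    · exact cap5i4 (fun i => ‖w i‖) p i0 C hC hp1 hn0 hp (fun j => lower_p (σ := (799/10000)) (hl.trans (hmin j)) (hp j (17/40) (by norm_num) (by norm_num)) (by norm_num [al4, be4]) (by norm_num [al4, be4])) hple
        (fun j hj => norm_lt_of_sq (κ := 12) (s := ‖w i0‖) (t := (827/10000)) (by norm_num) (by norm_num) (hcapC j hj) (norm_nonneg _) hu (by norm_num)) hu hC2 hF2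
    rcases le_total ‖w i0‖ (107/1250) with hu | hl
    · exact cap5i5 (fun i => ‖w i‖) p i0 C hC hp1 hn0 hp (fun j => lower_p (σ := (827/10000)) (hl.trans (hmin j)) (hp j (9/20) (by norm_num) (by norm_num)) (by norm_num [al4, be4]) (by norm_num [al4, be4])) hple
        (fun j hj => norm_lt_of_sq (κ := 12) (s := ‖w i0‖) (t := (107/1250)) (by norm_num) (by norm_num) (hcapC j hj) (norm_nonneg _) hu (by norm_num)) hu hC2 hF2
    rcases le_total ‖w i0‖ (877/10000) with hu | hl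
    · exact cap5i6 (fun i => ‖w i‖) p i0 C hC hp1 hn0 hp (fun j => lower_p (σ := (107/1250)) (hl.trans (hmin j)) (hp j (9/20) (by norm_num) (by norm_num)) (by norm_num [al4, be4]) (by norm_num [al4, be4])) hple
        (fun j hj => norm_lt_of_sq (κ := 12) (s := ‖w i0‖) (t := (877/10000)) (by norm_num) (by norm_num) (hcapC j hj) (norm_nonneg _) hu (by norm_num)) hu hC2 hF2
    rcases le_total ‖w i0‖ (9/100) with hu | hl
    · exact cap5i7 (fun i => ‖w i‖) p i0 C hC hp1 hn0 hp (fun j => lower_p (σ := (877/10000)) (hl.trans (hmin j)) (hp j (9/20) (by norm_num) (by norm_num)) (by norm_num [al4, be4]) (by norm_num [al4, be4])) hple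
        (fun j hj => norm_lt_of_sq (κ := 12) (s := ‖w i0‖) (t := (9/100)) (by norm_num) (by norm_num) (hcapC j hj) (norm_nonneg _) hu (by norm_num)) hu hC2 hF2
    rcases le_total ‖w i0‖ (91/1000) with hu | hl
    · exact cap5i8 (fun i => ‖w i‖) p i0 C hC hp1 hn0 hp (fun j => lower_p (σ := (9/100)) (hl.trans (hmin j)) (hp j (9/20) (by norm_num) (by norm_num)) (by norm_num [al4, be4]) (by norm_num [al4, be4])) hple
        (fun j hj => norm_lt_of_sq (κ := 12) (s := ‖w i0‖) (t := (91/1000)) (by norm_num) (by norm_num) (hcapC j hj) (norm_nonneg _) hu (by norm_num)) hu hC2 hF2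
    rcases le_total ‖w i0‖ (37/400) with hu | hl
    · exact cap5i9 (fun i => ‖w i‖) p i0 C hC hp1 hn0 hp (fun j => lower_p (σ := (91/1000)) (hl.trans (hmin j)) (hp j (9/20) (by norm_num) (by norm_num)) (by norm_num [al4, be4]) (by norm_num [al4, be4])) hple
        (fun j hj => norm_lt_of_sq (κ := 12) (s := ‖w i0‖) (t := (37/400)) (by norm_num) (by norm_num) (hcapC j hj) (norm_nonneg _) hu (by norm_num)) hu hC2 hF2
    rcases le_total ‖w i0‖ (939/10000) with hu | hl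
    · exact cap5i10 (fun i => ‖w i‖) p i0 C hC hp1 hn0 hp (fun j => lower_p (σ := (37/400)) (hl.trans (hmin j)) (hp j (9/20) (by norm_num) (by norm_num)) (by norm_num [al4, be4]) (by norm_num [al4, be4])) hple
        (fun j hj => norm_lt_of_sq (κ := 12) (s := ‖w i0‖) (t := (939/10000)) (by norm_num) (by norm_num) (hcapC j hj) (norm_nonneg _) hu (by norm_num)) hu hC2 hF2
    rcases le_total ‖w i0‖ (119/1250) with hu | hl
    · exact cap5i11 (fun i => ‖w i‖) p i0 C hC hp1 hn0 hp (fun j => lower_p (σ := (939/10000)) (hl.trans (hmin j)) (hp j (9/20) (by norm_num) (by norm_num)) (by norm_num [al4, be4]) (by norm_num [al4, be4])) hple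
        (fun j hj => norm_lt_of_sq (κ := 12) (s := ‖w i0‖) (t := (119/1250)) (by norm_num) (by norm_num) (hcapC j hj) (norm_nonneg _) hu (by norm_num)) hu hC2 hF2
    have hu := hsig
    exact cap5i12 (fun i => ‖w i‖) p i0 C hC hp1 hn0 hp (fun j => lower_p (σ := (119/1250)) (hl.trans (hmin j)) (hp j (19/40) (by norm_num) (by norm_num)) (by norm_num [al4, be4]) (by norm_num [al4, be4])) hple
        (fun j hj => norm_lt_of_sq (κ := 12) (s := ‖w i0‖) (t := (12/125)) (by norm_num) (by norm_num) (hcapC j hj) (norm_nonneg _) hu (by norm_num)) hu hC2 hF2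
  linarith

end Vale.Agent.P226h15
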