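import Vale.Agent.P226h15.CapD57

open MeasureTheory ProbabilityTheory Real Set Filter Topology
open scoped RealInnerProductSpace ENNReal

namespace Vale.Agent.P226h15

set_option linter.unusedSectionVars false

open Vale.Agent.P226h14

lemma tab6a {a p : ℝ} (ha0 : 0 ≤ a) (h : ∀ c, 0 ≤ c → c ≤ 1 → a ≤ al5 c * p + be5 c)
    (hp : (81/2000) ≤ p) (hp1 : p ≤ 1) : a ^ 2 ≤ (-121561/10000000) + (1077/2500) * p := by
  rcases le_total p (251/2000) with h0 | h0
  · exact row5 (c := (73/100)) (P := (81/2000)) (Q := (251/2000)) ha0 h (by norm_num) (by norm_num) hp h0 (by norm_num [al5, be5]) (by norm_num [al5, be5])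
  rcases le_total p (481/2000) with h1 | h1
  · exact row5 (c := (2/5)) (P := (251/2000)) (Q := (481/2000)) ha0 h (by norm_num) (by norm_num) h0 h1 (by norm_num [al5, be5]) (by norm_num [al5, be5])
  rcases le_total p (269/1000) with h2 | h2
  · exact row5 (c := (33/100)) (P := (481/2000)) (Q := (269/1000)) ha0 h (by norm_num) (by norm_num) h1 h2 (by norm_num [al5, be5]) (by norm_num [al5, be5])
  rcases le_total p (143/500) with h3 | h3
  · exact row5 (c := (31/100)) (P := (269/1000)) (Q := (143/500)) ha0 h (by norm_num) (by norm_num) h2 h3 (by norm_num [al5, be5]) (by norm_num [al5, be5])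
  rcases le_total p (191/500) with h4 | h4
  · exact row5 (c := (7/25)) (P := (143/500)) (Q := (191/500)) ha0 h (by norm_num) (by norm_num) h3 h4 (by norm_num [al5, be5]) (by norm_num [al5, be5])
  exact row5 (c := (1/25)) (P := (191/500)) (Q := 1) ha0 h (by norm_num) (by norm_num) h4 hp1 (by norm_num [al5, be5]) (by norm_num [al5, be5])

lemma tab6b {a p : ℝ} (ha0 : 0 ≤ a) (h : ∀ c, 0 ≤ c → c ≤ 1 → a ≤ al5 c * p + be5 c)
    (hp : 0 ≤ p) (hp1 : p ≤ 1) : a ^ 2 ≤ (81141/2500000) + (731/2500) * p := by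
  rcases le_total p (671/2000) with h0 | h0
  · exact row5 (c := (13/50)) (P := 0) (Q := (671/2000)) ha0 h (by norm_num) (by norm_num) hp h0 (by norm_num [al5, be5]) (by norm_num [al5, be5])
  rcases le_total p (37/100) with h1 | h1
  · exact row5 (c := (19/100)) (P := (671/2000)) (Q := (37/100)) ha0 h (by norm_num) (by norm_num) h0 h1 (by norm_num [al5, be5]) (by norm_num [al5, be5])
  rcases le_total p (537/1000) with h2 | h2
  · exact row5 (c := (17/100)) (P := (37/100)) (Q := (537/1000)) ha0 h (by norm_num) (by norm_num) h1 h2 (by norm_num [al5, be5]) (by norm_num [al5, be5])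
  exact row5 (c := 0) (P := (537/1000)) (Q := 1) ha0 h (by norm_num) (by norm_num) h2 hp1 (by norm_num [al5, be5]) (by norm_num [al5, be5])

lemma tab6c {a p : ℝ} (ha0 : 0 ≤ a) (h : ∀ c, 0 ≤ c → c ≤ 1 → a ≤ al5 c * p + be5 c)
    (hp : 0 ≤ p) (hp1 : p ≤ (13/100)) : a ^ 2 ≤ (27/312500) + (731/2500) * p := by
  rcases le_total p (213/2000) with h0 | h0
  · exact row5 (c := (37/50)) (P := 0) (Q := (213/2000)) ha0 h (by norm_num) (by norm_num) hp h0 (by norm_num [al5, be5]) (by norm_num [al5, be5])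
  exact row5 (c := (27/50)) (P := (213/2000)) (Q := (13/100)) ha0 h (by norm_num) (by norm_num) h0 hp1 (by norm_num [al5, be5]) (by norm_num [al5, be5])

lemma tab6d {a p : ℝ} (h : ∀ c, 0 ≤ c → c ≤ 1 → a ≤ al5 c * p + be5 c)
    (ha : (73/1000) < a) : (81/2000) ≤ p := by
  have h1 := h (19/25) (by norm_num) (by norm_num)
  norm_num [al5, be5] at h1
  by_contra hc
  push Not at hc
  nlinarith

lemma tab6e {a p : ℝ} (ha0 : 0 ≤ a) (h : ∀ c, 0 ≤ c → c ≤ 1 → a ≤ al5 c * p + be5 c)
    (hp0 : 0 ≤ p) (ha : a < (39/200)) : a ^ 2 ≤ (27/312500) + (731/2500) * p := by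
  rcases le_total p (13/100) with h1 | h1
  · exact tab6c ha0 h hp0 h1
  · have h2 : a ^ 2 ≤ (39/200) ^ 2 := pow_le_pow_left₀ ha0 ha.le 2
    have h3 : ((39/200) : ℝ) ^ 2 ≤ (27/312500) + (731/2500) * (13/100) := by norm_num
    nlinarith

/-- The cap bound for 6 cells: at a fixed point with `F ≥ 9/(8π)` some vertex is tiny and at
least three vertices are big. -/
theorem cap6 {E : Type*} [NormedAddCommGroup E] [InnerProductSpace ℝ E] [FiniteDimensional ℝ E]
    [MeasurableSpace E] [BorelSpace E] {ι : Type*} [Fintype ι] [LinearOrder ι] [Nonempty ι]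
    (w : ι → E) (hfix : ∀ i, mom (vcell w i) = w i) (hk : Fintype.card ι = 6)
    (hF : 9 / (8 * π) ≤ ∑ i, ‖w i‖ ^ 2) :
    (∃ i, ‖w i‖ ≤ (73/1000)) ∧ 3 ≤ (Finset.univ.filter fun i => ((39/200) : ℝ) ≤ ‖w i‖).card := by
  obtain ⟨p, hp0, hp1, hp⟩ := cap5_line w hfix (by omega)
  have hple : ∀ i, p i ≤ 1 := by
    intro i
    rw [← hp1]
    exact Finset.single_le_sum (fun j _ => hp0 j) (Finset.mem_univ i)
  have hcard : (Fintype.card ι : ℝ) = 6 := by exact_mod_cast hk
  have hmu : ((179049/500000) : ℝ) < 9 / (8 * π) := by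
    rw [lt_div_iff₀ (by positivity)]
    nlinarith [pi_lt_d6]
  constructor
  · refine cap_min_generic (fun i => ‖w i‖) p hp1 (A := (-121561/10000000)) (B := (1077/2500)) (fun i hi => ?_) ?_ hF
    · exact tab6a (norm_nonneg _) (hp i) (tab6d (hp i) hi) (hple i)
    · rw [hcard]
      norm_num at hmu ⊢
      linarith
  · refine cap_big_generic (fun i => ‖w i‖) p hp1 (A := (81141/2500000)) (A' := (27/312500)) (B := (731/2500))
      (fun i => ?_) (fun i hi => ?_) (by norm_num) ?_ hF
    · exact tab6b (norm_nonneg _) (hp i) (hp0 i) (hple i)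
    · exact tab6e (norm_nonneg _) (hp i) (hp0 i) hi
    · rw [hcard]
      norm_num at hmu ⊢
      linarith

end Vale.Agent.P226h15
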