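import Vale.Agent.P226h15.CapJoint
import Vale.Agent.P226h15.Cap6

open MeasureTheory ProbabilityTheory Real Set Filter Topology
open scoped RealInnerProductSpace ENNReal

namespace Vale.Agent.P226h15

set_option linter.unusedSectionVars false
set_option linter.unusedVariables false

open Vale.Agent.P226h14

variable {ι : Type*} [Fintype ι] [DecidableEq ι]

lemma cap6i0c0f0FL {a p : ℝ} (ha0 : 0 ≤ a) (h : ∀ c, 0 ≤ c → c ≤ 1 → a ≤ al5 c * p + be5 c)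
    (hp : (3/25) ≤ p) (hp1 : p ≤ 1) : a ^ 2 ≤ (1/2) + (1/10) * p := by
  exact row5 (c := 0) (P := (3/25)) (Q := 1) ha0 h (by norm_num) (by norm_num) hp hp1 (by norm_num [al5, be5]) (by norm_num [al5, be5])

lemma cap6i0c0f0FS {a p : ℝ} (ha0 : 0 ≤ a) (h : ∀ c, 0 ≤ c → c ≤ 1 → a ≤ al5 c * p + be5 c)
    (hp : 0 ≤ p) (hp1 : p ≤ (3/25)) : a ^ 2 ≤ (36429/1000000) + (1/10) * p := by
  exact row5 (c := (13/40)) (P := 0) (Q := (3/25)) ha0 h (by norm_num) (by norm_num) hp hp1 (by norm_num [al5, be5]) (by norm_num [al5, be5])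

lemma cap6i0c0f0CL {a p : ℝ} (ha0 : 0 ≤ a) (hc : a < (19097/100000)) (hp : (3/25) ≤ p) : a ^ 2 ≤ (1/2) + (1/10) * p :=
  cap_extend ha0 hc (by norm_num) (Pb := (3/25)) (by norm_num) hp

lemma cap6i0c0f0CSr {a p : ℝ} (ha0 : 0 ≤ a) (h : ∀ c, 0 ≤ c → c ≤ 1 → a ≤ al5 c * p + be5 c)
    (hp : 0 ≤ p) (hp1 : p ≤ (203/500000)) : a ^ 2 ≤ (36429/1000000) + (1/10) * p := by
  exact row5 (c := (1/4)) (P := 0) (Q := (203/500000)) ha0 h (by norm_num) (by norm_num) hp hp1 (by norm_num [al5, be5]) (by norm_num [al5, be5])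

lemma cap6i0c0f0CS {a p : ℝ} (ha0 : 0 ≤ a) (h : ∀ c, 0 ≤ c → c ≤ 1 → a ≤ al5 c * p + be5 c)
    (hc : a < (19097/100000)) (hp : 0 ≤ p) : a ^ 2 ≤ (36429/1000000) + (1/10) * p := by
  rcases le_total p (203/500000) with h1 | h1
  · exact cap6i0c0f0CSr ha0 h hp h1
  · exact cap_extend ha0 hc (by norm_num) (Pb := (203/500000)) (by norm_num) h1

lemma cap6i0c0f0 (n p : ι → ℝ) (i0 : ι) (C : Finset ι) (hC : C ⊆ Finset.univ.erase i0)
    (hsum : ∑ i, p i = 1) (hn0 : ∀ j, 0 ≤ n j)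
    (hrow : ∀ j, ∀ c, 0 ≤ c → c ≤ 1 → n j ≤ al5 c * p j + be5 c)
    (hlo : ∀ j, 0 ≤ p j) (hp1 : ∀ j, p j ≤ 1) (hcap : ∀ j ∈ C, n j < (19097/100000))
    (hu : n i0 ≤ (427/10000)) (hC2 : C.card = 3)
    (hF2 : (Finset.univ.erase i0 \ C).card = 2)
    (hlc : (C.filter fun j => (3/25) ≤ p j).card = 0)
    (hlf : ((Finset.univ.erase i0 \ C).filter fun j => (3/25) ≤ p j).card = 0) :
    ∑ i, n i ^ 2 < (179049/500000) := by
  have key := joint_sum n p i0 C hC hsum (pc := (3/25)) (ACL := (1/2)) (ACS := (36429/1000000))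
    (AL := (1/2)) (AS := (36429/1000000)) (B := (1/10))
    (fun j hj hp => cap6i0c0f0CL (hn0 j) (hcap j hj) hp)
    (fun j hj hp => cap6i0c0f0CS (hn0 j) (hrow j) (hcap j hj) (hlo j))
    (fun j _ hp => cap6i0c0f0FL (hn0 j) (hrow j) hp (hp1 j))
    (fun j _ hp => cap6i0c0f0FS (hn0 j) (hrow j) (hlo j) hp.le)
  rw [card_filter_two C _ hC2 hlc, card_filter_two _ _ hF2 hlf, hlc, hlf] at key
  have h1 : n i0 ^ 2 ≤ (427/10000) ^ 2 := pow_le_pow_left₀ (hn0 i0) hu 2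
  have h2 := hlo i0
  norm_num at key h1 h2 ⊢
  linarith

lemma cap6i0c0f1FL {a p : ℝ} (ha0 : 0 ≤ a) (h : ∀ c, 0 ≤ c → c ≤ 1 → a ≤ al5 c * p + be5 c)
    (hp : (3/25) ≤ p) (hp1 : p ≤ 1) : a ^ 2 ≤ (117301/1000000) + (1/10) * p := by
  rcases le_total p (12811/20000) with h0 | h0
  · exact row5 (c := (3/40)) (P := (3/25)) (Q := (12811/20000)) ha0 h (by norm_num) (by norm_num) hp h0 (by norm_num [al5, be5]) (by norm_num [al5, be5])
  exact row5 (c := 0) (P := (12811/20000)) (Q := 1) ha0 h (by norm_num) (by norm_num) h0 hp1 (by norm_num [al5, be5]) (by norm_num [al5, be5])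

lemma cap6i0c0f1FS {a p : ℝ} (ha0 : 0 ≤ a) (h : ∀ c, 0 ≤ c → c ≤ 1 → a ≤ al5 c * p + be5 c)
    (hp : 0 ≤ p) (hp1 : p ≤ (3/25)) : a ^ 2 ≤ (27443/1000000) + (1/10) * p := by
  exact row5 (c := (17/40)) (P := 0) (Q := (3/25)) ha0 h (by norm_num) (by norm_num) hp hp1 (by norm_num [al5, be5]) (by norm_num [al5, be5])

lemma cap6i0c0f1CL {a p : ℝ} (ha0 : 0 ≤ a) (hc : a < (19097/100000)) (hp : (3/25) ≤ p) : a ^ 2 ≤ (1/2) + (1/10) * p :=
  cap_extend ha0 hc (by norm_num) (Pb := (3/25)) (by norm_num) hp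

lemma cap6i0c0f1CSr {a p : ℝ} (ha0 : 0 ≤ a) (h : ∀ c, 0 ≤ c → c ≤ 1 → a ≤ al5 c * p + be5 c)
    (hp : 0 ≤ p) (hp1 : p ≤ (45133/500000)) : a ^ 2 ≤ (27443/1000000) + (1/10) * p := by
  exact row5 (c := (7/20)) (P := 0) (Q := (45133/500000)) ha0 h (by norm_num) (by norm_num) hp hp1 (by norm_num [al5, be5]) (by norm_num [al5, be5])

lemma cap6i0c0f1CS {a p : ℝ} (ha0 : 0 ≤ a) (h : ∀ c, 0 ≤ c → c ≤ 1 → a ≤ al5 c * p + be5 c)
    (hc : a < (19097/100000)) (hp : 0 ≤ p) : a ^ 2 ≤ (27443/1000000) + (1/10) * p := by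
  rcases le_total p (45133/500000) with h1 | h1
  · exact cap6i0c0f1CSr ha0 h hp h1
  · exact cap_extend ha0 hc (by norm_num) (Pb := (45133/500000)) (by norm_num) h1

lemma cap6i0c0f1 (n p : ι → ℝ) (i0 : ι) (C : Finset ι) (hC : C ⊆ Finset.univ.erase i0)
    (hsum : ∑ i, p i = 1) (hn0 : ∀ j, 0 ≤ n j)
    (hrow : ∀ j, ∀ c, 0 ≤ c → c ≤ 1 → n j ≤ al5 c * p j + be5 c)
    (hlo : ∀ j, 0 ≤ p j) (hp1 : ∀ j, p j ≤ 1) (hcap : ∀ j ∈ C, n j < (19097/100000))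
    (hu : n i0 ≤ (427/10000)) (hC2 : C.card = 3)
    (hF2 : (Finset.univ.erase i0 \ C).card = 2)
    (hlc : (C.filter fun j => (3/25) ≤ p j).card = 0)
    (hlf : ((Finset.univ.erase i0 \ C).filter fun j => (3/25) ≤ p j).card = 1) :
    ∑ i, n i ^ 2 < (179049/500000) := by
  have key := joint_sum n p i0 C hC hsum (pc := (3/25)) (ACL := (1/2)) (ACS := (27443/1000000))
    (AL := (117301/1000000)) (AS := (27443/1000000)) (B := (1/10))
    (fun j hj hp => cap6i0c0f1CL (hn0 j) (hcap j hj) hp)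
    (fun j hj hp => cap6i0c0f1CS (hn0 j) (hrow j) (hcap j hj) (hlo j))
    (fun j _ hp => cap6i0c0f1FL (hn0 j) (hrow j) hp (hp1 j))
    (fun j _ hp => cap6i0c0f1FS (hn0 j) (hrow j) (hlo j) hp.le)
  rw [card_filter_two C _ hC2 hlc, card_filter_two _ _ hF2 hlf, hlc, hlf] at key
  have h1 : n i0 ^ 2 ≤ (427/10000) ^ 2 := pow_le_pow_left₀ (hn0 i0) hu 2
  have h2 := hlo i0
  norm_num at key h1 h2 ⊢
  linarith

lemma cap6i0c0f2FL {a p : ℝ} (ha0 : 0 ≤ a) (h : ∀ c, 0 ≤ c → c ≤ 1 → a ≤ al5 c * p + be5 c)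
    (hp : (3/25) ≤ p) (hp1 : p ≤ 1) : a ^ 2 ≤ (9293/250000) + (7/25) * p := by
  rcases le_total p (3547/10000) with h0 | h0
  · exact row5 (c := (9/40)) (P := (3/25)) (Q := (3547/10000)) ha0 h (by norm_num) (by norm_num) hp h0 (by norm_num [al5, be5]) (by norm_num [al5, be5])
  rcases le_total p (8327/20000) with h1 | h1
  · exact row5 (c := (7/40)) (P := (3547/10000)) (Q := (8327/20000)) ha0 h (by norm_num) (by norm_num) h0 h1 (by norm_num [al5, be5]) (by norm_num [al5, be5])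
  exact row5 (c := (1/20)) (P := (8327/20000)) (Q := 1) ha0 h (by norm_num) (by norm_num) h1 hp1 (by norm_num [al5, be5]) (by norm_num [al5, be5])

lemma cap6i0c0f2FS {a p : ℝ} (ha0 : 0 ≤ a) (h : ∀ c, 0 ≤ c → c ≤ 1 → a ≤ al5 c * p + be5 c)
    (hp : 0 ≤ p) (hp1 : p ≤ (3/25)) : a ^ 2 ≤ (1/2) + (7/25) * p := by
  exact row5 (c := 0) (P := 0) (Q := (3/25)) ha0 h (by norm_num) (by norm_num) hp hp1 (by norm_num [al5, be5]) (by norm_num [al5, be5])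

lemma cap6i0c0f2CL {a p : ℝ} (ha0 : 0 ≤ a) (hc : a < (19097/100000)) (hp : (3/25) ≤ p) : a ^ 2 ≤ (1/2) + (7/25) * p :=
  cap_extend ha0 hc (by norm_num) (Pb := (3/25)) (by norm_num) hp

lemma cap6i0c0f2CS {a p : ℝ} (ha0 : 0 ≤ a) (h : ∀ c, 0 ≤ c → c ≤ 1 → a ≤ al5 c * p + be5 c)
    (hp : 0 ≤ p) (hp1 : p ≤ (3/25)) : a ^ 2 ≤ (243/1000000) + (7/25) * p := by
  rcases le_total p (2173/20000) with h0 | h0
  · exact row5 (c := (7/10)) (P := 0) (Q := (2173/20000)) ha0 h (by norm_num) (by norm_num) hp h0 (by norm_num [al5, be5]) (by norm_num [al5, be5])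
  exact row5 (c := (11/20)) (P := (2173/20000)) (Q := (3/25)) ha0 h (by norm_num) (by norm_num) h0 hp1 (by norm_num [al5, be5]) (by norm_num [al5, be5])

lemma cap6i0c0f2 (n p : ι → ℝ) (i0 : ι) (C : Finset ι) (hC : C ⊆ Finset.univ.erase i0)
    (hsum : ∑ i, p i = 1) (hn0 : ∀ j, 0 ≤ n j)
    (hrow : ∀ j, ∀ c, 0 ≤ c → c ≤ 1 → n j ≤ al5 c * p j + be5 c)
    (hlo : ∀ j, 0 ≤ p j) (hp1 : ∀ j, p j ≤ 1) (hcap : ∀ j ∈ C, n j < (19097/100000))
    (hu : n i0 ≤ (427/10000)) (hC2 : C.card = 3)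
    (hF2 : (Finset.univ.erase i0 \ C).card = 2)
    (hlc : (C.filter fun j => (3/25) ≤ p j).card = 0)
    (hlf : ((Finset.univ.erase i0 \ C).filter fun j => (3/25) ≤ p j).card = 2) :
    ∑ i, n i ^ 2 < (179049/500000) := by
  have key := joint_sum n p i0 C hC hsum (pc := (3/25)) (ACL := (1/2)) (ACS := (243/1000000))
    (AL := (9293/250000)) (AS := (1/2)) (B := (7/25))
    (fun j hj hp => cap6i0c0f2CL (hn0 j) (hcap j hj) hp)
    (fun j hj hp => cap6i0c0f2CS (hn0 j) (hrow j) (hlo j) hp.le)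
    (fun j _ hp => cap6i0c0f2FL (hn0 j) (hrow j) hp (hp1 j))
    (fun j _ hp => cap6i0c0f2FS (hn0 j) (hrow j) (hlo j) hp.le)
  rw [card_filter_two C _ hC2 hlc, card_filter_two _ _ hF2 hlf, hlc, hlf] at key
  have h1 : n i0 ^ 2 ≤ (427/10000) ^ 2 := pow_le_pow_left₀ (hn0 i0) hu 2
  have h2 := hlo i0
  norm_num at key h1 h2 ⊢
  linarith

lemma cap6i0c1f0FL {a p : ℝ} (ha0 : 0 ≤ a) (h : ∀ c, 0 ≤ c → c ≤ 1 → a ≤ al5 c * p + be5 c)
    (hp : (3/25) ≤ p) (hp1 : p ≤ 1) : a ^ 2 ≤ (1/2) + (1/10) * p := by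
  exact row5 (c := 0) (P := (3/25)) (Q := 1) ha0 h (by norm_num) (by norm_num) hp hp1 (by norm_num [al5, be5]) (by norm_num [al5, be5])

lemma cap6i0c1f0FS {a p : ℝ} (ha0 : 0 ≤ a) (h : ∀ c, 0 ≤ c → c ≤ 1 → a ≤ al5 c * p + be5 c)
    (hp : 0 ≤ p) (hp1 : p ≤ (3/25)) : a ^ 2 ≤ (18103/500000) + (1/10) * p := by
  exact row5 (c := (13/40)) (P := 0) (Q := (3/25)) ha0 h (by norm_num) (by norm_num) hp hp1 (by norm_num [al5, be5]) (by norm_num [al5, be5])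

lemma cap6i0c1f0CL {a p : ℝ} (ha0 : 0 ≤ a) (hc : a < (19097/100000)) (hp : (3/25) ≤ p) : a ^ 2 ≤ (38429/1000000) + (1/10) * p :=
  cap_extend ha0 hc (by norm_num) (Pb := (3/25)) (by norm_num) hp

lemma cap6i0c1f0CSr {a p : ℝ} (ha0 : 0 ≤ a) (h : ∀ c, 0 ≤ c → c ≤ 1 → a ≤ al5 c * p + be5 c)
    (hp : 0 ≤ p) (hp1 : p ≤ (659/250000)) : a ^ 2 ≤ (18103/500000) + (1/10) * p := by
  exact row5 (c := (1/4)) (P := 0) (Q := (659/250000)) ha0 h (by norm_num) (by norm_num) hp hp1 (by norm_num [al5, be5]) (by norm_num [al5, be5])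

lemma cap6i0c1f0CS {a p : ℝ} (ha0 : 0 ≤ a) (h : ∀ c, 0 ≤ c → c ≤ 1 → a ≤ al5 c * p + be5 c)
    (hc : a < (19097/100000)) (hp : 0 ≤ p) : a ^ 2 ≤ (18103/500000) + (1/10) * p := by
  rcases le_total p (659/250000) with h1 | h1
  · exact cap6i0c1f0CSr ha0 h hp h1
  · exact cap_extend ha0 hc (by norm_num) (Pb := (659/250000)) (by norm_num) h1

lemma cap6i0c1f0 (n p : ι → ℝ) (i0 : ι) (C : Finset ι) (hC : C ⊆ Finset.univ.erase i0)
    (hsum : ∑ i, p i = 1) (hn0 : ∀ j, 0 ≤ n j)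
    (hrow : ∀ j, ∀ c, 0 ≤ c → c ≤ 1 → n j ≤ al5 c * p j + be5 c)
    (hlo : ∀ j, 0 ≤ p j) (hp1 : ∀ j, p j ≤ 1) (hcap : ∀ j ∈ C, n j < (19097/100000))
    (hu : n i0 ≤ (427/10000)) (hC2 : C.card = 3)
    (hF2 : (Finset.univ.erase i0 \ C).card = 2)
    (hlc : (C.filter fun j => (3/25) ≤ p j).card = 1)
    (hlf : ((Finset.univ.erase i0 \ C).filter fun j => (3/25) ≤ p j).card = 0) :
    ∑ i, n i ^ 2 < (179049/500000) := by
  have key := joint_sum n p i0 C hC hsum (pc := (3/25)) (ACL := (38429/1000000)) (ACS := (18103/500000))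
    (AL := (1/2)) (AS := (18103/500000)) (B := (1/10))
    (fun j hj hp => cap6i0c1f0CL (hn0 j) (hcap j hj) hp)
    (fun j hj hp => cap6i0c1f0CS (hn0 j) (hrow j) (hcap j hj) (hlo j))
    (fun j _ hp => cap6i0c1f0FL (hn0 j) (hrow j) hp (hp1 j))
    (fun j _ hp => cap6i0c1f0FS (hn0 j) (hrow j) (hlo j) hp.le)
  rw [card_filter_two C _ hC2 hlc, card_filter_two _ _ hF2 hlf, hlc, hlf] at key
  have h1 : n i0 ^ 2 ≤ (427/10000) ^ 2 := pow_le_pow_left₀ (hn0 i0) hu 2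
  have h2 := hlo i0
  norm_num at key h1 h2 ⊢
  linarith

lemma cap6i0c1f1FL {a p : ℝ} (ha0 : 0 ≤ a) (h : ∀ c, 0 ≤ c → c ≤ 1 → a ≤ al5 c * p + be5 c)
    (hp : (3/25) ≤ p) (hp1 : p ≤ 1) : a ^ 2 ≤ (117079/1000000) + (1/10) * p := by
  rcases le_total p (12687/20000) with h0 | h0
  · exact row5 (c := (3/40)) (P := (3/25)) (Q := (12687/20000)) ha0 h (by norm_num) (by norm_num) hp h0 (by norm_num [al5, be5]) (by norm_num [al5, be5])
  exact row5 (c := 0) (P := (12687/20000)) (Q := 1) ha0 h (by norm_num) (by norm_num) h0 hp1 (by norm_num [al5, be5]) (by norm_num [al5, be5])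

lemma cap6i0c1f1FS {a p : ℝ} (ha0 : 0 ≤ a) (h : ∀ c, 0 ≤ c → c ≤ 1 → a ≤ al5 c * p + be5 c)
    (hp : 0 ≤ p) (hp1 : p ≤ (3/25)) : a ^ 2 ≤ (1361/50000) + (1/10) * p := by
  exact row5 (c := (17/40)) (P := 0) (Q := (3/25)) ha0 h (by norm_num) (by norm_num) hp hp1 (by norm_num [al5, be5]) (by norm_num [al5, be5])

lemma cap6i0c1f1CL {a p : ℝ} (ha0 : 0 ≤ a) (hc : a < (19097/100000)) (hp : (3/25) ≤ p) : a ^ 2 ≤ (29443/1000000) + (1/10) * p :=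
  cap_extend ha0 hc (by norm_num) (Pb := (3/25)) (by norm_num) hp

lemma cap6i0c1f1CSr {a p : ℝ} (ha0 : 0 ≤ a) (h : ∀ c, 0 ≤ c → c ≤ 1 → a ≤ al5 c * p + be5 c)
    (hp : 0 ≤ p) (hp1 : p ≤ (5781/62500)) : a ^ 2 ≤ (1361/50000) + (1/10) * p := by
  exact row5 (c := (3/8)) (P := 0) (Q := (5781/62500)) ha0 h (by norm_num) (by norm_num) hp hp1 (by norm_num [al5, be5]) (by norm_num [al5, be5])

lemma cap6i0c1f1CS {a p : ℝ} (ha0 : 0 ≤ a) (h : ∀ c, 0 ≤ c → c ≤ 1 → a ≤ al5 c * p + be5 c)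
    (hc : a < (19097/100000)) (hp : 0 ≤ p) : a ^ 2 ≤ (1361/50000) + (1/10) * p := by
  rcases le_total p (5781/62500) with h1 | h1
  · exact cap6i0c1f1CSr ha0 h hp h1
  · exact cap_extend ha0 hc (by norm_num) (Pb := (5781/62500)) (by norm_num) h1

lemma cap6i0c1f1 (n p : ι → ℝ) (i0 : ι) (C : Finset ι) (hC : C ⊆ Finset.univ.erase i0)
    (hsum : ∑ i, p i = 1) (hn0 : ∀ j, 0 ≤ n j)
    (hrow : ∀ j, ∀ c, 0 ≤ c → c ≤ 1 → n j ≤ al5 c * p j + be5 c)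
    (hlo : ∀ j, 0 ≤ p j) (hp1 : ∀ j, p j ≤ 1) (hcap : ∀ j ∈ C, n j < (19097/100000))
    (hu : n i0 ≤ (427/10000)) (hC2 : C.card = 3)
    (hF2 : (Finset.univ.erase i0 \ C).card = 2)
    (hlc : (C.filter fun j => (3/25) ≤ p j).card = 1)
    (hlf : ((Finset.univ.erase i0 \ C).filter fun j => (3/25) ≤ p j).card = 1) :
    ∑ i, n i ^ 2 < (179049/500000) := by
  have key := joint_sum n p i0 C hC hsum (pc := (3/25)) (ACL := (29443/1000000)) (ACS := (1361/50000))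
    (AL := (117079/1000000)) (AS := (1361/50000)) (B := (1/10))
    (fun j hj hp => cap6i0c1f1CL (hn0 j) (hcap j hj) hp)
    (fun j hj hp => cap6i0c1f1CS (hn0 j) (hrow j) (hcap j hj) (hlo j))
    (fun j _ hp => cap6i0c1f1FL (hn0 j) (hrow j) hp (hp1 j))
    (fun j _ hp => cap6i0c1f1FS (hn0 j) (hrow j) (hlo j) hp.le)
  rw [card_filter_two C _ hC2 hlc, card_filter_two _ _ hF2 hlf, hlc, hlf] at key
  have h1 : n i0 ^ 2 ≤ (427/10000) ^ 2 := pow_le_pow_left₀ (hn0 i0) hu 2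
  have h2 := hlo i0
  norm_num at key h1 h2 ⊢
  linarith

lemma cap6i0c1f2FL {a p : ℝ} (ha0 : 0 ≤ a) (h : ∀ c, 0 ≤ c → c ≤ 1 → a ≤ al5 c * p + be5 c)
    (hp : (3/25) ≤ p) (hp1 : p ≤ 1) : a ^ 2 ≤ (7413/200000) + (7/25) * p := by
  rcases le_total p (1413/4000) with h0 | h0
  · exact row5 (c := (9/40)) (P := (3/25)) (Q := (1413/4000)) ha0 h (by norm_num) (by norm_num) hp h0 (by norm_num [al5, be5]) (by norm_num [al5, be5])
  rcases le_total p (13/32) with h1 | h1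
  · exact row5 (c := (7/40)) (P := (1413/4000)) (Q := (13/32)) ha0 h (by norm_num) (by norm_num) h0 h1 (by norm_num [al5, be5]) (by norm_num [al5, be5])
  exact row5 (c := (1/10)) (P := (13/32)) (Q := 1) ha0 h (by norm_num) (by norm_num) h1 hp1 (by norm_num [al5, be5]) (by norm_num [al5, be5])

lemma cap6i0c1f2FS {a p : ℝ} (ha0 : 0 ≤ a) (h : ∀ c, 0 ≤ c → c ≤ 1 → a ≤ al5 c * p + be5 c)
    (hp : 0 ≤ p) (hp1 : p ≤ (3/25)) : a ^ 2 ≤ (1/2) + (7/25) * p := by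
  exact row5 (c := 0) (P := 0) (Q := (3/25)) ha0 h (by norm_num) (by norm_num) hp hp1 (by norm_num [al5, be5]) (by norm_num [al5, be5])

lemma cap6i0c1f2CLr {a p : ℝ} (ha0 : 0 ≤ a) (h : ∀ c, 0 ≤ c → c ≤ 1 → a ≤ al5 c * p + be5 c)
    (hp : (3/25) ≤ p) (hp1 : p ≤ (1968/15625)) : a ^ 2 ≤ (1203/1000000) + (7/25) * p := by
  exact row5 (c := (21/40)) (P := (3/25)) (Q := (1968/15625)) ha0 h (by norm_num) (by norm_num) hp hp1 (by norm_num [al5, be5]) (by norm_num [al5, be5])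

lemma cap6i0c1f2CL {a p : ℝ} (ha0 : 0 ≤ a) (h : ∀ c, 0 ≤ c → c ≤ 1 → a ≤ al5 c * p + be5 c)
    (hc : a < (19097/100000)) (hp : (3/25) ≤ p) : a ^ 2 ≤ (1203/1000000) + (7/25) * p := by
  rcases le_total p (1968/15625) with h1 | h1
  · exact cap6i0c1f2CLr ha0 h hp h1
  · exact cap_extend ha0 hc (by norm_num) (Pb := (1968/15625)) (by norm_num) h1

lemma cap6i0c1f2CS {a p : ℝ} (ha0 : 0 ≤ a) (h : ∀ c, 0 ≤ c → c ≤ 1 → a ≤ al5 c * p + be5 c)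
    (hp : 0 ≤ p) (hp1 : p ≤ (3/25)) : a ^ 2 ≤ (17/125000) + (7/25) * p := by
  rcases le_total p (261/2500) with h0 | h0
  · exact row5 (c := (29/40)) (P := 0) (Q := (261/2500)) ha0 h (by norm_num) (by norm_num) hp h0 (by norm_num [al5, be5]) (by norm_num [al5, be5])
  exact row5 (c := (11/20)) (P := (261/2500)) (Q := (3/25)) ha0 h (by norm_num) (by norm_num) h0 hp1 (by norm_num [al5, be5]) (by norm_num [al5, be5])

lemma cap6i0c1f2 (n p : ι → ℝ) (i0 : ι) (C : Finset ι) (hC : C ⊆ Finset.univ.erase i0)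
    (hsum : ∑ i, p i = 1) (hn0 : ∀ j, 0 ≤ n j)
    (hrow : ∀ j, ∀ c, 0 ≤ c → c ≤ 1 → n j ≤ al5 c * p j + be5 c)
    (hlo : ∀ j, 0 ≤ p j) (hp1 : ∀ j, p j ≤ 1) (hcap : ∀ j ∈ C, n j < (19097/100000))
    (hu : n i0 ≤ (427/10000)) (hC2 : C.card = 3)
    (hF2 : (Finset.univ.erase i0 \ C).card = 2)
    (hlc : (C.filter fun j => (3/25) ≤ p j).card = 1)
    (hlf : ((Finset.univ.erase i0 \ C).filter fun j => (3/25) ≤ p j).card = 2) :
    ∑ i, n i ^ 2 < (179049/500000) := by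
  have key := joint_sum n p i0 C hC hsum (pc := (3/25)) (ACL := (1203/1000000)) (ACS := (17/125000))
    (AL := (7413/200000)) (AS := (1/2)) (B := (7/25))
    (fun j hj hp => cap6i0c1f2CL (hn0 j) (hrow j) (hcap j hj) hp)
    (fun j hj hp => cap6i0c1f2CS (hn0 j) (hrow j) (hlo j) hp.le)
    (fun j _ hp => cap6i0c1f2FL (hn0 j) (hrow j) hp (hp1 j))
    (fun j _ hp => cap6i0c1f2FS (hn0 j) (hrow j) (hlo j) hp.le)
  rw [card_filter_two C _ hC2 hlc, card_filter_two _ _ hF2 hlf, hlc, hlf] at key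
  have h1 : n i0 ^ 2 ≤ (427/10000) ^ 2 := pow_le_pow_left₀ (hn0 i0) hu 2
  have h2 := hlo i0
  norm_num at key h1 h2 ⊢
  linarith

lemma cap6i0c2f0FL {a p : ℝ} (ha0 : 0 ≤ a) (h : ∀ c, 0 ≤ c → c ≤ 1 → a ≤ al5 c * p + be5 c)
    (hp : (3/25) ≤ p) (hp1 : p ≤ 1) : a ^ 2 ≤ (1/2) + (1/10) * p := by
  exact row5 (c := 0) (P := (3/25)) (Q := 1) ha0 h (by norm_num) (by norm_num) hp hp1 (by norm_num [al5, be5]) (by norm_num [al5, be5])

lemma cap6i0c2f0FS {a p : ℝ} (ha0 : 0 ≤ a) (h : ∀ c, 0 ≤ c → c ≤ 1 → a ≤ al5 c * p + be5 c)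
    (hp : 0 ≤ p) (hp1 : p ≤ (3/25)) : a ^ 2 ≤ (2249/62500) + (1/10) * p := by
  exact row5 (c := (13/40)) (P := 0) (Q := (3/25)) ha0 h (by norm_num) (by norm_num) hp hp1 (by norm_num [al5, be5]) (by norm_num [al5, be5])

lemma cap6i0c2f0CL {a p : ℝ} (ha0 : 0 ≤ a) (hc : a < (19097/100000)) (hp : (3/25) ≤ p) : a ^ 2 ≤ (19103/500000) + (1/10) * p :=
  cap_extend ha0 hc (by norm_num) (Pb := (3/25)) (by norm_num) hp

lemma cap6i0c2f0CSr {a p : ℝ} (ha0 : 0 ≤ a) (h : ∀ c, 0 ≤ c → c ≤ 1 → a ≤ al5 c * p + be5 c)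
    (hp : 0 ≤ p) (hp1 : p ≤ (607/125000)) : a ^ 2 ≤ (2249/62500) + (1/10) * p := by
  exact row5 (c := (1/4)) (P := 0) (Q := (607/125000)) ha0 h (by norm_num) (by norm_num) hp hp1 (by norm_num [al5, be5]) (by norm_num [al5, be5])

lemma cap6i0c2f0CS {a p : ℝ} (ha0 : 0 ≤ a) (h : ∀ c, 0 ≤ c → c ≤ 1 → a ≤ al5 c * p + be5 c)
    (hc : a < (19097/100000)) (hp : 0 ≤ p) : a ^ 2 ≤ (2249/62500) + (1/10) * p := by
  rcases le_total p (607/125000) with h1 | h1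
  · exact cap6i0c2f0CSr ha0 h hp h1
  · exact cap_extend ha0 hc (by norm_num) (Pb := (607/125000)) (by norm_num) h1

lemma cap6i0c2f0 (n p : ι → ℝ) (i0 : ι) (C : Finset ι) (hC : C ⊆ Finset.univ.erase i0)
    (hsum : ∑ i, p i = 1) (hn0 : ∀ j, 0 ≤ n j)
    (hrow : ∀ j, ∀ c, 0 ≤ c → c ≤ 1 → n j ≤ al5 c * p j + be5 c)
    (hlo : ∀ j, 0 ≤ p j) (hp1 : ∀ j, p j ≤ 1) (hcap : ∀ j ∈ C, n j < (19097/100000))
    (hu : n i0 ≤ (427/10000)) (hC2 : C.card = 3)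
    (hF2 : (Finset.univ.erase i0 \ C).card = 2)
    (hlc : (C.filter fun j => (3/25) ≤ p j).card = 2)
    (hlf : ((Finset.univ.erase i0 \ C).filter fun j => (3/25) ≤ p j).card = 0) :
    ∑ i, n i ^ 2 < (179049/500000) := by
  have key := joint_sum n p i0 C hC hsum (pc := (3/25)) (ACL := (19103/500000)) (ACS := (2249/62500))
    (AL := (1/2)) (AS := (2249/62500)) (B := (1/10))
    (fun j hj hp => cap6i0c2f0CL (hn0 j) (hcap j hj) hp)
    (fun j hj hp => cap6i0c2f0CS (hn0 j) (hrow j) (hcap j hj) (hlo j))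
    (fun j _ hp => cap6i0c2f0FL (hn0 j) (hrow j) hp (hp1 j))
    (fun j _ hp => cap6i0c2f0FS (hn0 j) (hrow j) (hlo j) hp.le)
  rw [card_filter_two C _ hC2 hlc, card_filter_two _ _ hF2 hlf, hlc, hlf] at key
  have h1 : n i0 ^ 2 ≤ (427/10000) ^ 2 := pow_le_pow_left₀ (hn0 i0) hu 2
  have h2 := hlo i0
  norm_num at key h1 h2 ⊢
  linarith

lemma cap6i0c2f1FL {a p : ℝ} (ha0 : 0 ≤ a) (h : ∀ c, 0 ≤ c → c ≤ 1 → a ≤ al5 c * p + be5 c)
    (hp : (3/25) ≤ p) (hp1 : p ≤ 1) : a ^ 2 ≤ (116857/1000000) + (1/10) * p := by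
  rcases le_total p (12561/20000) with h0 | h0
  · exact row5 (c := (3/40)) (P := (3/25)) (Q := (12561/20000)) ha0 h (by norm_num) (by norm_num) hp h0 (by norm_num [al5, be5]) (by norm_num [al5, be5])
  exact row5 (c := 0) (P := (12561/20000)) (Q := 1) ha0 h (by norm_num) (by norm_num) h0 hp1 (by norm_num [al5, be5]) (by norm_num [al5, be5])

lemma cap6i0c2f1FS {a p : ℝ} (ha0 : 0 ≤ a) (h : ∀ c, 0 ≤ c → c ≤ 1 → a ≤ al5 c * p + be5 c)
    (hp : 0 ≤ p) (hp1 : p ≤ (3/25)) : a ^ 2 ≤ (13499/500000) + (1/10) * p := by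
  exact row5 (c := (17/40)) (P := 0) (Q := (3/25)) ha0 h (by norm_num) (by norm_num) hp hp1 (by norm_num [al5, be5]) (by norm_num [al5, be5])

lemma cap6i0c2f1CL {a p : ℝ} (ha0 : 0 ≤ a) (hc : a < (19097/100000)) (hp : (3/25) ≤ p) : a ^ 2 ≤ (29221/1000000) + (1/10) * p :=
  cap_extend ha0 hc (by norm_num) (Pb := (3/25)) (by norm_num) hp

lemma cap6i0c2f1CSr {a p : ℝ} (ha0 : 0 ≤ a) (h : ∀ c, 0 ≤ c → c ≤ 1 → a ≤ al5 c * p + be5 c)
    (hp : 0 ≤ p) (hp1 : p ≤ (23679/250000)) : a ^ 2 ≤ (13499/500000) + (1/10) * p := by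
  exact row5 (c := (3/8)) (P := 0) (Q := (23679/250000)) ha0 h (by norm_num) (by norm_num) hp hp1 (by norm_num [al5, be5]) (by norm_num [al5, be5])

lemma cap6i0c2f1CS {a p : ℝ} (ha0 : 0 ≤ a) (h : ∀ c, 0 ≤ c → c ≤ 1 → a ≤ al5 c * p + be5 c)
    (hc : a < (19097/100000)) (hp : 0 ≤ p) : a ^ 2 ≤ (13499/500000) + (1/10) * p := by
  rcases le_total p (23679/250000) with h1 | h1
  · exact cap6i0c2f1CSr ha0 h hp h1
  · exact cap_extend ha0 hc (by norm_num) (Pb := (23679/250000)) (by norm_num) h1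

lemma cap6i0c2f1 (n p : ι → ℝ) (i0 : ι) (C : Finset ι) (hC : C ⊆ Finset.univ.erase i0)
    (hsum : ∑ i, p i = 1) (hn0 : ∀ j, 0 ≤ n j)
    (hrow : ∀ j, ∀ c, 0 ≤ c → c ≤ 1 → n j ≤ al5 c * p j + be5 c)
    (hlo : ∀ j, 0 ≤ p j) (hp1 : ∀ j, p j ≤ 1) (hcap : ∀ j ∈ C, n j < (19097/100000))
    (hu : n i0 ≤ (427/10000)) (hC2 : C.card = 3)
    (hF2 : (Finset.univ.erase i0 \ C).card = 2)
    (hlc : (C.filter fun j => (3/25) ≤ p j).card = 2)
    (hlf : ((Finset.univ.erase i0 \ C).filter fun j => (3/25) ≤ p j).card = 1) :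
    ∑ i, n i ^ 2 < (179049/500000) := by
  have key := joint_sum n p i0 C hC hsum (pc := (3/25)) (ACL := (29221/1000000)) (ACS := (13499/500000))
    (AL := (116857/1000000)) (AS := (13499/500000)) (B := (1/10))
    (fun j hj hp => cap6i0c2f1CL (hn0 j) (hcap j hj) hp)
    (fun j hj hp => cap6i0c2f1CS (hn0 j) (hrow j) (hcap j hj) (hlo j))
    (fun j _ hp => cap6i0c2f1FL (hn0 j) (hrow j) hp (hp1 j))
    (fun j _ hp => cap6i0c2f1FS (hn0 j) (hrow j) (hlo j) hp.le)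
  rw [card_filter_two C _ hC2 hlc, card_filter_two _ _ hF2 hlf, hlc, hlf] at key
  have h1 : n i0 ^ 2 ≤ (427/10000) ^ 2 := pow_le_pow_left₀ (hn0 i0) hu 2
  have h2 := hlo i0
  norm_num at key h1 h2 ⊢
  linarith

lemma cap6i0c2f2FL {a p : ℝ} (ha0 : 0 ≤ a) (h : ∀ c, 0 ≤ c → c ≤ 1 → a ≤ al5 c * p + be5 c)
    (hp : (3/25) ≤ p) (hp1 : p ≤ 1) : a ^ 2 ≤ (36959/1000000) + (7/25) * p := by
  rcases le_total p (1759/5000) with h0 | h0
  · exact row5 (c := (9/40)) (P := (3/25)) (Q := (1759/5000)) ha0 h (by norm_num) (by norm_num) hp h0 (by norm_num [al5, be5]) (by norm_num [al5, be5])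
  rcases le_total p (1447/4000) with h1 | h1
  · exact row5 (c := (1/5)) (P := (1759/5000)) (Q := (1447/4000)) ha0 h (by norm_num) (by norm_num) h0 h1 (by norm_num [al5, be5]) (by norm_num [al5, be5])
  rcases le_total p (7829/20000) with h2 | h2
  · exact row5 (c := (7/40)) (P := (1447/4000)) (Q := (7829/20000)) ha0 h (by norm_num) (by norm_num) h1 h2 (by norm_num [al5, be5]) (by norm_num [al5, be5])
  exact row5 (c := (1/8)) (P := (7829/20000)) (Q := 1) ha0 h (by norm_num) (by norm_num) h2 hp1 (by norm_num [al5, be5]) (by norm_num [al5, be5])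

lemma cap6i0c2f2FS {a p : ℝ} (ha0 : 0 ≤ a) (h : ∀ c, 0 ≤ c → c ≤ 1 → a ≤ al5 c * p + be5 c)
    (hp : 0 ≤ p) (hp1 : p ≤ (3/25)) : a ^ 2 ≤ (1/2) + (7/25) * p := by
  exact row5 (c := 0) (P := 0) (Q := (3/25)) ha0 h (by norm_num) (by norm_num) hp hp1 (by norm_num [al5, be5]) (by norm_num [al5, be5])

lemma cap6i0c2f2CLr {a p : ℝ} (ha0 : 0 ≤ a) (h : ∀ c, 0 ≤ c → c ≤ 1 → a ≤ al5 c * p + be5 c)
    (hp : (3/25) ≤ p) (hp1 : p ≤ (25267/200000)) : a ^ 2 ≤ (137/125000) + (7/25) * p := by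
  exact row5 (c := (11/20)) (P := (3/25)) (Q := (25267/200000)) ha0 h (by norm_num) (by norm_num) hp hp1 (by norm_num [al5, be5]) (by norm_num [al5, be5])

lemma cap6i0c2f2CL {a p : ℝ} (ha0 : 0 ≤ a) (h : ∀ c, 0 ≤ c → c ≤ 1 → a ≤ al5 c * p + be5 c)
    (hc : a < (19097/100000)) (hp : (3/25) ≤ p) : a ^ 2 ≤ (137/125000) + (7/25) * p := by
  rcases le_total p (25267/200000) with h1 | h1
  · exact cap6i0c2f2CLr ha0 h hp h1
  · exact cap_extend ha0 hc (by norm_num) (Pb := (25267/200000)) (by norm_num) h1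

lemma cap6i0c2f2CS {a p : ℝ} (ha0 : 0 ≤ a) (h : ∀ c, 0 ≤ c → c ≤ 1 → a ≤ al5 c * p + be5 c)
    (hp : 0 ≤ p) (hp1 : p ≤ (3/25)) : a ^ 2 ≤ (29/1000000) + (7/25) * p := by
  rcases le_total p (919/10000) with h0 | h0
  · exact row5 (c := (4/5)) (P := 0) (Q := (919/10000)) ha0 h (by norm_num) (by norm_num) hp h0 (by norm_num [al5, be5]) (by norm_num [al5, be5])
  exact row5 (c := (23/40)) (P := (919/10000)) (Q := (3/25)) ha0 h (by norm_num) (by norm_num) h0 hp1 (by norm_num [al5, be5]) (by norm_num [al5, be5])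

lemma cap6i0c2f2 (n p : ι → ℝ) (i0 : ι) (C : Finset ι) (hC : C ⊆ Finset.univ.erase i0)
    (hsum : ∑ i, p i = 1) (hn0 : ∀ j, 0 ≤ n j)
    (hrow : ∀ j, ∀ c, 0 ≤ c → c ≤ 1 → n j ≤ al5 c * p j + be5 c)
    (hlo : ∀ j, 0 ≤ p j) (hp1 : ∀ j, p j ≤ 1) (hcap : ∀ j ∈ C, n j < (19097/100000))
    (hu : n i0 ≤ (427/10000)) (hC2 : C.card = 3)
    (hF2 : (Finset.univ.erase i0 \ C).card = 2)
    (hlc : (C.filter fun j => (3/25) ≤ p j).card = 2)
    (hlf : ((Finset.univ.erase i0 \ C).filter fun j => (3/25) ≤ p j).card = 2) :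
    ∑ i, n i ^ 2 < (179049/500000) := by
  have key := joint_sum n p i0 C hC hsum (pc := (3/25)) (ACL := (137/125000)) (ACS := (29/1000000))
    (AL := (36959/1000000)) (AS := (1/2)) (B := (7/25))
    (fun j hj hp => cap6i0c2f2CL (hn0 j) (hrow j) (hcap j hj) hp)
    (fun j hj hp => cap6i0c2f2CS (hn0 j) (hrow j) (hlo j) hp.le)
    (fun j _ hp => cap6i0c2f2FL (hn0 j) (hrow j) hp (hp1 j))
    (fun j _ hp => cap6i0c2f2FS (hn0 j) (hrow j) (hlo j) hp.le)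
  rw [card_filter_two C _ hC2 hlc, card_filter_two _ _ hF2 hlf, hlc, hlf] at key
  have h1 : n i0 ^ 2 ≤ (427/10000) ^ 2 := pow_le_pow_left₀ (hn0 i0) hu 2
  have h2 := hlo i0
  norm_num at key h1 h2 ⊢
  linarith

lemma cap6i0c3f0FL {a p : ℝ} (ha0 : 0 ≤ a) (h : ∀ c, 0 ≤ c → c ≤ 1 → a ≤ al5 c * p + be5 c)
    (hp : (3/25) ≤ p) (hp1 : p ≤ 1) : a ^ 2 ≤ (1/2) + (1/10) * p := by
  exact row5 (c := 0) (P := (3/25)) (Q := 1) ha0 h (by norm_num) (by norm_num) hp hp1 (by norm_num [al5, be5]) (by norm_num [al5, be5])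

lemma cap6i0c3f0FS {a p : ℝ} (ha0 : 0 ≤ a) (h : ∀ c, 0 ≤ c → c ≤ 1 → a ≤ al5 c * p + be5 c)
    (hp : 0 ≤ p) (hp1 : p ≤ (3/25)) : a ^ 2 ≤ (17881/500000) + (1/10) * p := by
  exact row5 (c := (7/20)) (P := 0) (Q := (3/25)) ha0 h (by norm_num) (by norm_num) hp hp1 (by norm_num [al5, be5]) (by norm_num [al5, be5])

lemma cap6i0c3f0CL {a p : ℝ} (ha0 : 0 ≤ a) (hc : a < (19097/100000)) (hp : (3/25) ≤ p) : a ^ 2 ≤ (1187/31250) + (1/10) * p :=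
  cap_extend ha0 hc (by norm_num) (Pb := (3/25)) (by norm_num) hp

lemma cap6i0c3f0CS {a p : ℝ} (ha0 : 0 ≤ a) (hc : a < (19097/100000)) (hp : 0 ≤ p) : a ^ 2 ≤ (1/2) + (1/10) * p :=
  cap_extend ha0 hc (by norm_num) (Pb := 0) (by norm_num) hp

lemma cap6i0c3f0 (n p : ι → ℝ) (i0 : ι) (C : Finset ι) (hC : C ⊆ Finset.univ.erase i0)
    (hsum : ∑ i, p i = 1) (hn0 : ∀ j, 0 ≤ n j)
    (hrow : ∀ j, ∀ c, 0 ≤ c → c ≤ 1 → n j ≤ al5 c * p j + be5 c)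
    (hlo : ∀ j, 0 ≤ p j) (hp1 : ∀ j, p j ≤ 1) (hcap : ∀ j ∈ C, n j < (19097/100000))
    (hu : n i0 ≤ (427/10000)) (hC2 : C.card = 3)
    (hF2 : (Finset.univ.erase i0 \ C).card = 2)
    (hlc : (C.filter fun j => (3/25) ≤ p j).card = 3)
    (hlf : ((Finset.univ.erase i0 \ C).filter fun j => (3/25) ≤ p j).card = 0) :
    ∑ i, n i ^ 2 < (179049/500000) := by
  have key := joint_sum n p i0 C hC hsum (pc := (3/25)) (ACL := (1187/31250)) (ACS := (1/2))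
    (AL := (1/2)) (AS := (17881/500000)) (B := (1/10))
    (fun j hj hp => cap6i0c3f0CL (hn0 j) (hcap j hj) hp)
    (fun j hj hp => cap6i0c3f0CS (hn0 j) (hcap j hj) (hlo j))
    (fun j _ hp => cap6i0c3f0FL (hn0 j) (hrow j) hp (hp1 j))
    (fun j _ hp => cap6i0c3f0FS (hn0 j) (hrow j) (hlo j) hp.le)
  rw [card_filter_two C _ hC2 hlc, card_filter_two _ _ hF2 hlf, hlc, hlf] at key
  have h1 : n i0 ^ 2 ≤ (427/10000) ^ 2 := pow_le_pow_left₀ (hn0 i0) hu 2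
  have h2 := hlo i0
  norm_num at key h1 h2 ⊢
  linarith

lemma cap6i0c3f1FL {a p : ℝ} (ha0 : 0 ≤ a) (h : ∀ c, 0 ≤ c → c ≤ 1 → a ≤ al5 c * p + be5 c)
    (hp : (3/25) ≤ p) (hp1 : p ≤ 1) : a ^ 2 ≤ (23327/200000) + (1/10) * p := by
  rcases le_total p (2487/4000) with h0 | h0
  · exact row5 (c := (3/40)) (P := (3/25)) (Q := (2487/4000)) ha0 h (by norm_num) (by norm_num) hp h0 (by norm_num [al5, be5]) (by norm_num [al5, be5])
  exact row5 (c := 0) (P := (2487/4000)) (Q := 1) ha0 h (by norm_num) (by norm_num) h0 hp1 (by norm_num [al5, be5]) (by norm_num [al5, be5])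

lemma cap6i0c3f1FS {a p : ℝ} (ha0 : 0 ≤ a) (h : ∀ c, 0 ≤ c → c ≤ 1 → a ≤ al5 c * p + be5 c)
    (hp : 0 ≤ p) (hp1 : p ≤ (3/25)) : a ^ 2 ≤ (3347/125000) + (1/10) * p := by
  exact row5 (c := (17/40)) (P := 0) (Q := (3/25)) ha0 h (by norm_num) (by norm_num) hp hp1 (by norm_num [al5, be5]) (by norm_num [al5, be5])

lemma cap6i0c3f1CL {a p : ℝ} (ha0 : 0 ≤ a) (hc : a < (19097/100000)) (hp : (3/25) ≤ p) : a ^ 2 ≤ (14499/500000) + (1/10) * p :=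
  cap_extend ha0 hc (by norm_num) (Pb := (3/25)) (by norm_num) hp

lemma cap6i0c3f1CS {a p : ℝ} (ha0 : 0 ≤ a) (hc : a < (19097/100000)) (hp : 0 ≤ p) : a ^ 2 ≤ (1/2) + (1/10) * p :=
  cap_extend ha0 hc (by norm_num) (Pb := 0) (by norm_num) hp

lemma cap6i0c3f1 (n p : ι → ℝ) (i0 : ι) (C : Finset ι) (hC : C ⊆ Finset.univ.erase i0)
    (hsum : ∑ i, p i = 1) (hn0 : ∀ j, 0 ≤ n j)
    (hrow : ∀ j, ∀ c, 0 ≤ c → c ≤ 1 → n j ≤ al5 c * p j + be5 c)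
    (hlo : ∀ j, 0 ≤ p j) (hp1 : ∀ j, p j ≤ 1) (hcap : ∀ j ∈ C, n j < (19097/100000))
    (hu : n i0 ≤ (427/10000)) (hC2 : C.card = 3)
    (hF2 : (Finset.univ.erase i0 \ C).card = 2)
    (hlc : (C.filter fun j => (3/25) ≤ p j).card = 3)
    (hlf : ((Finset.univ.erase i0 \ C).filter fun j => (3/25) ≤ p j).card = 1) :
    ∑ i, n i ^ 2 < (179049/500000) := by
  have key := joint_sum n p i0 C hC hsum (pc := (3/25)) (ACL := (14499/500000)) (ACS := (1/2))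
    (AL := (23327/200000)) (AS := (3347/125000)) (B := (1/10))
    (fun j hj hp => cap6i0c3f1CL (hn0 j) (hcap j hj) hp)
    (fun j hj hp => cap6i0c3f1CS (hn0 j) (hcap j hj) (hlo j))
    (fun j _ hp => cap6i0c3f1FL (hn0 j) (hrow j) hp (hp1 j))
    (fun j _ hp => cap6i0c3f1FS (hn0 j) (hrow j) (hlo j) hp.le)
  rw [card_filter_two C _ hC2 hlc, card_filter_two _ _ hF2 hlf, hlc, hlf] at key
  have h1 : n i0 ^ 2 ≤ (427/10000) ^ 2 := pow_le_pow_left₀ (hn0 i0) hu 2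
  have h2 := hlo i0
  norm_num at key h1 h2 ⊢
  linarith

lemma cap6i0c3f2FL {a p : ℝ} (ha0 : 0 ≤ a) (h : ∀ c, 0 ≤ c → c ≤ 1 → a ≤ al5 c * p + be5 c)
    (hp : (3/25) ≤ p) (hp1 : p ≤ 1) : a ^ 2 ≤ (833/250000) + (19/50) * p := by
  rcases le_total p (1173/4000) with h0 | h0
  · exact row5 (c := (13/40)) (P := (3/25)) (Q := (1173/4000)) ha0 h (by norm_num) (by norm_num) hp h0 (by norm_num [al5, be5]) (by norm_num [al5, be5])
  rcases le_total p (7543/20000) with h1 | h1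
  · exact row5 (c := (1/4)) (P := (1173/4000)) (Q := (7543/20000)) ha0 h (by norm_num) (by norm_num) h0 h1 (by norm_num [al5, be5]) (by norm_num [al5, be5])
  exact row5 (c := (1/10)) (P := (7543/20000)) (Q := 1) ha0 h (by norm_num) (by norm_num) h1 hp1 (by norm_num [al5, be5]) (by norm_num [al5, be5])

lemma cap6i0c3f2FS {a p : ℝ} (ha0 : 0 ≤ a) (h : ∀ c, 0 ≤ c → c ≤ 1 → a ≤ al5 c * p + be5 c)
    (hp : 0 ≤ p) (hp1 : p ≤ (3/25)) : a ^ 2 ≤ (1/2) + (19/50) * p := by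
  exact row5 (c := 0) (P := 0) (Q := (3/25)) ha0 h (by norm_num) (by norm_num) hp hp1 (by norm_num [al5, be5]) (by norm_num [al5, be5])

lemma cap6i0c3f2CLr {a p : ℝ} (ha0 : 0 ≤ a) (h : ∀ c, 0 ≤ c → c ≤ 1 → a ≤ al5 c * p + be5 c)
    (hp : (3/25) ≤ p) (hp1 : p ≤ (25001/200000)) : a ^ 2 ≤ (-1379/125000) + (19/50) * p := by
  exact row5 (c := (21/40)) (P := (3/25)) (Q := (25001/200000)) ha0 h (by norm_num) (by norm_num) hp hp1 (by norm_num [al5, be5]) (by norm_num [al5, be5])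

lemma cap6i0c3f2CL {a p : ℝ} (ha0 : 0 ≤ a) (h : ∀ c, 0 ≤ c → c ≤ 1 → a ≤ al5 c * p + be5 c)
    (hc : a < (19097/100000)) (hp : (3/25) ≤ p) : a ^ 2 ≤ (-1379/125000) + (19/50) * p := by
  rcases le_total p (25001/200000) with h1 | h1
  · exact cap6i0c3f2CLr ha0 h hp h1
  · exact cap_extend ha0 hc (by norm_num) (Pb := (25001/200000)) (by norm_num) h1

lemma cap6i0c3f2CS {a p : ℝ} (ha0 : 0 ≤ a) (hc : a < (19097/100000)) (hp : 0 ≤ p) : a ^ 2 ≤ (1/2) + (19/50) * p :=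
  cap_extend ha0 hc (by norm_num) (Pb := 0) (by norm_num) hp

lemma cap6i0c3f2 (n p : ι → ℝ) (i0 : ι) (C : Finset ι) (hC : C ⊆ Finset.univ.erase i0)
    (hsum : ∑ i, p i = 1) (hn0 : ∀ j, 0 ≤ n j)
    (hrow : ∀ j, ∀ c, 0 ≤ c → c ≤ 1 → n j ≤ al5 c * p j + be5 c)
    (hlo : ∀ j, 0 ≤ p j) (hp1 : ∀ j, p j ≤ 1) (hcap : ∀ j ∈ C, n j < (19097/100000))
    (hu : n i0 ≤ (427/10000)) (hC2 : C.card = 3)
    (hF2 : (Finset.univ.erase i0 \ C).card = 2)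
    (hlc : (C.filter fun j => (3/25) ≤ p j).card = 3)
    (hlf : ((Finset.univ.erase i0 \ C).filter fun j => (3/25) ≤ p j).card = 2) :
    ∑ i, n i ^ 2 < (179049/500000) := by
  have key := joint_sum n p i0 C hC hsum (pc := (3/25)) (ACL := (-1379/125000)) (ACS := (1/2))
    (AL := (833/250000)) (AS := (1/2)) (B := (19/50))
    (fun j hj hp => cap6i0c3f2CL (hn0 j) (hrow j) (hcap j hj) hp)
    (fun j hj hp => cap6i0c3f2CS (hn0 j) (hcap j hj) (hlo j))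
    (fun j _ hp => cap6i0c3f2FL (hn0 j) (hrow j) hp (hp1 j))
    (fun j _ hp => cap6i0c3f2FS (hn0 j) (hrow j) (hlo j) hp.le)
  rw [card_filter_two C _ hC2 hlc, card_filter_two _ _ hF2 hlf, hlc, hlf] at key
  have h1 : n i0 ^ 2 ≤ (427/10000) ^ 2 := pow_le_pow_left₀ (hn0 i0) hu 2
  have h2 := hlo i0
  norm_num at key h1 h2 ⊢
  linarith

lemma cap6i0 (n p : ι → ℝ) (i0 : ι) (C : Finset ι) (hC : C ⊆ Finset.univ.erase i0)
    (hsum : ∑ i, p i = 1) (hn0 : ∀ j, 0 ≤ n j)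
    (hrow : ∀ j, ∀ c, 0 ≤ c → c ≤ 1 → n j ≤ al5 c * p j + be5 c)
    (hlo : ∀ j, 0 ≤ p j) (hp1 : ∀ j, p j ≤ 1) (hcap : ∀ j ∈ C, n j < (19097/100000))
    (hu : n i0 ≤ (427/10000)) (hC2 : C.card = 3)
    (hF2 : (Finset.univ.erase i0 \ C).card = 2) :
    ∑ i, n i ^ 2 < (179049/500000) := by
  have hA : (C.filter fun j => (3/25) ≤ p j).card ≤ 3 := (Finset.card_filter_le _ _).trans hC2.le
  have hB : ((Finset.univ.erase i0 \ C).filter fun j => (3/25) ≤ p j).card ≤ 2 := (Finset.card_filter_le _ _).trans hF2.le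
  have hc' : (C.filter fun j => (3/25) ≤ p j).card = 0 ∨ (C.filter fun j => (3/25) ≤ p j).card = 1 ∨ (C.filter fun j => (3/25) ≤ p j).card = 2 ∨ (C.filter fun j => (3/25) ≤ p j).card = 3 := by omega
  have hf' : ((Finset.univ.erase i0 \ C).filter fun j => (3/25) ≤ p j).card = 0 ∨ ((Finset.univ.erase i0 \ C).filter fun j => (3/25) ≤ p j).card = 1 ∨ ((Finset.univ.erase i0 \ C).filter fun j => (3/25) ≤ p j).card = 2 := by omega
  rcases hc' with hlc | hlc | hlc | hlc <;> rcases hf' with hlf | hlf | hlf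
  · exact cap6i0c0f0 n p i0 C hC hsum hn0 hrow hlo hp1 hcap hu hC2 hF2 hlc hlf
  · exact cap6i0c0f1 n p i0 C hC hsum hn0 hrow hlo hp1 hcap hu hC2 hF2 hlc hlf
  · exact cap6i0c0f2 n p i0 C hC hsum hn0 hrow hlo hp1 hcap hu hC2 hF2 hlc hlf
  · exact cap6i0c1f0 n p i0 C hC hsum hn0 hrow hlo hp1 hcap hu hC2 hF2 hlc hlf
  · exact cap6i0c1f1 n p i0 C hC hsum hn0 hrow hlo hp1 hcap hu hC2 hF2 hlc hlf
  · exact cap6i0c1f2 n p i0 C hC hsum hn0 hrow hlo hp1 hcap hu hC2 hF2 hlc hlf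
  · exact cap6i0c2f0 n p i0 C hC hsum hn0 hrow hlo hp1 hcap hu hC2 hF2 hlc hlf
  · exact cap6i0c2f1 n p i0 C hC hsum hn0 hrow hlo hp1 hcap hu hC2 hF2 hlc hlf
  · exact cap6i0c2f2 n p i0 C hC hsum hn0 hrow hlo hp1 hcap hu hC2 hF2 hlc hlf
  · exact cap6i0c3f0 n p i0 C hC hsum hn0 hrow hlo hp1 hcap hu hC2 hF2 hlc hlf
  · exact cap6i0c3f1 n p i0 C hC hsum hn0 hrow hlo hp1 hcap hu hC2 hF2 hlc hlf
  · exact cap6i0c3f2 n p i0 C hC hsum hn0 hrow hlo hp1 hcap hu hC2 hF2 hlc hlf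

lemma cap6i1c0f0FL {a p : ℝ} (ha0 : 0 ≤ a) (h : ∀ c, 0 ≤ c → c ≤ 1 → a ≤ al5 c * p + be5 c)
    (hp : (3/20) ≤ p) (hp1 : p ≤ 1) : a ^ 2 ≤ (1/2) + (1/10) * p := by
  exact row5 (c := 0) (P := (3/20)) (Q := 1) ha0 h (by norm_num) (by norm_num) hp hp1 (by norm_num [al5, be5]) (by norm_num [al5, be5])

lemma cap6i1c0f0FS {a p : ℝ} (ha0 : 0 ≤ a) (h : ∀ c, 0 ≤ c → c ≤ 1 → a ≤ al5 c * p + be5 c)
    (hp : (11/500) ≤ p) (hp1 : p ≤ (3/20)) : a ^ 2 ≤ (10489/250000) + (1/10) * p := by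
  exact row5 (c := (7/20)) (P := (11/500)) (Q := (3/20)) ha0 h (by norm_num) (by norm_num) hp hp1 (by norm_num [al5, be5]) (by norm_num [al5, be5])

lemma cap6i1c0f0CL {a p : ℝ} (ha0 : 0 ≤ a) (hc : a < (1487/6250)) (hp : (3/20) ≤ p) : a ^ 2 ≤ (1/2) + (1/10) * p :=
  cap_extend ha0 hc (by norm_num) (Pb := (3/20)) (by norm_num) hp

lemma cap6i1c0f0CSr {a p : ℝ} (ha0 : 0 ≤ a) (h : ∀ c, 0 ≤ c → c ≤ 1 → a ≤ al5 c * p + be5 c)
    (hp : (11/500) ≤ p) (hp1 : p ≤ (293/2000)) : a ^ 2 ≤ (10489/250000) + (1/10) * p := by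
  exact row5 (c := (13/40)) (P := (11/500)) (Q := (293/2000)) ha0 h (by norm_num) (by norm_num) hp hp1 (by norm_num [al5, be5]) (by norm_num [al5, be5])

lemma cap6i1c0f0CS {a p : ℝ} (ha0 : 0 ≤ a) (h : ∀ c, 0 ≤ c → c ≤ 1 → a ≤ al5 c * p + be5 c)
    (hc : a < (1487/6250)) (hp : (11/500) ≤ p) : a ^ 2 ≤ (10489/250000) + (1/10) * p := by
  rcases le_total p (293/2000) with h1 | h1
  · exact cap6i1c0f0CSr ha0 h hp h1
  · exact cap_extend ha0 hc (by norm_num) (Pb := (293/2000)) (by norm_num) h1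

lemma cap6i1c0f0 (n p : ι → ℝ) (i0 : ι) (C : Finset ι) (hC : C ⊆ Finset.univ.erase i0)
    (hsum : ∑ i, p i = 1) (hn0 : ∀ j, 0 ≤ n j)
    (hrow : ∀ j, ∀ c, 0 ≤ c → c ≤ 1 → n j ≤ al5 c * p j + be5 c)
    (hlo : ∀ j, (11/500) ≤ p j) (hp1 : ∀ j, p j ≤ 1) (hcap : ∀ j ∈ C, n j < (1487/6250))
    (hu : n i0 ≤ (133/2500)) (hC2 : C.card = 3)
    (hF2 : (Finset.univ.erase i0 \ C).card = 2)
    (hlc : (C.filter fun j => (3/20) ≤ p j).card = 0)
    (hlf : ((Finset.univ.erase i0 \ C).filter fun j => (3/20) ≤ p j).card = 0) :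
    ∑ i, n i ^ 2 < (179049/500000) := by
  have key := joint_sum n p i0 C hC hsum (pc := (3/20)) (ACL := (1/2)) (ACS := (10489/250000))
    (AL := (1/2)) (AS := (10489/250000)) (B := (1/10))
    (fun j hj hp => cap6i1c0f0CL (hn0 j) (hcap j hj) hp)
    (fun j hj hp => cap6i1c0f0CS (hn0 j) (hrow j) (hcap j hj) (hlo j))
    (fun j _ hp => cap6i1c0f0FL (hn0 j) (hrow j) hp (hp1 j))
    (fun j _ hp => cap6i1c0f0FS (hn0 j) (hrow j) (hlo j) hp.le)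
  rw [card_filter_two C _ hC2 hlc, card_filter_two _ _ hF2 hlf, hlc, hlf] at key
  have h1 : n i0 ^ 2 ≤ (133/2500) ^ 2 := pow_le_pow_left₀ (hn0 i0) hu 2
  have h2 := hlo i0
  norm_num at key h1 h2 ⊢
  linarith

lemma cap6i1c0f1FL {a p : ℝ} (ha0 : 0 ≤ a) (h : ∀ c, 0 ≤ c → c ≤ 1 → a ≤ al5 c * p + be5 c)
    (hp : (3/20) ≤ p) (hp1 : p ≤ 1) : a ^ 2 ≤ (19607/500000) + (7/25) * p := by
  rcases le_total p (8227/20000) with h0 | h0
  · exact row5 (c := (1/5)) (P := (3/20)) (Q := (8227/20000)) ha0 h (by norm_num) (by norm_num) hp h0 (by norm_num [al5, be5]) (by norm_num [al5, be5])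
  exact row5 (c := (1/20)) (P := (8227/20000)) (Q := 1) ha0 h (by norm_num) (by norm_num) h0 hp1 (by norm_num [al5, be5]) (by norm_num [al5, be5])

lemma cap6i1c0f1FS {a p : ℝ} (ha0 : 0 ≤ a) (h : ∀ c, 0 ≤ c → c ≤ 1 → a ≤ al5 c * p + be5 c)
    (hp : (11/500) ≤ p) (hp1 : p ≤ (3/20)) : a ^ 2 ≤ (7701/1000000) + (7/25) * p := by
  exact row5 (c := (17/40)) (P := (11/500)) (Q := (3/20)) ha0 h (by norm_num) (by norm_num) hp hp1 (by norm_num [al5, be5]) (by norm_num [al5, be5])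

lemma cap6i1c0f1CL {a p : ℝ} (ha0 : 0 ≤ a) (hc : a < (1487/6250)) (hp : (3/20) ≤ p) : a ^ 2 ≤ (1/2) + (7/25) * p :=
  cap_extend ha0 hc (by norm_num) (Pb := (3/20)) (by norm_num) hp

lemma cap6i1c0f1CS {a p : ℝ} (ha0 : 0 ≤ a) (h : ∀ c, 0 ≤ c → c ≤ 1 → a ≤ al5 c * p + be5 c)
    (hp : (11/500) ≤ p) (hp1 : p ≤ (3/20)) : a ^ 2 ≤ (7701/1000000) + (7/25) * p := by
  exact row5 (c := (17/40)) (P := (11/500)) (Q := (3/20)) ha0 h (by norm_num) (by norm_num) hp hp1 (by norm_num [al5, be5]) (by norm_num [al5, be5])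

lemma cap6i1c0f1 (n p : ι → ℝ) (i0 : ι) (C : Finset ι) (hC : C ⊆ Finset.univ.erase i0)
    (hsum : ∑ i, p i = 1) (hn0 : ∀ j, 0 ≤ n j)
    (hrow : ∀ j, ∀ c, 0 ≤ c → c ≤ 1 → n j ≤ al5 c * p j + be5 c)
    (hlo : ∀ j, (11/500) ≤ p j) (hp1 : ∀ j, p j ≤ 1) (hcap : ∀ j ∈ C, n j < (1487/6250))
    (hu : n i0 ≤ (133/2500)) (hC2 : C.card = 3)
    (hF2 : (Finset.univ.erase i0 \ C).card = 2)
    (hlc : (C.filter fun j => (3/20) ≤ p j).card = 0)
    (hlf : ((Finset.univ.erase i0 \ C).filter fun j => (3/20) ≤ p j).card = 1) :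
    ∑ i, n i ^ 2 < (179049/500000) := by
  have key := joint_sum n p i0 C hC hsum (pc := (3/20)) (ACL := (1/2)) (ACS := (7701/1000000))
    (AL := (19607/500000)) (AS := (7701/1000000)) (B := (7/25))
    (fun j hj hp => cap6i1c0f1CL (hn0 j) (hcap j hj) hp)
    (fun j hj hp => cap6i1c0f1CS (hn0 j) (hrow j) (hlo j) hp.le)
    (fun j _ hp => cap6i1c0f1FL (hn0 j) (hrow j) hp (hp1 j))
    (fun j _ hp => cap6i1c0f1FS (hn0 j) (hrow j) (hlo j) hp.le)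
  rw [card_filter_two C _ hC2 hlc, card_filter_two _ _ hF2 hlf, hlc, hlf] at key
  have h1 : n i0 ^ 2 ≤ (133/2500) ^ 2 := pow_le_pow_left₀ (hn0 i0) hu 2
  have h2 := hlo i0
  norm_num at key h1 h2 ⊢
  linarith

lemma cap6i1c0f2FL {a p : ℝ} (ha0 : 0 ≤ a) (h : ∀ c, 0 ≤ c → c ≤ 1 → a ≤ al5 c * p + be5 c)
    (hp : (3/20) ≤ p) (hp1 : p ≤ 1) : a ^ 2 ≤ (119/12500) + (9/25) * p := by
  rcases le_total p (6137/20000) with h0 | h0
  · exact row5 (c := (3/10)) (P := (3/20)) (Q := (6137/20000)) ha0 h (by norm_num) (by norm_num) hp h0 (by norm_num [al5, be5]) (by norm_num [al5, be5])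
  rcases le_total p (1703/5000) with h1 | h1
  · exact row5 (c := (1/4)) (P := (6137/20000)) (Q := (1703/5000)) ha0 h (by norm_num) (by norm_num) h0 h1 (by norm_num [al5, be5]) (by norm_num [al5, be5])
  rcases le_total p (791/1250) with h2 | h2
  · exact row5 (c := (1/5)) (P := (1703/5000)) (Q := (791/1250)) ha0 h (by norm_num) (by norm_num) h1 h2 (by norm_num [al5, be5]) (by norm_num [al5, be5])
  exact row5 (c := 0) (P := (791/1250)) (Q := 1) ha0 h (by norm_num) (by norm_num) h2 hp1 (by norm_num [al5, be5]) (by norm_num [al5, be5])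

lemma cap6i1c0f2FS {a p : ℝ} (ha0 : 0 ≤ a) (h : ∀ c, 0 ≤ c → c ≤ 1 → a ≤ al5 c * p + be5 c)
    (hp : (11/500) ≤ p) (hp1 : p ≤ (3/20)) : a ^ 2 ≤ (1/2) + (9/25) * p := by
  exact row5 (c := 0) (P := (11/500)) (Q := (3/20)) ha0 h (by norm_num) (by norm_num) hp hp1 (by norm_num [al5, be5]) (by norm_num [al5, be5])

lemma cap6i1c0f2CL {a p : ℝ} (ha0 : 0 ≤ a) (hc : a < (1487/6250)) (hp : (3/20) ≤ p) : a ^ 2 ≤ (1/2) + (9/25) * p :=
  cap_extend ha0 hc (by norm_num) (Pb := (3/20)) (by norm_num) hp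

lemma cap6i1c0f2CS {a p : ℝ} (ha0 : 0 ≤ a) (h : ∀ c, 0 ≤ c → c ≤ 1 → a ≤ al5 c * p + be5 c)
    (hp : (11/500) ≤ p) (hp1 : p ≤ (3/20)) : a ^ 2 ≤ (-5863/1000000) + (9/25) * p := by
  rcases le_total p (2327/20000) with h0 | h0
  · exact row5 (c := (29/40)) (P := (11/500)) (Q := (2327/20000)) ha0 h (by norm_num) (by norm_num) hp h0 (by norm_num [al5, be5]) (by norm_num [al5, be5])
  exact row5 (c := (19/40)) (P := (2327/20000)) (Q := (3/20)) ha0 h (by norm_num) (by norm_num) h0 hp1 (by norm_num [al5, be5]) (by norm_num [al5, be5])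

lemma cap6i1c0f2 (n p : ι → ℝ) (i0 : ι) (C : Finset ι) (hC : C ⊆ Finset.univ.erase i0)
    (hsum : ∑ i, p i = 1) (hn0 : ∀ j, 0 ≤ n j)
    (hrow : ∀ j, ∀ c, 0 ≤ c → c ≤ 1 → n j ≤ al5 c * p j + be5 c)
    (hlo : ∀ j, (11/500) ≤ p j) (hp1 : ∀ j, p j ≤ 1) (hcap : ∀ j ∈ C, n j < (1487/6250))
    (hu : n i0 ≤ (133/2500)) (hC2 : C.card = 3)
    (hF2 : (Finset.univ.erase i0 \ C).card = 2)
    (hlc : (C.filter fun j => (3/20) ≤ p j).card = 0)
    (hlf : ((Finset.univ.erase i0 \ C).filter fun j => (3/20) ≤ p j).card = 2) :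
    ∑ i, n i ^ 2 < (179049/500000) := by
  have key := joint_sum n p i0 C hC hsum (pc := (3/20)) (ACL := (1/2)) (ACS := (-5863/1000000))
    (AL := (119/12500)) (AS := (1/2)) (B := (9/25))
    (fun j hj hp => cap6i1c0f2CL (hn0 j) (hcap j hj) hp)
    (fun j hj hp => cap6i1c0f2CS (hn0 j) (hrow j) (hlo j) hp.le)
    (fun j _ hp => cap6i1c0f2FL (hn0 j) (hrow j) hp (hp1 j))
    (fun j _ hp => cap6i1c0f2FS (hn0 j) (hrow j) (hlo j) hp.le)
  rw [card_filter_two C _ hC2 hlc, card_filter_two _ _ hF2 hlf, hlc, hlf] at key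
  have h1 : n i0 ^ 2 ≤ (133/2500) ^ 2 := pow_le_pow_left₀ (hn0 i0) hu 2
  have h2 := hlo i0
  norm_num at key h1 h2 ⊢
  linarith

lemma cap6i1c1f0FL {a p : ℝ} (ha0 : 0 ≤ a) (h : ∀ c, 0 ≤ c → c ≤ 1 → a ≤ al5 c * p + be5 c)
    (hp : (3/20) ≤ p) (hp1 : p ≤ 1) : a ^ 2 ≤ (1/2) + (1/10) * p := by
  exact row5 (c := 0) (P := (3/20)) (Q := 1) ha0 h (by norm_num) (by norm_num) hp hp1 (by norm_num [al5, be5]) (by norm_num [al5, be5])

lemma cap6i1c1f0FS {a p : ℝ} (ha0 : 0 ≤ a) (h : ∀ c, 0 ≤ c → c ≤ 1 → a ≤ al5 c * p + be5 c)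
    (hp : (11/500) ≤ p) (hp1 : p ≤ (3/20)) : a ^ 2 ≤ (4123/100000) + (1/10) * p := by
  exact row5 (c := (7/20)) (P := (11/500)) (Q := (3/20)) ha0 h (by norm_num) (by norm_num) hp hp1 (by norm_num [al5, be5]) (by norm_num [al5, be5])

lemma cap6i1c1f0CL {a p : ℝ} (ha0 : 0 ≤ a) (hc : a < (1487/6250)) (hp : (3/20) ≤ p) : a ^ 2 ≤ (12123/250000) + (1/10) * p :=
  cap_extend ha0 hc (by norm_num) (Pb := (3/20)) (by norm_num) hp

lemma cap6i1c1f0CS {a p : ℝ} (ha0 : 0 ≤ a) (h : ∀ c, 0 ≤ c → c ≤ 1 → a ≤ al5 c * p + be5 c)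
    (hp : (11/500) ≤ p) (hp1 : p ≤ (3/20)) : a ^ 2 ≤ (4123/100000) + (1/10) * p := by
  exact row5 (c := (7/20)) (P := (11/500)) (Q := (3/20)) ha0 h (by norm_num) (by norm_num) hp hp1 (by norm_num [al5, be5]) (by norm_num [al5, be5])

lemma cap6i1c1f0 (n p : ι → ℝ) (i0 : ι) (C : Finset ι) (hC : C ⊆ Finset.univ.erase i0)
    (hsum : ∑ i, p i = 1) (hn0 : ∀ j, 0 ≤ n j)
    (hrow : ∀ j, ∀ c, 0 ≤ c → c ≤ 1 → n j ≤ al5 c * p j + be5 c)
    (hlo : ∀ j, (11/500) ≤ p j) (hp1 : ∀ j, p j ≤ 1) (hcap : ∀ j ∈ C, n j < (1487/6250))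
    (hu : n i0 ≤ (133/2500)) (hC2 : C.card = 3)
    (hF2 : (Finset.univ.erase i0 \ C).card = 2)
    (hlc : (C.filter fun j => (3/20) ≤ p j).card = 1)
    (hlf : ((Finset.univ.erase i0 \ C).filter fun j => (3/20) ≤ p j).card = 0) :
    ∑ i, n i ^ 2 < (179049/500000) := by
  have key := joint_sum n p i0 C hC hsum (pc := (3/20)) (ACL := (12123/250000)) (ACS := (4123/100000))
    (AL := (1/2)) (AS := (4123/100000)) (B := (1/10))
    (fun j hj hp => cap6i1c1f0CL (hn0 j) (hcap j hj) hp)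
    (fun j hj hp => cap6i1c1f0CS (hn0 j) (hrow j) (hlo j) hp.le)
    (fun j _ hp => cap6i1c1f0FL (hn0 j) (hrow j) hp (hp1 j))
    (fun j _ hp => cap6i1c1f0FS (hn0 j) (hrow j) (hlo j) hp.le)
  rw [card_filter_two C _ hC2 hlc, card_filter_two _ _ hF2 hlf, hlc, hlf] at key
  have h1 : n i0 ^ 2 ≤ (133/2500) ^ 2 := pow_le_pow_left₀ (hn0 i0) hu 2
  have h2 := hlo i0
  norm_num at key h1 h2 ⊢
  linarith

lemma cap6i1c1f1FL {a p : ℝ} (ha0 : 0 ≤ a) (h : ∀ c, 0 ≤ c → c ≤ 1 → a ≤ al5 c * p + be5 c)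
    (hp : (3/20) ≤ p) (hp1 : p ≤ 1) : a ^ 2 ≤ (15809/500000) + (3/10) * p := by
  rcases le_total p (7611/20000) with h0 | h0
  · exact row5 (c := (9/40)) (P := (3/20)) (Q := (7611/20000)) ha0 h (by norm_num) (by norm_num) hp h0 (by norm_num [al5, be5]) (by norm_num [al5, be5])
  exact row5 (c := (1/10)) (P := (7611/20000)) (Q := 1) ha0 h (by norm_num) (by norm_num) h0 hp1 (by norm_num [al5, be5]) (by norm_num [al5, be5])

lemma cap6i1c1f1FS {a p : ℝ} (ha0 : 0 ≤ a) (h : ∀ c, 0 ≤ c → c ≤ 1 → a ≤ al5 c * p + be5 c)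
    (hp : (11/500) ≤ p) (hp1 : p ≤ (3/20)) : a ^ 2 ≤ (2163/500000) + (3/10) * p := by
  exact row5 (c := (9/20)) (P := (11/500)) (Q := (3/20)) ha0 h (by norm_num) (by norm_num) hp hp1 (by norm_num [al5, be5]) (by norm_num [al5, be5])

lemma cap6i1c1f1CLr {a p : ℝ} (ha0 : 0 ≤ a) (h : ∀ c, 0 ≤ c → c ≤ 1 → a ≤ al5 c * p + be5 c)
    (hp : (3/20) ≤ p) (hp1 : p ≤ (16289/100000)) : a ^ 2 ≤ (7739/1000000) + (3/10) * p := by
  exact row5 (c := (2/5)) (P := (3/20)) (Q := (16289/100000)) ha0 h (by norm_num) (by norm_num) hp hp1 (by norm_num [al5, be5]) (by norm_num [al5, be5])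

lemma cap6i1c1f1CL {a p : ℝ} (ha0 : 0 ≤ a) (h : ∀ c, 0 ≤ c → c ≤ 1 → a ≤ al5 c * p + be5 c)
    (hc : a < (1487/6250)) (hp : (3/20) ≤ p) : a ^ 2 ≤ (7739/1000000) + (3/10) * p := by
  rcases le_total p (16289/100000) with h1 | h1
  · exact cap6i1c1f1CLr ha0 h hp h1
  · exact cap_extend ha0 hc (by norm_num) (Pb := (16289/100000)) (by norm_num) h1

lemma cap6i1c1f1CS {a p : ℝ} (ha0 : 0 ≤ a) (h : ∀ c, 0 ≤ c → c ≤ 1 → a ≤ al5 c * p + be5 c)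
    (hp : (11/500) ≤ p) (hp1 : p ≤ (3/20)) : a ^ 2 ≤ (2163/500000) + (3/10) * p := by
  exact row5 (c := (9/20)) (P := (11/500)) (Q := (3/20)) ha0 h (by norm_num) (by norm_num) hp hp1 (by norm_num [al5, be5]) (by norm_num [al5, be5])

lemma cap6i1c1f1 (n p : ι → ℝ) (i0 : ι) (C : Finset ι) (hC : C ⊆ Finset.univ.erase i0)
    (hsum : ∑ i, p i = 1) (hn0 : ∀ j, 0 ≤ n j)
    (hrow : ∀ j, ∀ c, 0 ≤ c → c ≤ 1 → n j ≤ al5 c * p j + be5 c)
    (hlo : ∀ j, (11/500) ≤ p j) (hp1 : ∀ j, p j ≤ 1) (hcap : ∀ j ∈ C, n j < (1487/6250))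
    (hu : n i0 ≤ (133/2500)) (hC2 : C.card = 3)
    (hF2 : (Finset.univ.erase i0 \ C).card = 2)
    (hlc : (C.filter fun j => (3/20) ≤ p j).card = 1)
    (hlf : ((Finset.univ.erase i0 \ C).filter fun j => (3/20) ≤ p j).card = 1) :
    ∑ i, n i ^ 2 < (179049/500000) := by
  have key := joint_sum n p i0 C hC hsum (pc := (3/20)) (ACL := (7739/1000000)) (ACS := (2163/500000))
    (AL := (15809/500000)) (AS := (2163/500000)) (B := (3/10))
    (fun j hj hp => cap6i1c1f1CL (hn0 j) (hrow j) (hcap j hj) hp)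
    (fun j hj hp => cap6i1c1f1CS (hn0 j) (hrow j) (hlo j) hp.le)
    (fun j _ hp => cap6i1c1f1FL (hn0 j) (hrow j) hp (hp1 j))
    (fun j _ hp => cap6i1c1f1FS (hn0 j) (hrow j) (hlo j) hp.le)
  rw [card_filter_two C _ hC2 hlc, card_filter_two _ _ hF2 hlf, hlc, hlf] at key
  have h1 : n i0 ^ 2 ≤ (133/2500) ^ 2 := pow_le_pow_left₀ (hn0 i0) hu 2
  have h2 := hlo i0
  norm_num at key h1 h2 ⊢
  linarith

lemma cap6i1c1f2FL {a p : ℝ} (ha0 : 0 ≤ a) (h : ∀ c, 0 ≤ c → c ≤ 1 → a ≤ al5 c * p + be5 c)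
    (hp : (3/20) ≤ p) (hp1 : p ≤ 1) : a ^ 2 ≤ (9331/1000000) + (9/25) * p := by
  rcases le_total p (609/2000) with h0 | h0
  · exact row5 (c := (3/10)) (P := (3/20)) (Q := (609/2000)) ha0 h (by norm_num) (by norm_num) hp h0 (by norm_num [al5, be5]) (by norm_num [al5, be5])
  rcases le_total p (6657/20000) with h1 | h1
  · exact row5 (c := (1/4)) (P := (609/2000)) (Q := (6657/20000)) ha0 h (by norm_num) (by norm_num) h0 h1 (by norm_num [al5, be5]) (by norm_num [al5, be5])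
  rcases le_total p (67/160) with h2 | h2
  · exact row5 (c := (9/40)) (P := (6657/20000)) (Q := (67/160)) ha0 h (by norm_num) (by norm_num) h1 h2 (by norm_num [al5, be5]) (by norm_num [al5, be5])
  exact row5 (c := 0) (P := (67/160)) (Q := 1) ha0 h (by norm_num) (by norm_num) h2 hp1 (by norm_num [al5, be5]) (by norm_num [al5, be5])

lemma cap6i1c1f2FS {a p : ℝ} (ha0 : 0 ≤ a) (h : ∀ c, 0 ≤ c → c ≤ 1 → a ≤ al5 c * p + be5 c)
    (hp : (11/500) ≤ p) (hp1 : p ≤ (3/20)) : a ^ 2 ≤ (1/2) + (9/25) * p := by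
  exact row5 (c := 0) (P := (11/500)) (Q := (3/20)) ha0 h (by norm_num) (by norm_num) hp hp1 (by norm_num [al5, be5]) (by norm_num [al5, be5])

lemma cap6i1c1f2CLr {a p : ℝ} (ha0 : 0 ≤ a) (h : ∀ c, 0 ≤ c → c ≤ 1 → a ≤ al5 c * p + be5 c)
    (hp : (3/20) ≤ p) (hp1 : p ≤ (84403/500000)) : a ^ 2 ≤ (-1041/250000) + (9/25) * p := by
  exact row5 (c := (19/40)) (P := (3/20)) (Q := (84403/500000)) ha0 h (by norm_num) (by norm_num) hp hp1 (by norm_num [al5, be5]) (by norm_num [al5, be5])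

lemma cap6i1c1f2CL {a p : ℝ} (ha0 : 0 ≤ a) (h : ∀ c, 0 ≤ c → c ≤ 1 → a ≤ al5 c * p + be5 c)
    (hc : a < (1487/6250)) (hp : (3/20) ≤ p) : a ^ 2 ≤ (-1041/250000) + (9/25) * p := by
  rcases le_total p (84403/500000) with h1 | h1
  · exact cap6i1c1f2CLr ha0 h hp h1
  · exact cap_extend ha0 hc (by norm_num) (Pb := (84403/500000)) (by norm_num) h1

lemma cap6i1c1f2CS {a p : ℝ} (ha0 : 0 ≤ a) (h : ∀ c, 0 ≤ c → c ≤ 1 → a ≤ al5 c * p + be5 c)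
    (hp : (11/500) ≤ p) (hp1 : p ≤ (3/20)) : a ^ 2 ≤ (-1513/250000) + (9/25) * p := by
  rcases le_total p (1097/10000) with h0 | h0
  · exact row5 (c := (3/4)) (P := (11/500)) (Q := (1097/10000)) ha0 h (by norm_num) (by norm_num) hp h0 (by norm_num [al5, be5]) (by norm_num [al5, be5])
  exact row5 (c := (19/40)) (P := (1097/10000)) (Q := (3/20)) ha0 h (by norm_num) (by norm_num) h0 hp1 (by norm_num [al5, be5]) (by norm_num [al5, be5])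

lemma cap6i1c1f2 (n p : ι → ℝ) (i0 : ι) (C : Finset ι) (hC : C ⊆ Finset.univ.erase i0)
    (hsum : ∑ i, p i = 1) (hn0 : ∀ j, 0 ≤ n j)
    (hrow : ∀ j, ∀ c, 0 ≤ c → c ≤ 1 → n j ≤ al5 c * p j + be5 c)
    (hlo : ∀ j, (11/500) ≤ p j) (hp1 : ∀ j, p j ≤ 1) (hcap : ∀ j ∈ C, n j < (1487/6250))
    (hu : n i0 ≤ (133/2500)) (hC2 : C.card = 3)
    (hF2 : (Finset.univ.erase i0 \ C).card = 2)
    (hlc : (C.filter fun j => (3/20) ≤ p j).card = 1)
    (hlf : ((Finset.univ.erase i0 \ C).filter fun j => (3/20) ≤ p j).card = 2) :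
    ∑ i, n i ^ 2 < (179049/500000) := by
  have key := joint_sum n p i0 C hC hsum (pc := (3/20)) (ACL := (-1041/250000)) (ACS := (-1513/250000))
    (AL := (9331/1000000)) (AS := (1/2)) (B := (9/25))
    (fun j hj hp => cap6i1c1f2CL (hn0 j) (hrow j) (hcap j hj) hp)
    (fun j hj hp => cap6i1c1f2CS (hn0 j) (hrow j) (hlo j) hp.le)
    (fun j _ hp => cap6i1c1f2FL (hn0 j) (hrow j) hp (hp1 j))
    (fun j _ hp => cap6i1c1f2FS (hn0 j) (hrow j) (hlo j) hp.le)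
  rw [card_filter_two C _ hC2 hlc, card_filter_two _ _ hF2 hlf, hlc, hlf] at key
  have h1 : n i0 ^ 2 ≤ (133/2500) ^ 2 := pow_le_pow_left₀ (hn0 i0) hu 2
  have h2 := hlo i0
  norm_num at key h1 h2 ⊢
  linarith

lemma cap6i1c2f0FL {a p : ℝ} (ha0 : 0 ≤ a) (h : ∀ c, 0 ≤ c → c ≤ 1 → a ≤ al5 c * p + be5 c)
    (hp : (3/20) ≤ p) (hp1 : p ≤ 1) : a ^ 2 ≤ (1/2) + (1/10) * p := by
  exact row5 (c := 0) (P := (3/20)) (Q := 1) ha0 h (by norm_num) (by norm_num) hp hp1 (by norm_num [al5, be5]) (by norm_num [al5, be5])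

lemma cap6i1c2f0FS {a p : ℝ} (ha0 : 0 ≤ a) (h : ∀ c, 0 ≤ c → c ≤ 1 → a ≤ al5 c * p + be5 c)
    (hp : (11/500) ≤ p) (hp1 : p ≤ (3/20)) : a ^ 2 ≤ (5063/125000) + (1/10) * p := by
  exact row5 (c := (7/20)) (P := (11/500)) (Q := (3/20)) ha0 h (by norm_num) (by norm_num) hp hp1 (by norm_num [al5, be5]) (by norm_num [al5, be5])

lemma cap6i1c2f0CL {a p : ℝ} (ha0 : 0 ≤ a) (hc : a < (1487/6250)) (hp : (3/20) ≤ p) : a ^ 2 ≤ (23883/500000) + (1/10) * p :=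
  cap_extend ha0 hc (by norm_num) (Pb := (3/20)) (by norm_num) hp

lemma cap6i1c2f0CS {a p : ℝ} (ha0 : 0 ≤ a) (h : ∀ c, 0 ≤ c → c ≤ 1 → a ≤ al5 c * p + be5 c)
    (hp : (11/500) ≤ p) (hp1 : p ≤ (3/20)) : a ^ 2 ≤ (5063/125000) + (1/10) * p := by
  exact row5 (c := (7/20)) (P := (11/500)) (Q := (3/20)) ha0 h (by norm_num) (by norm_num) hp hp1 (by norm_num [al5, be5]) (by norm_num [al5, be5])

lemma cap6i1c2f0 (n p : ι → ℝ) (i0 : ι) (C : Finset ι) (hC : C ⊆ Finset.univ.erase i0)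
    (hsum : ∑ i, p i = 1) (hn0 : ∀ j, 0 ≤ n j)
    (hrow : ∀ j, ∀ c, 0 ≤ c → c ≤ 1 → n j ≤ al5 c * p j + be5 c)
    (hlo : ∀ j, (11/500) ≤ p j) (hp1 : ∀ j, p j ≤ 1) (hcap : ∀ j ∈ C, n j < (1487/6250))
    (hu : n i0 ≤ (133/2500)) (hC2 : C.card = 3)
    (hF2 : (Finset.univ.erase i0 \ C).card = 2)
    (hlc : (C.filter fun j => (3/20) ≤ p j).card = 2)
    (hlf : ((Finset.univ.erase i0 \ C).filter fun j => (3/20) ≤ p j).card = 0) :
    ∑ i, n i ^ 2 < (179049/500000) := by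
  have key := joint_sum n p i0 C hC hsum (pc := (3/20)) (ACL := (23883/500000)) (ACS := (5063/125000))
    (AL := (1/2)) (AS := (5063/125000)) (B := (1/10))
    (fun j hj hp => cap6i1c2f0CL (hn0 j) (hcap j hj) hp)
    (fun j hj hp => cap6i1c2f0CS (hn0 j) (hrow j) (hlo j) hp.le)
    (fun j _ hp => cap6i1c2f0FL (hn0 j) (hrow j) hp (hp1 j))
    (fun j _ hp => cap6i1c2f0FS (hn0 j) (hrow j) (hlo j) hp.le)
  rw [card_filter_two C _ hC2 hlc, card_filter_two _ _ hF2 hlf, hlc, hlf] at key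
  have h1 : n i0 ^ 2 ≤ (133/2500) ^ 2 := pow_le_pow_left₀ (hn0 i0) hu 2
  have h2 := hlo i0
  norm_num at key h1 h2 ⊢
  linarith

lemma cap6i1c2f1FL {a p : ℝ} (ha0 : 0 ≤ a) (h : ∀ c, 0 ≤ c → c ≤ 1 → a ≤ al5 c * p + be5 c)
    (hp : (3/20) ≤ p) (hp1 : p ≤ 1) : a ^ 2 ≤ (17361/1000000) + (17/50) * p := by
  rcases le_total p (3377/10000) with h0 | h0
  · exact row5 (c := (11/40)) (P := (3/20)) (Q := (3377/10000)) ha0 h (by norm_num) (by norm_num) hp h0 (by norm_num [al5, be5]) (by norm_num [al5, be5])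
  rcases le_total p (679/800) with h1 | h1
  · exact row5 (c := (7/40)) (P := (3377/10000)) (Q := (679/800)) ha0 h (by norm_num) (by norm_num) h0 h1 (by norm_num [al5, be5]) (by norm_num [al5, be5])
  exact row5 (c := 0) (P := (679/800)) (Q := 1) ha0 h (by norm_num) (by norm_num) h1 hp1 (by norm_num [al5, be5]) (by norm_num [al5, be5])

lemma cap6i1c2f1FS {a p : ℝ} (ha0 : 0 ≤ a) (h : ∀ c, 0 ≤ c → c ≤ 1 → a ≤ al5 c * p + be5 c)
    (hp : (11/500) ≤ p) (hp1 : p ≤ (3/20)) : a ^ 2 ≤ (-989/500000) + (17/50) * p := by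
  exact row5 (c := (11/20)) (P := (11/500)) (Q := (3/20)) ha0 h (by norm_num) (by norm_num) hp hp1 (by norm_num [al5, be5]) (by norm_num [al5, be5])

lemma cap6i1c2f1CLr {a p : ℝ} (ha0 : 0 ≤ a) (h : ∀ c, 0 ≤ c → c ≤ 1 → a ≤ al5 c * p + be5 c)
    (hp : (3/20) ≤ p) (hp1 : p ≤ (164533/1000000)) : a ^ 2 ≤ (133/200000) + (17/50) * p := by
  exact row5 (c := (2/5)) (P := (3/20)) (Q := (164533/1000000)) ha0 h (by norm_num) (by norm_num) hp hp1 (by norm_num [al5, be5]) (by norm_num [al5, be5])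

lemma cap6i1c2f1CL {a p : ℝ} (ha0 : 0 ≤ a) (h : ∀ c, 0 ≤ c → c ≤ 1 → a ≤ al5 c * p + be5 c)
    (hc : a < (1487/6250)) (hp : (3/20) ≤ p) : a ^ 2 ≤ (133/200000) + (17/50) * p := by
  rcases le_total p (164533/1000000) with h1 | h1
  · exact cap6i1c2f1CLr ha0 h hp h1
  · exact cap_extend ha0 hc (by norm_num) (Pb := (164533/1000000)) (by norm_num) h1

lemma cap6i1c2f1CS {a p : ℝ} (ha0 : 0 ≤ a) (h : ∀ c, 0 ≤ c → c ≤ 1 → a ≤ al5 c * p + be5 c)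
    (hp : (11/500) ≤ p) (hp1 : p ≤ (3/20)) : a ^ 2 ≤ (-989/500000) + (17/50) * p := by
  exact row5 (c := (11/20)) (P := (11/500)) (Q := (3/20)) ha0 h (by norm_num) (by norm_num) hp hp1 (by norm_num [al5, be5]) (by norm_num [al5, be5])

lemma cap6i1c2f1 (n p : ι → ℝ) (i0 : ι) (C : Finset ι) (hC : C ⊆ Finset.univ.erase i0)
    (hsum : ∑ i, p i = 1) (hn0 : ∀ j, 0 ≤ n j)
    (hrow : ∀ j, ∀ c, 0 ≤ c → c ≤ 1 → n j ≤ al5 c * p j + be5 c)
    (hlo : ∀ j, (11/500) ≤ p j) (hp1 : ∀ j, p j ≤ 1) (hcap : ∀ j ∈ C, n j < (1487/6250))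
    (hu : n i0 ≤ (133/2500)) (hC2 : C.card = 3)
    (hF2 : (Finset.univ.erase i0 \ C).card = 2)
    (hlc : (C.filter fun j => (3/20) ≤ p j).card = 2)
    (hlf : ((Finset.univ.erase i0 \ C).filter fun j => (3/20) ≤ p j).card = 1) :
    ∑ i, n i ^ 2 < (179049/500000) := by
  have key := joint_sum n p i0 C hC hsum (pc := (3/20)) (ACL := (133/200000)) (ACS := (-989/500000))
    (AL := (17361/1000000)) (AS := (-989/500000)) (B := (17/50))
    (fun j hj hp => cap6i1c2f1CL (hn0 j) (hrow j) (hcap j hj) hp)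
    (fun j hj hp => cap6i1c2f1CS (hn0 j) (hrow j) (hlo j) hp.le)
    (fun j _ hp => cap6i1c2f1FL (hn0 j) (hrow j) hp (hp1 j))
    (fun j _ hp => cap6i1c2f1FS (hn0 j) (hrow j) (hlo j) hp.le)
  rw [card_filter_two C _ hC2 hlc, card_filter_two _ _ hF2 hlf, hlc, hlf] at key
  have h1 : n i0 ^ 2 ≤ (133/2500) ^ 2 := pow_le_pow_left₀ (hn0 i0) hu 2
  have h2 := hlo i0
  norm_num at key h1 h2 ⊢
  linarith

lemma cap6i1c2f2FL {a p : ℝ} (ha0 : 0 ≤ a) (h : ∀ c, 0 ≤ c → c ≤ 1 → a ≤ al5 c * p + be5 c)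
    (hp : (3/20) ≤ p) (hp1 : p ≤ 1) : a ^ 2 ≤ (1401/500000) + (19/50) * p := by
  rcases le_total p (5741/20000) with h0 | h0
  · exact row5 (c := (13/40)) (P := (3/20)) (Q := (5741/20000)) ha0 h (by norm_num) (by norm_num) hp h0 (by norm_num [al5, be5]) (by norm_num [al5, be5])
  rcases le_total p (6159/20000) with h1 | h1
  · exact row5 (c := (11/40)) (P := (5741/20000)) (Q := (6159/20000)) ha0 h (by norm_num) (by norm_num) h0 h1 (by norm_num [al5, be5]) (by norm_num [al5, be5])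
  rcases le_total p (7009/20000) with h2 | h2
  · exact row5 (c := (1/4)) (P := (6159/20000)) (Q := (7009/20000)) ha0 h (by norm_num) (by norm_num) h1 h2 (by norm_num [al5, be5]) (by norm_num [al5, be5])
  exact row5 (c := (7/40)) (P := (7009/20000)) (Q := 1) ha0 h (by norm_num) (by norm_num) h2 hp1 (by norm_num [al5, be5]) (by norm_num [al5, be5])

lemma cap6i1c2f2FS {a p : ℝ} (ha0 : 0 ≤ a) (h : ∀ c, 0 ≤ c → c ≤ 1 → a ≤ al5 c * p + be5 c)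
    (hp : (11/500) ≤ p) (hp1 : p ≤ (3/20)) : a ^ 2 ≤ (1/2) + (19/50) * p := by
  exact row5 (c := 0) (P := (11/500)) (Q := (3/20)) ha0 h (by norm_num) (by norm_num) hp hp1 (by norm_num [al5, be5]) (by norm_num [al5, be5])

lemma cap6i1c2f2CLr {a p : ℝ} (ha0 : 0 ≤ a) (h : ∀ c, 0 ≤ c → c ≤ 1 → a ≤ al5 c * p + be5 c)
    (hp : (3/20) ≤ p) (hp1 : p ≤ (2644/15625)) : a ^ 2 ≤ (-481/62500) + (19/50) * p := by
  exact row5 (c := (19/40)) (P := (3/20)) (Q := (2644/15625)) ha0 h (by norm_num) (by norm_num) hp hp1 (by norm_num [al5, be5]) (by norm_num [al5, be5])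

lemma cap6i1c2f2CL {a p : ℝ} (ha0 : 0 ≤ a) (h : ∀ c, 0 ≤ c → c ≤ 1 → a ≤ al5 c * p + be5 c)
    (hc : a < (1487/6250)) (hp : (3/20) ≤ p) : a ^ 2 ≤ (-481/62500) + (19/50) * p := by
  rcases le_total p (2644/15625) with h1 | h1
  · exact cap6i1c2f2CLr ha0 h hp h1
  · exact cap_extend ha0 hc (by norm_num) (Pb := (2644/15625)) (by norm_num) h1

lemma cap6i1c2f2CS {a p : ℝ} (ha0 : 0 ≤ a) (h : ∀ c, 0 ≤ c → c ≤ 1 → a ≤ al5 c * p + be5 c)
    (hp : (11/500) ≤ p) (hp1 : p ≤ (3/20)) : a ^ 2 ≤ (-6639/1000000) + (19/50) * p := by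
  rcases le_total p (393/4000) with h0 | h0
  · exact row5 (c := (33/40)) (P := (11/500)) (Q := (393/4000)) ha0 h (by norm_num) (by norm_num) hp h0 (by norm_num [al5, be5]) (by norm_num [al5, be5])
  exact row5 (c := (9/20)) (P := (393/4000)) (Q := (3/20)) ha0 h (by norm_num) (by norm_num) h0 hp1 (by norm_num [al5, be5]) (by norm_num [al5, be5])

lemma cap6i1c2f2 (n p : ι → ℝ) (i0 : ι) (C : Finset ι) (hC : C ⊆ Finset.univ.erase i0)
    (hsum : ∑ i, p i = 1) (hn0 : ∀ j, 0 ≤ n j)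
    (hrow : ∀ j, ∀ c, 0 ≤ c → c ≤ 1 → n j ≤ al5 c * p j + be5 c)
    (hlo : ∀ j, (11/500) ≤ p j) (hp1 : ∀ j, p j ≤ 1) (hcap : ∀ j ∈ C, n j < (1487/6250))
    (hu : n i0 ≤ (133/2500)) (hC2 : C.card = 3)
    (hF2 : (Finset.univ.erase i0 \ C).card = 2)
    (hlc : (C.filter fun j => (3/20) ≤ p j).card = 2)
    (hlf : ((Finset.univ.erase i0 \ C).filter fun j => (3/20) ≤ p j).card = 2) :
    ∑ i, n i ^ 2 < (179049/500000) := by
  have key := joint_sum n p i0 C hC hsum (pc := (3/20)) (ACL := (-481/62500)) (ACS := (-6639/1000000))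
    (AL := (1401/500000)) (AS := (1/2)) (B := (19/50))
    (fun j hj hp => cap6i1c2f2CL (hn0 j) (hrow j) (hcap j hj) hp)
    (fun j hj hp => cap6i1c2f2CS (hn0 j) (hrow j) (hlo j) hp.le)
    (fun j _ hp => cap6i1c2f2FL (hn0 j) (hrow j) hp (hp1 j))
    (fun j _ hp => cap6i1c2f2FS (hn0 j) (hrow j) (hlo j) hp.le)
  rw [card_filter_two C _ hC2 hlc, card_filter_two _ _ hF2 hlf, hlc, hlf] at key
  have h1 : n i0 ^ 2 ≤ (133/2500) ^ 2 := pow_le_pow_left₀ (hn0 i0) hu 2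
  have h2 := hlo i0
  norm_num at key h1 h2 ⊢
  linarith

lemma cap6i1c3f0FL {a p : ℝ} (ha0 : 0 ≤ a) (h : ∀ c, 0 ≤ c → c ≤ 1 → a ≤ al5 c * p + be5 c)
    (hp : (3/20) ≤ p) (hp1 : p ≤ 1) : a ^ 2 ≤ (1/2) + (1/10) * p := by
  exact row5 (c := 0) (P := (3/20)) (Q := 1) ha0 h (by norm_num) (by norm_num) hp hp1 (by norm_num [al5, be5]) (by norm_num [al5, be5])

lemma cap6i1c3f0FS {a p : ℝ} (ha0 : 0 ≤ a) (h : ∀ c, 0 ≤ c → c ≤ 1 → a ≤ al5 c * p + be5 c)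
    (hp : (11/500) ≤ p) (hp1 : p ≤ (3/20)) : a ^ 2 ≤ (19889/500000) + (1/10) * p := by
  exact row5 (c := (3/8)) (P := (11/500)) (Q := (3/20)) ha0 h (by norm_num) (by norm_num) hp hp1 (by norm_num [al5, be5]) (by norm_num [al5, be5])

lemma cap6i1c3f0CL {a p : ℝ} (ha0 : 0 ≤ a) (hc : a < (1487/6250)) (hp : (3/20) ≤ p) : a ^ 2 ≤ (147/3125) + (1/10) * p :=
  cap_extend ha0 hc (by norm_num) (Pb := (3/20)) (by norm_num) hp

lemma cap6i1c3f0CS {a p : ℝ} (ha0 : 0 ≤ a) (hc : a < (1487/6250)) (hp : (11/500) ≤ p) : a ^ 2 ≤ (1/2) + (1/10) * p :=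
  cap_extend ha0 hc (by norm_num) (Pb := (11/500)) (by norm_num) hp

lemma cap6i1c3f0 (n p : ι → ℝ) (i0 : ι) (C : Finset ι) (hC : C ⊆ Finset.univ.erase i0)
    (hsum : ∑ i, p i = 1) (hn0 : ∀ j, 0 ≤ n j)
    (hrow : ∀ j, ∀ c, 0 ≤ c → c ≤ 1 → n j ≤ al5 c * p j + be5 c)
    (hlo : ∀ j, (11/500) ≤ p j) (hp1 : ∀ j, p j ≤ 1) (hcap : ∀ j ∈ C, n j < (1487/6250))
    (hu : n i0 ≤ (133/2500)) (hC2 : C.card = 3)
    (hF2 : (Finset.univ.erase i0 \ C).card = 2)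
    (hlc : (C.filter fun j => (3/20) ≤ p j).card = 3)
    (hlf : ((Finset.univ.erase i0 \ C).filter fun j => (3/20) ≤ p j).card = 0) :
    ∑ i, n i ^ 2 < (179049/500000) := by
  have key := joint_sum n p i0 C hC hsum (pc := (3/20)) (ACL := (147/3125)) (ACS := (1/2))
    (AL := (1/2)) (AS := (19889/500000)) (B := (1/10))
    (fun j hj hp => cap6i1c3f0CL (hn0 j) (hcap j hj) hp)
    (fun j hj hp => cap6i1c3f0CS (hn0 j) (hcap j hj) (hlo j))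
    (fun j _ hp => cap6i1c3f0FL (hn0 j) (hrow j) hp (hp1 j))
    (fun j _ hp => cap6i1c3f0FS (hn0 j) (hrow j) (hlo j) hp.le)
  rw [card_filter_two C _ hC2 hlc, card_filter_two _ _ hF2 hlf, hlc, hlf] at key
  have h1 : n i0 ^ 2 ≤ (133/2500) ^ 2 := pow_le_pow_left₀ (hn0 i0) hu 2
  have h2 := hlo i0
  norm_num at key h1 h2 ⊢
  linarith

lemma cap6i1c3f1FL {a p : ℝ} (ha0 : 0 ≤ a) (h : ∀ c, 0 ≤ c → c ≤ 1 → a ≤ al5 c * p + be5 c)
    (hp : (3/20) ≤ p) (hp1 : p ≤ 1) : a ^ 2 ≤ (2137/125000) + (17/50) * p := by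
  rcases le_total p (6691/20000) with h0 | h0
  · exact row5 (c := (11/40)) (P := (3/20)) (Q := (6691/20000)) ha0 h (by norm_num) (by norm_num) hp h0 (by norm_num [al5, be5]) (by norm_num [al5, be5])
  rcases le_total p (16901/20000) with h1 | h1
  · exact row5 (c := (7/40)) (P := (6691/20000)) (Q := (16901/20000)) ha0 h (by norm_num) (by norm_num) h0 h1 (by norm_num [al5, be5]) (by norm_num [al5, be5])
  exact row5 (c := 0) (P := (16901/20000)) (Q := 1) ha0 h (by norm_num) (by norm_num) h1 hp1 (by norm_num [al5, be5]) (by norm_num [al5, be5])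

lemma cap6i1c3f1FS {a p : ℝ} (ha0 : 0 ≤ a) (h : ∀ c, 0 ≤ c → c ≤ 1 → a ≤ al5 c * p + be5 c)
    (hp : (11/500) ≤ p) (hp1 : p ≤ (3/20)) : a ^ 2 ≤ (-2243/1000000) + (17/50) * p := by
  exact row5 (c := (11/20)) (P := (11/500)) (Q := (3/20)) ha0 h (by norm_num) (by norm_num) hp hp1 (by norm_num [al5, be5]) (by norm_num [al5, be5])

lemma cap6i1c3f1CLr {a p : ℝ} (ha0 : 0 ≤ a) (h : ∀ c, 0 ≤ c → c ≤ 1 → a ≤ al5 c * p + be5 c)
    (hp : (3/20) ≤ p) (hp1 : p ≤ (165309/1000000)) : a ^ 2 ≤ (401/1000000) + (17/50) * p := by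
  exact row5 (c := (17/40)) (P := (3/20)) (Q := (165309/1000000)) ha0 h (by norm_num) (by norm_num) hp hp1 (by norm_num [al5, be5]) (by norm_num [al5, be5])

lemma cap6i1c3f1CL {a p : ℝ} (ha0 : 0 ≤ a) (h : ∀ c, 0 ≤ c → c ≤ 1 → a ≤ al5 c * p + be5 c)
    (hc : a < (1487/6250)) (hp : (3/20) ≤ p) : a ^ 2 ≤ (401/1000000) + (17/50) * p := by
  rcases le_total p (165309/1000000) with h1 | h1
  · exact cap6i1c3f1CLr ha0 h hp h1
  · exact cap_extend ha0 hc (by norm_num) (Pb := (165309/1000000)) (by norm_num) h1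

lemma cap6i1c3f1CS {a p : ℝ} (ha0 : 0 ≤ a) (hc : a < (1487/6250)) (hp : (11/500) ≤ p) : a ^ 2 ≤ (1/2) + (17/50) * p :=
  cap_extend ha0 hc (by norm_num) (Pb := (11/500)) (by norm_num) hp

lemma cap6i1c3f1 (n p : ι → ℝ) (i0 : ι) (C : Finset ι) (hC : C ⊆ Finset.univ.erase i0)
    (hsum : ∑ i, p i = 1) (hn0 : ∀ j, 0 ≤ n j)
    (hrow : ∀ j, ∀ c, 0 ≤ c → c ≤ 1 → n j ≤ al5 c * p j + be5 c)
    (hlo : ∀ j, (11/500) ≤ p j) (hp1 : ∀ j, p j ≤ 1) (hcap : ∀ j ∈ C, n j < (1487/6250))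
    (hu : n i0 ≤ (133/2500)) (hC2 : C.card = 3)
    (hF2 : (Finset.univ.erase i0 \ C).card = 2)
    (hlc : (C.filter fun j => (3/20) ≤ p j).card = 3)
    (hlf : ((Finset.univ.erase i0 \ C).filter fun j => (3/20) ≤ p j).card = 1) :
    ∑ i, n i ^ 2 < (179049/500000) := by
  have key := joint_sum n p i0 C hC hsum (pc := (3/20)) (ACL := (401/1000000)) (ACS := (1/2))
    (AL := (2137/125000)) (AS := (-2243/1000000)) (B := (17/50))
    (fun j hj hp => cap6i1c3f1CL (hn0 j) (hrow j) (hcap j hj) hp)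
    (fun j hj hp => cap6i1c3f1CS (hn0 j) (hcap j hj) (hlo j))
    (fun j _ hp => cap6i1c3f1FL (hn0 j) (hrow j) hp (hp1 j))
    (fun j _ hp => cap6i1c3f1FS (hn0 j) (hrow j) (hlo j) hp.le)
  rw [card_filter_two C _ hC2 hlc, card_filter_two _ _ hF2 hlf, hlc, hlf] at key
  have h1 : n i0 ^ 2 ≤ (133/2500) ^ 2 := pow_le_pow_left₀ (hn0 i0) hu 2
  have h2 := hlo i0
  norm_num at key h1 h2 ⊢
  linarith

lemma cap6i1c3f2FL {a p : ℝ} (ha0 : 0 ≤ a) (h : ∀ c, 0 ≤ c → c ≤ 1 → a ≤ al5 c * p + be5 c)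
    (hp : (3/20) ≤ p) (hp1 : p ≤ 1) : a ^ 2 ≤ (-18893/1000000) + (23/50) * p := by
  rcases le_total p (1159/5000) with h0 | h0
  · exact row5 (c := (17/40)) (P := (3/20)) (Q := (1159/5000)) ha0 h (by norm_num) (by norm_num) hp h0 (by norm_num [al5, be5]) (by norm_num [al5, be5])
  rcases le_total p (233/800) with h1 | h1
  · exact row5 (c := (7/20)) (P := (1159/5000)) (Q := (233/800)) ha0 h (by norm_num) (by norm_num) h0 h1 (by norm_num [al5, be5]) (by norm_num [al5, be5])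
  rcases le_total p (8827/10000) with h2 | h2
  · exact row5 (c := (9/40)) (P := (233/800)) (Q := (8827/10000)) ha0 h (by norm_num) (by norm_num) h1 h2 (by norm_num [al5, be5]) (by norm_num [al5, be5])
  exact row5 (c := 0) (P := (8827/10000)) (Q := 1) ha0 h (by norm_num) (by norm_num) h2 hp1 (by norm_num [al5, be5]) (by norm_num [al5, be5])

lemma cap6i1c3f2FS {a p : ℝ} (ha0 : 0 ≤ a) (h : ∀ c, 0 ≤ c → c ≤ 1 → a ≤ al5 c * p + be5 c)
    (hp : (11/500) ≤ p) (hp1 : p ≤ (3/20)) : a ^ 2 ≤ (1/2) + (23/50) * p := by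
  exact row5 (c := 0) (P := (11/500)) (Q := (3/20)) ha0 h (by norm_num) (by norm_num) hp hp1 (by norm_num [al5, be5]) (by norm_num [al5, be5])

lemma cap6i1c3f2CLr {a p : ℝ} (ha0 : 0 ≤ a) (h : ∀ c, 0 ≤ c → c ≤ 1 → a ≤ al5 c * p + be5 c)
    (hp : (3/20) ≤ p) (hp1 : p ≤ (83683/500000)) : a ^ 2 ≤ (-10191/500000) + (23/50) * p := by
  exact row5 (c := (9/20)) (P := (3/20)) (Q := (83683/500000)) ha0 h (by norm_num) (by norm_num) hp hp1 (by norm_num [al5, be5]) (by norm_num [al5, be5])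

lemma cap6i1c3f2CL {a p : ℝ} (ha0 : 0 ≤ a) (h : ∀ c, 0 ≤ c → c ≤ 1 → a ≤ al5 c * p + be5 c)
    (hc : a < (1487/6250)) (hp : (3/20) ≤ p) : a ^ 2 ≤ (-10191/500000) + (23/50) * p := by
  rcases le_total p (83683/500000) with h1 | h1
  · exact cap6i1c3f2CLr ha0 h hp h1
  · exact cap_extend ha0 hc (by norm_num) (Pb := (83683/500000)) (by norm_num) h1

lemma cap6i1c3f2CS {a p : ℝ} (ha0 : 0 ≤ a) (hc : a < (1487/6250)) (hp : (11/500) ≤ p) : a ^ 2 ≤ (1/2) + (23/50) * p :=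
  cap_extend ha0 hc (by norm_num) (Pb := (11/500)) (by norm_num) hp

lemma cap6i1c3f2 (n p : ι → ℝ) (i0 : ι) (C : Finset ι) (hC : C ⊆ Finset.univ.erase i0)
    (hsum : ∑ i, p i = 1) (hn0 : ∀ j, 0 ≤ n j)
    (hrow : ∀ j, ∀ c, 0 ≤ c → c ≤ 1 → n j ≤ al5 c * p j + be5 c)
    (hlo : ∀ j, (11/500) ≤ p j) (hp1 : ∀ j, p j ≤ 1) (hcap : ∀ j ∈ C, n j < (1487/6250))
    (hu : n i0 ≤ (133/2500)) (hC2 : C.card = 3)
    (hF2 : (Finset.univ.erase i0 \ C).card = 2)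
    (hlc : (C.filter fun j => (3/20) ≤ p j).card = 3)
    (hlf : ((Finset.univ.erase i0 \ C).filter fun j => (3/20) ≤ p j).card = 2) :
    ∑ i, n i ^ 2 < (179049/500000) := by
  have key := joint_sum n p i0 C hC hsum (pc := (3/20)) (ACL := (-10191/500000)) (ACS := (1/2))
    (AL := (-18893/1000000)) (AS := (1/2)) (B := (23/50))
    (fun j hj hp => cap6i1c3f2CL (hn0 j) (hrow j) (hcap j hj) hp)
    (fun j hj hp => cap6i1c3f2CS (hn0 j) (hcap j hj) (hlo j))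
    (fun j _ hp => cap6i1c3f2FL (hn0 j) (hrow j) hp (hp1 j))
    (fun j _ hp => cap6i1c3f2FS (hn0 j) (hrow j) (hlo j) hp.le)
  rw [card_filter_two C _ hC2 hlc, card_filter_two _ _ hF2 hlf, hlc, hlf] at key
  have h1 : n i0 ^ 2 ≤ (133/2500) ^ 2 := pow_le_pow_left₀ (hn0 i0) hu 2
  have h2 := hlo i0
  norm_num at key h1 h2 ⊢
  linarith

lemma cap6i1 (n p : ι → ℝ) (i0 : ι) (C : Finset ι) (hC : C ⊆ Finset.univ.erase i0)
    (hsum : ∑ i, p i = 1) (hn0 : ∀ j, 0 ≤ n j)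
    (hrow : ∀ j, ∀ c, 0 ≤ c → c ≤ 1 → n j ≤ al5 c * p j + be5 c)
    (hlo : ∀ j, (11/500) ≤ p j) (hp1 : ∀ j, p j ≤ 1) (hcap : ∀ j ∈ C, n j < (1487/6250))
    (hu : n i0 ≤ (133/2500)) (hC2 : C.card = 3)
    (hF2 : (Finset.univ.erase i0 \ C).card = 2) :
    ∑ i, n i ^ 2 < (179049/500000) := by
  have hA : (C.filter fun j => (3/20) ≤ p j).card ≤ 3 := (Finset.card_filter_le _ _).trans hC2.le
  have hB : ((Finset.univ.erase i0 \ C).filter fun j => (3/20) ≤ p j).card ≤ 2 := (Finset.card_filter_le _ _).trans hF2.le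
  have hc' : (C.filter fun j => (3/20) ≤ p j).card = 0 ∨ (C.filter fun j => (3/20) ≤ p j).card = 1 ∨ (C.filter fun j => (3/20) ≤ p j).card = 2 ∨ (C.filter fun j => (3/20) ≤ p j).card = 3 := by omega
  have hf' : ((Finset.univ.erase i0 \ C).filter fun j => (3/20) ≤ p j).card = 0 ∨ ((Finset.univ.erase i0 \ C).filter fun j => (3/20) ≤ p j).card = 1 ∨ ((Finset.univ.erase i0 \ C).filter fun j => (3/20) ≤ p j).card = 2 := by omega
  rcases hc' with hlc | hlc | hlc | hlc <;> rcases hf' with hlf | hlf | hlf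
  · exact cap6i1c0f0 n p i0 C hC hsum hn0 hrow hlo hp1 hcap hu hC2 hF2 hlc hlf
  · exact cap6i1c0f1 n p i0 C hC hsum hn0 hrow hlo hp1 hcap hu hC2 hF2 hlc hlf
  · exact cap6i1c0f2 n p i0 C hC hsum hn0 hrow hlo hp1 hcap hu hC2 hF2 hlc hlf
  · exact cap6i1c1f0 n p i0 C hC hsum hn0 hrow hlo hp1 hcap hu hC2 hF2 hlc hlf
  · exact cap6i1c1f1 n p i0 C hC hsum hn0 hrow hlo hp1 hcap hu hC2 hF2 hlc hlf
  · exact cap6i1c1f2 n p i0 C hC hsum hn0 hrow hlo hp1 hcap hu hC2 hF2 hlc hlf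
  · exact cap6i1c2f0 n p i0 C hC hsum hn0 hrow hlo hp1 hcap hu hC2 hF2 hlc hlf
  · exact cap6i1c2f1 n p i0 C hC hsum hn0 hrow hlo hp1 hcap hu hC2 hF2 hlc hlf
  · exact cap6i1c2f2 n p i0 C hC hsum hn0 hrow hlo hp1 hcap hu hC2 hF2 hlc hlf
  · exact cap6i1c3f0 n p i0 C hC hsum hn0 hrow hlo hp1 hcap hu hC2 hF2 hlc hlf
  · exact cap6i1c3f1 n p i0 C hC hsum hn0 hrow hlo hp1 hcap hu hC2 hF2 hlc hlf
  · exact cap6i1c3f2 n p i0 C hC hsum hn0 hrow hlo hp1 hcap hu hC2 hF2 hlc hlf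

lemma cap6i2c0f0FL {a p : ℝ} (ha0 : 0 ≤ a) (h : ∀ c, 0 ≤ c → c ≤ 1 → a ≤ al5 c * p + be5 c)
    (hp : (3/20) ≤ p) (hp1 : p ≤ 1) : a ^ 2 ≤ (1/2) + (1/10) * p := by
  exact row5 (c := 0) (P := (3/20)) (Q := 1) ha0 h (by norm_num) (by norm_num) hp hp1 (by norm_num [al5, be5]) (by norm_num [al5, be5])

lemma cap6i2c0f0FS {a p : ℝ} (ha0 : 0 ≤ a) (h : ∀ c, 0 ≤ c → c ≤ 1 → a ≤ al5 c * p + be5 c)
    (hp : (7/250) ≤ p) (hp1 : p ≤ (3/20)) : a ^ 2 ≤ (20983/500000) + (1/10) * p := by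
  exact row5 (c := (7/20)) (P := (7/250)) (Q := (3/20)) ha0 h (by norm_num) (by norm_num) hp hp1 (by norm_num [al5, be5]) (by norm_num [al5, be5])

lemma cap6i2c0f0CL {a p : ℝ} (ha0 : 0 ≤ a) (hc : a < (5161/20000)) (hp : (3/20) ≤ p) : a ^ 2 ≤ (1/2) + (1/10) * p :=
  cap_extend ha0 hc (by norm_num) (Pb := (3/20)) (by norm_num) hp

lemma cap6i2c0f0CS {a p : ℝ} (ha0 : 0 ≤ a) (h : ∀ c, 0 ≤ c → c ≤ 1 → a ≤ al5 c * p + be5 c)
    (hp : (7/250) ≤ p) (hp1 : p ≤ (3/20)) : a ^ 2 ≤ (20983/500000) + (1/10) * p := by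
  exact row5 (c := (7/20)) (P := (7/250)) (Q := (3/20)) ha0 h (by norm_num) (by norm_num) hp hp1 (by norm_num [al5, be5]) (by norm_num [al5, be5])

lemma cap6i2c0f0 (n p : ι → ℝ) (i0 : ι) (C : Finset ι) (hC : C ⊆ Finset.univ.erase i0)
    (hsum : ∑ i, p i = 1) (hn0 : ∀ j, 0 ≤ n j)
    (hrow : ∀ j, ∀ c, 0 ≤ c → c ≤ 1 → n j ≤ al5 c * p j + be5 c)
    (hlo : ∀ j, (7/250) ≤ p j) (hp1 : ∀ j, p j ≤ 1) (hcap : ∀ j ∈ C, n j < (5161/20000))
    (hu : n i0 ≤ (577/10000)) (hC2 : C.card = 3)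
    (hF2 : (Finset.univ.erase i0 \ C).card = 2)
    (hlc : (C.filter fun j => (3/20) ≤ p j).card = 0)
    (hlf : ((Finset.univ.erase i0 \ C).filter fun j => (3/20) ≤ p j).card = 0) :
    ∑ i, n i ^ 2 < (179049/500000) := by
  have key := joint_sum n p i0 C hC hsum (pc := (3/20)) (ACL := (1/2)) (ACS := (20983/500000))
    (AL := (1/2)) (AS := (20983/500000)) (B := (1/10))
    (fun j hj hp => cap6i2c0f0CL (hn0 j) (hcap j hj) hp)
    (fun j hj hp => cap6i2c0f0CS (hn0 j) (hrow j) (hlo j) hp.le)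
    (fun j _ hp => cap6i2c0f0FL (hn0 j) (hrow j) hp (hp1 j))
    (fun j _ hp => cap6i2c0f0FS (hn0 j) (hrow j) (hlo j) hp.le)
  rw [card_filter_two C _ hC2 hlc, card_filter_two _ _ hF2 hlf, hlc, hlf] at key
  have h1 : n i0 ^ 2 ≤ (577/10000) ^ 2 := pow_le_pow_left₀ (hn0 i0) hu 2
  have h2 := hlo i0
  norm_num at key h1 h2 ⊢
  linarith

lemma cap6i2c0f1FL {a p : ℝ} (ha0 : 0 ≤ a) (h : ∀ c, 0 ≤ c → c ≤ 1 → a ≤ al5 c * p + be5 c)
    (hp : (3/20) ≤ p) (hp1 : p ≤ 1) : a ^ 2 ≤ (9833/250000) + (7/25) * p := by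
  rcases le_total p (827/2000) with h0 | h0
  · exact row5 (c := (1/5)) (P := (3/20)) (Q := (827/2000)) ha0 h (by norm_num) (by norm_num) hp h0 (by norm_num [al5, be5]) (by norm_num [al5, be5])
  exact row5 (c := (1/20)) (P := (827/2000)) (Q := 1) ha0 h (by norm_num) (by norm_num) h0 hp1 (by norm_num [al5, be5]) (by norm_num [al5, be5])

lemma cap6i2c0f1FS {a p : ℝ} (ha0 : 0 ≤ a) (h : ∀ c, 0 ≤ c → c ≤ 1 → a ≤ al5 c * p + be5 c)
    (hp : (7/250) ≤ p) (hp1 : p ≤ (3/20)) : a ^ 2 ≤ (7819/1000000) + (7/25) * p := by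
  exact row5 (c := (17/40)) (P := (7/250)) (Q := (3/20)) ha0 h (by norm_num) (by norm_num) hp hp1 (by norm_num [al5, be5]) (by norm_num [al5, be5])

lemma cap6i2c0f1CL {a p : ℝ} (ha0 : 0 ≤ a) (hc : a < (5161/20000)) (hp : (3/20) ≤ p) : a ^ 2 ≤ (1/2) + (7/25) * p :=
  cap_extend ha0 hc (by norm_num) (Pb := (3/20)) (by norm_num) hp

lemma cap6i2c0f1CS {a p : ℝ} (ha0 : 0 ≤ a) (h : ∀ c, 0 ≤ c → c ≤ 1 → a ≤ al5 c * p + be5 c)
    (hp : (7/250) ≤ p) (hp1 : p ≤ (3/20)) : a ^ 2 ≤ (7819/1000000) + (7/25) * p := by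
  exact row5 (c := (17/40)) (P := (7/250)) (Q := (3/20)) ha0 h (by norm_num) (by norm_num) hp hp1 (by norm_num [al5, be5]) (by norm_num [al5, be5])

lemma cap6i2c0f1 (n p : ι → ℝ) (i0 : ι) (C : Finset ι) (hC : C ⊆ Finset.univ.erase i0)
    (hsum : ∑ i, p i = 1) (hn0 : ∀ j, 0 ≤ n j)
    (hrow : ∀ j, ∀ c, 0 ≤ c → c ≤ 1 → n j ≤ al5 c * p j + be5 c)
    (hlo : ∀ j, (7/250) ≤ p j) (hp1 : ∀ j, p j ≤ 1) (hcap : ∀ j ∈ C, n j < (5161/20000))
    (hu : n i0 ≤ (577/10000)) (hC2 : C.card = 3)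
    (hF2 : (Finset.univ.erase i0 \ C).card = 2)
    (hlc : (C.filter fun j => (3/20) ≤ p j).card = 0)
    (hlf : ((Finset.univ.erase i0 \ C).filter fun j => (3/20) ≤ p j).card = 1) :
    ∑ i, n i ^ 2 < (179049/500000) := by
  have key := joint_sum n p i0 C hC hsum (pc := (3/20)) (ACL := (1/2)) (ACS := (7819/1000000))
    (AL := (9833/250000)) (AS := (7819/1000000)) (B := (7/25))
    (fun j hj hp => cap6i2c0f1CL (hn0 j) (hcap j hj) hp)
    (fun j hj hp => cap6i2c0f1CS (hn0 j) (hrow j) (hlo j) hp.le)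
    (fun j _ hp => cap6i2c0f1FL (hn0 j) (hrow j) hp (hp1 j))
    (fun j _ hp => cap6i2c0f1FS (hn0 j) (hrow j) (hlo j) hp.le)
  rw [card_filter_two C _ hC2 hlc, card_filter_two _ _ hF2 hlf, hlc, hlf] at key
  have h1 : n i0 ^ 2 ≤ (577/10000) ^ 2 := pow_le_pow_left₀ (hn0 i0) hu 2
  have h2 := hlo i0
  norm_num at key h1 h2 ⊢
  linarith

lemma cap6i2c0f2FL {a p : ℝ} (ha0 : 0 ≤ a) (h : ∀ c, 0 ≤ c → c ≤ 1 → a ≤ al5 c * p + be5 c)
    (hp : (3/20) ≤ p) (hp1 : p ≤ 1) : a ^ 2 ≤ (9797/1000000) + (9/25) * p := by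
  rcases le_total p (6203/20000) with h0 | h0
  · exact row5 (c := (3/10)) (P := (3/20)) (Q := (6203/20000)) ha0 h (by norm_num) (by norm_num) hp h0 (by norm_num [al5, be5]) (by norm_num [al5, be5])
  rcases le_total p (8719/20000) with h1 | h1
  · exact row5 (c := (9/40)) (P := (6203/20000)) (Q := (8719/20000)) ha0 h (by norm_num) (by norm_num) h0 h1 (by norm_num [al5, be5]) (by norm_num [al5, be5])
  exact row5 (c := 0) (P := (8719/20000)) (Q := 1) ha0 h (by norm_num) (by norm_num) h1 hp1 (by norm_num [al5, be5]) (by norm_num [al5, be5])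

lemma cap6i2c0f2FS {a p : ℝ} (ha0 : 0 ≤ a) (h : ∀ c, 0 ≤ c → c ≤ 1 → a ≤ al5 c * p + be5 c)
    (hp : (7/250) ≤ p) (hp1 : p ≤ (3/20)) : a ^ 2 ≤ (1/2) + (9/25) * p := by
  exact row5 (c := 0) (P := (7/250)) (Q := (3/20)) ha0 h (by norm_num) (by norm_num) hp hp1 (by norm_num [al5, be5]) (by norm_num [al5, be5])

lemma cap6i2c0f2CL {a p : ℝ} (ha0 : 0 ≤ a) (hc : a < (5161/20000)) (hp : (3/20) ≤ p) : a ^ 2 ≤ (1/2) + (9/25) * p :=
  cap_extend ha0 hc (by norm_num) (Pb := (3/20)) (by norm_num) hp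

lemma cap6i2c0f2CS {a p : ℝ} (ha0 : 0 ≤ a) (h : ∀ c, 0 ≤ c → c ≤ 1 → a ≤ al5 c * p + be5 c)
    (hp : (7/250) ≤ p) (hp1 : p ≤ (3/20)) : a ^ 2 ≤ (-1489/250000) + (9/25) * p := by
  rcases le_total p (2767/20000) with h0 | h0
  · exact row5 (c := (5/8)) (P := (7/250)) (Q := (2767/20000)) ha0 h (by norm_num) (by norm_num) hp h0 (by norm_num [al5, be5]) (by norm_num [al5, be5])
  exact row5 (c := (19/40)) (P := (2767/20000)) (Q := (3/20)) ha0 h (by norm_num) (by norm_num) h0 hp1 (by norm_num [al5, be5]) (by norm_num [al5, be5])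

lemma cap6i2c0f2 (n p : ι → ℝ) (i0 : ι) (C : Finset ι) (hC : C ⊆ Finset.univ.erase i0)
    (hsum : ∑ i, p i = 1) (hn0 : ∀ j, 0 ≤ n j)
    (hrow : ∀ j, ∀ c, 0 ≤ c → c ≤ 1 → n j ≤ al5 c * p j + be5 c)
    (hlo : ∀ j, (7/250) ≤ p j) (hp1 : ∀ j, p j ≤ 1) (hcap : ∀ j ∈ C, n j < (5161/20000))
    (hu : n i0 ≤ (577/10000)) (hC2 : C.card = 3)
    (hF2 : (Finset.univ.erase i0 \ C).card = 2)
    (hlc : (C.filter fun j => (3/20) ≤ p j).card = 0)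
    (hlf : ((Finset.univ.erase i0 \ C).filter fun j => (3/20) ≤ p j).card = 2) :
    ∑ i, n i ^ 2 < (179049/500000) := by
  have key := joint_sum n p i0 C hC hsum (pc := (3/20)) (ACL := (1/2)) (ACS := (-1489/250000))
    (AL := (9797/1000000)) (AS := (1/2)) (B := (9/25))
    (fun j hj hp => cap6i2c0f2CL (hn0 j) (hcap j hj) hp)
    (fun j hj hp => cap6i2c0f2CS (hn0 j) (hrow j) (hlo j) hp.le)
    (fun j _ hp => cap6i2c0f2FL (hn0 j) (hrow j) hp (hp1 j))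
    (fun j _ hp => cap6i2c0f2FS (hn0 j) (hrow j) (hlo j) hp.le)
  rw [card_filter_two C _ hC2 hlc, card_filter_two _ _ hF2 hlf, hlc, hlf] at key
  have h1 : n i0 ^ 2 ≤ (577/10000) ^ 2 := pow_le_pow_left₀ (hn0 i0) hu 2
  have h2 := hlo i0
  norm_num at key h1 h2 ⊢
  linarith

lemma cap6i2c1f0FL {a p : ℝ} (ha0 : 0 ≤ a) (h : ∀ c, 0 ≤ c → c ≤ 1 → a ≤ al5 c * p + be5 c)
    (hp : (3/20) ≤ p) (hp1 : p ≤ 1) : a ^ 2 ≤ (1/2) + (1/10) * p := by
  exact row5 (c := 0) (P := (3/20)) (Q := 1) ha0 h (by norm_num) (by norm_num) hp hp1 (by norm_num [al5, be5]) (by norm_num [al5, be5])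

lemma cap6i2c1f0FS {a p : ℝ} (ha0 : 0 ≤ a) (h : ∀ c, 0 ≤ c → c ≤ 1 → a ≤ al5 c * p + be5 c)
    (hp : (7/250) ≤ p) (hp1 : p ≤ (3/20)) : a ^ 2 ≤ (632/15625) + (1/10) * p := by
  exact row5 (c := (7/20)) (P := (7/250)) (Q := (3/20)) ha0 h (by norm_num) (by norm_num) hp hp1 (by norm_num [al5, be5]) (by norm_num [al5, be5])

lemma cap6i2c1f0CL {a p : ℝ} (ha0 : 0 ≤ a) (hc : a < (5161/20000)) (hp : (3/20) ≤ p) : a ^ 2 ≤ (55637/1000000) + (1/10) * p :=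
  cap_extend ha0 hc (by norm_num) (Pb := (3/20)) (by norm_num) hp

lemma cap6i2c1f0CS {a p : ℝ} (ha0 : 0 ≤ a) (h : ∀ c, 0 ≤ c → c ≤ 1 → a ≤ al5 c * p + be5 c)
    (hp : (7/250) ≤ p) (hp1 : p ≤ (3/20)) : a ^ 2 ≤ (632/15625) + (1/10) * p := by
  exact row5 (c := (7/20)) (P := (7/250)) (Q := (3/20)) ha0 h (by norm_num) (by norm_num) hp hp1 (by norm_num [al5, be5]) (by norm_num [al5, be5])

lemma cap6i2c1f0 (n p : ι → ℝ) (i0 : ι) (C : Finset ι) (hC : C ⊆ Finset.univ.erase i0)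
    (hsum : ∑ i, p i = 1) (hn0 : ∀ j, 0 ≤ n j)
    (hrow : ∀ j, ∀ c, 0 ≤ c → c ≤ 1 → n j ≤ al5 c * p j + be5 c)
    (hlo : ∀ j, (7/250) ≤ p j) (hp1 : ∀ j, p j ≤ 1) (hcap : ∀ j ∈ C, n j < (5161/20000))
    (hu : n i0 ≤ (577/10000)) (hC2 : C.card = 3)
    (hF2 : (Finset.univ.erase i0 \ C).card = 2)
    (hlc : (C.filter fun j => (3/20) ≤ p j).card = 1)
    (hlf : ((Finset.univ.erase i0 \ C).filter fun j => (3/20) ≤ p j).card = 0) :
    ∑ i, n i ^ 2 < (179049/500000) := by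
  have key := joint_sum n p i0 C hC hsum (pc := (3/20)) (ACL := (55637/1000000)) (ACS := (632/15625))
    (AL := (1/2)) (AS := (632/15625)) (B := (1/10))
    (fun j hj hp => cap6i2c1f0CL (hn0 j) (hcap j hj) hp)
    (fun j hj hp => cap6i2c1f0CS (hn0 j) (hrow j) (hlo j) hp.le)
    (fun j _ hp => cap6i2c1f0FL (hn0 j) (hrow j) hp (hp1 j))
    (fun j _ hp => cap6i2c1f0FS (hn0 j) (hrow j) (hlo j) hp.le)
  rw [card_filter_two C _ hC2 hlc, card_filter_two _ _ hF2 hlf, hlc, hlf] at key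
  have h1 : n i0 ^ 2 ≤ (577/10000) ^ 2 := pow_le_pow_left₀ (hn0 i0) hu 2
  have h2 := hlo i0
  norm_num at key h1 h2 ⊢
  linarith

lemma cap6i2c1f1FL {a p : ℝ} (ha0 : 0 ≤ a) (h : ∀ c, 0 ≤ c → c ≤ 1 → a ≤ al5 c * p + be5 c)
    (hp : (3/20) ≤ p) (hp1 : p ≤ 1) : a ^ 2 ≤ (17479/1000000) + (17/50) * p := by
  rcases le_total p (3391/10000) with h0 | h0
  · exact row5 (c := (11/40)) (P := (3/20)) (Q := (3391/10000)) ha0 h (by norm_num) (by norm_num) hp h0 (by norm_num [al5, be5]) (by norm_num [al5, be5])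
  rcases le_total p (1063/1250) with h1 | h1
  · exact row5 (c := (7/40)) (P := (3391/10000)) (Q := (1063/1250)) ha0 h (by norm_num) (by norm_num) h0 h1 (by norm_num [al5, be5]) (by norm_num [al5, be5])
  exact row5 (c := 0) (P := (1063/1250)) (Q := 1) ha0 h (by norm_num) (by norm_num) h1 hp1 (by norm_num [al5, be5]) (by norm_num [al5, be5])

lemma cap6i2c1f1FS {a p : ℝ} (ha0 : 0 ≤ a) (h : ∀ c, 0 ≤ c → c ≤ 1 → a ≤ al5 c * p + be5 c)
    (hp : (7/250) ≤ p) (hp1 : p ≤ (3/20)) : a ^ 2 ≤ (-93/50000) + (17/50) * p := by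
  exact row5 (c := (21/40)) (P := (7/250)) (Q := (3/20)) ha0 h (by norm_num) (by norm_num) hp hp1 (by norm_num [al5, be5]) (by norm_num [al5, be5])

lemma cap6i2c1f1CLr {a p : ℝ} (ha0 : 0 ≤ a) (h : ∀ c, 0 ≤ c → c ≤ 1 → a ≤ al5 c * p + be5 c)
    (hp : (3/20) ≤ p) (hp1 : p ≤ (184729/1000000)) : a ^ 2 ≤ (1891/500000) + (17/50) * p := by
  exact row5 (c := (3/8)) (P := (3/20)) (Q := (184729/1000000)) ha0 h (by norm_num) (by norm_num) hp hp1 (by norm_num [al5, be5]) (by norm_num [al5, be5])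

lemma cap6i2c1f1CL {a p : ℝ} (ha0 : 0 ≤ a) (h : ∀ c, 0 ≤ c → c ≤ 1 → a ≤ al5 c * p + be5 c)
    (hc : a < (5161/20000)) (hp : (3/20) ≤ p) : a ^ 2 ≤ (1891/500000) + (17/50) * p := by
  rcases le_total p (184729/1000000) with h1 | h1
  · exact cap6i2c1f1CLr ha0 h hp h1
  · exact cap_extend ha0 hc (by norm_num) (Pb := (184729/1000000)) (by norm_num) h1

lemma cap6i2c1f1CS {a p : ℝ} (ha0 : 0 ≤ a) (h : ∀ c, 0 ≤ c → c ≤ 1 → a ≤ al5 c * p + be5 c)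
    (hp : (7/250) ≤ p) (hp1 : p ≤ (3/20)) : a ^ 2 ≤ (-93/50000) + (17/50) * p := by
  exact row5 (c := (21/40)) (P := (7/250)) (Q := (3/20)) ha0 h (by norm_num) (by norm_num) hp hp1 (by norm_num [al5, be5]) (by norm_num [al5, be5])

lemma cap6i2c1f1 (n p : ι → ℝ) (i0 : ι) (C : Finset ι) (hC : C ⊆ Finset.univ.erase i0)
    (hsum : ∑ i, p i = 1) (hn0 : ∀ j, 0 ≤ n j)
    (hrow : ∀ j, ∀ c, 0 ≤ c → c ≤ 1 → n j ≤ al5 c * p j + be5 c)
    (hlo : ∀ j, (7/250) ≤ p j) (hp1 : ∀ j, p j ≤ 1) (hcap : ∀ j ∈ C, n j < (5161/20000))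
    (hu : n i0 ≤ (577/10000)) (hC2 : C.card = 3)
    (hF2 : (Finset.univ.erase i0 \ C).card = 2)
    (hlc : (C.filter fun j => (3/20) ≤ p j).card = 1)
    (hlf : ((Finset.univ.erase i0 \ C).filter fun j => (3/20) ≤ p j).card = 1) :
    ∑ i, n i ^ 2 < (179049/500000) := by
  have key := joint_sum n p i0 C hC hsum (pc := (3/20)) (ACL := (1891/500000)) (ACS := (-93/50000))
    (AL := (17479/1000000)) (AS := (-93/50000)) (B := (17/50))
    (fun j hj hp => cap6i2c1f1CL (hn0 j) (hrow j) (hcap j hj) hp)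
    (fun j hj hp => cap6i2c1f1CS (hn0 j) (hrow j) (hlo j) hp.le)
    (fun j _ hp => cap6i2c1f1FL (hn0 j) (hrow j) hp (hp1 j))
    (fun j _ hp => cap6i2c1f1FS (hn0 j) (hrow j) (hlo j) hp.le)
  rw [card_filter_two C _ hC2 hlc, card_filter_two _ _ hF2 hlf, hlc, hlf] at key
  have h1 : n i0 ^ 2 ≤ (577/10000) ^ 2 := pow_le_pow_left₀ (hn0 i0) hu 2
  have h2 := hlo i0
  norm_num at key h1 h2 ⊢
  linarith

lemma cap6i2c1f2FL {a p : ℝ} (ha0 : 0 ≤ a) (h : ∀ c, 0 ≤ c → c ≤ 1 → a ≤ al5 c * p + be5 c)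
    (hp : (3/20) ≤ p) (hp1 : p ≤ 1) : a ^ 2 ≤ (9313/1000000) + (9/25) * p := by
  rcases le_total p (3043/10000) with h0 | h0
  · exact row5 (c := (3/10)) (P := (3/20)) (Q := (3043/10000)) ha0 h (by norm_num) (by norm_num) hp h0 (by norm_num [al5, be5]) (by norm_num [al5, be5])
  rcases le_total p (6641/20000) with h1 | h1
  · exact row5 (c := (1/4)) (P := (3043/10000)) (Q := (6641/20000)) ha0 h (by norm_num) (by norm_num) h0 h1 (by norm_num [al5, be5]) (by norm_num [al5, be5])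
  rcases le_total p (8359/20000) with h2 | h2
  · exact row5 (c := (9/40)) (P := (6641/20000)) (Q := (8359/20000)) ha0 h (by norm_num) (by norm_num) h1 h2 (by norm_num [al5, be5]) (by norm_num [al5, be5])
  exact row5 (c := 0) (P := (8359/20000)) (Q := 1) ha0 h (by norm_num) (by norm_num) h2 hp1 (by norm_num [al5, be5]) (by norm_num [al5, be5])

lemma cap6i2c1f2FS {a p : ℝ} (ha0 : 0 ≤ a) (h : ∀ c, 0 ≤ c → c ≤ 1 → a ≤ al5 c * p + be5 c)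
    (hp : (7/250) ≤ p) (hp1 : p ≤ (3/20)) : a ^ 2 ≤ (1/2) + (9/25) * p := by
  exact row5 (c := 0) (P := (7/250)) (Q := (3/20)) ha0 h (by norm_num) (by norm_num) hp hp1 (by norm_num [al5, be5]) (by norm_num [al5, be5])

lemma cap6i2c1f2CLr {a p : ℝ} (ha0 : 0 ≤ a) (h : ∀ c, 0 ≤ c → c ≤ 1 → a ≤ al5 c * p + be5 c)
    (hp : (3/20) ≤ p) (hp1 : p ≤ (189403/1000000)) : a ^ 2 ≤ (-319/200000) + (9/25) * p := by
  exact row5 (c := (17/40)) (P := (3/20)) (Q := (189403/1000000)) ha0 h (by norm_num) (by norm_num) hp hp1 (by norm_num [al5, be5]) (by norm_num [al5, be5])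

lemma cap6i2c1f2CL {a p : ℝ} (ha0 : 0 ≤ a) (h : ∀ c, 0 ≤ c → c ≤ 1 → a ≤ al5 c * p + be5 c)
    (hc : a < (5161/20000)) (hp : (3/20) ≤ p) : a ^ 2 ≤ (-319/200000) + (9/25) * p := by
  rcases le_total p (189403/1000000) with h1 | h1
  · exact cap6i2c1f2CLr ha0 h hp h1
  · exact cap_extend ha0 hc (by norm_num) (Pb := (189403/1000000)) (by norm_num) h1

lemma cap6i2c1f2CS {a p : ℝ} (ha0 : 0 ≤ a) (h : ∀ c, 0 ≤ c → c ≤ 1 → a ≤ al5 c * p + be5 c)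
    (hp : (7/250) ≤ p) (hp1 : p ≤ (3/20)) : a ^ 2 ≤ (-6441/1000000) + (9/25) * p := by
  rcases le_total p (653/5000) with h0 | h0
  · exact row5 (c := (13/20)) (P := (7/250)) (Q := (653/5000)) ha0 h (by norm_num) (by norm_num) hp h0 (by norm_num [al5, be5]) (by norm_num [al5, be5])
  exact row5 (c := (1/2)) (P := (653/5000)) (Q := (3/20)) ha0 h (by norm_num) (by norm_num) h0 hp1 (by norm_num [al5, be5]) (by norm_num [al5, be5])

lemma cap6i2c1f2 (n p : ι → ℝ) (i0 : ι) (C : Finset ι) (hC : C ⊆ Finset.univ.erase i0)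
    (hsum : ∑ i, p i = 1) (hn0 : ∀ j, 0 ≤ n j)
    (hrow : ∀ j, ∀ c, 0 ≤ c → c ≤ 1 → n j ≤ al5 c * p j + be5 c)
    (hlo : ∀ j, (7/250) ≤ p j) (hp1 : ∀ j, p j ≤ 1) (hcap : ∀ j ∈ C, n j < (5161/20000))
    (hu : n i0 ≤ (577/10000)) (hC2 : C.card = 3)
    (hF2 : (Finset.univ.erase i0 \ C).card = 2)
    (hlc : (C.filter fun j => (3/20) ≤ p j).card = 1)
    (hlf : ((Finset.univ.erase i0 \ C).filter fun j => (3/20) ≤ p j).card = 2) :
    ∑ i, n i ^ 2 < (179049/500000) := by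
  have key := joint_sum n p i0 C hC hsum (pc := (3/20)) (ACL := (-319/200000)) (ACS := (-6441/1000000))
    (AL := (9313/1000000)) (AS := (1/2)) (B := (9/25))
    (fun j hj hp => cap6i2c1f2CL (hn0 j) (hrow j) (hcap j hj) hp)
    (fun j hj hp => cap6i2c1f2CS (hn0 j) (hrow j) (hlo j) hp.le)
    (fun j _ hp => cap6i2c1f2FL (hn0 j) (hrow j) hp (hp1 j))
    (fun j _ hp => cap6i2c1f2FS (hn0 j) (hrow j) (hlo j) hp.le)
  rw [card_filter_two C _ hC2 hlc, card_filter_two _ _ hF2 hlf, hlc, hlf] at key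
  have h1 : n i0 ^ 2 ≤ (577/10000) ^ 2 := pow_le_pow_left₀ (hn0 i0) hu 2
  have h2 := hlo i0
  norm_num at key h1 h2 ⊢
  linarith

lemma cap6i2c2f0FL {a p : ℝ} (ha0 : 0 ≤ a) (h : ∀ c, 0 ≤ c → c ≤ 1 → a ≤ al5 c * p + be5 c)
    (hp : (3/20) ≤ p) (hp1 : p ≤ 1) : a ^ 2 ≤ (1/2) + (1/10) * p := by
  exact row5 (c := 0) (P := (3/20)) (Q := 1) ha0 h (by norm_num) (by norm_num) hp hp1 (by norm_num [al5, be5]) (by norm_num [al5, be5])

lemma cap6i2c2f0FS {a p : ℝ} (ha0 : 0 ≤ a) (h : ∀ c, 0 ≤ c → c ≤ 1 → a ≤ al5 c * p + be5 c)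
    (hp : (7/250) ≤ p) (hp1 : p ≤ (3/20)) : a ^ 2 ≤ (38929/1000000) + (1/10) * p := by
  exact row5 (c := (3/8)) (P := (7/250)) (Q := (3/20)) ha0 h (by norm_num) (by norm_num) hp hp1 (by norm_num [al5, be5]) (by norm_num [al5, be5])

lemma cap6i2c2f0CL {a p : ℝ} (ha0 : 0 ≤ a) (hc : a < (5161/20000)) (hp : (3/20) ≤ p) : a ^ 2 ≤ (27059/500000) + (1/10) * p :=
  cap_extend ha0 hc (by norm_num) (Pb := (3/20)) (by norm_num) hp

lemma cap6i2c2f0CS {a p : ℝ} (ha0 : 0 ≤ a) (h : ∀ c, 0 ≤ c → c ≤ 1 → a ≤ al5 c * p + be5 c)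
    (hp : (7/250) ≤ p) (hp1 : p ≤ (3/20)) : a ^ 2 ≤ (38929/1000000) + (1/10) * p := by
  exact row5 (c := (3/8)) (P := (7/250)) (Q := (3/20)) ha0 h (by norm_num) (by norm_num) hp hp1 (by norm_num [al5, be5]) (by norm_num [al5, be5])

lemma cap6i2c2f0 (n p : ι → ℝ) (i0 : ι) (C : Finset ι) (hC : C ⊆ Finset.univ.erase i0)
    (hsum : ∑ i, p i = 1) (hn0 : ∀ j, 0 ≤ n j)
    (hrow : ∀ j, ∀ c, 0 ≤ c → c ≤ 1 → n j ≤ al5 c * p j + be5 c)
    (hlo : ∀ j, (7/250) ≤ p j) (hp1 : ∀ j, p j ≤ 1) (hcap : ∀ j ∈ C, n j < (5161/20000))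
    (hu : n i0 ≤ (577/10000)) (hC2 : C.card = 3)
    (hF2 : (Finset.univ.erase i0 \ C).card = 2)
    (hlc : (C.filter fun j => (3/20) ≤ p j).card = 2)
    (hlf : ((Finset.univ.erase i0 \ C).filter fun j => (3/20) ≤ p j).card = 0) :
    ∑ i, n i ^ 2 < (179049/500000) := by
  have key := joint_sum n p i0 C hC hsum (pc := (3/20)) (ACL := (27059/500000)) (ACS := (38929/1000000))
    (AL := (1/2)) (AS := (38929/1000000)) (B := (1/10))
    (fun j hj hp => cap6i2c2f0CL (hn0 j) (hcap j hj) hp)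
    (fun j hj hp => cap6i2c2f0CS (hn0 j) (hrow j) (hlo j) hp.le)
    (fun j _ hp => cap6i2c2f0FL (hn0 j) (hrow j) hp (hp1 j))
    (fun j _ hp => cap6i2c2f0FS (hn0 j) (hrow j) (hlo j) hp.le)
  rw [card_filter_two C _ hC2 hlc, card_filter_two _ _ hF2 hlf, hlc, hlf] at key
  have h1 : n i0 ^ 2 ≤ (577/10000) ^ 2 := pow_le_pow_left₀ (hn0 i0) hu 2
  have h2 := hlo i0
  norm_num at key h1 h2 ⊢
  linarith

lemma cap6i2c2f1FL {a p : ℝ} (ha0 : 0 ≤ a) (h : ∀ c, 0 ≤ c → c ≤ 1 → a ≤ al5 c * p + be5 c)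
    (hp : (3/20) ≤ p) (hp1 : p ≤ 1) : a ^ 2 ≤ (2601/250000) + (9/25) * p := by
  rcases le_total p (6691/20000) with h0 | h0
  · exact row5 (c := (11/40)) (P := (3/20)) (Q := (6691/20000)) ha0 h (by norm_num) (by norm_num) hp h0 (by norm_num [al5, be5]) (by norm_num [al5, be5])
  rcases le_total p (9891/10000) with h1 | h1
  · exact row5 (c := (7/40)) (P := (6691/20000)) (Q := (9891/10000)) ha0 h (by norm_num) (by norm_num) h0 h1 (by norm_num [al5, be5]) (by norm_num [al5, be5])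
  exact row5 (c := 0) (P := (9891/10000)) (Q := 1) ha0 h (by norm_num) (by norm_num) h1 hp1 (by norm_num [al5, be5]) (by norm_num [al5, be5])

lemma cap6i2c2f1FS {a p : ℝ} (ha0 : 0 ≤ a) (h : ∀ c, 0 ≤ c → c ≤ 1 → a ≤ al5 c * p + be5 c)
    (hp : (7/250) ≤ p) (hp1 : p ≤ (3/20)) : a ^ 2 ≤ (-107/20000) + (9/25) * p := by
  rcases le_total p (2931/20000) with h0 | h0
  · exact row5 (c := (3/5)) (P := (7/250)) (Q := (2931/20000)) ha0 h (by norm_num) (by norm_num) hp h0 (by norm_num [al5, be5]) (by norm_num [al5, be5])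
  exact row5 (c := (9/20)) (P := (2931/20000)) (Q := (3/20)) ha0 h (by norm_num) (by norm_num) h0 hp1 (by norm_num [al5, be5]) (by norm_num [al5, be5])

lemma cap6i2c2f1CLr {a p : ℝ} (ha0 : 0 ≤ a) (h : ∀ c, 0 ≤ c → c ≤ 1 → a ≤ al5 c * p + be5 c)
    (hp : (3/20) ≤ p) (hp1 : p ≤ (1491/8000)) : a ^ 2 ≤ (-101/200000) + (9/25) * p := by
  exact row5 (c := (2/5)) (P := (3/20)) (Q := (1491/8000)) ha0 h (by norm_num) (by norm_num) hp hp1 (by norm_num [al5, be5]) (by norm_num [al5, be5])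

lemma cap6i2c2f1CL {a p : ℝ} (ha0 : 0 ≤ a) (h : ∀ c, 0 ≤ c → c ≤ 1 → a ≤ al5 c * p + be5 c)
    (hc : a < (5161/20000)) (hp : (3/20) ≤ p) : a ^ 2 ≤ (-101/200000) + (9/25) * p := by
  rcases le_total p (1491/8000) with h1 | h1
  · exact cap6i2c2f1CLr ha0 h hp h1
  · exact cap_extend ha0 hc (by norm_num) (Pb := (1491/8000)) (by norm_num) h1

lemma cap6i2c2f1CS {a p : ℝ} (ha0 : 0 ≤ a) (h : ∀ c, 0 ≤ c → c ≤ 1 → a ≤ al5 c * p + be5 c)
    (hp : (7/250) ≤ p) (hp1 : p ≤ (3/20)) : a ^ 2 ≤ (-107/20000) + (9/25) * p := by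
  rcases le_total p (2931/20000) with h0 | h0
  · exact row5 (c := (3/5)) (P := (7/250)) (Q := (2931/20000)) ha0 h (by norm_num) (by norm_num) hp h0 (by norm_num [al5, be5]) (by norm_num [al5, be5])
  exact row5 (c := (9/20)) (P := (2931/20000)) (Q := (3/20)) ha0 h (by norm_num) (by norm_num) h0 hp1 (by norm_num [al5, be5]) (by norm_num [al5, be5])

lemma cap6i2c2f1 (n p : ι → ℝ) (i0 : ι) (C : Finset ι) (hC : C ⊆ Finset.univ.erase i0)
    (hsum : ∑ i, p i = 1) (hn0 : ∀ j, 0 ≤ n j)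
    (hrow : ∀ j, ∀ c, 0 ≤ c → c ≤ 1 → n j ≤ al5 c * p j + be5 c)
    (hlo : ∀ j, (7/250) ≤ p j) (hp1 : ∀ j, p j ≤ 1) (hcap : ∀ j ∈ C, n j < (5161/20000))
    (hu : n i0 ≤ (577/10000)) (hC2 : C.card = 3)
    (hF2 : (Finset.univ.erase i0 \ C).card = 2)
    (hlc : (C.filter fun j => (3/20) ≤ p j).card = 2)
    (hlf : ((Finset.univ.erase i0 \ C).filter fun j => (3/20) ≤ p j).card = 1) :
    ∑ i, n i ^ 2 < (179049/500000) := by
  have key := joint_sum n p i0 C hC hsum (pc := (3/20)) (ACL := (-101/200000)) (ACS := (-107/20000))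
    (AL := (2601/250000)) (AS := (-107/20000)) (B := (9/25))
    (fun j hj hp => cap6i2c2f1CL (hn0 j) (hrow j) (hcap j hj) hp)
    (fun j hj hp => cap6i2c2f1CS (hn0 j) (hrow j) (hlo j) hp.le)
    (fun j _ hp => cap6i2c2f1FL (hn0 j) (hrow j) hp (hp1 j))
    (fun j _ hp => cap6i2c2f1FS (hn0 j) (hrow j) (hlo j) hp.le)
  rw [card_filter_two C _ hC2 hlc, card_filter_two _ _ hF2 hlf, hlc, hlf] at key
  have h1 : n i0 ^ 2 ≤ (577/10000) ^ 2 := pow_le_pow_left₀ (hn0 i0) hu 2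
  have h2 := hlo i0
  norm_num at key h1 h2 ⊢
  linarith

lemma cap6i2c2f2FL {a p : ℝ} (ha0 : 0 ≤ a) (h : ∀ c, 0 ≤ c → c ≤ 1 → a ≤ al5 c * p + be5 c)
    (hp : (3/20) ≤ p) (hp1 : p ≤ 1) : a ^ 2 ≤ (-4567/500000) + (21/50) * p := by
  rcases le_total p (5093/20000) with h0 | h0
  · exact row5 (c := (3/8)) (P := (3/20)) (Q := (5093/20000)) ha0 h (by norm_num) (by norm_num) hp h0 (by norm_num [al5, be5]) (by norm_num [al5, be5])
  rcases le_total p (2747/10000) with h1 | h1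
  · exact row5 (c := (13/40)) (P := (5093/20000)) (Q := (2747/10000)) ha0 h (by norm_num) (by norm_num) h0 h1 (by norm_num [al5, be5]) (by norm_num [al5, be5])
  rcases le_total p (1167/4000) with h2 | h2
  · exact row5 (c := (3/10)) (P := (2747/10000)) (Q := (1167/4000)) ha0 h (by norm_num) (by norm_num) h1 h2 (by norm_num [al5, be5]) (by norm_num [al5, be5])
  rcases le_total p (231/625) with h3 | h3
  · exact row5 (c := (11/40)) (P := (1167/4000)) (Q := (231/625)) ha0 h (by norm_num) (by norm_num) h2 h3 (by norm_num [al5, be5]) (by norm_num [al5, be5])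
  exact row5 (c := (1/10)) (P := (231/625)) (Q := 1) ha0 h (by norm_num) (by norm_num) h3 hp1 (by norm_num [al5, be5]) (by norm_num [al5, be5])

lemma cap6i2c2f2FS {a p : ℝ} (ha0 : 0 ≤ a) (h : ∀ c, 0 ≤ c → c ≤ 1 → a ≤ al5 c * p + be5 c)
    (hp : (7/250) ≤ p) (hp1 : p ≤ (3/20)) : a ^ 2 ≤ (1/2) + (21/50) * p := by
  exact row5 (c := 0) (P := (7/250)) (Q := (3/20)) ha0 h (by norm_num) (by norm_num) hp hp1 (by norm_num [al5, be5]) (by norm_num [al5, be5])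

lemma cap6i2c2f2CLr {a p : ℝ} (ha0 : 0 ≤ a) (h : ∀ c, 0 ≤ c → c ≤ 1 → a ≤ al5 c * p + be5 c)
    (hp : (3/20) ≤ p) (hp1 : p ≤ (23719/125000)) : a ^ 2 ≤ (-6553/500000) + (21/50) * p := by
  exact row5 (c := (9/20)) (P := (3/20)) (Q := (23719/125000)) ha0 h (by norm_num) (by norm_num) hp hp1 (by norm_num [al5, be5]) (by norm_num [al5, be5])

lemma cap6i2c2f2CL {a p : ℝ} (ha0 : 0 ≤ a) (h : ∀ c, 0 ≤ c → c ≤ 1 → a ≤ al5 c * p + be5 c)
    (hc : a < (5161/20000)) (hp : (3/20) ≤ p) : a ^ 2 ≤ (-6553/500000) + (21/50) * p := by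
  rcases le_total p (23719/125000) with h1 | h1
  · exact cap6i2c2f2CLr ha0 h hp h1
  · exact cap_extend ha0 hc (by norm_num) (Pb := (23719/125000)) (by norm_num) h1

lemma cap6i2c2f2CS {a p : ℝ} (ha0 : 0 ≤ a) (h : ∀ c, 0 ≤ c → c ≤ 1 → a ≤ al5 c * p + be5 c)
    (hp : (7/250) ≤ p) (hp1 : p ≤ (3/20)) : a ^ 2 ≤ (-907/100000) + (21/50) * p := by
  rcases le_total p (449/4000) with h0 | h0
  · exact row5 (c := (4/5)) (P := (7/250)) (Q := (449/4000)) ha0 h (by norm_num) (by norm_num) hp h0 (by norm_num [al5, be5]) (by norm_num [al5, be5])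
  exact row5 (c := (2/5)) (P := (449/4000)) (Q := (3/20)) ha0 h (by norm_num) (by norm_num) h0 hp1 (by norm_num [al5, be5]) (by norm_num [al5, be5])

lemma cap6i2c2f2 (n p : ι → ℝ) (i0 : ι) (C : Finset ι) (hC : C ⊆ Finset.univ.erase i0)
    (hsum : ∑ i, p i = 1) (hn0 : ∀ j, 0 ≤ n j)
    (hrow : ∀ j, ∀ c, 0 ≤ c → c ≤ 1 → n j ≤ al5 c * p j + be5 c)
    (hlo : ∀ j, (7/250) ≤ p j) (hp1 : ∀ j, p j ≤ 1) (hcap : ∀ j ∈ C, n j < (5161/20000))
    (hu : n i0 ≤ (577/10000)) (hC2 : C.card = 3)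
    (hF2 : (Finset.univ.erase i0 \ C).card = 2)
    (hlc : (C.filter fun j => (3/20) ≤ p j).card = 2)
    (hlf : ((Finset.univ.erase i0 \ C).filter fun j => (3/20) ≤ p j).card = 2) :
    ∑ i, n i ^ 2 < (179049/500000) := by
  have key := joint_sum n p i0 C hC hsum (pc := (3/20)) (ACL := (-6553/500000)) (ACS := (-907/100000))
    (AL := (-4567/500000)) (AS := (1/2)) (B := (21/50))
    (fun j hj hp => cap6i2c2f2CL (hn0 j) (hrow j) (hcap j hj) hp)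
    (fun j hj hp => cap6i2c2f2CS (hn0 j) (hrow j) (hlo j) hp.le)
    (fun j _ hp => cap6i2c2f2FL (hn0 j) (hrow j) hp (hp1 j))
    (fun j _ hp => cap6i2c2f2FS (hn0 j) (hrow j) (hlo j) hp.le)
  rw [card_filter_two C _ hC2 hlc, card_filter_two _ _ hF2 hlf, hlc, hlf] at key
  have h1 : n i0 ^ 2 ≤ (577/10000) ^ 2 := pow_le_pow_left₀ (hn0 i0) hu 2
  have h2 := hlo i0
  norm_num at key h1 h2 ⊢
  linarith

lemma cap6i2c3f0FL {a p : ℝ} (ha0 : 0 ≤ a) (h : ∀ c, 0 ≤ c → c ≤ 1 → a ≤ al5 c * p + be5 c)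
    (hp : (3/20) ≤ p) (hp1 : p ≤ 1) : a ^ 2 ≤ (1/2) + (1/10) * p := by
  exact row5 (c := 0) (P := (3/20)) (Q := 1) ha0 h (by norm_num) (by norm_num) hp hp1 (by norm_num [al5, be5]) (by norm_num [al5, be5])

lemma cap6i2c3f0FS {a p : ℝ} (ha0 : 0 ≤ a) (h : ∀ c, 0 ≤ c → c ≤ 1 → a ≤ al5 c * p + be5 c)
    (hp : (7/250) ≤ p) (hp1 : p ≤ (3/20)) : a ^ 2 ≤ (3741/100000) + (1/10) * p := by
  exact row5 (c := (2/5)) (P := (7/250)) (Q := (3/20)) ha0 h (by norm_num) (by norm_num) hp hp1 (by norm_num [al5, be5]) (by norm_num [al5, be5])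

lemma cap6i2c3f0CL {a p : ℝ} (ha0 : 0 ≤ a) (hc : a < (5161/20000)) (hp : (3/20) ≤ p) : a ^ 2 ≤ (52599/1000000) + (1/10) * p :=
  cap_extend ha0 hc (by norm_num) (Pb := (3/20)) (by norm_num) hp

lemma cap6i2c3f0CS {a p : ℝ} (ha0 : 0 ≤ a) (hc : a < (5161/20000)) (hp : (7/250) ≤ p) : a ^ 2 ≤ (1/2) + (1/10) * p :=
  cap_extend ha0 hc (by norm_num) (Pb := (7/250)) (by norm_num) hp

lemma cap6i2c3f0 (n p : ι → ℝ) (i0 : ι) (C : Finset ι) (hC : C ⊆ Finset.univ.erase i0)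
    (hsum : ∑ i, p i = 1) (hn0 : ∀ j, 0 ≤ n j)
    (hrow : ∀ j, ∀ c, 0 ≤ c → c ≤ 1 → n j ≤ al5 c * p j + be5 c)
    (hlo : ∀ j, (7/250) ≤ p j) (hp1 : ∀ j, p j ≤ 1) (hcap : ∀ j ∈ C, n j < (5161/20000))
    (hu : n i0 ≤ (577/10000)) (hC2 : C.card = 3)
    (hF2 : (Finset.univ.erase i0 \ C).card = 2)
    (hlc : (C.filter fun j => (3/20) ≤ p j).card = 3)
    (hlf : ((Finset.univ.erase i0 \ C).filter fun j => (3/20) ≤ p j).card = 0) :
    ∑ i, n i ^ 2 < (179049/500000) := by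
  have key := joint_sum n p i0 C hC hsum (pc := (3/20)) (ACL := (52599/1000000)) (ACS := (1/2))
    (AL := (1/2)) (AS := (3741/100000)) (B := (1/10))
    (fun j hj hp => cap6i2c3f0CL (hn0 j) (hcap j hj) hp)
    (fun j hj hp => cap6i2c3f0CS (hn0 j) (hcap j hj) (hlo j))
    (fun j _ hp => cap6i2c3f0FL (hn0 j) (hrow j) hp (hp1 j))
    (fun j _ hp => cap6i2c3f0FS (hn0 j) (hrow j) (hlo j) hp.le)
  rw [card_filter_two C _ hC2 hlc, card_filter_two _ _ hF2 hlf, hlc, hlf] at key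
  have h1 : n i0 ^ 2 ≤ (577/10000) ^ 2 := pow_le_pow_left₀ (hn0 i0) hu 2
  have h2 := hlo i0
  norm_num at key h1 h2 ⊢
  linarith

lemma cap6i2c3f1FL {a p : ℝ} (ha0 : 0 ≤ a) (h : ∀ c, 0 ≤ c → c ≤ 1 → a ≤ al5 c * p + be5 c)
    (hp : (3/20) ≤ p) (hp1 : p ≤ 1) : a ^ 2 ≤ (9919/1000000) + (9/25) * p := by
  rcases le_total p (779/2500) with h0 | h0
  · exact row5 (c := (3/10)) (P := (3/20)) (Q := (779/2500)) ha0 h (by norm_num) (by norm_num) hp h0 (by norm_num [al5, be5]) (by norm_num [al5, be5])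
  rcases le_total p (2199/5000) with h1 | h1
  · exact row5 (c := (9/40)) (P := (779/2500)) (Q := (2199/5000)) ha0 h (by norm_num) (by norm_num) h0 h1 (by norm_num [al5, be5]) (by norm_num [al5, be5])
  exact row5 (c := 0) (P := (2199/5000)) (Q := 1) ha0 h (by norm_num) (by norm_num) h1 hp1 (by norm_num [al5, be5]) (by norm_num [al5, be5])

lemma cap6i2c3f1FS {a p : ℝ} (ha0 : 0 ≤ a) (h : ∀ c, 0 ≤ c → c ≤ 1 → a ≤ al5 c * p + be5 c)
    (hp : (7/250) ≤ p) (hp1 : p ≤ (3/20)) : a ^ 2 ≤ (-1167/200000) + (9/25) * p := by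
  rcases le_total p (2779/20000) with h0 | h0
  · exact row5 (c := (5/8)) (P := (7/250)) (Q := (2779/20000)) ha0 h (by norm_num) (by norm_num) hp h0 (by norm_num [al5, be5]) (by norm_num [al5, be5])
  exact row5 (c := (19/40)) (P := (2779/20000)) (Q := (3/20)) ha0 h (by norm_num) (by norm_num) h0 hp1 (by norm_num [al5, be5]) (by norm_num [al5, be5])

lemma cap6i2c3f1CLr {a p : ℝ} (ha0 : 0 ≤ a) (h : ∀ c, 0 ≤ c → c ≤ 1 → a ≤ al5 c * p + be5 c)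
    (hp : (3/20) ≤ p) (hp1 : p ≤ (187719/1000000)) : a ^ 2 ≤ (-989/1000000) + (9/25) * p := by
  exact row5 (c := (2/5)) (P := (3/20)) (Q := (187719/1000000)) ha0 h (by norm_num) (by norm_num) hp hp1 (by norm_num [al5, be5]) (by norm_num [al5, be5])

lemma cap6i2c3f1CL {a p : ℝ} (ha0 : 0 ≤ a) (h : ∀ c, 0 ≤ c → c ≤ 1 → a ≤ al5 c * p + be5 c)
    (hc : a < (5161/20000)) (hp : (3/20) ≤ p) : a ^ 2 ≤ (-989/1000000) + (9/25) * p := by
  rcases le_total p (187719/1000000) with h1 | h1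
  · exact cap6i2c3f1CLr ha0 h hp h1
  · exact cap_extend ha0 hc (by norm_num) (Pb := (187719/1000000)) (by norm_num) h1

lemma cap6i2c3f1CS {a p : ℝ} (ha0 : 0 ≤ a) (hc : a < (5161/20000)) (hp : (7/250) ≤ p) : a ^ 2 ≤ (1/2) + (9/25) * p :=
  cap_extend ha0 hc (by norm_num) (Pb := (7/250)) (by norm_num) hp

lemma cap6i2c3f1 (n p : ι → ℝ) (i0 : ι) (C : Finset ι) (hC : C ⊆ Finset.univ.erase i0)
    (hsum : ∑ i, p i = 1) (hn0 : ∀ j, 0 ≤ n j)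
    (hrow : ∀ j, ∀ c, 0 ≤ c → c ≤ 1 → n j ≤ al5 c * p j + be5 c)
    (hlo : ∀ j, (7/250) ≤ p j) (hp1 : ∀ j, p j ≤ 1) (hcap : ∀ j ∈ C, n j < (5161/20000))
    (hu : n i0 ≤ (577/10000)) (hC2 : C.card = 3)
    (hF2 : (Finset.univ.erase i0 \ C).card = 2)
    (hlc : (C.filter fun j => (3/20) ≤ p j).card = 3)
    (hlf : ((Finset.univ.erase i0 \ C).filter fun j => (3/20) ≤ p j).card = 1) :
    ∑ i, n i ^ 2 < (179049/500000) := by
  have key := joint_sum n p i0 C hC hsum (pc := (3/20)) (ACL := (-989/1000000)) (ACS := (1/2))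
    (AL := (9919/1000000)) (AS := (-1167/200000)) (B := (9/25))
    (fun j hj hp => cap6i2c3f1CL (hn0 j) (hrow j) (hcap j hj) hp)
    (fun j hj hp => cap6i2c3f1CS (hn0 j) (hcap j hj) (hlo j))
    (fun j _ hp => cap6i2c3f1FL (hn0 j) (hrow j) hp (hp1 j))
    (fun j _ hp => cap6i2c3f1FS (hn0 j) (hrow j) (hlo j) hp.le)
  rw [card_filter_two C _ hC2 hlc, card_filter_two _ _ hF2 hlf, hlc, hlf] at key
  have h1 : n i0 ^ 2 ≤ (577/10000) ^ 2 := pow_le_pow_left₀ (hn0 i0) hu 2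
  have h2 := hlo i0
  norm_num at key h1 h2 ⊢
  linarith

lemma cap6i2c3f2FL {a p : ℝ} (ha0 : 0 ≤ a) (h : ∀ c, 0 ≤ c → c ≤ 1 → a ≤ al5 c * p + be5 c)
    (hp : (3/20) ≤ p) (hp1 : p ≤ 1) : a ^ 2 ≤ (-1167/50000) + (12/25) * p := by
  rcases le_total p (1093/5000) with h0 | h0
  · exact row5 (c := (9/20)) (P := (3/20)) (Q := (1093/5000)) ha0 h (by norm_num) (by norm_num) hp h0 (by norm_num [al5, be5]) (by norm_num [al5, be5])
  rcases le_total p (1293/4000) with h1 | h1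
  · exact row5 (c := (7/20)) (P := (1093/5000)) (Q := (1293/4000)) ha0 h (by norm_num) (by norm_num) h0 h1 (by norm_num [al5, be5]) (by norm_num [al5, be5])
  exact row5 (c := (3/20)) (P := (1293/4000)) (Q := 1) ha0 h (by norm_num) (by norm_num) h1 hp1 (by norm_num [al5, be5]) (by norm_num [al5, be5])

lemma cap6i2c3f2FS {a p : ℝ} (ha0 : 0 ≤ a) (h : ∀ c, 0 ≤ c → c ≤ 1 → a ≤ al5 c * p + be5 c)
    (hp : (7/250) ≤ p) (hp1 : p ≤ (3/20)) : a ^ 2 ≤ (1/2) + (12/25) * p := by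
  exact row5 (c := 0) (P := (7/250)) (Q := (3/20)) ha0 h (by norm_num) (by norm_num) hp hp1 (by norm_num [al5, be5]) (by norm_num [al5, be5])

lemma cap6i2c3f2CLr {a p : ℝ} (ha0 : 0 ≤ a) (h : ∀ c, 0 ≤ c → c ≤ 1 → a ≤ al5 c * p + be5 c)
    (hp : (3/20) ≤ p) (hp1 : p ≤ (93799/500000)) : a ^ 2 ≤ (-23457/1000000) + (12/25) * p := by
  exact row5 (c := (9/20)) (P := (3/20)) (Q := (93799/500000)) ha0 h (by norm_num) (by norm_num) hp hp1 (by norm_num [al5, be5]) (by norm_num [al5, be5])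

lemma cap6i2c3f2CL {a p : ℝ} (ha0 : 0 ≤ a) (h : ∀ c, 0 ≤ c → c ≤ 1 → a ≤ al5 c * p + be5 c)
    (hc : a < (5161/20000)) (hp : (3/20) ≤ p) : a ^ 2 ≤ (-23457/1000000) + (12/25) * p := by
  rcases le_total p (93799/500000) with h1 | h1
  · exact cap6i2c3f2CLr ha0 h hp h1
  · exact cap_extend ha0 hc (by norm_num) (Pb := (93799/500000)) (by norm_num) h1

lemma cap6i2c3f2CS {a p : ℝ} (ha0 : 0 ≤ a) (hc : a < (5161/20000)) (hp : (7/250) ≤ p) : a ^ 2 ≤ (1/2) + (12/25) * p :=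
  cap_extend ha0 hc (by norm_num) (Pb := (7/250)) (by norm_num) hp

lemma cap6i2c3f2 (n p : ι → ℝ) (i0 : ι) (C : Finset ι) (hC : C ⊆ Finset.univ.erase i0)
    (hsum : ∑ i, p i = 1) (hn0 : ∀ j, 0 ≤ n j)
    (hrow : ∀ j, ∀ c, 0 ≤ c → c ≤ 1 → n j ≤ al5 c * p j + be5 c)
    (hlo : ∀ j, (7/250) ≤ p j) (hp1 : ∀ j, p j ≤ 1) (hcap : ∀ j ∈ C, n j < (5161/20000))
    (hu : n i0 ≤ (577/10000)) (hC2 : C.card = 3)
    (hF2 : (Finset.univ.erase i0 \ C).card = 2)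
    (hlc : (C.filter fun j => (3/20) ≤ p j).card = 3)
    (hlf : ((Finset.univ.erase i0 \ C).filter fun j => (3/20) ≤ p j).card = 2) :
    ∑ i, n i ^ 2 < (179049/500000) := by
  have key := joint_sum n p i0 C hC hsum (pc := (3/20)) (ACL := (-23457/1000000)) (ACS := (1/2))
    (AL := (-1167/50000)) (AS := (1/2)) (B := (12/25))
    (fun j hj hp => cap6i2c3f2CL (hn0 j) (hrow j) (hcap j hj) hp)
    (fun j hj hp => cap6i2c3f2CS (hn0 j) (hcap j hj) (hlo j))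
    (fun j _ hp => cap6i2c3f2FL (hn0 j) (hrow j) hp (hp1 j))
    (fun j _ hp => cap6i2c3f2FS (hn0 j) (hrow j) (hlo j) hp.le)
  rw [card_filter_two C _ hC2 hlc, card_filter_two _ _ hF2 hlf, hlc, hlf] at key
  have h1 : n i0 ^ 2 ≤ (577/10000) ^ 2 := pow_le_pow_left₀ (hn0 i0) hu 2
  have h2 := hlo i0
  norm_num at key h1 h2 ⊢
  linarith

lemma cap6i2 (n p : ι → ℝ) (i0 : ι) (C : Finset ι) (hC : C ⊆ Finset.univ.erase i0)
    (hsum : ∑ i, p i = 1) (hn0 : ∀ j, 0 ≤ n j)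
    (hrow : ∀ j, ∀ c, 0 ≤ c → c ≤ 1 → n j ≤ al5 c * p j + be5 c)
    (hlo : ∀ j, (7/250) ≤ p j) (hp1 : ∀ j, p j ≤ 1) (hcap : ∀ j ∈ C, n j < (5161/20000))
    (hu : n i0 ≤ (577/10000)) (hC2 : C.card = 3)
    (hF2 : (Finset.univ.erase i0 \ C).card = 2) :
    ∑ i, n i ^ 2 < (179049/500000) := by
  have hA : (C.filter fun j => (3/20) ≤ p j).card ≤ 3 := (Finset.card_filter_le _ _).trans hC2.le
  have hB : ((Finset.univ.erase i0 \ C).filter fun j => (3/20) ≤ p j).card ≤ 2 := (Finset.card_filter_le _ _).trans hF2.le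
  have hc' : (C.filter fun j => (3/20) ≤ p j).card = 0 ∨ (C.filter fun j => (3/20) ≤ p j).card = 1 ∨ (C.filter fun j => (3/20) ≤ p j).card = 2 ∨ (C.filter fun j => (3/20) ≤ p j).card = 3 := by omega
  have hf' : ((Finset.univ.erase i0 \ C).filter fun j => (3/20) ≤ p j).card = 0 ∨ ((Finset.univ.erase i0 \ C).filter fun j => (3/20) ≤ p j).card = 1 ∨ ((Finset.univ.erase i0 \ C).filter fun j => (3/20) ≤ p j).card = 2 := by omega
  rcases hc' with hlc | hlc | hlc | hlc <;> rcases hf' with hlf | hlf | hlf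
  · exact cap6i2c0f0 n p i0 C hC hsum hn0 hrow hlo hp1 hcap hu hC2 hF2 hlc hlf
  · exact cap6i2c0f1 n p i0 C hC hsum hn0 hrow hlo hp1 hcap hu hC2 hF2 hlc hlf
  · exact cap6i2c0f2 n p i0 C hC hsum hn0 hrow hlo hp1 hcap hu hC2 hF2 hlc hlf
  · exact cap6i2c1f0 n p i0 C hC hsum hn0 hrow hlo hp1 hcap hu hC2 hF2 hlc hlf
  · exact cap6i2c1f1 n p i0 C hC hsum hn0 hrow hlo hp1 hcap hu hC2 hF2 hlc hlf
  · exact cap6i2c1f2 n p i0 C hC hsum hn0 hrow hlo hp1 hcap hu hC2 hF2 hlc hlf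
  · exact cap6i2c2f0 n p i0 C hC hsum hn0 hrow hlo hp1 hcap hu hC2 hF2 hlc hlf
  · exact cap6i2c2f1 n p i0 C hC hsum hn0 hrow hlo hp1 hcap hu hC2 hF2 hlc hlf
  · exact cap6i2c2f2 n p i0 C hC hsum hn0 hrow hlo hp1 hcap hu hC2 hF2 hlc hlf
  · exact cap6i2c3f0 n p i0 C hC hsum hn0 hrow hlo hp1 hcap hu hC2 hF2 hlc hlf
  · exact cap6i2c3f1 n p i0 C hC hsum hn0 hrow hlo hp1 hcap hu hC2 hF2 hlc hlf
  · exact cap6i2c3f2 n p i0 C hC hsum hn0 hrow hlo hp1 hcap hu hC2 hF2 hlc hlf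

lemma cap6i3c0f0FL {a p : ℝ} (ha0 : 0 ≤ a) (h : ∀ c, 0 ≤ c → c ≤ 1 → a ≤ al5 c * p + be5 c)
    (hp : (3/20) ≤ p) (hp1 : p ≤ 1) : a ^ 2 ≤ (1/2) + (1/10) * p := by
  exact row5 (c := 0) (P := (3/20)) (Q := 1) ha0 h (by norm_num) (by norm_num) hp hp1 (by norm_num [al5, be5]) (by norm_num [al5, be5])

lemma cap6i3c0f0FS {a p : ℝ} (ha0 : 0 ≤ a) (h : ∀ c, 0 ≤ c → c ≤ 1 → a ≤ al5 c * p + be5 c)
    (hp : (31/1000) ≤ p) (hp1 : p ≤ (3/20)) : a ^ 2 ≤ (41959/1000000) + (1/10) * p := by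
  exact row5 (c := (7/20)) (P := (31/1000)) (Q := (3/20)) ha0 h (by norm_num) (by norm_num) hp hp1 (by norm_num [al5, be5]) (by norm_num [al5, be5])

lemma cap6i3c0f0CL {a p : ℝ} (ha0 : 0 ≤ a) (hc : a < (6809/25000)) (hp : (3/20) ≤ p) : a ^ 2 ≤ (1/2) + (1/10) * p :=
  cap_extend ha0 hc (by norm_num) (Pb := (3/20)) (by norm_num) hp

lemma cap6i3c0f0CS {a p : ℝ} (ha0 : 0 ≤ a) (h : ∀ c, 0 ≤ c → c ≤ 1 → a ≤ al5 c * p + be5 c)
    (hp : (31/1000) ≤ p) (hp1 : p ≤ (3/20)) : a ^ 2 ≤ (41959/1000000) + (1/10) * p := by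
  exact row5 (c := (7/20)) (P := (31/1000)) (Q := (3/20)) ha0 h (by norm_num) (by norm_num) hp hp1 (by norm_num [al5, be5]) (by norm_num [al5, be5])

lemma cap6i3c0f0 (n p : ι → ℝ) (i0 : ι) (C : Finset ι) (hC : C ⊆ Finset.univ.erase i0)
    (hsum : ∑ i, p i = 1) (hn0 : ∀ j, 0 ≤ n j)
    (hrow : ∀ j, ∀ c, 0 ≤ c → c ≤ 1 → n j ≤ al5 c * p j + be5 c)
    (hlo : ∀ j, (31/1000) ≤ p j) (hp1 : ∀ j, p j ≤ 1) (hcap : ∀ j ∈ C, n j < (6809/25000))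
    (hu : n i0 ≤ (609/10000)) (hC2 : C.card = 3)
    (hF2 : (Finset.univ.erase i0 \ C).card = 2)
    (hlc : (C.filter fun j => (3/20) ≤ p j).card = 0)
    (hlf : ((Finset.univ.erase i0 \ C).filter fun j => (3/20) ≤ p j).card = 0) :
    ∑ i, n i ^ 2 < (179049/500000) := by
  have key := joint_sum n p i0 C hC hsum (pc := (3/20)) (ACL := (1/2)) (ACS := (41959/1000000))
    (AL := (1/2)) (AS := (41959/1000000)) (B := (1/10))
    (fun j hj hp => cap6i3c0f0CL (hn0 j) (hcap j hj) hp)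
    (fun j hj hp => cap6i3c0f0CS (hn0 j) (hrow j) (hlo j) hp.le)
    (fun j _ hp => cap6i3c0f0FL (hn0 j) (hrow j) hp (hp1 j))
    (fun j _ hp => cap6i3c0f0FS (hn0 j) (hrow j) (hlo j) hp.le)
  rw [card_filter_two C _ hC2 hlc, card_filter_two _ _ hF2 hlf, hlc, hlf] at key
  have h1 : n i0 ^ 2 ≤ (609/10000) ^ 2 := pow_le_pow_left₀ (hn0 i0) hu 2
  have h2 := hlo i0
  norm_num at key h1 h2 ⊢
  linarith

lemma cap6i3c0f1FL {a p : ℝ} (ha0 : 0 ≤ a) (h : ∀ c, 0 ≤ c → c ≤ 1 → a ≤ al5 c * p + be5 c)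
    (hp : (3/20) ≤ p) (hp1 : p ≤ 1) : a ^ 2 ≤ (19689/500000) + (7/25) * p := by
  rcases le_total p (8287/20000) with h0 | h0
  · exact row5 (c := (1/5)) (P := (3/20)) (Q := (8287/20000)) ha0 h (by norm_num) (by norm_num) hp h0 (by norm_num [al5, be5]) (by norm_num [al5, be5])
  exact row5 (c := (1/20)) (P := (8287/20000)) (Q := 1) ha0 h (by norm_num) (by norm_num) h0 hp1 (by norm_num [al5, be5]) (by norm_num [al5, be5])

lemma cap6i3c0f1FS {a p : ℝ} (ha0 : 0 ≤ a) (h : ∀ c, 0 ≤ c → c ≤ 1 → a ≤ al5 c * p + be5 c)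
    (hp : (31/1000) ≤ p) (hp1 : p ≤ (3/20)) : a ^ 2 ≤ (1573/200000) + (7/25) * p := by
  exact row5 (c := (17/40)) (P := (31/1000)) (Q := (3/20)) ha0 h (by norm_num) (by norm_num) hp hp1 (by norm_num [al5, be5]) (by norm_num [al5, be5])

lemma cap6i3c0f1CL {a p : ℝ} (ha0 : 0 ≤ a) (hc : a < (6809/25000)) (hp : (3/20) ≤ p) : a ^ 2 ≤ (1/2) + (7/25) * p :=
  cap_extend ha0 hc (by norm_num) (Pb := (3/20)) (by norm_num) hp

lemma cap6i3c0f1CS {a p : ℝ} (ha0 : 0 ≤ a) (h : ∀ c, 0 ≤ c → c ≤ 1 → a ≤ al5 c * p + be5 c)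
    (hp : (31/1000) ≤ p) (hp1 : p ≤ (3/20)) : a ^ 2 ≤ (1573/200000) + (7/25) * p := by
  exact row5 (c := (17/40)) (P := (31/1000)) (Q := (3/20)) ha0 h (by norm_num) (by norm_num) hp hp1 (by norm_num [al5, be5]) (by norm_num [al5, be5])

lemma cap6i3c0f1 (n p : ι → ℝ) (i0 : ι) (C : Finset ι) (hC : C ⊆ Finset.univ.erase i0)
    (hsum : ∑ i, p i = 1) (hn0 : ∀ j, 0 ≤ n j)
    (hrow : ∀ j, ∀ c, 0 ≤ c → c ≤ 1 → n j ≤ al5 c * p j + be5 c)
    (hlo : ∀ j, (31/1000) ≤ p j) (hp1 : ∀ j, p j ≤ 1) (hcap : ∀ j ∈ C, n j < (6809/25000))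
    (hu : n i0 ≤ (609/10000)) (hC2 : C.card = 3)
    (hF2 : (Finset.univ.erase i0 \ C).card = 2)
    (hlc : (C.filter fun j => (3/20) ≤ p j).card = 0)
    (hlf : ((Finset.univ.erase i0 \ C).filter fun j => (3/20) ≤ p j).card = 1) :
    ∑ i, n i ^ 2 < (179049/500000) := by
  have key := joint_sum n p i0 C hC hsum (pc := (3/20)) (ACL := (1/2)) (ACS := (1573/200000))
    (AL := (19689/500000)) (AS := (1573/200000)) (B := (7/25))
    (fun j hj hp => cap6i3c0f1CL (hn0 j) (hcap j hj) hp)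
    (fun j hj hp => cap6i3c0f1CS (hn0 j) (hrow j) (hlo j) hp.le)
    (fun j _ hp => cap6i3c0f1FL (hn0 j) (hrow j) hp (hp1 j))
    (fun j _ hp => cap6i3c0f1FS (hn0 j) (hrow j) (hlo j) hp.le)
  rw [card_filter_two C _ hC2 hlc, card_filter_two _ _ hF2 hlf, hlc, hlf] at key
  have h1 : n i0 ^ 2 ≤ (609/10000) ^ 2 := pow_le_pow_left₀ (hn0 i0) hu 2
  have h2 := hlo i0
  norm_num at key h1 h2 ⊢
  linarith

lemma cap6i3c0f2FL {a p : ℝ} (ha0 : 0 ≤ a) (h : ∀ c, 0 ≤ c → c ≤ 1 → a ≤ al5 c * p + be5 c)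
    (hp : (3/20) ≤ p) (hp1 : p ≤ 1) : a ^ 2 ≤ (9867/1000000) + (9/25) * p := by
  rcases le_total p (6219/20000) with h0 | h0
  · exact row5 (c := (3/10)) (P := (3/20)) (Q := (6219/20000)) ha0 h (by norm_num) (by norm_num) hp h0 (by norm_num [al5, be5]) (by norm_num [al5, be5])
  rcases le_total p (2191/5000) with h1 | h1
  · exact row5 (c := (9/40)) (P := (6219/20000)) (Q := (2191/5000)) ha0 h (by norm_num) (by norm_num) h0 h1 (by norm_num [al5, be5]) (by norm_num [al5, be5])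
  exact row5 (c := 0) (P := (2191/5000)) (Q := 1) ha0 h (by norm_num) (by norm_num) h1 hp1 (by norm_num [al5, be5]) (by norm_num [al5, be5])

lemma cap6i3c0f2FS {a p : ℝ} (ha0 : 0 ≤ a) (h : ∀ c, 0 ≤ c → c ≤ 1 → a ≤ al5 c * p + be5 c)
    (hp : (31/1000) ≤ p) (hp1 : p ≤ (3/20)) : a ^ 2 ≤ (1/2) + (9/25) * p := by
  exact row5 (c := 0) (P := (31/1000)) (Q := (3/20)) ha0 h (by norm_num) (by norm_num) hp hp1 (by norm_num [al5, be5]) (by norm_num [al5, be5])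

lemma cap6i3c0f2CL {a p : ℝ} (ha0 : 0 ≤ a) (hc : a < (6809/25000)) (hp : (3/20) ≤ p) : a ^ 2 ≤ (1/2) + (9/25) * p :=
  cap_extend ha0 hc (by norm_num) (Pb := (3/20)) (by norm_num) hp

lemma cap6i3c0f2CS {a p : ℝ} (ha0 : 0 ≤ a) (h : ∀ c, 0 ≤ c → c ≤ 1 → a ≤ al5 c * p + be5 c)
    (hp : (31/1000) ≤ p) (hp1 : p ≤ (3/20)) : a ^ 2 ≤ (-2943/500000) + (9/25) * p := by
  rcases le_total p (23/160) with h0 | h0
  · exact row5 (c := (3/5)) (P := (31/1000)) (Q := (23/160)) ha0 h (by norm_num) (by norm_num) hp h0 (by norm_num [al5, be5]) (by norm_num [al5, be5])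
  exact row5 (c := (19/40)) (P := (23/160)) (Q := (3/20)) ha0 h (by norm_num) (by norm_num) h0 hp1 (by norm_num [al5, be5]) (by norm_num [al5, be5])

lemma cap6i3c0f2 (n p : ι → ℝ) (i0 : ι) (C : Finset ι) (hC : C ⊆ Finset.univ.erase i0)
    (hsum : ∑ i, p i = 1) (hn0 : ∀ j, 0 ≤ n j)
    (hrow : ∀ j, ∀ c, 0 ≤ c → c ≤ 1 → n j ≤ al5 c * p j + be5 c)
    (hlo : ∀ j, (31/1000) ≤ p j) (hp1 : ∀ j, p j ≤ 1) (hcap : ∀ j ∈ C, n j < (6809/25000))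
    (hu : n i0 ≤ (609/10000)) (hC2 : C.card = 3)
    (hF2 : (Finset.univ.erase i0 \ C).card = 2)
    (hlc : (C.filter fun j => (3/20) ≤ p j).card = 0)
    (hlf : ((Finset.univ.erase i0 \ C).filter fun j => (3/20) ≤ p j).card = 2) :
    ∑ i, n i ^ 2 < (179049/500000) := by
  have key := joint_sum n p i0 C hC hsum (pc := (3/20)) (ACL := (1/2)) (ACS := (-2943/500000))
    (AL := (9867/1000000)) (AS := (1/2)) (B := (9/25))
    (fun j hj hp => cap6i3c0f2CL (hn0 j) (hcap j hj) hp)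
    (fun j hj hp => cap6i3c0f2CS (hn0 j) (hrow j) (hlo j) hp.le)
    (fun j _ hp => cap6i3c0f2FL (hn0 j) (hrow j) hp (hp1 j))
    (fun j _ hp => cap6i3c0f2FS (hn0 j) (hrow j) (hlo j) hp.le)
  rw [card_filter_two C _ hC2 hlc, card_filter_two _ _ hF2 hlf, hlc, hlf] at key
  have h1 : n i0 ^ 2 ≤ (609/10000) ^ 2 := pow_le_pow_left₀ (hn0 i0) hu 2
  have h2 := hlo i0
  norm_num at key h1 h2 ⊢
  linarith

lemma cap6i3c1f0FL {a p : ℝ} (ha0 : 0 ≤ a) (h : ∀ c, 0 ≤ c → c ≤ 1 → a ≤ al5 c * p + be5 c)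
    (hp : (3/20) ≤ p) (hp1 : p ≤ 1) : a ^ 2 ≤ (1/2) + (1/10) * p := by
  exact row5 (c := 0) (P := (3/20)) (Q := 1) ha0 h (by norm_num) (by norm_num) hp hp1 (by norm_num [al5, be5]) (by norm_num [al5, be5])

lemma cap6i3c1f0FS {a p : ℝ} (ha0 : 0 ≤ a) (h : ∀ c, 0 ≤ c → c ≤ 1 → a ≤ al5 c * p + be5 c)
    (hp : (31/1000) ≤ p) (hp1 : p ≤ (3/20)) : a ^ 2 ≤ (39837/1000000) + (1/10) * p := by
  exact row5 (c := (7/20)) (P := (31/1000)) (Q := (3/20)) ha0 h (by norm_num) (by norm_num) hp hp1 (by norm_num [al5, be5]) (by norm_num [al5, be5])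

lemma cap6i3c1f0CL {a p : ℝ} (ha0 : 0 ≤ a) (hc : a < (6809/25000)) (hp : (3/20) ≤ p) : a ^ 2 ≤ (15263/250000) + (1/10) * p :=
  cap_extend ha0 hc (by norm_num) (Pb := (3/20)) (by norm_num) hp

lemma cap6i3c1f0CS {a p : ℝ} (ha0 : 0 ≤ a) (h : ∀ c, 0 ≤ c → c ≤ 1 → a ≤ al5 c * p + be5 c)
    (hp : (31/1000) ≤ p) (hp1 : p ≤ (3/20)) : a ^ 2 ≤ (39837/1000000) + (1/10) * p := by
  exact row5 (c := (7/20)) (P := (31/1000)) (Q := (3/20)) ha0 h (by norm_num) (by norm_num) hp hp1 (by norm_num [al5, be5]) (by norm_num [al5, be5])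

lemma cap6i3c1f0 (n p : ι → ℝ) (i0 : ι) (C : Finset ι) (hC : C ⊆ Finset.univ.erase i0)
    (hsum : ∑ i, p i = 1) (hn0 : ∀ j, 0 ≤ n j)
    (hrow : ∀ j, ∀ c, 0 ≤ c → c ≤ 1 → n j ≤ al5 c * p j + be5 c)
    (hlo : ∀ j, (31/1000) ≤ p j) (hp1 : ∀ j, p j ≤ 1) (hcap : ∀ j ∈ C, n j < (6809/25000))
    (hu : n i0 ≤ (609/10000)) (hC2 : C.card = 3)
    (hF2 : (Finset.univ.erase i0 \ C).card = 2)
    (hlc : (C.filter fun j => (3/20) ≤ p j).card = 1)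
    (hlf : ((Finset.univ.erase i0 \ C).filter fun j => (3/20) ≤ p j).card = 0) :
    ∑ i, n i ^ 2 < (179049/500000) := by
  have key := joint_sum n p i0 C hC hsum (pc := (3/20)) (ACL := (15263/250000)) (ACS := (39837/1000000))
    (AL := (1/2)) (AS := (39837/1000000)) (B := (1/10))
    (fun j hj hp => cap6i3c1f0CL (hn0 j) (hcap j hj) hp)
    (fun j hj hp => cap6i3c1f0CS (hn0 j) (hrow j) (hlo j) hp.le)
    (fun j _ hp => cap6i3c1f0FL (hn0 j) (hrow j) hp (hp1 j))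
    (fun j _ hp => cap6i3c1f0FS (hn0 j) (hrow j) (hlo j) hp.le)
  rw [card_filter_two C _ hC2 hlc, card_filter_two _ _ hF2 hlf, hlc, hlf] at key
  have h1 : n i0 ^ 2 ≤ (609/10000) ^ 2 := pow_le_pow_left₀ (hn0 i0) hu 2
  have h2 := hlo i0
  norm_num at key h1 h2 ⊢
  linarith

lemma cap6i3c1f1FL {a p : ℝ} (ha0 : 0 ≤ a) (h : ∀ c, 0 ≤ c → c ≤ 1 → a ≤ al5 c * p + be5 c)
    (hp : (3/20) ≤ p) (hp1 : p ≤ 1) : a ^ 2 ≤ (5381/500000) + (9/25) * p := by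
  rcases le_total p (6801/20000) with h0 | h0
  · exact row5 (c := (11/40)) (P := (3/20)) (Q := (6801/20000)) ha0 h (by norm_num) (by norm_num) hp h0 (by norm_num [al5, be5]) (by norm_num [al5, be5])
  rcases le_total p (19861/20000) with h1 | h1
  · exact row5 (c := (7/40)) (P := (6801/20000)) (Q := (19861/20000)) ha0 h (by norm_num) (by norm_num) h0 h1 (by norm_num [al5, be5]) (by norm_num [al5, be5])
  exact row5 (c := 0) (P := (19861/20000)) (Q := 1) ha0 h (by norm_num) (by norm_num) h1 hp1 (by norm_num [al5, be5]) (by norm_num [al5, be5])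

lemma cap6i3c1f1FS {a p : ℝ} (ha0 : 0 ≤ a) (h : ∀ c, 0 ≤ c → c ≤ 1 → a ≤ al5 c * p + be5 c)
    (hp : (31/1000) ≤ p) (hp1 : p ≤ (3/20)) : a ^ 2 ≤ (-4991/1000000) + (9/25) * p := by
  exact row5 (c := (23/40)) (P := (31/1000)) (Q := (3/20)) ha0 h (by norm_num) (by norm_num) hp hp1 (by norm_num [al5, be5]) (by norm_num [al5, be5])

lemma cap6i3c1f1CLr {a p : ℝ} (ha0 : 0 ≤ a) (h : ∀ c, 0 ≤ c → c ≤ 1 → a ≤ al5 c * p + be5 c)
    (hp : (3/20) ≤ p) (hp1 : p ≤ (201023/1000000)) : a ^ 2 ≤ (453/250000) + (9/25) * p := by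
  exact row5 (c := (7/20)) (P := (3/20)) (Q := (201023/1000000)) ha0 h (by norm_num) (by norm_num) hp hp1 (by norm_num [al5, be5]) (by norm_num [al5, be5])

lemma cap6i3c1f1CL {a p : ℝ} (ha0 : 0 ≤ a) (h : ∀ c, 0 ≤ c → c ≤ 1 → a ≤ al5 c * p + be5 c)
    (hc : a < (6809/25000)) (hp : (3/20) ≤ p) : a ^ 2 ≤ (453/250000) + (9/25) * p := by
  rcases le_total p (201023/1000000) with h1 | h1
  · exact cap6i3c1f1CLr ha0 h hp h1
  · exact cap_extend ha0 hc (by norm_num) (Pb := (201023/1000000)) (by norm_num) h1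

lemma cap6i3c1f1CS {a p : ℝ} (ha0 : 0 ≤ a) (h : ∀ c, 0 ≤ c → c ≤ 1 → a ≤ al5 c * p + be5 c)
    (hp : (31/1000) ≤ p) (hp1 : p ≤ (3/20)) : a ^ 2 ≤ (-4991/1000000) + (9/25) * p := by
  exact row5 (c := (23/40)) (P := (31/1000)) (Q := (3/20)) ha0 h (by norm_num) (by norm_num) hp hp1 (by norm_num [al5, be5]) (by norm_num [al5, be5])

lemma cap6i3c1f1 (n p : ι → ℝ) (i0 : ι) (C : Finset ι) (hC : C ⊆ Finset.univ.erase i0)
    (hsum : ∑ i, p i = 1) (hn0 : ∀ j, 0 ≤ n j)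
    (hrow : ∀ j, ∀ c, 0 ≤ c → c ≤ 1 → n j ≤ al5 c * p j + be5 c)
    (hlo : ∀ j, (31/1000) ≤ p j) (hp1 : ∀ j, p j ≤ 1) (hcap : ∀ j ∈ C, n j < (6809/25000))
    (hu : n i0 ≤ (609/10000)) (hC2 : C.card = 3)
    (hF2 : (Finset.univ.erase i0 \ C).card = 2)
    (hlc : (C.filter fun j => (3/20) ≤ p j).card = 1)
    (hlf : ((Finset.univ.erase i0 \ C).filter fun j => (3/20) ≤ p j).card = 1) :
    ∑ i, n i ^ 2 < (179049/500000) := by
  have key := joint_sum n p i0 C hC hsum (pc := (3/20)) (ACL := (453/250000)) (ACS := (-4991/1000000))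
    (AL := (5381/500000)) (AS := (-4991/1000000)) (B := (9/25))
    (fun j hj hp => cap6i3c1f1CL (hn0 j) (hrow j) (hcap j hj) hp)
    (fun j hj hp => cap6i3c1f1CS (hn0 j) (hrow j) (hlo j) hp.le)
    (fun j _ hp => cap6i3c1f1FL (hn0 j) (hrow j) hp (hp1 j))
    (fun j _ hp => cap6i3c1f1FS (hn0 j) (hrow j) (hlo j) hp.le)
  rw [card_filter_two C _ hC2 hlc, card_filter_two _ _ hF2 hlf, hlc, hlf] at key
  have h1 : n i0 ^ 2 ≤ (609/10000) ^ 2 := pow_le_pow_left₀ (hn0 i0) hu 2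
  have h2 := hlo i0
  norm_num at key h1 h2 ⊢
  linarith

lemma cap6i3c1f2FL {a p : ℝ} (ha0 : 0 ≤ a) (h : ∀ c, 0 ≤ c → c ≤ 1 → a ≤ al5 c * p + be5 c)
    (hp : (3/20) ≤ p) (hp1 : p ≤ 1) : a ^ 2 ≤ (737/250000) + (19/50) * p := by
  rcases le_total p (361/1250) with h0 | h0
  · exact row5 (c := (13/40)) (P := (3/20)) (Q := (361/1250)) ha0 h (by norm_num) (by norm_num) hp h0 (by norm_num [al5, be5]) (by norm_num [al5, be5])
  rcases le_total p (1567/5000) with h1 | h1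
  · exact row5 (c := (11/40)) (P := (361/1250)) (Q := (1567/5000)) ha0 h (by norm_num) (by norm_num) h0 h1 (by norm_num [al5, be5]) (by norm_num [al5, be5])
  rcases le_total p (7203/20000) with h2 | h2
  · exact row5 (c := (1/4)) (P := (1567/5000)) (Q := (7203/20000)) ha0 h (by norm_num) (by norm_num) h1 h2 (by norm_num [al5, be5]) (by norm_num [al5, be5])
  exact row5 (c := (3/20)) (P := (7203/20000)) (Q := 1) ha0 h (by norm_num) (by norm_num) h2 hp1 (by norm_num [al5, be5]) (by norm_num [al5, be5])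

lemma cap6i3c1f2FS {a p : ℝ} (ha0 : 0 ≤ a) (h : ∀ c, 0 ≤ c → c ≤ 1 → a ≤ al5 c * p + be5 c)
    (hp : (31/1000) ≤ p) (hp1 : p ≤ (3/20)) : a ^ 2 ≤ (1/2) + (19/50) * p := by
  exact row5 (c := 0) (P := (31/1000)) (Q := (3/20)) ha0 h (by norm_num) (by norm_num) hp hp1 (by norm_num [al5, be5]) (by norm_num [al5, be5])

lemma cap6i3c1f2CLr {a p : ℝ} (ha0 : 0 ≤ a) (h : ∀ c, 0 ≤ c → c ≤ 1 → a ≤ al5 c * p + be5 c)
    (hp : (3/20) ≤ p) (hp1 : p ≤ (6407/31250)) : a ^ 2 ≤ (-3729/1000000) + (19/50) * p := by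
  exact row5 (c := (2/5)) (P := (3/20)) (Q := (6407/31250)) ha0 h (by norm_num) (by norm_num) hp hp1 (by norm_num [al5, be5]) (by norm_num [al5, be5])

lemma cap6i3c1f2CL {a p : ℝ} (ha0 : 0 ≤ a) (h : ∀ c, 0 ≤ c → c ≤ 1 → a ≤ al5 c * p + be5 c)
    (hc : a < (6809/25000)) (hp : (3/20) ≤ p) : a ^ 2 ≤ (-3729/1000000) + (19/50) * p := by
  rcases le_total p (6407/31250) with h1 | h1
  · exact cap6i3c1f2CLr ha0 h hp h1
  · exact cap_extend ha0 hc (by norm_num) (Pb := (6407/31250)) (by norm_num) h1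

lemma cap6i3c1f2CS {a p : ℝ} (ha0 : 0 ≤ a) (h : ∀ c, 0 ≤ c → c ≤ 1 → a ≤ al5 c * p + be5 c)
    (hp : (31/1000) ≤ p) (hp1 : p ≤ (3/20)) : a ^ 2 ≤ (-4197/500000) + (19/50) * p := by
  rcases le_total p (2307/20000) with h0 | h0
  · exact row5 (c := (29/40)) (P := (31/1000)) (Q := (2307/20000)) ha0 h (by norm_num) (by norm_num) hp h0 (by norm_num [al5, be5]) (by norm_num [al5, be5])
  exact row5 (c := (9/20)) (P := (2307/20000)) (Q := (3/20)) ha0 h (by norm_num) (by norm_num) h0 hp1 (by norm_num [al5, be5]) (by norm_num [al5, be5])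

lemma cap6i3c1f2 (n p : ι → ℝ) (i0 : ι) (C : Finset ι) (hC : C ⊆ Finset.univ.erase i0)
    (hsum : ∑ i, p i = 1) (hn0 : ∀ j, 0 ≤ n j)
    (hrow : ∀ j, ∀ c, 0 ≤ c → c ≤ 1 → n j ≤ al5 c * p j + be5 c)
    (hlo : ∀ j, (31/1000) ≤ p j) (hp1 : ∀ j, p j ≤ 1) (hcap : ∀ j ∈ C, n j < (6809/25000))
    (hu : n i0 ≤ (609/10000)) (hC2 : C.card = 3)
    (hF2 : (Finset.univ.erase i0 \ C).card = 2)
    (hlc : (C.filter fun j => (3/20) ≤ p j).card = 1)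
    (hlf : ((Finset.univ.erase i0 \ C).filter fun j => (3/20) ≤ p j).card = 2) :
    ∑ i, n i ^ 2 < (179049/500000) := by
  have key := joint_sum n p i0 C hC hsum (pc := (3/20)) (ACL := (-3729/1000000)) (ACS := (-4197/500000))
    (AL := (737/250000)) (AS := (1/2)) (B := (19/50))
    (fun j hj hp => cap6i3c1f2CL (hn0 j) (hrow j) (hcap j hj) hp)
    (fun j hj hp => cap6i3c1f2CS (hn0 j) (hrow j) (hlo j) hp.le)
    (fun j _ hp => cap6i3c1f2FL (hn0 j) (hrow j) hp (hp1 j))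
    (fun j _ hp => cap6i3c1f2FS (hn0 j) (hrow j) (hlo j) hp.le)
  rw [card_filter_two C _ hC2 hlc, card_filter_two _ _ hF2 hlf, hlc, hlf] at key
  have h1 : n i0 ^ 2 ≤ (609/10000) ^ 2 := pow_le_pow_left₀ (hn0 i0) hu 2
  have h2 := hlo i0
  norm_num at key h1 h2 ⊢
  linarith

lemma cap6i3c2f0FL {a p : ℝ} (ha0 : 0 ≤ a) (h : ∀ c, 0 ≤ c → c ≤ 1 → a ≤ al5 c * p + be5 c)
    (hp : (3/20) ≤ p) (hp1 : p ≤ 1) : a ^ 2 ≤ (1/2) + (1/10) * p := by
  exact row5 (c := 0) (P := (3/20)) (Q := 1) ha0 h (by norm_num) (by norm_num) hp hp1 (by norm_num [al5, be5]) (by norm_num [al5, be5])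

lemma cap6i3c2f0FS {a p : ℝ} (ha0 : 0 ≤ a) (h : ∀ c, 0 ≤ c → c ≤ 1 → a ≤ al5 c * p + be5 c)
    (hp : (31/1000) ≤ p) (hp1 : p ≤ (3/20)) : a ^ 2 ≤ (9429/250000) + (1/10) * p := by
  exact row5 (c := (3/8)) (P := (31/1000)) (Q := (3/20)) ha0 h (by norm_num) (by norm_num) hp hp1 (by norm_num [al5, be5]) (by norm_num [al5, be5])

lemma cap6i3c2f0CLr {a p : ℝ} (ha0 : 0 ≤ a) (h : ∀ c, 0 ≤ c → c ≤ 1 → a ≤ al5 c * p + be5 c)
    (hp : (3/20) ≤ p) (hp1 : p ≤ (61/400)) : a ^ 2 ≤ (5893/100000) + (1/10) * p := by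
  exact row5 (c := (1/4)) (P := (3/20)) (Q := (61/400)) ha0 h (by norm_num) (by norm_num) hp hp1 (by norm_num [al5, be5]) (by norm_num [al5, be5])

lemma cap6i3c2f0CL {a p : ℝ} (ha0 : 0 ≤ a) (h : ∀ c, 0 ≤ c → c ≤ 1 → a ≤ al5 c * p + be5 c)
    (hc : a < (6809/25000)) (hp : (3/20) ≤ p) : a ^ 2 ≤ (5893/100000) + (1/10) * p := by
  rcases le_total p (61/400) with h1 | h1
  · exact cap6i3c2f0CLr ha0 h hp h1
  · exact cap_extend ha0 hc (by norm_num) (Pb := (61/400)) (by norm_num) h1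

lemma cap6i3c2f0CS {a p : ℝ} (ha0 : 0 ≤ a) (h : ∀ c, 0 ≤ c → c ≤ 1 → a ≤ al5 c * p + be5 c)
    (hp : (31/1000) ≤ p) (hp1 : p ≤ (3/20)) : a ^ 2 ≤ (9429/250000) + (1/10) * p := by
  exact row5 (c := (3/8)) (P := (31/1000)) (Q := (3/20)) ha0 h (by norm_num) (by norm_num) hp hp1 (by norm_num [al5, be5]) (by norm_num [al5, be5])

lemma cap6i3c2f0 (n p : ι → ℝ) (i0 : ι) (C : Finset ι) (hC : C ⊆ Finset.univ.erase i0)
    (hsum : ∑ i, p i = 1) (hn0 : ∀ j, 0 ≤ n j)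
    (hrow : ∀ j, ∀ c, 0 ≤ c → c ≤ 1 → n j ≤ al5 c * p j + be5 c)
    (hlo : ∀ j, (31/1000) ≤ p j) (hp1 : ∀ j, p j ≤ 1) (hcap : ∀ j ∈ C, n j < (6809/25000))
    (hu : n i0 ≤ (609/10000)) (hC2 : C.card = 3)
    (hF2 : (Finset.univ.erase i0 \ C).card = 2)
    (hlc : (C.filter fun j => (3/20) ≤ p j).card = 2)
    (hlf : ((Finset.univ.erase i0 \ C).filter fun j => (3/20) ≤ p j).card = 0) :
    ∑ i, n i ^ 2 < (179049/500000) := by
  have key := joint_sum n p i0 C hC hsum (pc := (3/20)) (ACL := (5893/100000)) (ACS := (9429/250000))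
    (AL := (1/2)) (AS := (9429/250000)) (B := (1/10))
    (fun j hj hp => cap6i3c2f0CL (hn0 j) (hrow j) (hcap j hj) hp)
    (fun j hj hp => cap6i3c2f0CS (hn0 j) (hrow j) (hlo j) hp.le)
    (fun j _ hp => cap6i3c2f0FL (hn0 j) (hrow j) hp (hp1 j))
    (fun j _ hp => cap6i3c2f0FS (hn0 j) (hrow j) (hlo j) hp.le)
  rw [card_filter_two C _ hC2 hlc, card_filter_two _ _ hF2 hlf, hlc, hlf] at key
  have h1 : n i0 ^ 2 ≤ (609/10000) ^ 2 := pow_le_pow_left₀ (hn0 i0) hu 2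
  have h2 := hlo i0
  norm_num at key h1 h2 ⊢
  linarith

lemma cap6i3c2f1FL {a p : ℝ} (ha0 : 0 ≤ a) (h : ∀ c, 0 ≤ c → c ≤ 1 → a ≤ al5 c * p + be5 c)
    (hp : (3/20) ≤ p) (hp1 : p ≤ 1) : a ^ 2 ≤ (5041/500000) + (9/25) * p := by
  rcases le_total p (6269/20000) with h0 | h0
  · exact row5 (c := (3/10)) (P := (3/20)) (Q := (6269/20000)) ha0 h (by norm_num) (by norm_num) hp h0 (by norm_num [al5, be5]) (by norm_num [al5, be5])
  rcases le_total p (2223/5000) with h1 | h1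
  · exact row5 (c := (9/40)) (P := (6269/20000)) (Q := (2223/5000)) ha0 h (by norm_num) (by norm_num) h0 h1 (by norm_num [al5, be5]) (by norm_num [al5, be5])
  exact row5 (c := 0) (P := (2223/5000)) (Q := 1) ha0 h (by norm_num) (by norm_num) h1 hp1 (by norm_num [al5, be5]) (by norm_num [al5, be5])

lemma cap6i3c2f1FS {a p : ℝ} (ha0 : 0 ≤ a) (h : ∀ c, 0 ≤ c → c ≤ 1 → a ≤ al5 c * p + be5 c)
    (hp : (31/1000) ≤ p) (hp1 : p ≤ (3/20)) : a ^ 2 ≤ (-5671/1000000) + (9/25) * p := by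
  rcases le_total p (1449/10000) with h0 | h0
  · exact row5 (c := (3/5)) (P := (31/1000)) (Q := (1449/10000)) ha0 h (by norm_num) (by norm_num) hp h0 (by norm_num [al5, be5]) (by norm_num [al5, be5])
  exact row5 (c := (19/40)) (P := (1449/10000)) (Q := (3/20)) ha0 h (by norm_num) (by norm_num) h0 hp1 (by norm_num [al5, be5]) (by norm_num [al5, be5])

lemma cap6i3c2f1CLr {a p : ℝ} (ha0 : 0 ≤ a) (h : ∀ c, 0 ≤ c → c ≤ 1 → a ≤ al5 c * p + be5 c)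
    (hp : (3/20) ≤ p) (hp1 : p ≤ (6341/31250)) : a ^ 2 ≤ (283/250000) + (9/25) * p := by
  exact row5 (c := (3/8)) (P := (3/20)) (Q := (6341/31250)) ha0 h (by norm_num) (by norm_num) hp hp1 (by norm_num [al5, be5]) (by norm_num [al5, be5])

lemma cap6i3c2f1CL {a p : ℝ} (ha0 : 0 ≤ a) (h : ∀ c, 0 ≤ c → c ≤ 1 → a ≤ al5 c * p + be5 c)
    (hc : a < (6809/25000)) (hp : (3/20) ≤ p) : a ^ 2 ≤ (283/250000) + (9/25) * p := by
  rcases le_total p (6341/31250) with h1 | h1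
  · exact cap6i3c2f1CLr ha0 h hp h1
  · exact cap_extend ha0 hc (by norm_num) (Pb := (6341/31250)) (by norm_num) h1

lemma cap6i3c2f1CS {a p : ℝ} (ha0 : 0 ≤ a) (h : ∀ c, 0 ≤ c → c ≤ 1 → a ≤ al5 c * p + be5 c)
    (hp : (31/1000) ≤ p) (hp1 : p ≤ (3/20)) : a ^ 2 ≤ (-5671/1000000) + (9/25) * p := by
  rcases le_total p (1449/10000) with h0 | h0
  · exact row5 (c := (3/5)) (P := (31/1000)) (Q := (1449/10000)) ha0 h (by norm_num) (by norm_num) hp h0 (by norm_num [al5, be5]) (by norm_num [al5, be5])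
  exact row5 (c := (19/40)) (P := (1449/10000)) (Q := (3/20)) ha0 h (by norm_num) (by norm_num) h0 hp1 (by norm_num [al5, be5]) (by norm_num [al5, be5])

lemma cap6i3c2f1 (n p : ι → ℝ) (i0 : ι) (C : Finset ι) (hC : C ⊆ Finset.univ.erase i0)
    (hsum : ∑ i, p i = 1) (hn0 : ∀ j, 0 ≤ n j)
    (hrow : ∀ j, ∀ c, 0 ≤ c → c ≤ 1 → n j ≤ al5 c * p j + be5 c)
    (hlo : ∀ j, (31/1000) ≤ p j) (hp1 : ∀ j, p j ≤ 1) (hcap : ∀ j ∈ C, n j < (6809/25000))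
    (hu : n i0 ≤ (609/10000)) (hC2 : C.card = 3)
    (hF2 : (Finset.univ.erase i0 \ C).card = 2)
    (hlc : (C.filter fun j => (3/20) ≤ p j).card = 2)
    (hlf : ((Finset.univ.erase i0 \ C).filter fun j => (3/20) ≤ p j).card = 1) :
    ∑ i, n i ^ 2 < (179049/500000) := by
  have key := joint_sum n p i0 C hC hsum (pc := (3/20)) (ACL := (283/250000)) (ACS := (-5671/1000000))
    (AL := (5041/500000)) (AS := (-5671/1000000)) (B := (9/25))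
    (fun j hj hp => cap6i3c2f1CL (hn0 j) (hrow j) (hcap j hj) hp)
    (fun j hj hp => cap6i3c2f1CS (hn0 j) (hrow j) (hlo j) hp.le)
    (fun j _ hp => cap6i3c2f1FL (hn0 j) (hrow j) hp (hp1 j))
    (fun j _ hp => cap6i3c2f1FS (hn0 j) (hrow j) (hlo j) hp.le)
  rw [card_filter_two C _ hC2 hlc, card_filter_two _ _ hF2 hlf, hlc, hlf] at key
  have h1 : n i0 ^ 2 ≤ (609/10000) ^ 2 := pow_le_pow_left₀ (hn0 i0) hu 2
  have h2 := hlo i0
  norm_num at key h1 h2 ⊢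
  linarith

lemma cap6i3c2f2FL {a p : ℝ} (ha0 : 0 ≤ a) (h : ∀ c, 0 ≤ c → c ≤ 1 → a ≤ al5 c * p + be5 c)
    (hp : (3/20) ≤ p) (hp1 : p ≤ 1) : a ^ 2 ≤ (-1463/100000) + (11/25) * p := by
  rcases le_total p (1187/5000) with h0 | h0
  · exact row5 (c := (2/5)) (P := (3/20)) (Q := (1187/5000)) ha0 h (by norm_num) (by norm_num) hp h0 (by norm_num [al5, be5]) (by norm_num [al5, be5])
  rcases le_total p (1289/5000) with h1 | h1
  · exact row5 (c := (7/20)) (P := (1187/5000)) (Q := (1289/5000)) ha0 h (by norm_num) (by norm_num) h0 h1 (by norm_num [al5, be5]) (by norm_num [al5, be5])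
  rcases le_total p (1373/5000) with h2 | h2
  · exact row5 (c := (13/40)) (P := (1289/5000)) (Q := (1373/5000)) ha0 h (by norm_num) (by norm_num) h1 h2 (by norm_num [al5, be5]) (by norm_num [al5, be5])
  rcases le_total p (671/2000) with h3 | h3
  · exact row5 (c := (3/10)) (P := (1373/5000)) (Q := (671/2000)) ha0 h (by norm_num) (by norm_num) h2 h3 (by norm_num [al5, be5]) (by norm_num [al5, be5])
  exact row5 (c := (3/20)) (P := (671/2000)) (Q := 1) ha0 h (by norm_num) (by norm_num) h3 hp1 (by norm_num [al5, be5]) (by norm_num [al5, be5])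

lemma cap6i3c2f2FS {a p : ℝ} (ha0 : 0 ≤ a) (h : ∀ c, 0 ≤ c → c ≤ 1 → a ≤ al5 c * p + be5 c)
    (hp : (31/1000) ≤ p) (hp1 : p ≤ (3/20)) : a ^ 2 ≤ (1/2) + (11/25) * p := by
  exact row5 (c := 0) (P := (31/1000)) (Q := (3/20)) ha0 h (by norm_num) (by norm_num) hp hp1 (by norm_num [al5, be5]) (by norm_num [al5, be5])

lemma cap6i3c2f2CLr {a p : ℝ} (ha0 : 0 ≤ a) (h : ∀ c, 0 ≤ c → c ≤ 1 → a ≤ al5 c * p + be5 c)
    (hp : (3/20) ≤ p) (hp1 : p ≤ (205403/1000000)) : a ^ 2 ≤ (-16197/1000000) + (11/25) * p := by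
  exact row5 (c := (17/40)) (P := (3/20)) (Q := (205403/1000000)) ha0 h (by norm_num) (by norm_num) hp hp1 (by norm_num [al5, be5]) (by norm_num [al5, be5])

lemma cap6i3c2f2CL {a p : ℝ} (ha0 : 0 ≤ a) (h : ∀ c, 0 ≤ c → c ≤ 1 → a ≤ al5 c * p + be5 c)
    (hc : a < (6809/25000)) (hp : (3/20) ≤ p) : a ^ 2 ≤ (-16197/1000000) + (11/25) * p := by
  rcases le_total p (205403/1000000) with h1 | h1
  · exact cap6i3c2f2CLr ha0 h hp h1
  · exact cap_extend ha0 hc (by norm_num) (Pb := (205403/1000000)) (by norm_num) h1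

lemma cap6i3c2f2CS {a p : ℝ} (ha0 : 0 ≤ a) (h : ∀ c, 0 ≤ c → c ≤ 1 → a ≤ al5 c * p + be5 c)
    (hp : (31/1000) ≤ p) (hp1 : p ≤ (3/20)) : a ^ 2 ≤ (-2599/250000) + (11/25) * p := by
  rcases le_total p (1239/10000) with h0 | h0
  · exact row5 (c := (31/40)) (P := (31/1000)) (Q := (1239/10000)) ha0 h (by norm_num) (by norm_num) hp h0 (by norm_num [al5, be5]) (by norm_num [al5, be5])
  exact row5 (c := (3/8)) (P := (1239/10000)) (Q := (3/20)) ha0 h (by norm_num) (by norm_num) h0 hp1 (by norm_num [al5, be5]) (by norm_num [al5, be5])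

lemma cap6i3c2f2 (n p : ι → ℝ) (i0 : ι) (C : Finset ι) (hC : C ⊆ Finset.univ.erase i0)
    (hsum : ∑ i, p i = 1) (hn0 : ∀ j, 0 ≤ n j)
    (hrow : ∀ j, ∀ c, 0 ≤ c → c ≤ 1 → n j ≤ al5 c * p j + be5 c)
    (hlo : ∀ j, (31/1000) ≤ p j) (hp1 : ∀ j, p j ≤ 1) (hcap : ∀ j ∈ C, n j < (6809/25000))
    (hu : n i0 ≤ (609/10000)) (hC2 : C.card = 3)
    (hF2 : (Finset.univ.erase i0 \ C).card = 2)
    (hlc : (C.filter fun j => (3/20) ≤ p j).card = 2)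
    (hlf : ((Finset.univ.erase i0 \ C).filter fun j => (3/20) ≤ p j).card = 2) :
    ∑ i, n i ^ 2 < (179049/500000) := by
  have key := joint_sum n p i0 C hC hsum (pc := (3/20)) (ACL := (-16197/1000000)) (ACS := (-2599/250000))
    (AL := (-1463/100000)) (AS := (1/2)) (B := (11/25))
    (fun j hj hp => cap6i3c2f2CL (hn0 j) (hrow j) (hcap j hj) hp)
    (fun j hj hp => cap6i3c2f2CS (hn0 j) (hrow j) (hlo j) hp.le)
    (fun j _ hp => cap6i3c2f2FL (hn0 j) (hrow j) hp (hp1 j))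
    (fun j _ hp => cap6i3c2f2FS (hn0 j) (hrow j) (hlo j) hp.le)
  rw [card_filter_two C _ hC2 hlc, card_filter_two _ _ hF2 hlf, hlc, hlf] at key
  have h1 : n i0 ^ 2 ≤ (609/10000) ^ 2 := pow_le_pow_left₀ (hn0 i0) hu 2
  have h2 := hlo i0
  norm_num at key h1 h2 ⊢
  linarith

lemma cap6i3c3f0FL {a p : ℝ} (ha0 : 0 ≤ a) (h : ∀ c, 0 ≤ c → c ≤ 1 → a ≤ al5 c * p + be5 c)
    (hp : (3/20) ≤ p) (hp1 : p ≤ 1) : a ^ 2 ≤ (1/2) + (1/10) * p := by
  exact row5 (c := 0) (P := (3/20)) (Q := 1) ha0 h (by norm_num) (by norm_num) hp hp1 (by norm_num [al5, be5]) (by norm_num [al5, be5])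

lemma cap6i3c3f0FS {a p : ℝ} (ha0 : 0 ≤ a) (h : ∀ c, 0 ≤ c → c ≤ 1 → a ≤ al5 c * p + be5 c)
    (hp : (31/1000) ≤ p) (hp1 : p ≤ (3/20)) : a ^ 2 ≤ (17797/500000) + (1/10) * p := by
  exact row5 (c := (17/40)) (P := (31/1000)) (Q := (3/20)) ha0 h (by norm_num) (by norm_num) hp hp1 (by norm_num [al5, be5]) (by norm_num [al5, be5])

lemma cap6i3c3f0CLr {a p : ℝ} (ha0 : 0 ≤ a) (h : ∀ c, 0 ≤ c → c ≤ 1 → a ≤ al5 c * p + be5 c)
    (hp : (3/20) ≤ p) (hp1 : p ≤ (17371/100000)) : a ^ 2 ≤ (56809/1000000) + (1/10) * p := by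
  exact row5 (c := (11/40)) (P := (3/20)) (Q := (17371/100000)) ha0 h (by norm_num) (by norm_num) hp hp1 (by norm_num [al5, be5]) (by norm_num [al5, be5])

lemma cap6i3c3f0CL {a p : ℝ} (ha0 : 0 ≤ a) (h : ∀ c, 0 ≤ c → c ≤ 1 → a ≤ al5 c * p + be5 c)
    (hc : a < (6809/25000)) (hp : (3/20) ≤ p) : a ^ 2 ≤ (56809/1000000) + (1/10) * p := by
  rcases le_total p (17371/100000) with h1 | h1
  · exact cap6i3c3f0CLr ha0 h hp h1
  · exact cap_extend ha0 hc (by norm_num) (Pb := (17371/100000)) (by norm_num) h1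

lemma cap6i3c3f0CS {a p : ℝ} (ha0 : 0 ≤ a) (hc : a < (6809/25000)) (hp : (31/1000) ≤ p) : a ^ 2 ≤ (1/2) + (1/10) * p :=
  cap_extend ha0 hc (by norm_num) (Pb := (31/1000)) (by norm_num) hp

lemma cap6i3c3f0 (n p : ι → ℝ) (i0 : ι) (C : Finset ι) (hC : C ⊆ Finset.univ.erase i0)
    (hsum : ∑ i, p i = 1) (hn0 : ∀ j, 0 ≤ n j)
    (hrow : ∀ j, ∀ c, 0 ≤ c → c ≤ 1 → n j ≤ al5 c * p j + be5 c)
    (hlo : ∀ j, (31/1000) ≤ p j) (hp1 : ∀ j, p j ≤ 1) (hcap : ∀ j ∈ C, n j < (6809/25000))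
    (hu : n i0 ≤ (609/10000)) (hC2 : C.card = 3)
    (hF2 : (Finset.univ.erase i0 \ C).card = 2)
    (hlc : (C.filter fun j => (3/20) ≤ p j).card = 3)
    (hlf : ((Finset.univ.erase i0 \ C).filter fun j => (3/20) ≤ p j).card = 0) :
    ∑ i, n i ^ 2 < (179049/500000) := by
  have key := joint_sum n p i0 C hC hsum (pc := (3/20)) (ACL := (56809/1000000)) (ACS := (1/2))
    (AL := (1/2)) (AS := (17797/500000)) (B := (1/10))
    (fun j hj hp => cap6i3c3f0CL (hn0 j) (hrow j) (hcap j hj) hp)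
    (fun j hj hp => cap6i3c3f0CS (hn0 j) (hcap j hj) (hlo j))
    (fun j _ hp => cap6i3c3f0FL (hn0 j) (hrow j) hp (hp1 j))
    (fun j _ hp => cap6i3c3f0FS (hn0 j) (hrow j) (hlo j) hp.le)
  rw [card_filter_two C _ hC2 hlc, card_filter_two _ _ hF2 hlf, hlc, hlf] at key
  have h1 : n i0 ^ 2 ≤ (609/10000) ^ 2 := pow_le_pow_left₀ (hn0 i0) hu 2
  have h2 := hlo i0
  norm_num at key h1 h2 ⊢
  linarith

lemma cap6i3c3f1FL {a p : ℝ} (ha0 : 0 ≤ a) (h : ∀ c, 0 ≤ c → c ≤ 1 → a ≤ al5 c * p + be5 c)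
    (hp : (3/20) ≤ p) (hp1 : p ≤ 1) : a ^ 2 ≤ (3149/1000000) + (19/50) * p := by
  rcases le_total p (5823/20000) with h0 | h0
  · exact row5 (c := (13/40)) (P := (3/20)) (Q := (5823/20000)) ha0 h (by norm_num) (by norm_num) hp h0 (by norm_num [al5, be5]) (by norm_num [al5, be5])
  rcases le_total p (7399/20000) with h1 | h1
  · exact row5 (c := (1/4)) (P := (5823/20000)) (Q := (7399/20000)) ha0 h (by norm_num) (by norm_num) h0 h1 (by norm_num [al5, be5]) (by norm_num [al5, be5])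
  exact row5 (c := (1/8)) (P := (7399/20000)) (Q := 1) ha0 h (by norm_num) (by norm_num) h1 hp1 (by norm_num [al5, be5]) (by norm_num [al5, be5])

lemma cap6i3c3f1FS {a p : ℝ} (ha0 : 0 ≤ a) (h : ∀ c, 0 ≤ c → c ≤ 1 → a ≤ al5 c * p + be5 c)
    (hp : (31/1000) ≤ p) (hp1 : p ≤ (3/20)) : a ^ 2 ≤ (-8193/1000000) + (19/50) * p := by
  rcases le_total p (1227/10000) with h0 | h0
  · exact row5 (c := (7/10)) (P := (31/1000)) (Q := (1227/10000)) ha0 h (by norm_num) (by norm_num) hp h0 (by norm_num [al5, be5]) (by norm_num [al5, be5])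
  exact row5 (c := (9/20)) (P := (1227/10000)) (Q := (3/20)) ha0 h (by norm_num) (by norm_num) h0 hp1 (by norm_num [al5, be5]) (by norm_num [al5, be5])

lemma cap6i3c3f1CLr {a p : ℝ} (ha0 : 0 ≤ a) (h : ∀ c, 0 ≤ c → c ≤ 1 → a ≤ al5 c * p + be5 c)
    (hp : (3/20) ≤ p) (hp1 : p ≤ (204493/1000000)) : a ^ 2 ≤ (-3527/1000000) + (19/50) * p := by
  exact row5 (c := (2/5)) (P := (3/20)) (Q := (204493/1000000)) ha0 h (by norm_num) (by norm_num) hp hp1 (by norm_num [al5, be5]) (by norm_num [al5, be5])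

lemma cap6i3c3f1CL {a p : ℝ} (ha0 : 0 ≤ a) (h : ∀ c, 0 ≤ c → c ≤ 1 → a ≤ al5 c * p + be5 c)
    (hc : a < (6809/25000)) (hp : (3/20) ≤ p) : a ^ 2 ≤ (-3527/1000000) + (19/50) * p := by
  rcases le_total p (204493/1000000) with h1 | h1
  · exact cap6i3c3f1CLr ha0 h hp h1
  · exact cap_extend ha0 hc (by norm_num) (Pb := (204493/1000000)) (by norm_num) h1

lemma cap6i3c3f1CS {a p : ℝ} (ha0 : 0 ≤ a) (hc : a < (6809/25000)) (hp : (31/1000) ≤ p) : a ^ 2 ≤ (1/2) + (19/50) * p :=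
  cap_extend ha0 hc (by norm_num) (Pb := (31/1000)) (by norm_num) hp

lemma cap6i3c3f1 (n p : ι → ℝ) (i0 : ι) (C : Finset ι) (hC : C ⊆ Finset.univ.erase i0)
    (hsum : ∑ i, p i = 1) (hn0 : ∀ j, 0 ≤ n j)
    (hrow : ∀ j, ∀ c, 0 ≤ c → c ≤ 1 → n j ≤ al5 c * p j + be5 c)
    (hlo : ∀ j, (31/1000) ≤ p j) (hp1 : ∀ j, p j ≤ 1) (hcap : ∀ j ∈ C, n j < (6809/25000))
    (hu : n i0 ≤ (609/10000)) (hC2 : C.card = 3)
    (hF2 : (Finset.univ.erase i0 \ C).card = 2)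
    (hlc : (C.filter fun j => (3/20) ≤ p j).card = 3)
    (hlf : ((Finset.univ.erase i0 \ C).filter fun j => (3/20) ≤ p j).card = 1) :
    ∑ i, n i ^ 2 < (179049/500000) := by
  have key := joint_sum n p i0 C hC hsum (pc := (3/20)) (ACL := (-3527/1000000)) (ACS := (1/2))
    (AL := (3149/1000000)) (AS := (-8193/1000000)) (B := (19/50))
    (fun j hj hp => cap6i3c3f1CL (hn0 j) (hrow j) (hcap j hj) hp)
    (fun j hj hp => cap6i3c3f1CS (hn0 j) (hcap j hj) (hlo j))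
    (fun j _ hp => cap6i3c3f1FL (hn0 j) (hrow j) hp (hp1 j))
    (fun j _ hp => cap6i3c3f1FS (hn0 j) (hrow j) (hlo j) hp.le)
  rw [card_filter_two C _ hC2 hlc, card_filter_two _ _ hF2 hlf, hlc, hlf] at key
  have h1 : n i0 ^ 2 ≤ (609/10000) ^ 2 := pow_le_pow_left₀ (hn0 i0) hu 2
  have h2 := hlo i0
  norm_num at key h1 h2 ⊢
  linarith

lemma cap6i3c3f2FL {a p : ℝ} (ha0 : 0 ≤ a) (h : ∀ c, 0 ≤ c → c ≤ 1 → a ≤ al5 c * p + be5 c)
    (hp : (3/20) ≤ p) (hp1 : p ≤ 1) : a ^ 2 ≤ (-11629/500000) + (12/25) * p := by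
  rcases le_total p (1099/5000) with h0 | h0
  · exact row5 (c := (9/20)) (P := (3/20)) (Q := (1099/5000)) ha0 h (by norm_num) (by norm_num) hp h0 (by norm_num [al5, be5]) (by norm_num [al5, be5])
  rcases le_total p (1623/5000) with h1 | h1
  · exact row5 (c := (7/20)) (P := (1099/5000)) (Q := (1623/5000)) ha0 h (by norm_num) (by norm_num) h0 h1 (by norm_num [al5, be5]) (by norm_num [al5, be5])
  exact row5 (c := (3/20)) (P := (1623/5000)) (Q := 1) ha0 h (by norm_num) (by norm_num) h1 hp1 (by norm_num [al5, be5]) (by norm_num [al5, be5])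

lemma cap6i3c3f2FS {a p : ℝ} (ha0 : 0 ≤ a) (h : ∀ c, 0 ≤ c → c ≤ 1 → a ≤ al5 c * p + be5 c)
    (hp : (31/1000) ≤ p) (hp1 : p ≤ (3/20)) : a ^ 2 ≤ (1/2) + (12/25) * p := by
  exact row5 (c := 0) (P := (31/1000)) (Q := (3/20)) ha0 h (by norm_num) (by norm_num) hp hp1 (by norm_num [al5, be5]) (by norm_num [al5, be5])

lemma cap6i3c3f2CLr {a p : ℝ} (ha0 : 0 ≤ a) (h : ∀ c, 0 ≤ c → c ≤ 1 → a ≤ al5 c * p + be5 c)
    (hp : (3/20) ≤ p) (hp1 : p ≤ (203073/1000000)) : a ^ 2 ≤ (-4659/200000) + (12/25) * p := by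
  exact row5 (c := (9/20)) (P := (3/20)) (Q := (203073/1000000)) ha0 h (by norm_num) (by norm_num) hp hp1 (by norm_num [al5, be5]) (by norm_num [al5, be5])

lemma cap6i3c3f2CL {a p : ℝ} (ha0 : 0 ≤ a) (h : ∀ c, 0 ≤ c → c ≤ 1 → a ≤ al5 c * p + be5 c)
    (hc : a < (6809/25000)) (hp : (3/20) ≤ p) : a ^ 2 ≤ (-4659/200000) + (12/25) * p := by
  rcases le_total p (203073/1000000) with h1 | h1
  · exact cap6i3c3f2CLr ha0 h hp h1
  · exact cap_extend ha0 hc (by norm_num) (Pb := (203073/1000000)) (by norm_num) h1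

lemma cap6i3c3f2CS {a p : ℝ} (ha0 : 0 ≤ a) (hc : a < (6809/25000)) (hp : (31/1000) ≤ p) : a ^ 2 ≤ (1/2) + (12/25) * p :=
  cap_extend ha0 hc (by norm_num) (Pb := (31/1000)) (by norm_num) hp

lemma cap6i3c3f2 (n p : ι → ℝ) (i0 : ι) (C : Finset ι) (hC : C ⊆ Finset.univ.erase i0)
    (hsum : ∑ i, p i = 1) (hn0 : ∀ j, 0 ≤ n j)
    (hrow : ∀ j, ∀ c, 0 ≤ c → c ≤ 1 → n j ≤ al5 c * p j + be5 c)
    (hlo : ∀ j, (31/1000) ≤ p j) (hp1 : ∀ j, p j ≤ 1) (hcap : ∀ j ∈ C, n j < (6809/25000))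
    (hu : n i0 ≤ (609/10000)) (hC2 : C.card = 3)
    (hF2 : (Finset.univ.erase i0 \ C).card = 2)
    (hlc : (C.filter fun j => (3/20) ≤ p j).card = 3)
    (hlf : ((Finset.univ.erase i0 \ C).filter fun j => (3/20) ≤ p j).card = 2) :
    ∑ i, n i ^ 2 < (179049/500000) := by
  have key := joint_sum n p i0 C hC hsum (pc := (3/20)) (ACL := (-4659/200000)) (ACS := (1/2))
    (AL := (-11629/500000)) (AS := (1/2)) (B := (12/25))
    (fun j hj hp => cap6i3c3f2CL (hn0 j) (hrow j) (hcap j hj) hp)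
    (fun j hj hp => cap6i3c3f2CS (hn0 j) (hcap j hj) (hlo j))
    (fun j _ hp => cap6i3c3f2FL (hn0 j) (hrow j) hp (hp1 j))
    (fun j _ hp => cap6i3c3f2FS (hn0 j) (hrow j) (hlo j) hp.le)
  rw [card_filter_two C _ hC2 hlc, card_filter_two _ _ hF2 hlf, hlc, hlf] at key
  have h1 : n i0 ^ 2 ≤ (609/10000) ^ 2 := pow_le_pow_left₀ (hn0 i0) hu 2
  have h2 := hlo i0
  norm_num at key h1 h2 ⊢
  linarith

lemma cap6i3 (n p : ι → ℝ) (i0 : ι) (C : Finset ι) (hC : C ⊆ Finset.univ.erase i0)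
    (hsum : ∑ i, p i = 1) (hn0 : ∀ j, 0 ≤ n j)
    (hrow : ∀ j, ∀ c, 0 ≤ c → c ≤ 1 → n j ≤ al5 c * p j + be5 c)
    (hlo : ∀ j, (31/1000) ≤ p j) (hp1 : ∀ j, p j ≤ 1) (hcap : ∀ j ∈ C, n j < (6809/25000))
    (hu : n i0 ≤ (609/10000)) (hC2 : C.card = 3)
    (hF2 : (Finset.univ.erase i0 \ C).card = 2) :
    ∑ i, n i ^ 2 < (179049/500000) := by
  have hA : (C.filter fun j => (3/20) ≤ p j).card ≤ 3 := (Finset.card_filter_le _ _).trans hC2.le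
  have hB : ((Finset.univ.erase i0 \ C).filter fun j => (3/20) ≤ p j).card ≤ 2 := (Finset.card_filter_le _ _).trans hF2.le
  have hc' : (C.filter fun j => (3/20) ≤ p j).card = 0 ∨ (C.filter fun j => (3/20) ≤ p j).card = 1 ∨ (C.filter fun j => (3/20) ≤ p j).card = 2 ∨ (C.filter fun j => (3/20) ≤ p j).card = 3 := by omega
  have hf' : ((Finset.univ.erase i0 \ C).filter fun j => (3/20) ≤ p j).card = 0 ∨ ((Finset.univ.erase i0 \ C).filter fun j => (3/20) ≤ p j).card = 1 ∨ ((Finset.univ.erase i0 \ C).filter fun j => (3/20) ≤ p j).card = 2 := by omega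
  rcases hc' with hlc | hlc | hlc | hlc <;> rcases hf' with hlf | hlf | hlf
  · exact cap6i3c0f0 n p i0 C hC hsum hn0 hrow hlo hp1 hcap hu hC2 hF2 hlc hlf
  · exact cap6i3c0f1 n p i0 C hC hsum hn0 hrow hlo hp1 hcap hu hC2 hF2 hlc hlf
  · exact cap6i3c0f2 n p i0 C hC hsum hn0 hrow hlo hp1 hcap hu hC2 hF2 hlc hlf
  · exact cap6i3c1f0 n p i0 C hC hsum hn0 hrow hlo hp1 hcap hu hC2 hF2 hlc hlf
  · exact cap6i3c1f1 n p i0 C hC hsum hn0 hrow hlo hp1 hcap hu hC2 hF2 hlc hlf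
  · exact cap6i3c1f2 n p i0 C hC hsum hn0 hrow hlo hp1 hcap hu hC2 hF2 hlc hlf
  · exact cap6i3c2f0 n p i0 C hC hsum hn0 hrow hlo hp1 hcap hu hC2 hF2 hlc hlf
  · exact cap6i3c2f1 n p i0 C hC hsum hn0 hrow hlo hp1 hcap hu hC2 hF2 hlc hlf
  · exact cap6i3c2f2 n p i0 C hC hsum hn0 hrow hlo hp1 hcap hu hC2 hF2 hlc hlf
  · exact cap6i3c3f0 n p i0 C hC hsum hn0 hrow hlo hp1 hcap hu hC2 hF2 hlc hlf
  · exact cap6i3c3f1 n p i0 C hC hsum hn0 hrow hlo hp1 hcap hu hC2 hF2 hlc hlf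
  · exact cap6i3c3f2 n p i0 C hC hsum hn0 hrow hlo hp1 hcap hu hC2 hF2 hlc hlf

lemma cap6i4c0f0FL {a p : ℝ} (ha0 : 0 ≤ a) (h : ∀ c, 0 ≤ c → c ≤ 1 → a ≤ al5 c * p + be5 c)
    (hp : (3/20) ≤ p) (hp1 : p ≤ 1) : a ^ 2 ≤ (1/2) + (1/10) * p := by
  exact row5 (c := 0) (P := (3/20)) (Q := 1) ha0 h (by norm_num) (by norm_num) hp hp1 (by norm_num [al5, be5]) (by norm_num [al5, be5])

lemma cap6i4c0f0FS {a p : ℝ} (ha0 : 0 ≤ a) (h : ∀ c, 0 ≤ c → c ≤ 1 → a ≤ al5 c * p + be5 c)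
    (hp : (33/1000) ≤ p) (hp1 : p ≤ (3/20)) : a ^ 2 ≤ (2621/62500) + (1/10) * p := by
  exact row5 (c := (7/20)) (P := (33/1000)) (Q := (3/20)) ha0 h (by norm_num) (by norm_num) hp hp1 (by norm_num [al5, be5]) (by norm_num [al5, be5])

lemma cap6i4c0f0CL {a p : ℝ} (ha0 : 0 ≤ a) (hc : a < (7189/25000)) (hp : (3/20) ≤ p) : a ^ 2 ≤ (1/2) + (1/10) * p :=
  cap_extend ha0 hc (by norm_num) (Pb := (3/20)) (by norm_num) hp

lemma cap6i4c0f0CS {a p : ℝ} (ha0 : 0 ≤ a) (h : ∀ c, 0 ≤ c → c ≤ 1 → a ≤ al5 c * p + be5 c)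
    (hp : (33/1000) ≤ p) (hp1 : p ≤ (3/20)) : a ^ 2 ≤ (2621/62500) + (1/10) * p := by
  exact row5 (c := (7/20)) (P := (33/1000)) (Q := (3/20)) ha0 h (by norm_num) (by norm_num) hp hp1 (by norm_num [al5, be5]) (by norm_num [al5, be5])

lemma cap6i4c0f0 (n p : ι → ℝ) (i0 : ι) (C : Finset ι) (hC : C ⊆ Finset.univ.erase i0)
    (hsum : ∑ i, p i = 1) (hn0 : ∀ j, 0 ≤ n j)
    (hrow : ∀ j, ∀ c, 0 ≤ c → c ≤ 1 → n j ≤ al5 c * p j + be5 c)
    (hlo : ∀ j, (33/1000) ≤ p j) (hp1 : ∀ j, p j ≤ 1) (hcap : ∀ j ∈ C, n j < (7189/25000))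
    (hu : n i0 ≤ (643/10000)) (hC2 : C.card = 3)
    (hF2 : (Finset.univ.erase i0 \ C).card = 2)
    (hlc : (C.filter fun j => (3/20) ≤ p j).card = 0)
    (hlf : ((Finset.univ.erase i0 \ C).filter fun j => (3/20) ≤ p j).card = 0) :
    ∑ i, n i ^ 2 < (179049/500000) := by
  have key := joint_sum n p i0 C hC hsum (pc := (3/20)) (ACL := (1/2)) (ACS := (2621/62500))
    (AL := (1/2)) (AS := (2621/62500)) (B := (1/10))
    (fun j hj hp => cap6i4c0f0CL (hn0 j) (hcap j hj) hp)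
    (fun j hj hp => cap6i4c0f0CS (hn0 j) (hrow j) (hlo j) hp.le)
    (fun j _ hp => cap6i4c0f0FL (hn0 j) (hrow j) hp (hp1 j))
    (fun j _ hp => cap6i4c0f0FS (hn0 j) (hrow j) (hlo j) hp.le)
  rw [card_filter_two C _ hC2 hlc, card_filter_two _ _ hF2 hlf, hlc, hlf] at key
  have h1 : n i0 ^ 2 ≤ (643/10000) ^ 2 := pow_le_pow_left₀ (hn0 i0) hu 2
  have h2 := hlo i0
  norm_num at key h1 h2 ⊢
  linarith

lemma cap6i4c0f1FL {a p : ℝ} (ha0 : 0 ≤ a) (h : ∀ c, 0 ≤ c → c ≤ 1 → a ≤ al5 c * p + be5 c)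
    (hp : (3/20) ≤ p) (hp1 : p ≤ 1) : a ^ 2 ≤ (39391/1000000) + (7/25) * p := by
  rcases le_total p (2073/5000) with h0 | h0
  · exact row5 (c := (1/5)) (P := (3/20)) (Q := (2073/5000)) ha0 h (by norm_num) (by norm_num) hp h0 (by norm_num [al5, be5]) (by norm_num [al5, be5])
  exact row5 (c := (1/20)) (P := (2073/5000)) (Q := 1) ha0 h (by norm_num) (by norm_num) h0 hp1 (by norm_num [al5, be5]) (by norm_num [al5, be5])

lemma cap6i4c0f1FS {a p : ℝ} (ha0 : 0 ≤ a) (h : ∀ c, 0 ≤ c → c ≤ 1 → a ≤ al5 c * p + be5 c)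
    (hp : (33/1000) ≤ p) (hp1 : p ≤ (3/20)) : a ^ 2 ≤ (7879/1000000) + (7/25) * p := by
  exact row5 (c := (17/40)) (P := (33/1000)) (Q := (3/20)) ha0 h (by norm_num) (by norm_num) hp hp1 (by norm_num [al5, be5]) (by norm_num [al5, be5])

lemma cap6i4c0f1CL {a p : ℝ} (ha0 : 0 ≤ a) (hc : a < (7189/25000)) (hp : (3/20) ≤ p) : a ^ 2 ≤ (1/2) + (7/25) * p :=
  cap_extend ha0 hc (by norm_num) (Pb := (3/20)) (by norm_num) hp

lemma cap6i4c0f1CS {a p : ℝ} (ha0 : 0 ≤ a) (h : ∀ c, 0 ≤ c → c ≤ 1 → a ≤ al5 c * p + be5 c)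
    (hp : (33/1000) ≤ p) (hp1 : p ≤ (3/20)) : a ^ 2 ≤ (7879/1000000) + (7/25) * p := by
  exact row5 (c := (17/40)) (P := (33/1000)) (Q := (3/20)) ha0 h (by norm_num) (by norm_num) hp hp1 (by norm_num [al5, be5]) (by norm_num [al5, be5])

lemma cap6i4c0f1 (n p : ι → ℝ) (i0 : ι) (C : Finset ι) (hC : C ⊆ Finset.univ.erase i0)
    (hsum : ∑ i, p i = 1) (hn0 : ∀ j, 0 ≤ n j)
    (hrow : ∀ j, ∀ c, 0 ≤ c → c ≤ 1 → n j ≤ al5 c * p j + be5 c)
    (hlo : ∀ j, (33/1000) ≤ p j) (hp1 : ∀ j, p j ≤ 1) (hcap : ∀ j ∈ C, n j < (7189/25000))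
    (hu : n i0 ≤ (643/10000)) (hC2 : C.card = 3)
    (hF2 : (Finset.univ.erase i0 \ C).card = 2)
    (hlc : (C.filter fun j => (3/20) ≤ p j).card = 0)
    (hlf : ((Finset.univ.erase i0 \ C).filter fun j => (3/20) ≤ p j).card = 1) :
    ∑ i, n i ^ 2 < (179049/500000) := by
  have key := joint_sum n p i0 C hC hsum (pc := (3/20)) (ACL := (1/2)) (ACS := (7879/1000000))
    (AL := (39391/1000000)) (AS := (7879/1000000)) (B := (7/25))
    (fun j hj hp => cap6i4c0f1CL (hn0 j) (hcap j hj) hp)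
    (fun j hj hp => cap6i4c0f1CS (hn0 j) (hrow j) (hlo j) hp.le)
    (fun j _ hp => cap6i4c0f1FL (hn0 j) (hrow j) hp (hp1 j))
    (fun j _ hp => cap6i4c0f1FS (hn0 j) (hrow j) (hlo j) hp.le)
  rw [card_filter_two C _ hC2 hlc, card_filter_two _ _ hF2 hlf, hlc, hlf] at key
  have h1 : n i0 ^ 2 ≤ (643/10000) ^ 2 := pow_le_pow_left₀ (hn0 i0) hu 2
  have h2 := hlo i0
  norm_num at key h1 h2 ⊢
  linarith

lemma cap6i4c0f2FL {a p : ℝ} (ha0 : 0 ≤ a) (h : ∀ c, 0 ≤ c → c ≤ 1 → a ≤ al5 c * p + be5 c)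
    (hp : (3/20) ≤ p) (hp1 : p ≤ 1) : a ^ 2 ≤ (89/25000) + (19/50) * p := by
  rcases le_total p (1479/5000) with h0 | h0
  · exact row5 (c := (13/40)) (P := (3/20)) (Q := (1479/5000)) ha0 h (by norm_num) (by norm_num) hp h0 (by norm_num [al5, be5]) (by norm_num [al5, be5])
  rcases le_total p (7697/20000) with h1 | h1
  · exact row5 (c := (1/4)) (P := (1479/5000)) (Q := (7697/20000)) ha0 h (by norm_num) (by norm_num) h0 h1 (by norm_num [al5, be5]) (by norm_num [al5, be5])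
  exact row5 (c := (3/40)) (P := (7697/20000)) (Q := 1) ha0 h (by norm_num) (by norm_num) h1 hp1 (by norm_num [al5, be5]) (by norm_num [al5, be5])

lemma cap6i4c0f2FS {a p : ℝ} (ha0 : 0 ≤ a) (h : ∀ c, 0 ≤ c → c ≤ 1 → a ≤ al5 c * p + be5 c)
    (hp : (33/1000) ≤ p) (hp1 : p ≤ (3/20)) : a ^ 2 ≤ (1/2) + (19/50) * p := by
  exact row5 (c := 0) (P := (33/1000)) (Q := (3/20)) ha0 h (by norm_num) (by norm_num) hp hp1 (by norm_num [al5, be5]) (by norm_num [al5, be5])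

lemma cap6i4c0f2CL {a p : ℝ} (ha0 : 0 ≤ a) (hc : a < (7189/25000)) (hp : (3/20) ≤ p) : a ^ 2 ≤ (1/2) + (19/50) * p :=
  cap_extend ha0 hc (by norm_num) (Pb := (3/20)) (by norm_num) hp

lemma cap6i4c0f2CS {a p : ℝ} (ha0 : 0 ≤ a) (h : ∀ c, 0 ≤ c → c ≤ 1 → a ≤ al5 c * p + be5 c)
    (hp : (33/1000) ≤ p) (hp1 : p ≤ (3/20)) : a ^ 2 ≤ (-4077/500000) + (19/50) * p := by
  rcases le_total p (323/2500) with h0 | h0
  · exact row5 (c := (27/40)) (P := (33/1000)) (Q := (323/2500)) ha0 h (by norm_num) (by norm_num) hp h0 (by norm_num [al5, be5]) (by norm_num [al5, be5])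
  exact row5 (c := (9/20)) (P := (323/2500)) (Q := (3/20)) ha0 h (by norm_num) (by norm_num) h0 hp1 (by norm_num [al5, be5]) (by norm_num [al5, be5])

lemma cap6i4c0f2 (n p : ι → ℝ) (i0 : ι) (C : Finset ι) (hC : C ⊆ Finset.univ.erase i0)
    (hsum : ∑ i, p i = 1) (hn0 : ∀ j, 0 ≤ n j)
    (hrow : ∀ j, ∀ c, 0 ≤ c → c ≤ 1 → n j ≤ al5 c * p j + be5 c)
    (hlo : ∀ j, (33/1000) ≤ p j) (hp1 : ∀ j, p j ≤ 1) (hcap : ∀ j ∈ C, n j < (7189/25000))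
    (hu : n i0 ≤ (643/10000)) (hC2 : C.card = 3)
    (hF2 : (Finset.univ.erase i0 \ C).card = 2)
    (hlc : (C.filter fun j => (3/20) ≤ p j).card = 0)
    (hlf : ((Finset.univ.erase i0 \ C).filter fun j => (3/20) ≤ p j).card = 2) :
    ∑ i, n i ^ 2 < (179049/500000) := by
  have key := joint_sum n p i0 C hC hsum (pc := (3/20)) (ACL := (1/2)) (ACS := (-4077/500000))
    (AL := (89/25000)) (AS := (1/2)) (B := (19/50))
    (fun j hj hp => cap6i4c0f2CL (hn0 j) (hcap j hj) hp)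
    (fun j hj hp => cap6i4c0f2CS (hn0 j) (hrow j) (hlo j) hp.le)
    (fun j _ hp => cap6i4c0f2FL (hn0 j) (hrow j) hp (hp1 j))
    (fun j _ hp => cap6i4c0f2FS (hn0 j) (hrow j) (hlo j) hp.le)
  rw [card_filter_two C _ hC2 hlc, card_filter_two _ _ hF2 hlf, hlc, hlf] at key
  have h1 : n i0 ^ 2 ≤ (643/10000) ^ 2 := pow_le_pow_left₀ (hn0 i0) hu 2
  have h2 := hlo i0
  norm_num at key h1 h2 ⊢
  linarith

lemma cap6i4c1f0FL {a p : ℝ} (ha0 : 0 ≤ a) (h : ∀ c, 0 ≤ c → c ≤ 1 → a ≤ al5 c * p + be5 c)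
    (hp : (3/20) ≤ p) (hp1 : p ≤ 1) : a ^ 2 ≤ (1/2) + (1/10) * p := by
  exact row5 (c := 0) (P := (3/20)) (Q := 1) ha0 h (by norm_num) (by norm_num) hp hp1 (by norm_num [al5, be5]) (by norm_num [al5, be5])

lemma cap6i4c1f0FS {a p : ℝ} (ha0 : 0 ≤ a) (h : ∀ c, 0 ≤ c → c ≤ 1 → a ≤ al5 c * p + be5 c)
    (hp : (33/1000) ≤ p) (hp1 : p ≤ (3/20)) : a ^ 2 ≤ (1957/50000) + (1/10) * p := by
  exact row5 (c := (3/8)) (P := (33/1000)) (Q := (3/20)) ha0 h (by norm_num) (by norm_num) hp hp1 (by norm_num [al5, be5]) (by norm_num [al5, be5])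

lemma cap6i4c1f0CLr {a p : ℝ} (ha0 : 0 ≤ a) (h : ∀ c, 0 ≤ c → c ≤ 1 → a ≤ al5 c * p + be5 c)
    (hp : (3/20) ≤ p) (hp1 : p ≤ (77959/500000)) : a ^ 2 ≤ (67099/1000000) + (1/10) * p := by
  exact row5 (c := (1/5)) (P := (3/20)) (Q := (77959/500000)) ha0 h (by norm_num) (by norm_num) hp hp1 (by norm_num [al5, be5]) (by norm_num [al5, be5])

lemma cap6i4c1f0CL {a p : ℝ} (ha0 : 0 ≤ a) (h : ∀ c, 0 ≤ c → c ≤ 1 → a ≤ al5 c * p + be5 c)
    (hc : a < (7189/25000)) (hp : (3/20) ≤ p) : a ^ 2 ≤ (67099/1000000) + (1/10) * p := by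
  rcases le_total p (77959/500000) with h1 | h1
  · exact cap6i4c1f0CLr ha0 h hp h1
  · exact cap_extend ha0 hc (by norm_num) (Pb := (77959/500000)) (by norm_num) h1

lemma cap6i4c1f0CS {a p : ℝ} (ha0 : 0 ≤ a) (h : ∀ c, 0 ≤ c → c ≤ 1 → a ≤ al5 c * p + be5 c)
    (hp : (33/1000) ≤ p) (hp1 : p ≤ (3/20)) : a ^ 2 ≤ (1957/50000) + (1/10) * p := by
  exact row5 (c := (3/8)) (P := (33/1000)) (Q := (3/20)) ha0 h (by norm_num) (by norm_num) hp hp1 (by norm_num [al5, be5]) (by norm_num [al5, be5])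

lemma cap6i4c1f0 (n p : ι → ℝ) (i0 : ι) (C : Finset ι) (hC : C ⊆ Finset.univ.erase i0)
    (hsum : ∑ i, p i = 1) (hn0 : ∀ j, 0 ≤ n j)
    (hrow : ∀ j, ∀ c, 0 ≤ c → c ≤ 1 → n j ≤ al5 c * p j + be5 c)
    (hlo : ∀ j, (33/1000) ≤ p j) (hp1 : ∀ j, p j ≤ 1) (hcap : ∀ j ∈ C, n j < (7189/25000))
    (hu : n i0 ≤ (643/10000)) (hC2 : C.card = 3)
    (hF2 : (Finset.univ.erase i0 \ C).card = 2)
    (hlc : (C.filter fun j => (3/20) ≤ p j).card = 1)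
    (hlf : ((Finset.univ.erase i0 \ C).filter fun j => (3/20) ≤ p j).card = 0) :
    ∑ i, n i ^ 2 < (179049/500000) := by
  have key := joint_sum n p i0 C hC hsum (pc := (3/20)) (ACL := (67099/1000000)) (ACS := (1957/50000))
    (AL := (1/2)) (AS := (1957/50000)) (B := (1/10))
    (fun j hj hp => cap6i4c1f0CL (hn0 j) (hrow j) (hcap j hj) hp)
    (fun j hj hp => cap6i4c1f0CS (hn0 j) (hrow j) (hlo j) hp.le)
    (fun j _ hp => cap6i4c1f0FL (hn0 j) (hrow j) hp (hp1 j))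
    (fun j _ hp => cap6i4c1f0FS (hn0 j) (hrow j) (hlo j) hp.le)
  rw [card_filter_two C _ hC2 hlc, card_filter_two _ _ hF2 hlf, hlc, hlf] at key
  have h1 : n i0 ^ 2 ≤ (643/10000) ^ 2 := pow_le_pow_left₀ (hn0 i0) hu 2
  have h2 := hlo i0
  norm_num at key h1 h2 ⊢
  linarith

lemma cap6i4c1f1FL {a p : ℝ} (ha0 : 0 ≤ a) (h : ∀ c, 0 ≤ c → c ≤ 1 → a ≤ al5 c * p + be5 c)
    (hp : (3/20) ≤ p) (hp1 : p ≤ 1) : a ^ 2 ≤ (10577/1000000) + (9/25) * p := by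
  rcases le_total p (1349/4000) with h0 | h0
  · exact row5 (c := (11/40)) (P := (3/20)) (Q := (1349/4000)) ha0 h (by norm_num) (by norm_num) hp h0 (by norm_num [al5, be5]) (by norm_num [al5, be5])
  rcases le_total p (991/1000) with h1 | h1
  · exact row5 (c := (7/40)) (P := (1349/4000)) (Q := (991/1000)) ha0 h (by norm_num) (by norm_num) h0 h1 (by norm_num [al5, be5]) (by norm_num [al5, be5])
  exact row5 (c := 0) (P := (991/1000)) (Q := 1) ha0 h (by norm_num) (by norm_num) h1 hp1 (by norm_num [al5, be5]) (by norm_num [al5, be5])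

lemma cap6i4c1f1FS {a p : ℝ} (ha0 : 0 ≤ a) (h : ∀ c, 0 ≤ c → c ≤ 1 → a ≤ al5 c * p + be5 c)
    (hp : (33/1000) ≤ p) (hp1 : p ≤ (3/20)) : a ^ 2 ≤ (-647/125000) + (9/25) * p := by
  exact row5 (c := (11/20)) (P := (33/1000)) (Q := (3/20)) ha0 h (by norm_num) (by norm_num) hp hp1 (by norm_num [al5, be5]) (by norm_num [al5, be5])

lemma cap6i4c1f1CLr {a p : ℝ} (ha0 : 0 ≤ a) (h : ∀ c, 0 ≤ c → c ≤ 1 → a ≤ al5 c * p + be5 c)
    (hp : (3/20) ≤ p) (hp1 : p ≤ (109611/500000)) : a ^ 2 ≤ (3771/1000000) + (9/25) * p := by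
  exact row5 (c := (7/20)) (P := (3/20)) (Q := (109611/500000)) ha0 h (by norm_num) (by norm_num) hp hp1 (by norm_num [al5, be5]) (by norm_num [al5, be5])

lemma cap6i4c1f1CL {a p : ℝ} (ha0 : 0 ≤ a) (h : ∀ c, 0 ≤ c → c ≤ 1 → a ≤ al5 c * p + be5 c)
    (hc : a < (7189/25000)) (hp : (3/20) ≤ p) : a ^ 2 ≤ (3771/1000000) + (9/25) * p := by
  rcases le_total p (109611/500000) with h1 | h1
  · exact cap6i4c1f1CLr ha0 h hp h1
  · exact cap_extend ha0 hc (by norm_num) (Pb := (109611/500000)) (by norm_num) h1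

lemma cap6i4c1f1CS {a p : ℝ} (ha0 : 0 ≤ a) (h : ∀ c, 0 ≤ c → c ≤ 1 → a ≤ al5 c * p + be5 c)
    (hp : (33/1000) ≤ p) (hp1 : p ≤ (3/20)) : a ^ 2 ≤ (-647/125000) + (9/25) * p := by
  exact row5 (c := (11/20)) (P := (33/1000)) (Q := (3/20)) ha0 h (by norm_num) (by norm_num) hp hp1 (by norm_num [al5, be5]) (by norm_num [al5, be5])

lemma cap6i4c1f1 (n p : ι → ℝ) (i0 : ι) (C : Finset ι) (hC : C ⊆ Finset.univ.erase i0)
    (hsum : ∑ i, p i = 1) (hn0 : ∀ j, 0 ≤ n j)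
    (hrow : ∀ j, ∀ c, 0 ≤ c → c ≤ 1 → n j ≤ al5 c * p j + be5 c)
    (hlo : ∀ j, (33/1000) ≤ p j) (hp1 : ∀ j, p j ≤ 1) (hcap : ∀ j ∈ C, n j < (7189/25000))
    (hu : n i0 ≤ (643/10000)) (hC2 : C.card = 3)
    (hF2 : (Finset.univ.erase i0 \ C).card = 2)
    (hlc : (C.filter fun j => (3/20) ≤ p j).card = 1)
    (hlf : ((Finset.univ.erase i0 \ C).filter fun j => (3/20) ≤ p j).card = 1) :
    ∑ i, n i ^ 2 < (179049/500000) := by
  have key := joint_sum n p i0 C hC hsum (pc := (3/20)) (ACL := (3771/1000000)) (ACS := (-647/125000))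
    (AL := (10577/1000000)) (AS := (-647/125000)) (B := (9/25))
    (fun j hj hp => cap6i4c1f1CL (hn0 j) (hrow j) (hcap j hj) hp)
    (fun j hj hp => cap6i4c1f1CS (hn0 j) (hrow j) (hlo j) hp.le)
    (fun j _ hp => cap6i4c1f1FL (hn0 j) (hrow j) hp (hp1 j))
    (fun j _ hp => cap6i4c1f1FS (hn0 j) (hrow j) (hlo j) hp.le)
  rw [card_filter_two C _ hC2 hlc, card_filter_two _ _ hF2 hlf, hlc, hlf] at key
  have h1 : n i0 ^ 2 ≤ (643/10000) ^ 2 := pow_le_pow_left₀ (hn0 i0) hu 2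
  have h2 := hlo i0
  norm_num at key h1 h2 ⊢
  linarith

lemma cap6i4c1f2FL {a p : ℝ} (ha0 : 0 ≤ a) (h : ∀ c, 0 ≤ c → c ≤ 1 → a ≤ al5 c * p + be5 c)
    (hp : (3/20) ≤ p) (hp1 : p ≤ 1) : a ^ 2 ≤ (2877/1000000) + (19/50) * p := by
  rcases le_total p (5759/20000) with h0 | h0
  · exact row5 (c := (13/40)) (P := (3/20)) (Q := (5759/20000)) ha0 h (by norm_num) (by norm_num) hp h0 (by norm_num [al5, be5]) (by norm_num [al5, be5])
  rcases le_total p (6217/20000) with h1 | h1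
  · exact row5 (c := (11/40)) (P := (5759/20000)) (Q := (6217/20000)) ha0 h (by norm_num) (by norm_num) h0 h1 (by norm_num [al5, be5]) (by norm_num [al5, be5])
  rcases le_total p (3559/10000) with h2 | h2
  · exact row5 (c := (1/4)) (P := (6217/20000)) (Q := (3559/10000)) ha0 h (by norm_num) (by norm_num) h1 h2 (by norm_num [al5, be5]) (by norm_num [al5, be5])
  exact row5 (c := (3/20)) (P := (3559/10000)) (Q := 1) ha0 h (by norm_num) (by norm_num) h2 hp1 (by norm_num [al5, be5]) (by norm_num [al5, be5])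

lemma cap6i4c1f2FS {a p : ℝ} (ha0 : 0 ≤ a) (h : ∀ c, 0 ≤ c → c ≤ 1 → a ≤ al5 c * p + be5 c)
    (hp : (33/1000) ≤ p) (hp1 : p ≤ (3/20)) : a ^ 2 ≤ (1/2) + (19/50) * p := by
  exact row5 (c := 0) (P := (33/1000)) (Q := (3/20)) ha0 h (by norm_num) (by norm_num) hp hp1 (by norm_num [al5, be5]) (by norm_num [al5, be5])

lemma cap6i4c1f2CLr {a p : ℝ} (ha0 : 0 ≤ a) (h : ∀ c, 0 ≤ c → c ≤ 1 → a ≤ al5 c * p + be5 c)
    (hp : (3/20) ≤ p) (hp1 : p ≤ (222897/1000000)) : a ^ 2 ≤ (-201/100000) + (19/50) * p := by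
  exact row5 (c := (3/8)) (P := (3/20)) (Q := (222897/1000000)) ha0 h (by norm_num) (by norm_num) hp hp1 (by norm_num [al5, be5]) (by norm_num [al5, be5])

lemma cap6i4c1f2CL {a p : ℝ} (ha0 : 0 ≤ a) (h : ∀ c, 0 ≤ c → c ≤ 1 → a ≤ al5 c * p + be5 c)
    (hc : a < (7189/25000)) (hp : (3/20) ≤ p) : a ^ 2 ≤ (-201/100000) + (19/50) * p := by
  rcases le_total p (222897/1000000) with h1 | h1
  · exact cap6i4c1f2CLr ha0 h hp h1
  · exact cap_extend ha0 hc (by norm_num) (Pb := (222897/1000000)) (by norm_num) h1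

lemma cap6i4c1f2CS {a p : ℝ} (ha0 : 0 ≤ a) (h : ∀ c, 0 ≤ c → c ≤ 1 → a ≤ al5 c * p + be5 c)
    (hp : (33/1000) ≤ p) (hp1 : p ≤ (3/20)) : a ^ 2 ≤ (-8837/1000000) + (19/50) * p := by
  rcases le_total p (1067/10000) with h0 | h0
  · exact row5 (c := (3/4)) (P := (33/1000)) (Q := (1067/10000)) ha0 h (by norm_num) (by norm_num) hp h0 (by norm_num [al5, be5]) (by norm_num [al5, be5])
  exact row5 (c := (19/40)) (P := (1067/10000)) (Q := (3/20)) ha0 h (by norm_num) (by norm_num) h0 hp1 (by norm_num [al5, be5]) (by norm_num [al5, be5])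

lemma cap6i4c1f2 (n p : ι → ℝ) (i0 : ι) (C : Finset ι) (hC : C ⊆ Finset.univ.erase i0)
    (hsum : ∑ i, p i = 1) (hn0 : ∀ j, 0 ≤ n j)
    (hrow : ∀ j, ∀ c, 0 ≤ c → c ≤ 1 → n j ≤ al5 c * p j + be5 c)
    (hlo : ∀ j, (33/1000) ≤ p j) (hp1 : ∀ j, p j ≤ 1) (hcap : ∀ j ∈ C, n j < (7189/25000))
    (hu : n i0 ≤ (643/10000)) (hC2 : C.card = 3)
    (hF2 : (Finset.univ.erase i0 \ C).card = 2)
    (hlc : (C.filter fun j => (3/20) ≤ p j).card = 1)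
    (hlf : ((Finset.univ.erase i0 \ C).filter fun j => (3/20) ≤ p j).card = 2) :
    ∑ i, n i ^ 2 < (179049/500000) := by
  have key := joint_sum n p i0 C hC hsum (pc := (3/20)) (ACL := (-201/100000)) (ACS := (-8837/1000000))
    (AL := (2877/1000000)) (AS := (1/2)) (B := (19/50))
    (fun j hj hp => cap6i4c1f2CL (hn0 j) (hrow j) (hcap j hj) hp)
    (fun j hj hp => cap6i4c1f2CS (hn0 j) (hrow j) (hlo j) hp.le)
    (fun j _ hp => cap6i4c1f2FL (hn0 j) (hrow j) hp (hp1 j))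
    (fun j _ hp => cap6i4c1f2FS (hn0 j) (hrow j) (hlo j) hp.le)
  rw [card_filter_two C _ hC2 hlc, card_filter_two _ _ hF2 hlf, hlc, hlf] at key
  have h1 : n i0 ^ 2 ≤ (643/10000) ^ 2 := pow_le_pow_left₀ (hn0 i0) hu 2
  have h2 := hlo i0
  norm_num at key h1 h2 ⊢
  linarith

lemma cap6i4c2f0FL {a p : ℝ} (ha0 : 0 ≤ a) (h : ∀ c, 0 ≤ c → c ≤ 1 → a ≤ al5 c * p + be5 c)
    (hp : (3/20) ≤ p) (hp1 : p ≤ 1) : a ^ 2 ≤ (1/2) + (1/10) * p := by
  exact row5 (c := 0) (P := (3/20)) (Q := 1) ha0 h (by norm_num) (by norm_num) hp hp1 (by norm_num [al5, be5]) (by norm_num [al5, be5])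

lemma cap6i4c2f0FS {a p : ℝ} (ha0 : 0 ≤ a) (h : ∀ c, 0 ≤ c → c ≤ 1 → a ≤ al5 c * p + be5 c)
    (hp : (33/1000) ≤ p) (hp1 : p ≤ (3/20)) : a ^ 2 ≤ (4543/125000) + (1/10) * p := by
  exact row5 (c := (2/5)) (P := (33/1000)) (Q := (3/20)) ha0 h (by norm_num) (by norm_num) hp hp1 (by norm_num [al5, be5]) (by norm_num [al5, be5])

lemma cap6i4c2f0CLr {a p : ℝ} (ha0 : 0 ≤ a) (h : ∀ c, 0 ≤ c → c ≤ 1 → a ≤ al5 c * p + be5 c)
    (hp : (3/20) ≤ p) (hp1 : p ≤ (91939/500000)) : a ^ 2 ≤ (64303/1000000) + (1/10) * p := by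
  exact row5 (c := (1/4)) (P := (3/20)) (Q := (91939/500000)) ha0 h (by norm_num) (by norm_num) hp hp1 (by norm_num [al5, be5]) (by norm_num [al5, be5])

lemma cap6i4c2f0CL {a p : ℝ} (ha0 : 0 ≤ a) (h : ∀ c, 0 ≤ c → c ≤ 1 → a ≤ al5 c * p + be5 c)
    (hc : a < (7189/25000)) (hp : (3/20) ≤ p) : a ^ 2 ≤ (64303/1000000) + (1/10) * p := by
  rcases le_total p (91939/500000) with h1 | h1
  · exact cap6i4c2f0CLr ha0 h hp h1
  · exact cap_extend ha0 hc (by norm_num) (Pb := (91939/500000)) (by norm_num) h1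

lemma cap6i4c2f0CS {a p : ℝ} (ha0 : 0 ≤ a) (h : ∀ c, 0 ≤ c → c ≤ 1 → a ≤ al5 c * p + be5 c)
    (hp : (33/1000) ≤ p) (hp1 : p ≤ (3/20)) : a ^ 2 ≤ (4543/125000) + (1/10) * p := by
  exact row5 (c := (2/5)) (P := (33/1000)) (Q := (3/20)) ha0 h (by norm_num) (by norm_num) hp hp1 (by norm_num [al5, be5]) (by norm_num [al5, be5])

lemma cap6i4c2f0 (n p : ι → ℝ) (i0 : ι) (C : Finset ι) (hC : C ⊆ Finset.univ.erase i0)
    (hsum : ∑ i, p i = 1) (hn0 : ∀ j, 0 ≤ n j)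
    (hrow : ∀ j, ∀ c, 0 ≤ c → c ≤ 1 → n j ≤ al5 c * p j + be5 c)
    (hlo : ∀ j, (33/1000) ≤ p j) (hp1 : ∀ j, p j ≤ 1) (hcap : ∀ j ∈ C, n j < (7189/25000))
    (hu : n i0 ≤ (643/10000)) (hC2 : C.card = 3)
    (hF2 : (Finset.univ.erase i0 \ C).card = 2)
    (hlc : (C.filter fun j => (3/20) ≤ p j).card = 2)
    (hlf : ((Finset.univ.erase i0 \ C).filter fun j => (3/20) ≤ p j).card = 0) :
    ∑ i, n i ^ 2 < (179049/500000) := by
  have key := joint_sum n p i0 C hC hsum (pc := (3/20)) (ACL := (64303/1000000)) (ACS := (4543/125000))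
    (AL := (1/2)) (AS := (4543/125000)) (B := (1/10))
    (fun j hj hp => cap6i4c2f0CL (hn0 j) (hrow j) (hcap j hj) hp)
    (fun j hj hp => cap6i4c2f0CS (hn0 j) (hrow j) (hlo j) hp.le)
    (fun j _ hp => cap6i4c2f0FL (hn0 j) (hrow j) hp (hp1 j))
    (fun j _ hp => cap6i4c2f0FS (hn0 j) (hrow j) (hlo j) hp.le)
  rw [card_filter_two C _ hC2 hlc, card_filter_two _ _ hF2 hlf, hlc, hlf] at key
  have h1 : n i0 ^ 2 ≤ (643/10000) ^ 2 := pow_le_pow_left₀ (hn0 i0) hu 2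
  have h2 := hlo i0
  norm_num at key h1 h2 ⊢
  linarith

lemma cap6i4c2f1FL {a p : ℝ} (ha0 : 0 ≤ a) (h : ∀ c, 0 ≤ c → c ≤ 1 → a ≤ al5 c * p + be5 c)
    (hp : (3/20) ≤ p) (hp1 : p ≤ 1) : a ^ 2 ≤ (1683/500000) + (19/50) * p := by
  rcases le_total p (5873/20000) with h0 | h0
  · exact row5 (c := (13/40)) (P := (3/20)) (Q := (5873/20000)) ha0 h (by norm_num) (by norm_num) hp h0 (by norm_num [al5, be5]) (by norm_num [al5, be5])
  rcases le_total p (7567/20000) with h1 | h1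
  · exact row5 (c := (1/4)) (P := (5873/20000)) (Q := (7567/20000)) ha0 h (by norm_num) (by norm_num) h0 h1 (by norm_num [al5, be5]) (by norm_num [al5, be5])
  exact row5 (c := (1/10)) (P := (7567/20000)) (Q := 1) ha0 h (by norm_num) (by norm_num) h1 hp1 (by norm_num [al5, be5]) (by norm_num [al5, be5])

lemma cap6i4c2f1FS {a p : ℝ} (ha0 : 0 ≤ a) (h : ∀ c, 0 ≤ c → c ≤ 1 → a ≤ al5 c * p + be5 c)
    (hp : (33/1000) ≤ p) (hp1 : p ≤ (3/20)) : a ^ 2 ≤ (-2087/250000) + (19/50) * p := by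
  rcases le_total p (641/5000) with h0 | h0
  · exact row5 (c := (27/40)) (P := (33/1000)) (Q := (641/5000)) ha0 h (by norm_num) (by norm_num) hp h0 (by norm_num [al5, be5]) (by norm_num [al5, be5])
  exact row5 (c := (9/20)) (P := (641/5000)) (Q := (3/20)) ha0 h (by norm_num) (by norm_num) h0 hp1 (by norm_num [al5, be5]) (by norm_num [al5, be5])

lemma cap6i4c2f1CLr {a p : ℝ} (ha0 : 0 ≤ a) (h : ∀ c, 0 ≤ c → c ≤ 1 → a ≤ al5 c * p + be5 c)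
    (hp : (3/20) ≤ p) (hp1 : p ≤ (22161/100000)) : a ^ 2 ≤ (-1521/1000000) + (19/50) * p := by
  exact row5 (c := (7/20)) (P := (3/20)) (Q := (22161/100000)) ha0 h (by norm_num) (by norm_num) hp hp1 (by norm_num [al5, be5]) (by norm_num [al5, be5])

lemma cap6i4c2f1CL {a p : ℝ} (ha0 : 0 ≤ a) (h : ∀ c, 0 ≤ c → c ≤ 1 → a ≤ al5 c * p + be5 c)
    (hc : a < (7189/25000)) (hp : (3/20) ≤ p) : a ^ 2 ≤ (-1521/1000000) + (19/50) * p := by
  rcases le_total p (22161/100000) with h1 | h1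
  · exact cap6i4c2f1CLr ha0 h hp h1
  · exact cap_extend ha0 hc (by norm_num) (Pb := (22161/100000)) (by norm_num) h1

lemma cap6i4c2f1CS {a p : ℝ} (ha0 : 0 ≤ a) (h : ∀ c, 0 ≤ c → c ≤ 1 → a ≤ al5 c * p + be5 c)
    (hp : (33/1000) ≤ p) (hp1 : p ≤ (3/20)) : a ^ 2 ≤ (-2087/250000) + (19/50) * p := by
  rcases le_total p (641/5000) with h0 | h0
  · exact row5 (c := (27/40)) (P := (33/1000)) (Q := (641/5000)) ha0 h (by norm_num) (by norm_num) hp h0 (by norm_num [al5, be5]) (by norm_num [al5, be5])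
  exact row5 (c := (9/20)) (P := (641/5000)) (Q := (3/20)) ha0 h (by norm_num) (by norm_num) h0 hp1 (by norm_num [al5, be5]) (by norm_num [al5, be5])

lemma cap6i4c2f1 (n p : ι → ℝ) (i0 : ι) (C : Finset ι) (hC : C ⊆ Finset.univ.erase i0)
    (hsum : ∑ i, p i = 1) (hn0 : ∀ j, 0 ≤ n j)
    (hrow : ∀ j, ∀ c, 0 ≤ c → c ≤ 1 → n j ≤ al5 c * p j + be5 c)
    (hlo : ∀ j, (33/1000) ≤ p j) (hp1 : ∀ j, p j ≤ 1) (hcap : ∀ j ∈ C, n j < (7189/25000))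
    (hu : n i0 ≤ (643/10000)) (hC2 : C.card = 3)
    (hF2 : (Finset.univ.erase i0 \ C).card = 2)
    (hlc : (C.filter fun j => (3/20) ≤ p j).card = 2)
    (hlf : ((Finset.univ.erase i0 \ C).filter fun j => (3/20) ≤ p j).card = 1) :
    ∑ i, n i ^ 2 < (179049/500000) := by
  have key := joint_sum n p i0 C hC hsum (pc := (3/20)) (ACL := (-1521/1000000)) (ACS := (-2087/250000))
    (AL := (1683/500000)) (AS := (-2087/250000)) (B := (19/50))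
    (fun j hj hp => cap6i4c2f1CL (hn0 j) (hrow j) (hcap j hj) hp)
    (fun j hj hp => cap6i4c2f1CS (hn0 j) (hrow j) (hlo j) hp.le)
    (fun j _ hp => cap6i4c2f1FL (hn0 j) (hrow j) hp (hp1 j))
    (fun j _ hp => cap6i4c2f1FS (hn0 j) (hrow j) (hlo j) hp.le)
  rw [card_filter_two C _ hC2 hlc, card_filter_two _ _ hF2 hlf, hlc, hlf] at key
  have h1 : n i0 ^ 2 ≤ (643/10000) ^ 2 := pow_le_pow_left₀ (hn0 i0) hu 2
  have h2 := hlo i0
  norm_num at key h1 h2 ⊢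
  linarith

lemma cap6i4c2f2FL {a p : ℝ} (ha0 : 0 ≤ a) (h : ∀ c, 0 ≤ c → c ≤ 1 → a ≤ al5 c * p + be5 c)
    (hp : (3/20) ≤ p) (hp1 : p ≤ 1) : a ^ 2 ≤ (-9873/500000) + (23/50) * p := by
  rcases le_total p (1043/5000) with h0 | h0
  · exact row5 (c := (9/20)) (P := (3/20)) (Q := (1043/5000)) ha0 h (by norm_num) (by norm_num) hp h0 (by norm_num [al5, be5]) (by norm_num [al5, be5])
  rcases le_total p (4811/20000) with h1 | h1
  · exact row5 (c := (3/8)) (P := (1043/5000)) (Q := (4811/20000)) ha0 h (by norm_num) (by norm_num) h0 h1 (by norm_num [al5, be5]) (by norm_num [al5, be5])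
  rcases le_total p (1047/4000) with h2 | h2
  · exact row5 (c := (7/20)) (P := (4811/20000)) (Q := (1047/4000)) ha0 h (by norm_num) (by norm_num) h1 h2 (by norm_num [al5, be5]) (by norm_num [al5, be5])
  rcases le_total p (157/500) with h3 | h3
  · exact row5 (c := (13/40)) (P := (1047/4000)) (Q := (157/500)) ha0 h (by norm_num) (by norm_num) h2 h3 (by norm_num [al5, be5]) (by norm_num [al5, be5])
  exact row5 (c := (1/5)) (P := (157/500)) (Q := 1) ha0 h (by norm_num) (by norm_num) h3 hp1 (by norm_num [al5, be5]) (by norm_num [al5, be5])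

lemma cap6i4c2f2FS {a p : ℝ} (ha0 : 0 ≤ a) (h : ∀ c, 0 ≤ c → c ≤ 1 → a ≤ al5 c * p + be5 c)
    (hp : (33/1000) ≤ p) (hp1 : p ≤ (3/20)) : a ^ 2 ≤ (1/2) + (23/50) * p := by
  exact row5 (c := 0) (P := (33/1000)) (Q := (3/20)) ha0 h (by norm_num) (by norm_num) hp hp1 (by norm_num [al5, be5]) (by norm_num [al5, be5])

lemma cap6i4c2f2CLr {a p : ℝ} (ha0 : 0 ≤ a) (h : ∀ c, 0 ≤ c → c ≤ 1 → a ≤ al5 c * p + be5 c)
    (hp : (3/20) ≤ p) (hp1 : p ≤ (2231/10000)) : a ^ 2 ≤ (-3987/200000) + (23/50) * p := by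
  rcases le_total p (823/4000) with h0 | h0
  · exact row5 (c := (9/20)) (P := (3/20)) (Q := (823/4000)) ha0 h (by norm_num) (by norm_num) hp h0 (by norm_num [al5, be5]) (by norm_num [al5, be5])
  exact row5 (c := (2/5)) (P := (823/4000)) (Q := (2231/10000)) ha0 h (by norm_num) (by norm_num) h0 hp1 (by norm_num [al5, be5]) (by norm_num [al5, be5])

lemma cap6i4c2f2CL {a p : ℝ} (ha0 : 0 ≤ a) (h : ∀ c, 0 ≤ c → c ≤ 1 → a ≤ al5 c * p + be5 c)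
    (hc : a < (7189/25000)) (hp : (3/20) ≤ p) : a ^ 2 ≤ (-3987/200000) + (23/50) * p := by
  rcases le_total p (2231/10000) with h1 | h1
  · exact cap6i4c2f2CLr ha0 h hp h1
  · exact cap_extend ha0 hc (by norm_num) (Pb := (2231/10000)) (by norm_num) h1

lemma cap6i4c2f2CS {a p : ℝ} (ha0 : 0 ≤ a) (h : ∀ c, 0 ≤ c → c ≤ 1 → a ≤ al5 c * p + be5 c)
    (hp : (33/1000) ≤ p) (hp1 : p ≤ (3/20)) : a ^ 2 ≤ (-361/31250) + (23/50) * p := by
  rcases le_total p (517/4000) with h0 | h0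
  · exact row5 (c := (31/40)) (P := (33/1000)) (Q := (517/4000)) ha0 h (by norm_num) (by norm_num) hp h0 (by norm_num [al5, be5]) (by norm_num [al5, be5])
  exact row5 (c := (7/20)) (P := (517/4000)) (Q := (3/20)) ha0 h (by norm_num) (by norm_num) h0 hp1 (by norm_num [al5, be5]) (by norm_num [al5, be5])

lemma cap6i4c2f2 (n p : ι → ℝ) (i0 : ι) (C : Finset ι) (hC : C ⊆ Finset.univ.erase i0)
    (hsum : ∑ i, p i = 1) (hn0 : ∀ j, 0 ≤ n j)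
    (hrow : ∀ j, ∀ c, 0 ≤ c → c ≤ 1 → n j ≤ al5 c * p j + be5 c)
    (hlo : ∀ j, (33/1000) ≤ p j) (hp1 : ∀ j, p j ≤ 1) (hcap : ∀ j ∈ C, n j < (7189/25000))
    (hu : n i0 ≤ (643/10000)) (hC2 : C.card = 3)
    (hF2 : (Finset.univ.erase i0 \ C).card = 2)
    (hlc : (C.filter fun j => (3/20) ≤ p j).card = 2)
    (hlf : ((Finset.univ.erase i0 \ C).filter fun j => (3/20) ≤ p j).card = 2) :
    ∑ i, n i ^ 2 < (179049/500000) := by
  have key := joint_sum n p i0 C hC hsum (pc := (3/20)) (ACL := (-3987/200000)) (ACS := (-361/31250))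
    (AL := (-9873/500000)) (AS := (1/2)) (B := (23/50))
    (fun j hj hp => cap6i4c2f2CL (hn0 j) (hrow j) (hcap j hj) hp)
    (fun j hj hp => cap6i4c2f2CS (hn0 j) (hrow j) (hlo j) hp.le)
    (fun j _ hp => cap6i4c2f2FL (hn0 j) (hrow j) hp (hp1 j))
    (fun j _ hp => cap6i4c2f2FS (hn0 j) (hrow j) (hlo j) hp.le)
  rw [card_filter_two C _ hC2 hlc, card_filter_two _ _ hF2 hlf, hlc, hlf] at key
  have h1 : n i0 ^ 2 ≤ (643/10000) ^ 2 := pow_le_pow_left₀ (hn0 i0) hu 2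
  have h2 := hlo i0
  norm_num at key h1 h2 ⊢
  linarith

lemma cap6i4c3f0FL {a p : ℝ} (ha0 : 0 ≤ a) (h : ∀ c, 0 ≤ c → c ≤ 1 → a ≤ al5 c * p + be5 c)
    (hp : (3/20) ≤ p) (hp1 : p ≤ 1) : a ^ 2 ≤ (1/2) + (9/25) * p := by
  exact row5 (c := 0) (P := (3/20)) (Q := 1) ha0 h (by norm_num) (by norm_num) hp hp1 (by norm_num [al5, be5]) (by norm_num [al5, be5])

lemma cap6i4c3f0FS {a p : ℝ} (ha0 : 0 ≤ a) (h : ∀ c, 0 ≤ c → c ≤ 1 → a ≤ al5 c * p + be5 c)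
    (hp : (33/1000) ≤ p) (hp1 : p ≤ (3/20)) : a ^ 2 ≤ (-539/100000) + (9/25) * p := by
  exact row5 (c := (23/40)) (P := (33/1000)) (Q := (3/20)) ha0 h (by norm_num) (by norm_num) hp hp1 (by norm_num [al5, be5]) (by norm_num [al5, be5])

lemma cap6i4c3f0CLr {a p : ℝ} (ha0 : 0 ≤ a) (h : ∀ c, 0 ≤ c → c ≤ 1 → a ≤ al5 c * p + be5 c)
    (hp : (3/20) ≤ p) (hp1 : p ≤ (27477/125000)) : a ^ 2 ≤ (3557/1000000) + (9/25) * p := by
  exact row5 (c := (7/20)) (P := (3/20)) (Q := (27477/125000)) ha0 h (by norm_num) (by norm_num) hp hp1 (by norm_num [al5, be5]) (by norm_num [al5, be5])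

lemma cap6i4c3f0CL {a p : ℝ} (ha0 : 0 ≤ a) (h : ∀ c, 0 ≤ c → c ≤ 1 → a ≤ al5 c * p + be5 c)
    (hc : a < (7189/25000)) (hp : (3/20) ≤ p) : a ^ 2 ≤ (3557/1000000) + (9/25) * p := by
  rcases le_total p (27477/125000) with h1 | h1
  · exact cap6i4c3f0CLr ha0 h hp h1
  · exact cap_extend ha0 hc (by norm_num) (Pb := (27477/125000)) (by norm_num) h1

lemma cap6i4c3f0CS {a p : ℝ} (ha0 : 0 ≤ a) (hc : a < (7189/25000)) (hp : (33/1000) ≤ p) : a ^ 2 ≤ (1/2) + (9/25) * p :=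
  cap_extend ha0 hc (by norm_num) (Pb := (33/1000)) (by norm_num) hp

lemma cap6i4c3f0 (n p : ι → ℝ) (i0 : ι) (C : Finset ι) (hC : C ⊆ Finset.univ.erase i0)
    (hsum : ∑ i, p i = 1) (hn0 : ∀ j, 0 ≤ n j)
    (hrow : ∀ j, ∀ c, 0 ≤ c → c ≤ 1 → n j ≤ al5 c * p j + be5 c)
    (hlo : ∀ j, (33/1000) ≤ p j) (hp1 : ∀ j, p j ≤ 1) (hcap : ∀ j ∈ C, n j < (7189/25000))
    (hu : n i0 ≤ (643/10000)) (hC2 : C.card = 3)
    (hF2 : (Finset.univ.erase i0 \ C).card = 2)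
    (hlc : (C.filter fun j => (3/20) ≤ p j).card = 3)
    (hlf : ((Finset.univ.erase i0 \ C).filter fun j => (3/20) ≤ p j).card = 0) :
    ∑ i, n i ^ 2 < (179049/500000) := by
  have key := joint_sum n p i0 C hC hsum (pc := (3/20)) (ACL := (3557/1000000)) (ACS := (1/2))
    (AL := (1/2)) (AS := (-539/100000)) (B := (9/25))
    (fun j hj hp => cap6i4c3f0CL (hn0 j) (hrow j) (hcap j hj) hp)
    (fun j hj hp => cap6i4c3f0CS (hn0 j) (hcap j hj) (hlo j))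
    (fun j _ hp => cap6i4c3f0FL (hn0 j) (hrow j) hp (hp1 j))
    (fun j _ hp => cap6i4c3f0FS (hn0 j) (hrow j) (hlo j) hp.le)
  rw [card_filter_two C _ hC2 hlc, card_filter_two _ _ hF2 hlf, hlc, hlf] at key
  have h1 : n i0 ^ 2 ≤ (643/10000) ^ 2 := pow_le_pow_left₀ (hn0 i0) hu 2
  have h2 := hlo i0
  norm_num at key h1 h2 ⊢
  linarith

lemma cap6i4c3f1FL {a p : ℝ} (ha0 : 0 ≤ a) (h : ∀ c, 0 ≤ c → c ≤ 1 → a ≤ al5 c * p + be5 c)
    (hp : (3/20) ≤ p) (hp1 : p ≤ 1) : a ^ 2 ≤ (-14597/1000000) + (11/25) * p := by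
  rcases le_total p (4757/20000) with h0 | h0
  · exact row5 (c := (2/5)) (P := (3/20)) (Q := (4757/20000)) ha0 h (by norm_num) (by norm_num) hp h0 (by norm_num [al5, be5]) (by norm_num [al5, be5])
  rcases le_total p (5179/20000) with h1 | h1
  · exact row5 (c := (7/20)) (P := (4757/20000)) (Q := (5179/20000)) ha0 h (by norm_num) (by norm_num) h0 h1 (by norm_num [al5, be5]) (by norm_num [al5, be5])
  rcases le_total p (5547/20000) with h2 | h2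
  · exact row5 (c := (13/40)) (P := (5179/20000)) (Q := (5547/20000)) ha0 h (by norm_num) (by norm_num) h1 h2 (by norm_num [al5, be5]) (by norm_num [al5, be5])
  rcases le_total p (421/1250) with h3 | h3
  · exact row5 (c := (3/10)) (P := (5547/20000)) (Q := (421/1250)) ha0 h (by norm_num) (by norm_num) h2 h3 (by norm_num [al5, be5]) (by norm_num [al5, be5])
  exact row5 (c := (3/20)) (P := (421/1250)) (Q := 1) ha0 h (by norm_num) (by norm_num) h3 hp1 (by norm_num [al5, be5]) (by norm_num [al5, be5])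

lemma cap6i4c3f1FS {a p : ℝ} (ha0 : 0 ≤ a) (h : ∀ c, 0 ≤ c → c ≤ 1 → a ≤ al5 c * p + be5 c)
    (hp : (33/1000) ≤ p) (hp1 : p ≤ (3/20)) : a ^ 2 ≤ (-2171/200000) + (11/25) * p := by
  rcases le_total p (2601/20000) with h0 | h0
  · exact row5 (c := (3/4)) (P := (33/1000)) (Q := (2601/20000)) ha0 h (by norm_num) (by norm_num) hp h0 (by norm_num [al5, be5]) (by norm_num [al5, be5])
  exact row5 (c := (3/8)) (P := (2601/20000)) (Q := (3/20)) ha0 h (by norm_num) (by norm_num) h0 hp1 (by norm_num [al5, be5]) (by norm_num [al5, be5])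

lemma cap6i4c3f1CLr {a p : ℝ} (ha0 : 0 ≤ a) (h : ∀ c, 0 ≤ c → c ≤ 1 → a ≤ al5 c * p + be5 c)
    (hp : (3/20) ≤ p) (hp1 : p ≤ (111507/500000)) : a ^ 2 ≤ (-3087/200000) + (11/25) * p := by
  rcases le_total p (1089/5000) with h0 | h0
  · exact row5 (c := (17/40)) (P := (3/20)) (Q := (1089/5000)) ha0 h (by norm_num) (by norm_num) hp h0 (by norm_num [al5, be5]) (by norm_num [al5, be5])
  exact row5 (c := (3/8)) (P := (1089/5000)) (Q := (111507/500000)) ha0 h (by norm_num) (by norm_num) h0 hp1 (by norm_num [al5, be5]) (by norm_num [al5, be5])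

lemma cap6i4c3f1CL {a p : ℝ} (ha0 : 0 ≤ a) (h : ∀ c, 0 ≤ c → c ≤ 1 → a ≤ al5 c * p + be5 c)
    (hc : a < (7189/25000)) (hp : (3/20) ≤ p) : a ^ 2 ≤ (-3087/200000) + (11/25) * p := by
  rcases le_total p (111507/500000) with h1 | h1
  · exact cap6i4c3f1CLr ha0 h hp h1
  · exact cap_extend ha0 hc (by norm_num) (Pb := (111507/500000)) (by norm_num) h1

lemma cap6i4c3f1CS {a p : ℝ} (ha0 : 0 ≤ a) (hc : a < (7189/25000)) (hp : (33/1000) ≤ p) : a ^ 2 ≤ (1/2) + (11/25) * p :=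
  cap_extend ha0 hc (by norm_num) (Pb := (33/1000)) (by norm_num) hp

lemma cap6i4c3f1 (n p : ι → ℝ) (i0 : ι) (C : Finset ι) (hC : C ⊆ Finset.univ.erase i0)
    (hsum : ∑ i, p i = 1) (hn0 : ∀ j, 0 ≤ n j)
    (hrow : ∀ j, ∀ c, 0 ≤ c → c ≤ 1 → n j ≤ al5 c * p j + be5 c)
    (hlo : ∀ j, (33/1000) ≤ p j) (hp1 : ∀ j, p j ≤ 1) (hcap : ∀ j ∈ C, n j < (7189/25000))
    (hu : n i0 ≤ (643/10000)) (hC2 : C.card = 3)
    (hF2 : (Finset.univ.erase i0 \ C).card = 2)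
    (hlc : (C.filter fun j => (3/20) ≤ p j).card = 3)
    (hlf : ((Finset.univ.erase i0 \ C).filter fun j => (3/20) ≤ p j).card = 1) :
    ∑ i, n i ^ 2 < (179049/500000) := by
  have key := joint_sum n p i0 C hC hsum (pc := (3/20)) (ACL := (-3087/200000)) (ACS := (1/2))
    (AL := (-14597/1000000)) (AS := (-2171/200000)) (B := (11/25))
    (fun j hj hp => cap6i4c3f1CL (hn0 j) (hrow j) (hcap j hj) hp)
    (fun j hj hp => cap6i4c3f1CS (hn0 j) (hcap j hj) (hlo j))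
    (fun j _ hp => cap6i4c3f1FL (hn0 j) (hrow j) hp (hp1 j))
    (fun j _ hp => cap6i4c3f1FS (hn0 j) (hrow j) (hlo j) hp.le)
  rw [card_filter_two C _ hC2 hlc, card_filter_two _ _ hF2 hlf, hlc, hlf] at key
  have h1 : n i0 ^ 2 ≤ (643/10000) ^ 2 := pow_le_pow_left₀ (hn0 i0) hu 2
  have h2 := hlo i0
  norm_num at key h1 h2 ⊢
  linarith

lemma cap6i4c3f2FL {a p : ℝ} (ha0 : 0 ≤ a) (h : ∀ c, 0 ≤ c → c ≤ 1 → a ≤ al5 c * p + be5 c)
    (hp : (3/20) ≤ p) (hp1 : p ≤ 1) : a ^ 2 ≤ (-4643/200000) + (12/25) * p := by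
  rcases le_total p (551/2500) with h0 | h0
  · exact row5 (c := (9/20)) (P := (3/20)) (Q := (551/2500)) ha0 h (by norm_num) (by norm_num) hp h0 (by norm_num [al5, be5]) (by norm_num [al5, be5])
  rcases le_total p (3253/10000) with h1 | h1
  · exact row5 (c := (7/20)) (P := (551/2500)) (Q := (3253/10000)) ha0 h (by norm_num) (by norm_num) h0 h1 (by norm_num [al5, be5]) (by norm_num [al5, be5])
  exact row5 (c := (3/20)) (P := (3253/10000)) (Q := 1) ha0 h (by norm_num) (by norm_num) h1 hp1 (by norm_num [al5, be5]) (by norm_num [al5, be5])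

lemma cap6i4c3f2FS {a p : ℝ} (ha0 : 0 ≤ a) (h : ∀ c, 0 ≤ c → c ≤ 1 → a ≤ al5 c * p + be5 c)
    (hp : (33/1000) ≤ p) (hp1 : p ≤ (3/20)) : a ^ 2 ≤ (1/2) + (12/25) * p := by
  exact row5 (c := 0) (P := (33/1000)) (Q := (3/20)) ha0 h (by norm_num) (by norm_num) hp hp1 (by norm_num [al5, be5]) (by norm_num [al5, be5])

lemma cap6i4c3f2CLr {a p : ℝ} (ha0 : 0 ≤ a) (h : ∀ c, 0 ≤ c → c ≤ 1 → a ≤ al5 c * p + be5 c)
    (hp : (3/20) ≤ p) (hp1 : p ≤ (220637/1000000)) : a ^ 2 ≤ (-4643/200000) + (12/25) * p := by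
  rcases le_total p (551/2500) with h0 | h0
  · exact row5 (c := (9/20)) (P := (3/20)) (Q := (551/2500)) ha0 h (by norm_num) (by norm_num) hp h0 (by norm_num [al5, be5]) (by norm_num [al5, be5])
  exact row5 (c := (7/20)) (P := (551/2500)) (Q := (220637/1000000)) ha0 h (by norm_num) (by norm_num) h0 hp1 (by norm_num [al5, be5]) (by norm_num [al5, be5])

lemma cap6i4c3f2CL {a p : ℝ} (ha0 : 0 ≤ a) (h : ∀ c, 0 ≤ c → c ≤ 1 → a ≤ al5 c * p + be5 c)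
    (hc : a < (7189/25000)) (hp : (3/20) ≤ p) : a ^ 2 ≤ (-4643/200000) + (12/25) * p := by
  rcases le_total p (220637/1000000) with h1 | h1
  · exact cap6i4c3f2CLr ha0 h hp h1
  · exact cap_extend ha0 hc (by norm_num) (Pb := (220637/1000000)) (by norm_num) h1

lemma cap6i4c3f2CS {a p : ℝ} (ha0 : 0 ≤ a) (hc : a < (7189/25000)) (hp : (33/1000) ≤ p) : a ^ 2 ≤ (1/2) + (12/25) * p :=
  cap_extend ha0 hc (by norm_num) (Pb := (33/1000)) (by norm_num) hp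

lemma cap6i4c3f2 (n p : ι → ℝ) (i0 : ι) (C : Finset ι) (hC : C ⊆ Finset.univ.erase i0)
    (hsum : ∑ i, p i = 1) (hn0 : ∀ j, 0 ≤ n j)
    (hrow : ∀ j, ∀ c, 0 ≤ c → c ≤ 1 → n j ≤ al5 c * p j + be5 c)
    (hlo : ∀ j, (33/1000) ≤ p j) (hp1 : ∀ j, p j ≤ 1) (hcap : ∀ j ∈ C, n j < (7189/25000))
    (hu : n i0 ≤ (643/10000)) (hC2 : C.card = 3)
    (hF2 : (Finset.univ.erase i0 \ C).card = 2)
    (hlc : (C.filter fun j => (3/20) ≤ p j).card = 3)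
    (hlf : ((Finset.univ.erase i0 \ C).filter fun j => (3/20) ≤ p j).card = 2) :
    ∑ i, n i ^ 2 < (179049/500000) := by
  have key := joint_sum n p i0 C hC hsum (pc := (3/20)) (ACL := (-4643/200000)) (ACS := (1/2))
    (AL := (-4643/200000)) (AS := (1/2)) (B := (12/25))
    (fun j hj hp => cap6i4c3f2CL (hn0 j) (hrow j) (hcap j hj) hp)
    (fun j hj hp => cap6i4c3f2CS (hn0 j) (hcap j hj) (hlo j))
    (fun j _ hp => cap6i4c3f2FL (hn0 j) (hrow j) hp (hp1 j))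
    (fun j _ hp => cap6i4c3f2FS (hn0 j) (hrow j) (hlo j) hp.le)
  rw [card_filter_two C _ hC2 hlc, card_filter_two _ _ hF2 hlf, hlc, hlf] at key
  have h1 : n i0 ^ 2 ≤ (643/10000) ^ 2 := pow_le_pow_left₀ (hn0 i0) hu 2
  have h2 := hlo i0
  norm_num at key h1 h2 ⊢
  linarith

lemma cap6i4 (n p : ι → ℝ) (i0 : ι) (C : Finset ι) (hC : C ⊆ Finset.univ.erase i0)
    (hsum : ∑ i, p i = 1) (hn0 : ∀ j, 0 ≤ n j)
    (hrow : ∀ j, ∀ c, 0 ≤ c → c ≤ 1 → n j ≤ al5 c * p j + be5 c)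
    (hlo : ∀ j, (33/1000) ≤ p j) (hp1 : ∀ j, p j ≤ 1) (hcap : ∀ j ∈ C, n j < (7189/25000))
    (hu : n i0 ≤ (643/10000)) (hC2 : C.card = 3)
    (hF2 : (Finset.univ.erase i0 \ C).card = 2) :
    ∑ i, n i ^ 2 < (179049/500000) := by
  have hA : (C.filter fun j => (3/20) ≤ p j).card ≤ 3 := (Finset.card_filter_le _ _).trans hC2.le
  have hB : ((Finset.univ.erase i0 \ C).filter fun j => (3/20) ≤ p j).card ≤ 2 := (Finset.card_filter_le _ _).trans hF2.le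
  have hc' : (C.filter fun j => (3/20) ≤ p j).card = 0 ∨ (C.filter fun j => (3/20) ≤ p j).card = 1 ∨ (C.filter fun j => (3/20) ≤ p j).card = 2 ∨ (C.filter fun j => (3/20) ≤ p j).card = 3 := by omega
  have hf' : ((Finset.univ.erase i0 \ C).filter fun j => (3/20) ≤ p j).card = 0 ∨ ((Finset.univ.erase i0 \ C).filter fun j => (3/20) ≤ p j).card = 1 ∨ ((Finset.univ.erase i0 \ C).filter fun j => (3/20) ≤ p j).card = 2 := by omega
  rcases hc' with hlc | hlc | hlc | hlc <;> rcases hf' with hlf | hlf | hlf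
  · exact cap6i4c0f0 n p i0 C hC hsum hn0 hrow hlo hp1 hcap hu hC2 hF2 hlc hlf
  · exact cap6i4c0f1 n p i0 C hC hsum hn0 hrow hlo hp1 hcap hu hC2 hF2 hlc hlf
  · exact cap6i4c0f2 n p i0 C hC hsum hn0 hrow hlo hp1 hcap hu hC2 hF2 hlc hlf
  · exact cap6i4c1f0 n p i0 C hC hsum hn0 hrow hlo hp1 hcap hu hC2 hF2 hlc hlf
  · exact cap6i4c1f1 n p i0 C hC hsum hn0 hrow hlo hp1 hcap hu hC2 hF2 hlc hlf
  · exact cap6i4c1f2 n p i0 C hC hsum hn0 hrow hlo hp1 hcap hu hC2 hF2 hlc hlf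
  · exact cap6i4c2f0 n p i0 C hC hsum hn0 hrow hlo hp1 hcap hu hC2 hF2 hlc hlf
  · exact cap6i4c2f1 n p i0 C hC hsum hn0 hrow hlo hp1 hcap hu hC2 hF2 hlc hlf
  · exact cap6i4c2f2 n p i0 C hC hsum hn0 hrow hlo hp1 hcap hu hC2 hF2 hlc hlf
  · exact cap6i4c3f0 n p i0 C hC hsum hn0 hrow hlo hp1 hcap hu hC2 hF2 hlc hlf
  · exact cap6i4c3f1 n p i0 C hC hsum hn0 hrow hlo hp1 hcap hu hC2 hF2 hlc hlf
  · exact cap6i4c3f2 n p i0 C hC hsum hn0 hrow hlo hp1 hcap hu hC2 hF2 hlc hlf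

lemma cap6i5c0f0FL {a p : ℝ} (ha0 : 0 ≤ a) (h : ∀ c, 0 ≤ c → c ≤ 1 → a ≤ al5 c * p + be5 c)
    (hp : (3/25) ≤ p) (hp1 : p ≤ 1) : a ^ 2 ≤ (1/2) + (1/10) * p := by
  exact row5 (c := 0) (P := (3/25)) (Q := 1) ha0 h (by norm_num) (by norm_num) hp hp1 (by norm_num [al5, be5]) (by norm_num [al5, be5])

lemma cap6i5c0f0FS {a p : ℝ} (ha0 : 0 ≤ a) (h : ∀ c, 0 ≤ c → c ≤ 1 → a ≤ al5 c * p + be5 c)
    (hp : (7/200) ≤ p) (hp1 : p ≤ (3/25)) : a ^ 2 ≤ (2281/62500) + (1/10) * p := by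
  exact row5 (c := (13/40)) (P := (7/200)) (Q := (3/25)) ha0 h (by norm_num) (by norm_num) hp hp1 (by norm_num [al5, be5]) (by norm_num [al5, be5])

lemma cap6i5c0f0CL {a p : ℝ} (ha0 : 0 ≤ a) (hc : a < (61/200)) (hp : (3/25) ≤ p) : a ^ 2 ≤ (1/2) + (1/10) * p :=
  cap_extend ha0 hc (by norm_num) (Pb := (3/25)) (by norm_num) hp

lemma cap6i5c0f0CS {a p : ℝ} (ha0 : 0 ≤ a) (h : ∀ c, 0 ≤ c → c ≤ 1 → a ≤ al5 c * p + be5 c)
    (hp : (7/200) ≤ p) (hp1 : p ≤ (3/25)) : a ^ 2 ≤ (2281/62500) + (1/10) * p := by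
  exact row5 (c := (13/40)) (P := (7/200)) (Q := (3/25)) ha0 h (by norm_num) (by norm_num) hp hp1 (by norm_num [al5, be5]) (by norm_num [al5, be5])

lemma cap6i5c0f0 (n p : ι → ℝ) (i0 : ι) (C : Finset ι) (hC : C ⊆ Finset.univ.erase i0)
    (hsum : ∑ i, p i = 1) (hn0 : ∀ j, 0 ≤ n j)
    (hrow : ∀ j, ∀ c, 0 ≤ c → c ≤ 1 → n j ≤ al5 c * p j + be5 c)
    (hlo : ∀ j, (7/200) ≤ p j) (hp1 : ∀ j, p j ≤ 1) (hcap : ∀ j ∈ C, n j < (61/200))
    (hu : n i0 ≤ (341/5000)) (hC2 : C.card = 3)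
    (hF2 : (Finset.univ.erase i0 \ C).card = 2)
    (hlc : (C.filter fun j => (3/25) ≤ p j).card = 0)
    (hlf : ((Finset.univ.erase i0 \ C).filter fun j => (3/25) ≤ p j).card = 0) :
    ∑ i, n i ^ 2 < (179049/500000) := by
  have key := joint_sum n p i0 C hC hsum (pc := (3/25)) (ACL := (1/2)) (ACS := (2281/62500))
    (AL := (1/2)) (AS := (2281/62500)) (B := (1/10))
    (fun j hj hp => cap6i5c0f0CL (hn0 j) (hcap j hj) hp)
    (fun j hj hp => cap6i5c0f0CS (hn0 j) (hrow j) (hlo j) hp.le)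
    (fun j _ hp => cap6i5c0f0FL (hn0 j) (hrow j) hp (hp1 j))
    (fun j _ hp => cap6i5c0f0FS (hn0 j) (hrow j) (hlo j) hp.le)
  rw [card_filter_two C _ hC2 hlc, card_filter_two _ _ hF2 hlf, hlc, hlf] at key
  have h1 : n i0 ^ 2 ≤ (341/5000) ^ 2 := pow_le_pow_left₀ (hn0 i0) hu 2
  have h2 := hlo i0
  norm_num at key h1 h2 ⊢
  linarith

lemma cap6i5c0f1FL {a p : ℝ} (ha0 : 0 ≤ a) (h : ∀ c, 0 ≤ c → c ≤ 1 → a ≤ al5 c * p + be5 c)
    (hp : (3/25) ≤ p) (hp1 : p ≤ 1) : a ^ 2 ≤ (14671/125000) + (1/10) * p := by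
  rcases le_total p (803/1250) with h0 | h0
  · exact row5 (c := (3/40)) (P := (3/25)) (Q := (803/1250)) ha0 h (by norm_num) (by norm_num) hp h0 (by norm_num [al5, be5]) (by norm_num [al5, be5])
  exact row5 (c := 0) (P := (803/1250)) (Q := 1) ha0 h (by norm_num) (by norm_num) h0 hp1 (by norm_num [al5, be5]) (by norm_num [al5, be5])

lemma cap6i5c0f1FS {a p : ℝ} (ha0 : 0 ≤ a) (h : ∀ c, 0 ≤ c → c ≤ 1 → a ≤ al5 c * p + be5 c)
    (hp : (7/200) ≤ p) (hp1 : p ≤ (3/25)) : a ^ 2 ≤ (2751/100000) + (1/10) * p := by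
  exact row5 (c := (17/40)) (P := (7/200)) (Q := (3/25)) ha0 h (by norm_num) (by norm_num) hp hp1 (by norm_num [al5, be5]) (by norm_num [al5, be5])

lemma cap6i5c0f1CL {a p : ℝ} (ha0 : 0 ≤ a) (hc : a < (61/200)) (hp : (3/25) ≤ p) : a ^ 2 ≤ (1/2) + (1/10) * p :=
  cap_extend ha0 hc (by norm_num) (Pb := (3/25)) (by norm_num) hp

lemma cap6i5c0f1CS {a p : ℝ} (ha0 : 0 ≤ a) (h : ∀ c, 0 ≤ c → c ≤ 1 → a ≤ al5 c * p + be5 c)
    (hp : (7/200) ≤ p) (hp1 : p ≤ (3/25)) : a ^ 2 ≤ (2751/100000) + (1/10) * p := by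
  exact row5 (c := (17/40)) (P := (7/200)) (Q := (3/25)) ha0 h (by norm_num) (by norm_num) hp hp1 (by norm_num [al5, be5]) (by norm_num [al5, be5])

lemma cap6i5c0f1 (n p : ι → ℝ) (i0 : ι) (C : Finset ι) (hC : C ⊆ Finset.univ.erase i0)
    (hsum : ∑ i, p i = 1) (hn0 : ∀ j, 0 ≤ n j)
    (hrow : ∀ j, ∀ c, 0 ≤ c → c ≤ 1 → n j ≤ al5 c * p j + be5 c)
    (hlo : ∀ j, (7/200) ≤ p j) (hp1 : ∀ j, p j ≤ 1) (hcap : ∀ j ∈ C, n j < (61/200))
    (hu : n i0 ≤ (341/5000)) (hC2 : C.card = 3)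
    (hF2 : (Finset.univ.erase i0 \ C).card = 2)
    (hlc : (C.filter fun j => (3/25) ≤ p j).card = 0)
    (hlf : ((Finset.univ.erase i0 \ C).filter fun j => (3/25) ≤ p j).card = 1) :
    ∑ i, n i ^ 2 < (179049/500000) := by
  have key := joint_sum n p i0 C hC hsum (pc := (3/25)) (ACL := (1/2)) (ACS := (2751/100000))
    (AL := (14671/125000)) (AS := (2751/100000)) (B := (1/10))
    (fun j hj hp => cap6i5c0f1CL (hn0 j) (hcap j hj) hp)
    (fun j hj hp => cap6i5c0f1CS (hn0 j) (hrow j) (hlo j) hp.le)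
    (fun j _ hp => cap6i5c0f1FL (hn0 j) (hrow j) hp (hp1 j))
    (fun j _ hp => cap6i5c0f1FS (hn0 j) (hrow j) (hlo j) hp.le)
  rw [card_filter_two C _ hC2 hlc, card_filter_two _ _ hF2 hlf, hlc, hlf] at key
  have h1 : n i0 ^ 2 ≤ (341/5000) ^ 2 := pow_le_pow_left₀ (hn0 i0) hu 2
  have h2 := hlo i0
  norm_num at key h1 h2 ⊢
  linarith

lemma cap6i5c0f2FL {a p : ℝ} (ha0 : 0 ≤ a) (h : ∀ c, 0 ≤ c → c ≤ 1 → a ≤ al5 c * p + be5 c)
    (hp : (3/25) ≤ p) (hp1 : p ≤ 1) : a ^ 2 ≤ (173/10000) + (17/50) * p := by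
  rcases le_total p (337/1000) with h0 | h0
  · exact row5 (c := (11/40)) (P := (3/25)) (Q := (337/1000)) ha0 h (by norm_num) (by norm_num) hp h0 (by norm_num [al5, be5]) (by norm_num [al5, be5])
  rcases le_total p (8479/10000) with h1 | h1
  · exact row5 (c := (7/40)) (P := (337/1000)) (Q := (8479/10000)) ha0 h (by norm_num) (by norm_num) h0 h1 (by norm_num [al5, be5]) (by norm_num [al5, be5])
  exact row5 (c := 0) (P := (8479/10000)) (Q := 1) ha0 h (by norm_num) (by norm_num) h1 hp1 (by norm_num [al5, be5]) (by norm_num [al5, be5])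

lemma cap6i5c0f2FS {a p : ℝ} (ha0 : 0 ≤ a) (h : ∀ c, 0 ≤ c → c ≤ 1 → a ≤ al5 c * p + be5 c)
    (hp : (7/200) ≤ p) (hp1 : p ≤ (3/25)) : a ^ 2 ≤ (1/2) + (17/50) * p := by
  exact row5 (c := 0) (P := (7/200)) (Q := (3/25)) ha0 h (by norm_num) (by norm_num) hp hp1 (by norm_num [al5, be5]) (by norm_num [al5, be5])

lemma cap6i5c0f2CL {a p : ℝ} (ha0 : 0 ≤ a) (hc : a < (61/200)) (hp : (3/25) ≤ p) : a ^ 2 ≤ (1/2) + (17/50) * p :=
  cap_extend ha0 hc (by norm_num) (Pb := (3/25)) (by norm_num) hp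

lemma cap6i5c0f2CS {a p : ℝ} (ha0 : 0 ≤ a) (h : ∀ c, 0 ≤ c → c ≤ 1 → a ≤ al5 c * p + be5 c)
    (hp : (7/200) ≤ p) (hp1 : p ≤ (3/25)) : a ^ 2 ≤ (-1131/200000) + (17/50) * p := by
  exact row5 (c := (3/5)) (P := (7/200)) (Q := (3/25)) ha0 h (by norm_num) (by norm_num) hp hp1 (by norm_num [al5, be5]) (by norm_num [al5, be5])

lemma cap6i5c0f2 (n p : ι → ℝ) (i0 : ι) (C : Finset ι) (hC : C ⊆ Finset.univ.erase i0)
    (hsum : ∑ i, p i = 1) (hn0 : ∀ j, 0 ≤ n j)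
    (hrow : ∀ j, ∀ c, 0 ≤ c → c ≤ 1 → n j ≤ al5 c * p j + be5 c)
    (hlo : ∀ j, (7/200) ≤ p j) (hp1 : ∀ j, p j ≤ 1) (hcap : ∀ j ∈ C, n j < (61/200))
    (hu : n i0 ≤ (341/5000)) (hC2 : C.card = 3)
    (hF2 : (Finset.univ.erase i0 \ C).card = 2)
    (hlc : (C.filter fun j => (3/25) ≤ p j).card = 0)
    (hlf : ((Finset.univ.erase i0 \ C).filter fun j => (3/25) ≤ p j).card = 2) :
    ∑ i, n i ^ 2 < (179049/500000) := by
  have key := joint_sum n p i0 C hC hsum (pc := (3/25)) (ACL := (1/2)) (ACS := (-1131/200000))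
    (AL := (173/10000)) (AS := (1/2)) (B := (17/50))
    (fun j hj hp => cap6i5c0f2CL (hn0 j) (hcap j hj) hp)
    (fun j hj hp => cap6i5c0f2CS (hn0 j) (hrow j) (hlo j) hp.le)
    (fun j _ hp => cap6i5c0f2FL (hn0 j) (hrow j) hp (hp1 j))
    (fun j _ hp => cap6i5c0f2FS (hn0 j) (hrow j) (hlo j) hp.le)
  rw [card_filter_two C _ hC2 hlc, card_filter_two _ _ hF2 hlf, hlc, hlf] at key
  have h1 : n i0 ^ 2 ≤ (341/5000) ^ 2 := pow_le_pow_left₀ (hn0 i0) hu 2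
  have h2 := hlo i0
  norm_num at key h1 h2 ⊢
  linarith

lemma cap6i5c1f0FL {a p : ℝ} (ha0 : 0 ≤ a) (h : ∀ c, 0 ≤ c → c ≤ 1 → a ≤ al5 c * p + be5 c)
    (hp : (3/25) ≤ p) (hp1 : p ≤ 1) : a ^ 2 ≤ (1/2) + (1/10) * p := by
  exact row5 (c := 0) (P := (3/25)) (Q := 1) ha0 h (by norm_num) (by norm_num) hp hp1 (by norm_num [al5, be5]) (by norm_num [al5, be5])

lemma cap6i5c1f0FS {a p : ℝ} (ha0 : 0 ≤ a) (h : ∀ c, 0 ≤ c → c ≤ 1 → a ≤ al5 c * p + be5 c)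
    (hp : (7/200) ≤ p) (hp1 : p ≤ (3/25)) : a ^ 2 ≤ (15903/500000) + (1/10) * p := by
  exact row5 (c := (3/8)) (P := (7/200)) (Q := (3/25)) ha0 h (by norm_num) (by norm_num) hp hp1 (by norm_num [al5, be5]) (by norm_num [al5, be5])

lemma cap6i5c1f0CLr {a p : ℝ} (ha0 : 0 ≤ a) (h : ∀ c, 0 ≤ c → c ≤ 1 → a ≤ al5 c * p + be5 c)
    (hp : (3/25) ≤ p) (hp1 : p ≤ (14323/100000)) : a ^ 2 ≤ (39351/500000) + (1/10) * p := by
  exact row5 (c := (3/20)) (P := (3/25)) (Q := (14323/100000)) ha0 h (by norm_num) (by norm_num) hp hp1 (by norm_num [al5, be5]) (by norm_num [al5, be5])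

lemma cap6i5c1f0CL {a p : ℝ} (ha0 : 0 ≤ a) (h : ∀ c, 0 ≤ c → c ≤ 1 → a ≤ al5 c * p + be5 c)
    (hc : a < (61/200)) (hp : (3/25) ≤ p) : a ^ 2 ≤ (39351/500000) + (1/10) * p := by
  rcases le_total p (14323/100000) with h1 | h1
  · exact cap6i5c1f0CLr ha0 h hp h1
  · exact cap_extend ha0 hc (by norm_num) (Pb := (14323/100000)) (by norm_num) h1

lemma cap6i5c1f0CS {a p : ℝ} (ha0 : 0 ≤ a) (h : ∀ c, 0 ≤ c → c ≤ 1 → a ≤ al5 c * p + be5 c)
    (hp : (7/200) ≤ p) (hp1 : p ≤ (3/25)) : a ^ 2 ≤ (15903/500000) + (1/10) * p := by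
  exact row5 (c := (3/8)) (P := (7/200)) (Q := (3/25)) ha0 h (by norm_num) (by norm_num) hp hp1 (by norm_num [al5, be5]) (by norm_num [al5, be5])

lemma cap6i5c1f0 (n p : ι → ℝ) (i0 : ι) (C : Finset ι) (hC : C ⊆ Finset.univ.erase i0)
    (hsum : ∑ i, p i = 1) (hn0 : ∀ j, 0 ≤ n j)
    (hrow : ∀ j, ∀ c, 0 ≤ c → c ≤ 1 → n j ≤ al5 c * p j + be5 c)
    (hlo : ∀ j, (7/200) ≤ p j) (hp1 : ∀ j, p j ≤ 1) (hcap : ∀ j ∈ C, n j < (61/200))
    (hu : n i0 ≤ (341/5000)) (hC2 : C.card = 3)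
    (hF2 : (Finset.univ.erase i0 \ C).card = 2)
    (hlc : (C.filter fun j => (3/25) ≤ p j).card = 1)
    (hlf : ((Finset.univ.erase i0 \ C).filter fun j => (3/25) ≤ p j).card = 0) :
    ∑ i, n i ^ 2 < (179049/500000) := by
  have key := joint_sum n p i0 C hC hsum (pc := (3/25)) (ACL := (39351/500000)) (ACS := (15903/500000))
    (AL := (1/2)) (AS := (15903/500000)) (B := (1/10))
    (fun j hj hp => cap6i5c1f0CL (hn0 j) (hrow j) (hcap j hj) hp)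
    (fun j hj hp => cap6i5c1f0CS (hn0 j) (hrow j) (hlo j) hp.le)
    (fun j _ hp => cap6i5c1f0FL (hn0 j) (hrow j) hp (hp1 j))
    (fun j _ hp => cap6i5c1f0FS (hn0 j) (hrow j) (hlo j) hp.le)
  rw [card_filter_two C _ hC2 hlc, card_filter_two _ _ hF2 hlf, hlc, hlf] at key
  have h1 : n i0 ^ 2 ≤ (341/5000) ^ 2 := pow_le_pow_left₀ (hn0 i0) hu 2
  have h2 := hlo i0
  norm_num at key h1 h2 ⊢
  linarith

lemma cap6i5c1f1FL {a p : ℝ} (ha0 : 0 ≤ a) (h : ∀ c, 0 ≤ c → c ≤ 1 → a ≤ al5 c * p + be5 c)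
    (hp : (3/25) ≤ p) (hp1 : p ≤ 1) : a ^ 2 ≤ (3191/100000) + (3/10) * p := by
  rcases le_total p (7699/20000) with h0 | h0
  · exact row5 (c := (9/40)) (P := (3/25)) (Q := (7699/20000)) ha0 h (by norm_num) (by norm_num) hp h0 (by norm_num [al5, be5]) (by norm_num [al5, be5])
  exact row5 (c := (1/10)) (P := (7699/20000)) (Q := 1) ha0 h (by norm_num) (by norm_num) h0 hp1 (by norm_num [al5, be5]) (by norm_num [al5, be5])

lemma cap6i5c1f1FS {a p : ℝ} (ha0 : 0 ≤ a) (h : ∀ c, 0 ≤ c → c ≤ 1 → a ≤ al5 c * p + be5 c)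
    (hp : (7/200) ≤ p) (hp1 : p ≤ (3/25)) : a ^ 2 ≤ (-199/1000000) + (3/10) * p := by
  exact row5 (c := (1/2)) (P := (7/200)) (Q := (3/25)) ha0 h (by norm_num) (by norm_num) hp hp1 (by norm_num [al5, be5]) (by norm_num [al5, be5])

lemma cap6i5c1f1CLr {a p : ℝ} (ha0 : 0 ≤ a) (h : ∀ c, 0 ≤ c → c ≤ 1 → a ≤ al5 c * p + be5 c)
    (hp : (3/25) ≤ p) (hp1 : p ≤ (237947/1000000)) : a ^ 2 ≤ (21641/1000000) + (3/10) * p := by
  exact row5 (c := (3/10)) (P := (3/25)) (Q := (237947/1000000)) ha0 h (by norm_num) (by norm_num) hp hp1 (by norm_num [al5, be5]) (by norm_num [al5, be5])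

lemma cap6i5c1f1CL {a p : ℝ} (ha0 : 0 ≤ a) (h : ∀ c, 0 ≤ c → c ≤ 1 → a ≤ al5 c * p + be5 c)
    (hc : a < (61/200)) (hp : (3/25) ≤ p) : a ^ 2 ≤ (21641/1000000) + (3/10) * p := by
  rcases le_total p (237947/1000000) with h1 | h1
  · exact cap6i5c1f1CLr ha0 h hp h1
  · exact cap_extend ha0 hc (by norm_num) (Pb := (237947/1000000)) (by norm_num) h1

lemma cap6i5c1f1CS {a p : ℝ} (ha0 : 0 ≤ a) (h : ∀ c, 0 ≤ c → c ≤ 1 → a ≤ al5 c * p + be5 c)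
    (hp : (7/200) ≤ p) (hp1 : p ≤ (3/25)) : a ^ 2 ≤ (-199/1000000) + (3/10) * p := by
  exact row5 (c := (1/2)) (P := (7/200)) (Q := (3/25)) ha0 h (by norm_num) (by norm_num) hp hp1 (by norm_num [al5, be5]) (by norm_num [al5, be5])

lemma cap6i5c1f1 (n p : ι → ℝ) (i0 : ι) (C : Finset ι) (hC : C ⊆ Finset.univ.erase i0)
    (hsum : ∑ i, p i = 1) (hn0 : ∀ j, 0 ≤ n j)
    (hrow : ∀ j, ∀ c, 0 ≤ c → c ≤ 1 → n j ≤ al5 c * p j + be5 c)
    (hlo : ∀ j, (7/200) ≤ p j) (hp1 : ∀ j, p j ≤ 1) (hcap : ∀ j ∈ C, n j < (61/200))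
    (hu : n i0 ≤ (341/5000)) (hC2 : C.card = 3)
    (hF2 : (Finset.univ.erase i0 \ C).card = 2)
    (hlc : (C.filter fun j => (3/25) ≤ p j).card = 1)
    (hlf : ((Finset.univ.erase i0 \ C).filter fun j => (3/25) ≤ p j).card = 1) :
    ∑ i, n i ^ 2 < (179049/500000) := by
  have key := joint_sum n p i0 C hC hsum (pc := (3/25)) (ACL := (21641/1000000)) (ACS := (-199/1000000))
    (AL := (3191/100000)) (AS := (-199/1000000)) (B := (3/10))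
    (fun j hj hp => cap6i5c1f1CL (hn0 j) (hrow j) (hcap j hj) hp)
    (fun j hj hp => cap6i5c1f1CS (hn0 j) (hrow j) (hlo j) hp.le)
    (fun j _ hp => cap6i5c1f1FL (hn0 j) (hrow j) hp (hp1 j))
    (fun j _ hp => cap6i5c1f1FS (hn0 j) (hrow j) (hlo j) hp.le)
  rw [card_filter_two C _ hC2 hlc, card_filter_two _ _ hF2 hlf, hlc, hlf] at key
  have h1 : n i0 ^ 2 ≤ (341/5000) ^ 2 := pow_le_pow_left₀ (hn0 i0) hu 2
  have h2 := hlo i0
  norm_num at key h1 h2 ⊢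
  linarith

lemma cap6i5c1f2FL {a p : ℝ} (ha0 : 0 ≤ a) (h : ∀ c, 0 ≤ c → c ≤ 1 → a ≤ al5 c * p + be5 c)
    (hp : (3/25) ≤ p) (hp1 : p ≤ 1) : a ^ 2 ≤ (1837/200000) + (9/25) * p := by
  rcases le_total p (3027/10000) with h0 | h0
  · exact row5 (c := (3/10)) (P := (3/25)) (Q := (3027/10000)) ha0 h (by norm_num) (by norm_num) hp h0 (by norm_num [al5, be5]) (by norm_num [al5, be5])
  rcases le_total p (3257/10000) with h1 | h1
  · exact row5 (c := (1/4)) (P := (3027/10000)) (Q := (3257/10000)) ha0 h (by norm_num) (by norm_num) h0 h1 (by norm_num [al5, be5]) (by norm_num [al5, be5])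
  rcases le_total p (8239/20000) with h2 | h2
  · exact row5 (c := (9/40)) (P := (3257/10000)) (Q := (8239/20000)) ha0 h (by norm_num) (by norm_num) h1 h2 (by norm_num [al5, be5]) (by norm_num [al5, be5])
  exact row5 (c := (1/40)) (P := (8239/20000)) (Q := 1) ha0 h (by norm_num) (by norm_num) h2 hp1 (by norm_num [al5, be5]) (by norm_num [al5, be5])

lemma cap6i5c1f2FS {a p : ℝ} (ha0 : 0 ≤ a) (h : ∀ c, 0 ≤ c → c ≤ 1 → a ≤ al5 c * p + be5 c)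
    (hp : (7/200) ≤ p) (hp1 : p ≤ (3/25)) : a ^ 2 ≤ (1/2) + (9/25) * p := by
  exact row5 (c := 0) (P := (7/200)) (Q := (3/25)) ha0 h (by norm_num) (by norm_num) hp hp1 (by norm_num [al5, be5]) (by norm_num [al5, be5])

lemma cap6i5c1f2CLr {a p : ℝ} (ha0 : 0 ≤ a) (h : ∀ c, 0 ≤ c → c ≤ 1 → a ≤ al5 c * p + be5 c)
    (hp : (3/25) ≤ p) (hp1 : p ≤ (245239/1000000)) : a ^ 2 ≤ (4739/1000000) + (9/25) * p := by
  exact row5 (c := (7/20)) (P := (3/25)) (Q := (245239/1000000)) ha0 h (by norm_num) (by norm_num) hp hp1 (by norm_num [al5, be5]) (by norm_num [al5, be5])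

lemma cap6i5c1f2CL {a p : ℝ} (ha0 : 0 ≤ a) (h : ∀ c, 0 ≤ c → c ≤ 1 → a ≤ al5 c * p + be5 c)
    (hc : a < (61/200)) (hp : (3/25) ≤ p) : a ^ 2 ≤ (4739/1000000) + (9/25) * p := by
  rcases le_total p (245239/1000000) with h1 | h1
  · exact cap6i5c1f2CLr ha0 h hp h1
  · exact cap_extend ha0 hc (by norm_num) (Pb := (245239/1000000)) (by norm_num) h1

lemma cap6i5c1f2CS {a p : ℝ} (ha0 : 0 ≤ a) (h : ∀ c, 0 ≤ c → c ≤ 1 → a ≤ al5 c * p + be5 c)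
    (hp : (7/200) ≤ p) (hp1 : p ≤ (3/25)) : a ^ 2 ≤ (-8563/1000000) + (9/25) * p := by
  rcases le_total p (181/2000) with h0 | h0
  · exact row5 (c := (31/40)) (P := (7/200)) (Q := (181/2000)) ha0 h (by norm_num) (by norm_num) hp h0 (by norm_num [al5, be5]) (by norm_num [al5, be5])
  exact row5 (c := (1/2)) (P := (181/2000)) (Q := (3/25)) ha0 h (by norm_num) (by norm_num) h0 hp1 (by norm_num [al5, be5]) (by norm_num [al5, be5])

lemma cap6i5c1f2 (n p : ι → ℝ) (i0 : ι) (C : Finset ι) (hC : C ⊆ Finset.univ.erase i0)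
    (hsum : ∑ i, p i = 1) (hn0 : ∀ j, 0 ≤ n j)
    (hrow : ∀ j, ∀ c, 0 ≤ c → c ≤ 1 → n j ≤ al5 c * p j + be5 c)
    (hlo : ∀ j, (7/200) ≤ p j) (hp1 : ∀ j, p j ≤ 1) (hcap : ∀ j ∈ C, n j < (61/200))
    (hu : n i0 ≤ (341/5000)) (hC2 : C.card = 3)
    (hF2 : (Finset.univ.erase i0 \ C).card = 2)
    (hlc : (C.filter fun j => (3/25) ≤ p j).card = 1)
    (hlf : ((Finset.univ.erase i0 \ C).filter fun j => (3/25) ≤ p j).card = 2) :
    ∑ i, n i ^ 2 < (179049/500000) := by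
  have key := joint_sum n p i0 C hC hsum (pc := (3/25)) (ACL := (4739/1000000)) (ACS := (-8563/1000000))
    (AL := (1837/200000)) (AS := (1/2)) (B := (9/25))
    (fun j hj hp => cap6i5c1f2CL (hn0 j) (hrow j) (hcap j hj) hp)
    (fun j hj hp => cap6i5c1f2CS (hn0 j) (hrow j) (hlo j) hp.le)
    (fun j _ hp => cap6i5c1f2FL (hn0 j) (hrow j) hp (hp1 j))
    (fun j _ hp => cap6i5c1f2FS (hn0 j) (hrow j) (hlo j) hp.le)
  rw [card_filter_two C _ hC2 hlc, card_filter_two _ _ hF2 hlf, hlc, hlf] at key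
  have h1 : n i0 ^ 2 ≤ (341/5000) ^ 2 := pow_le_pow_left₀ (hn0 i0) hu 2
  have h2 := hlo i0
  norm_num at key h1 h2 ⊢
  linarith

lemma cap6i5c2f0FL {a p : ℝ} (ha0 : 0 ≤ a) (h : ∀ c, 0 ≤ c → c ≤ 1 → a ≤ al5 c * p + be5 c)
    (hp : (3/25) ≤ p) (hp1 : p ≤ 1) : a ^ 2 ≤ (1/2) + (1/10) * p := by
  exact row5 (c := 0) (P := (3/25)) (Q := 1) ha0 h (by norm_num) (by norm_num) hp hp1 (by norm_num [al5, be5]) (by norm_num [al5, be5])

lemma cap6i5c2f0FS {a p : ℝ} (ha0 : 0 ≤ a) (h : ∀ c, 0 ≤ c → c ≤ 1 → a ≤ al5 c * p + be5 c)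
    (hp : (7/200) ≤ p) (hp1 : p ≤ (3/25)) : a ^ 2 ≤ (27117/1000000) + (1/10) * p := by
  exact row5 (c := (17/40)) (P := (7/200)) (Q := (3/25)) ha0 h (by norm_num) (by norm_num) hp hp1 (by norm_num [al5, be5]) (by norm_num [al5, be5])

lemma cap6i5c2f0CLr {a p : ℝ} (ha0 : 0 ≤ a) (h : ∀ c, 0 ≤ c → c ≤ 1 → a ≤ al5 c * p + be5 c)
    (hp : (3/25) ≤ p) (hp1 : p ≤ (19013/100000)) : a ^ 2 ≤ (18503/250000) + (1/10) * p := by
  exact row5 (c := (1/5)) (P := (3/25)) (Q := (19013/100000)) ha0 h (by norm_num) (by norm_num) hp hp1 (by norm_num [al5, be5]) (by norm_num [al5, be5])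

lemma cap6i5c2f0CL {a p : ℝ} (ha0 : 0 ≤ a) (h : ∀ c, 0 ≤ c → c ≤ 1 → a ≤ al5 c * p + be5 c)
    (hc : a < (61/200)) (hp : (3/25) ≤ p) : a ^ 2 ≤ (18503/250000) + (1/10) * p := by
  rcases le_total p (19013/100000) with h1 | h1
  · exact cap6i5c2f0CLr ha0 h hp h1
  · exact cap_extend ha0 hc (by norm_num) (Pb := (19013/100000)) (by norm_num) h1

lemma cap6i5c2f0CS {a p : ℝ} (ha0 : 0 ≤ a) (h : ∀ c, 0 ≤ c → c ≤ 1 → a ≤ al5 c * p + be5 c)
    (hp : (7/200) ≤ p) (hp1 : p ≤ (3/25)) : a ^ 2 ≤ (27117/1000000) + (1/10) * p := by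
  exact row5 (c := (17/40)) (P := (7/200)) (Q := (3/25)) ha0 h (by norm_num) (by norm_num) hp hp1 (by norm_num [al5, be5]) (by norm_num [al5, be5])

lemma cap6i5c2f0 (n p : ι → ℝ) (i0 : ι) (C : Finset ι) (hC : C ⊆ Finset.univ.erase i0)
    (hsum : ∑ i, p i = 1) (hn0 : ∀ j, 0 ≤ n j)
    (hrow : ∀ j, ∀ c, 0 ≤ c → c ≤ 1 → n j ≤ al5 c * p j + be5 c)
    (hlo : ∀ j, (7/200) ≤ p j) (hp1 : ∀ j, p j ≤ 1) (hcap : ∀ j ∈ C, n j < (61/200))
    (hu : n i0 ≤ (341/5000)) (hC2 : C.card = 3)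
    (hF2 : (Finset.univ.erase i0 \ C).card = 2)
    (hlc : (C.filter fun j => (3/25) ≤ p j).card = 2)
    (hlf : ((Finset.univ.erase i0 \ C).filter fun j => (3/25) ≤ p j).card = 0) :
    ∑ i, n i ^ 2 < (179049/500000) := by
  have key := joint_sum n p i0 C hC hsum (pc := (3/25)) (ACL := (18503/250000)) (ACS := (27117/1000000))
    (AL := (1/2)) (AS := (27117/1000000)) (B := (1/10))
    (fun j hj hp => cap6i5c2f0CL (hn0 j) (hrow j) (hcap j hj) hp)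
    (fun j hj hp => cap6i5c2f0CS (hn0 j) (hrow j) (hlo j) hp.le)
    (fun j _ hp => cap6i5c2f0FL (hn0 j) (hrow j) hp (hp1 j))
    (fun j _ hp => cap6i5c2f0FS (hn0 j) (hrow j) (hlo j) hp.le)
  rw [card_filter_two C _ hC2 hlc, card_filter_two _ _ hF2 hlf, hlc, hlf] at key
  have h1 : n i0 ^ 2 ≤ (341/5000) ^ 2 := pow_le_pow_left₀ (hn0 i0) hu 2
  have h2 := hlo i0
  norm_num at key h1 h2 ⊢
  linarith

lemma cap6i5c2f1FL {a p : ℝ} (ha0 : 0 ≤ a) (h : ∀ c, 0 ≤ c → c ≤ 1 → a ≤ al5 c * p + be5 c)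
    (hp : (3/25) ≤ p) (hp1 : p ≤ 1) : a ^ 2 ≤ (1623/100000) + (17/50) * p := by
  rcases le_total p (3237/10000) with h0 | h0
  · exact row5 (c := (11/40)) (P := (3/25)) (Q := (3237/10000)) ha0 h (by norm_num) (by norm_num) hp h0 (by norm_num [al5, be5]) (by norm_num [al5, be5])
  rcases le_total p (3737/10000) with h1 | h1
  · exact row5 (c := (9/40)) (P := (3237/10000)) (Q := (3737/10000)) ha0 h (by norm_num) (by norm_num) h0 h1 (by norm_num [al5, be5]) (by norm_num [al5, be5])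
  exact row5 (c := (1/8)) (P := (3737/10000)) (Q := 1) ha0 h (by norm_num) (by norm_num) h1 hp1 (by norm_num [al5, be5]) (by norm_num [al5, be5])

lemma cap6i5c2f1FS {a p : ℝ} (ha0 : 0 ≤ a) (h : ∀ c, 0 ≤ c → c ≤ 1 → a ≤ al5 c * p + be5 c)
    (hp : (7/200) ≤ p) (hp1 : p ≤ (3/25)) : a ^ 2 ≤ (-3363/500000) + (17/50) * p := by
  rcases le_total p (2303/20000) with h0 | h0
  · exact row5 (c := (13/20)) (P := (7/200)) (Q := (2303/20000)) ha0 h (by norm_num) (by norm_num) hp h0 (by norm_num [al5, be5]) (by norm_num [al5, be5])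
  exact row5 (c := (21/40)) (P := (2303/20000)) (Q := (3/25)) ha0 h (by norm_num) (by norm_num) h0 hp1 (by norm_num [al5, be5]) (by norm_num [al5, be5])

lemma cap6i5c2f1CLr {a p : ℝ} (ha0 : 0 ≤ a) (h : ∀ c, 0 ≤ c → c ≤ 1 → a ≤ al5 c * p + be5 c)
    (hp : (3/25) ≤ p) (hp1 : p ≤ (121943/500000)) : a ^ 2 ≤ (1263/125000) + (17/50) * p := by
  exact row5 (c := (13/40)) (P := (3/25)) (Q := (121943/500000)) ha0 h (by norm_num) (by norm_num) hp hp1 (by norm_num [al5, be5]) (by norm_num [al5, be5])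

lemma cap6i5c2f1CL {a p : ℝ} (ha0 : 0 ≤ a) (h : ∀ c, 0 ≤ c → c ≤ 1 → a ≤ al5 c * p + be5 c)
    (hc : a < (61/200)) (hp : (3/25) ≤ p) : a ^ 2 ≤ (1263/125000) + (17/50) * p := by
  rcases le_total p (121943/500000) with h1 | h1
  · exact cap6i5c2f1CLr ha0 h hp h1
  · exact cap_extend ha0 hc (by norm_num) (Pb := (121943/500000)) (by norm_num) h1

lemma cap6i5c2f1CS {a p : ℝ} (ha0 : 0 ≤ a) (h : ∀ c, 0 ≤ c → c ≤ 1 → a ≤ al5 c * p + be5 c)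
    (hp : (7/200) ≤ p) (hp1 : p ≤ (3/25)) : a ^ 2 ≤ (-3363/500000) + (17/50) * p := by
  rcases le_total p (2303/20000) with h0 | h0
  · exact row5 (c := (13/20)) (P := (7/200)) (Q := (2303/20000)) ha0 h (by norm_num) (by norm_num) hp h0 (by norm_num [al5, be5]) (by norm_num [al5, be5])
  exact row5 (c := (21/40)) (P := (2303/20000)) (Q := (3/25)) ha0 h (by norm_num) (by norm_num) h0 hp1 (by norm_num [al5, be5]) (by norm_num [al5, be5])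

lemma cap6i5c2f1 (n p : ι → ℝ) (i0 : ι) (C : Finset ι) (hC : C ⊆ Finset.univ.erase i0)
    (hsum : ∑ i, p i = 1) (hn0 : ∀ j, 0 ≤ n j)
    (hrow : ∀ j, ∀ c, 0 ≤ c → c ≤ 1 → n j ≤ al5 c * p j + be5 c)
    (hlo : ∀ j, (7/200) ≤ p j) (hp1 : ∀ j, p j ≤ 1) (hcap : ∀ j ∈ C, n j < (61/200))
    (hu : n i0 ≤ (341/5000)) (hC2 : C.card = 3)
    (hF2 : (Finset.univ.erase i0 \ C).card = 2)
    (hlc : (C.filter fun j => (3/25) ≤ p j).card = 2)
    (hlf : ((Finset.univ.erase i0 \ C).filter fun j => (3/25) ≤ p j).card = 1) :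
    ∑ i, n i ^ 2 < (179049/500000) := by
  have key := joint_sum n p i0 C hC hsum (pc := (3/25)) (ACL := (1263/125000)) (ACS := (-3363/500000))
    (AL := (1623/100000)) (AS := (-3363/500000)) (B := (17/50))
    (fun j hj hp => cap6i5c2f1CL (hn0 j) (hrow j) (hcap j hj) hp)
    (fun j hj hp => cap6i5c2f1CS (hn0 j) (hrow j) (hlo j) hp.le)
    (fun j _ hp => cap6i5c2f1FL (hn0 j) (hrow j) hp (hp1 j))
    (fun j _ hp => cap6i5c2f1FS (hn0 j) (hrow j) (hlo j) hp.le)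
  rw [card_filter_two C _ hC2 hlc, card_filter_two _ _ hF2 hlf, hlc, hlf] at key
  have h1 : n i0 ^ 2 ≤ (341/5000) ^ 2 := pow_le_pow_left₀ (hn0 i0) hu 2
  have h2 := hlo i0
  norm_num at key h1 h2 ⊢
  linarith

lemma cap6i5c2f2FL {a p : ℝ} (ha0 : 0 ≤ a) (h : ∀ c, 0 ≤ c → c ≤ 1 → a ≤ al5 c * p + be5 c)
    (hp : (3/25) ≤ p) (hp1 : p ≤ 1) : a ^ 2 ≤ (-4923/250000) + (23/50) * p := by
  rcases le_total p (3987/20000) with h0 | h0
  · exact row5 (c := (19/40)) (P := (3/25)) (Q := (3987/20000)) ha0 h (by norm_num) (by norm_num) hp h0 (by norm_num [al5, be5]) (by norm_num [al5, be5])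
  rcases le_total p (144/625) with h1 | h1
  · exact row5 (c := (2/5)) (P := (3987/20000)) (Q := (144/625)) ha0 h (by norm_num) (by norm_num) h0 h1 (by norm_num [al5, be5]) (by norm_num [al5, be5])
  rcases le_total p (4859/20000) with h2 | h2
  · exact row5 (c := (3/8)) (P := (144/625)) (Q := (4859/20000)) ha0 h (by norm_num) (by norm_num) h1 h2 (by norm_num [al5, be5]) (by norm_num [al5, be5])
  rcases le_total p (5309/20000) with h3 | h3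
  · exact row5 (c := (7/20)) (P := (4859/20000)) (Q := (5309/20000)) ha0 h (by norm_num) (by norm_num) h2 h3 (by norm_num [al5, be5]) (by norm_num [al5, be5])
  rcases le_total p (7853/20000) with h4 | h4
  · exact row5 (c := (3/10)) (P := (5309/20000)) (Q := (7853/20000)) ha0 h (by norm_num) (by norm_num) h3 h4 (by norm_num [al5, be5]) (by norm_num [al5, be5])
  exact row5 (c := 0) (P := (7853/20000)) (Q := 1) ha0 h (by norm_num) (by norm_num) h4 hp1 (by norm_num [al5, be5]) (by norm_num [al5, be5])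

lemma cap6i5c2f2FS {a p : ℝ} (ha0 : 0 ≤ a) (h : ∀ c, 0 ≤ c → c ≤ 1 → a ≤ al5 c * p + be5 c)
    (hp : (7/200) ≤ p) (hp1 : p ≤ (3/25)) : a ^ 2 ≤ (1/2) + (23/50) * p := by
  exact row5 (c := 0) (P := (7/200)) (Q := (3/25)) ha0 h (by norm_num) (by norm_num) hp hp1 (by norm_num [al5, be5]) (by norm_num [al5, be5])

lemma cap6i5c2f2CLr {a p : ℝ} (ha0 : 0 ≤ a) (h : ∀ c, 0 ≤ c → c ≤ 1 → a ≤ al5 c * p + be5 c)
    (hp : (3/25) ≤ p) (hp1 : p ≤ (245037/1000000)) : a ^ 2 ≤ (-4923/250000) + (23/50) * p := by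
  rcases le_total p (3987/20000) with h0 | h0
  · exact row5 (c := (19/40)) (P := (3/25)) (Q := (3987/20000)) ha0 h (by norm_num) (by norm_num) hp h0 (by norm_num [al5, be5]) (by norm_num [al5, be5])
  rcases le_total p (144/625) with h1 | h1
  · exact row5 (c := (2/5)) (P := (3987/20000)) (Q := (144/625)) ha0 h (by norm_num) (by norm_num) h0 h1 (by norm_num [al5, be5]) (by norm_num [al5, be5])
  rcases le_total p (4859/20000) with h2 | h2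
  · exact row5 (c := (3/8)) (P := (144/625)) (Q := (4859/20000)) ha0 h (by norm_num) (by norm_num) h1 h2 (by norm_num [al5, be5]) (by norm_num [al5, be5])
  exact row5 (c := (7/20)) (P := (4859/20000)) (Q := (245037/1000000)) ha0 h (by norm_num) (by norm_num) h2 hp1 (by norm_num [al5, be5]) (by norm_num [al5, be5])

lemma cap6i5c2f2CL {a p : ℝ} (ha0 : 0 ≤ a) (h : ∀ c, 0 ≤ c → c ≤ 1 → a ≤ al5 c * p + be5 c)
    (hc : a < (61/200)) (hp : (3/25) ≤ p) : a ^ 2 ≤ (-4923/250000) + (23/50) * p := by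
  rcases le_total p (245037/1000000) with h1 | h1
  · exact cap6i5c2f2CLr ha0 h hp h1
  · exact cap_extend ha0 hc (by norm_num) (Pb := (245037/1000000)) (by norm_num) h1

lemma cap6i5c2f2CS {a p : ℝ} (ha0 : 0 ≤ a) (h : ∀ c, 0 ≤ c → c ≤ 1 → a ≤ al5 c * p + be5 c)
    (hp : (7/200) ≤ p) (hp1 : p ≤ (3/25)) : a ^ 2 ≤ (-1201/100000) + (23/50) * p := by
  exact row5 (c := (3/4)) (P := (7/200)) (Q := (3/25)) ha0 h (by norm_num) (by norm_num) hp hp1 (by norm_num [al5, be5]) (by norm_num [al5, be5])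

lemma cap6i5c2f2 (n p : ι → ℝ) (i0 : ι) (C : Finset ι) (hC : C ⊆ Finset.univ.erase i0)
    (hsum : ∑ i, p i = 1) (hn0 : ∀ j, 0 ≤ n j)
    (hrow : ∀ j, ∀ c, 0 ≤ c → c ≤ 1 → n j ≤ al5 c * p j + be5 c)
    (hlo : ∀ j, (7/200) ≤ p j) (hp1 : ∀ j, p j ≤ 1) (hcap : ∀ j ∈ C, n j < (61/200))
    (hu : n i0 ≤ (341/5000)) (hC2 : C.card = 3)
    (hF2 : (Finset.univ.erase i0 \ C).card = 2)
    (hlc : (C.filter fun j => (3/25) ≤ p j).card = 2)
    (hlf : ((Finset.univ.erase i0 \ C).filter fun j => (3/25) ≤ p j).card = 2) :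
    ∑ i, n i ^ 2 < (179049/500000) := by
  have key := joint_sum n p i0 C hC hsum (pc := (3/25)) (ACL := (-4923/250000)) (ACS := (-1201/100000))
    (AL := (-4923/250000)) (AS := (1/2)) (B := (23/50))
    (fun j hj hp => cap6i5c2f2CL (hn0 j) (hrow j) (hcap j hj) hp)
    (fun j hj hp => cap6i5c2f2CS (hn0 j) (hrow j) (hlo j) hp.le)
    (fun j _ hp => cap6i5c2f2FL (hn0 j) (hrow j) hp (hp1 j))
    (fun j _ hp => cap6i5c2f2FS (hn0 j) (hrow j) (hlo j) hp.le)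
  rw [card_filter_two C _ hC2 hlc, card_filter_two _ _ hF2 hlf, hlc, hlf] at key
  have h1 : n i0 ^ 2 ≤ (341/5000) ^ 2 := pow_le_pow_left₀ (hn0 i0) hu 2
  have h2 := hlo i0
  norm_num at key h1 h2 ⊢
  linarith

lemma cap6i5c3f0FL {a p : ℝ} (ha0 : 0 ≤ a) (h : ∀ c, 0 ≤ c → c ≤ 1 → a ≤ al5 c * p + be5 c)
    (hp : (3/25) ≤ p) (hp1 : p ≤ 1) : a ^ 2 ≤ (1/2) + (17/50) * p := by
  exact row5 (c := 0) (P := (3/25)) (Q := 1) ha0 h (by norm_num) (by norm_num) hp hp1 (by norm_num [al5, be5]) (by norm_num [al5, be5])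

lemma cap6i5c3f0FS {a p : ℝ} (ha0 : 0 ≤ a) (h : ∀ c, 0 ≤ c → c ≤ 1 → a ≤ al5 c * p + be5 c)
    (hp : (7/200) ≤ p) (hp1 : p ≤ (3/25)) : a ^ 2 ≤ (-6113/1000000) + (17/50) * p := by
  exact row5 (c := (3/5)) (P := (7/200)) (Q := (3/25)) ha0 h (by norm_num) (by norm_num) hp hp1 (by norm_num [al5, be5]) (by norm_num [al5, be5])

lemma cap6i5c3f0CLr {a p : ℝ} (ha0 : 0 ≤ a) (h : ∀ c, 0 ≤ c → c ≤ 1 → a ≤ al5 c * p + be5 c)
    (hp : (3/25) ≤ p) (hp1 : p ≤ (121043/500000)) : a ^ 2 ≤ (2679/250000) + (17/50) * p := by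
  exact row5 (c := (13/40)) (P := (3/25)) (Q := (121043/500000)) ha0 h (by norm_num) (by norm_num) hp hp1 (by norm_num [al5, be5]) (by norm_num [al5, be5])

lemma cap6i5c3f0CL {a p : ℝ} (ha0 : 0 ≤ a) (h : ∀ c, 0 ≤ c → c ≤ 1 → a ≤ al5 c * p + be5 c)
    (hc : a < (61/200)) (hp : (3/25) ≤ p) : a ^ 2 ≤ (2679/250000) + (17/50) * p := by
  rcases le_total p (121043/500000) with h1 | h1
  · exact cap6i5c3f0CLr ha0 h hp h1
  · exact cap_extend ha0 hc (by norm_num) (Pb := (121043/500000)) (by norm_num) h1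

lemma cap6i5c3f0CS {a p : ℝ} (ha0 : 0 ≤ a) (hc : a < (61/200)) (hp : (7/200) ≤ p) : a ^ 2 ≤ (1/2) + (17/50) * p :=
  cap_extend ha0 hc (by norm_num) (Pb := (7/200)) (by norm_num) hp

lemma cap6i5c3f0 (n p : ι → ℝ) (i0 : ι) (C : Finset ι) (hC : C ⊆ Finset.univ.erase i0)
    (hsum : ∑ i, p i = 1) (hn0 : ∀ j, 0 ≤ n j)
    (hrow : ∀ j, ∀ c, 0 ≤ c → c ≤ 1 → n j ≤ al5 c * p j + be5 c)
    (hlo : ∀ j, (7/200) ≤ p j) (hp1 : ∀ j, p j ≤ 1) (hcap : ∀ j ∈ C, n j < (61/200))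
    (hu : n i0 ≤ (341/5000)) (hC2 : C.card = 3)
    (hF2 : (Finset.univ.erase i0 \ C).card = 2)
    (hlc : (C.filter fun j => (3/25) ≤ p j).card = 3)
    (hlf : ((Finset.univ.erase i0 \ C).filter fun j => (3/25) ≤ p j).card = 0) :
    ∑ i, n i ^ 2 < (179049/500000) := by
  have key := joint_sum n p i0 C hC hsum (pc := (3/25)) (ACL := (2679/250000)) (ACS := (1/2))
    (AL := (1/2)) (AS := (-6113/1000000)) (B := (17/50))
    (fun j hj hp => cap6i5c3f0CL (hn0 j) (hrow j) (hcap j hj) hp)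
    (fun j hj hp => cap6i5c3f0CS (hn0 j) (hcap j hj) (hlo j))
    (fun j _ hp => cap6i5c3f0FL (hn0 j) (hrow j) hp (hp1 j))
    (fun j _ hp => cap6i5c3f0FS (hn0 j) (hrow j) (hlo j) hp.le)
  rw [card_filter_two C _ hC2 hlc, card_filter_two _ _ hF2 hlf, hlc, hlf] at key
  have h1 : n i0 ^ 2 ≤ (341/5000) ^ 2 := pow_le_pow_left₀ (hn0 i0) hu 2
  have h2 := hlo i0
  norm_num at key h1 h2 ⊢
  linarith

lemma cap6i5c3f1FL {a p : ℝ} (ha0 : 0 ≤ a) (h : ∀ c, 0 ≤ c → c ≤ 1 → a ≤ al5 c * p + be5 c)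
    (hp : (3/25) ≤ p) (hp1 : p ≤ 1) : a ^ 2 ≤ (-4923/250000) + (23/50) * p := by
  rcases le_total p (3987/20000) with h0 | h0
  · exact row5 (c := (19/40)) (P := (3/25)) (Q := (3987/20000)) ha0 h (by norm_num) (by norm_num) hp h0 (by norm_num [al5, be5]) (by norm_num [al5, be5])
  rcases le_total p (144/625) with h1 | h1
  · exact row5 (c := (2/5)) (P := (3987/20000)) (Q := (144/625)) ha0 h (by norm_num) (by norm_num) h0 h1 (by norm_num [al5, be5]) (by norm_num [al5, be5])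
  rcases le_total p (4859/20000) with h2 | h2
  · exact row5 (c := (3/8)) (P := (144/625)) (Q := (4859/20000)) ha0 h (by norm_num) (by norm_num) h1 h2 (by norm_num [al5, be5]) (by norm_num [al5, be5])
  rcases le_total p (5309/20000) with h3 | h3
  · exact row5 (c := (7/20)) (P := (4859/20000)) (Q := (5309/20000)) ha0 h (by norm_num) (by norm_num) h2 h3 (by norm_num [al5, be5]) (by norm_num [al5, be5])
  rcases le_total p (7853/20000) with h4 | h4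
  · exact row5 (c := (3/10)) (P := (5309/20000)) (Q := (7853/20000)) ha0 h (by norm_num) (by norm_num) h3 h4 (by norm_num [al5, be5]) (by norm_num [al5, be5])
  exact row5 (c := 0) (P := (7853/20000)) (Q := 1) ha0 h (by norm_num) (by norm_num) h4 hp1 (by norm_num [al5, be5]) (by norm_num [al5, be5])

lemma cap6i5c3f1FS {a p : ℝ} (ha0 : 0 ≤ a) (h : ∀ c, 0 ≤ c → c ≤ 1 → a ≤ al5 c * p + be5 c)
    (hp : (7/200) ≤ p) (hp1 : p ≤ (3/25)) : a ^ 2 ≤ (-1201/100000) + (23/50) * p := by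
  exact row5 (c := (3/4)) (P := (7/200)) (Q := (3/25)) ha0 h (by norm_num) (by norm_num) hp hp1 (by norm_num [al5, be5]) (by norm_num [al5, be5])

lemma cap6i5c3f1CLr {a p : ℝ} (ha0 : 0 ≤ a) (h : ∀ c, 0 ≤ c → c ≤ 1 → a ≤ al5 c * p + be5 c)
    (hp : (3/25) ≤ p) (hp1 : p ≤ (245037/1000000)) : a ^ 2 ≤ (-4923/250000) + (23/50) * p := by
  rcases le_total p (3987/20000) with h0 | h0
  · exact row5 (c := (19/40)) (P := (3/25)) (Q := (3987/20000)) ha0 h (by norm_num) (by norm_num) hp h0 (by norm_num [al5, be5]) (by norm_num [al5, be5])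
  rcases le_total p (144/625) with h1 | h1
  · exact row5 (c := (2/5)) (P := (3987/20000)) (Q := (144/625)) ha0 h (by norm_num) (by norm_num) h0 h1 (by norm_num [al5, be5]) (by norm_num [al5, be5])
  rcases le_total p (4859/20000) with h2 | h2
  · exact row5 (c := (3/8)) (P := (144/625)) (Q := (4859/20000)) ha0 h (by norm_num) (by norm_num) h1 h2 (by norm_num [al5, be5]) (by norm_num [al5, be5])
  exact row5 (c := (7/20)) (P := (4859/20000)) (Q := (245037/1000000)) ha0 h (by norm_num) (by norm_num) h2 hp1 (by norm_num [al5, be5]) (by norm_num [al5, be5])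

lemma cap6i5c3f1CL {a p : ℝ} (ha0 : 0 ≤ a) (h : ∀ c, 0 ≤ c → c ≤ 1 → a ≤ al5 c * p + be5 c)
    (hc : a < (61/200)) (hp : (3/25) ≤ p) : a ^ 2 ≤ (-4923/250000) + (23/50) * p := by
  rcases le_total p (245037/1000000) with h1 | h1
  · exact cap6i5c3f1CLr ha0 h hp h1
  · exact cap_extend ha0 hc (by norm_num) (Pb := (245037/1000000)) (by norm_num) h1

lemma cap6i5c3f1CS {a p : ℝ} (ha0 : 0 ≤ a) (hc : a < (61/200)) (hp : (7/200) ≤ p) : a ^ 2 ≤ (1/2) + (23/50) * p :=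
  cap_extend ha0 hc (by norm_num) (Pb := (7/200)) (by norm_num) hp

lemma cap6i5c3f1 (n p : ι → ℝ) (i0 : ι) (C : Finset ι) (hC : C ⊆ Finset.univ.erase i0)
    (hsum : ∑ i, p i = 1) (hn0 : ∀ j, 0 ≤ n j)
    (hrow : ∀ j, ∀ c, 0 ≤ c → c ≤ 1 → n j ≤ al5 c * p j + be5 c)
    (hlo : ∀ j, (7/200) ≤ p j) (hp1 : ∀ j, p j ≤ 1) (hcap : ∀ j ∈ C, n j < (61/200))
    (hu : n i0 ≤ (341/5000)) (hC2 : C.card = 3)
    (hF2 : (Finset.univ.erase i0 \ C).card = 2)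
    (hlc : (C.filter fun j => (3/25) ≤ p j).card = 3)
    (hlf : ((Finset.univ.erase i0 \ C).filter fun j => (3/25) ≤ p j).card = 1) :
    ∑ i, n i ^ 2 < (179049/500000) := by
  have key := joint_sum n p i0 C hC hsum (pc := (3/25)) (ACL := (-4923/250000)) (ACS := (1/2))
    (AL := (-4923/250000)) (AS := (-1201/100000)) (B := (23/50))
    (fun j hj hp => cap6i5c3f1CL (hn0 j) (hrow j) (hcap j hj) hp)
    (fun j hj hp => cap6i5c3f1CS (hn0 j) (hcap j hj) (hlo j))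
    (fun j _ hp => cap6i5c3f1FL (hn0 j) (hrow j) hp (hp1 j))
    (fun j _ hp => cap6i5c3f1FS (hn0 j) (hrow j) (hlo j) hp.le)
  rw [card_filter_two C _ hC2 hlc, card_filter_two _ _ hF2 hlf, hlc, hlf] at key
  have h1 : n i0 ^ 2 ≤ (341/5000) ^ 2 := pow_le_pow_left₀ (hn0 i0) hu 2
  have h2 := hlo i0
  norm_num at key h1 h2 ⊢
  linarith

lemma cap6i5c3f2FL {a p : ℝ} (ha0 : 0 ≤ a) (h : ∀ c, 0 ≤ c → c ≤ 1 → a ≤ al5 c * p + be5 c)
    (hp : (3/25) ≤ p) (hp1 : p ≤ 1) : a ^ 2 ≤ (-11487/500000) + (12/25) * p := by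
  rcases le_total p (783/4000) with h0 | h0
  · exact row5 (c := (1/2)) (P := (3/25)) (Q := (783/4000)) ha0 h (by norm_num) (by norm_num) hp h0 (by norm_num [al5, be5]) (by norm_num [al5, be5])
  rcases le_total p (579/2000) with h1 | h1
  · exact row5 (c := (3/8)) (P := (783/4000)) (Q := (579/2000)) ha0 h (by norm_num) (by norm_num) h0 h1 (by norm_num [al5, be5]) (by norm_num [al5, be5])
  rcases le_total p (9809/10000) with h2 | h2
  · exact row5 (c := (9/40)) (P := (579/2000)) (Q := (9809/10000)) ha0 h (by norm_num) (by norm_num) h1 h2 (by norm_num [al5, be5]) (by norm_num [al5, be5])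
  exact row5 (c := 0) (P := (9809/10000)) (Q := 1) ha0 h (by norm_num) (by norm_num) h2 hp1 (by norm_num [al5, be5]) (by norm_num [al5, be5])

lemma cap6i5c3f2FS {a p : ℝ} (ha0 : 0 ≤ a) (h : ∀ c, 0 ≤ c → c ≤ 1 → a ≤ al5 c * p + be5 c)
    (hp : (7/200) ≤ p) (hp1 : p ≤ (3/25)) : a ^ 2 ≤ (1/2) + (12/25) * p := by
  exact row5 (c := 0) (P := (7/200)) (Q := (3/25)) ha0 h (by norm_num) (by norm_num) hp hp1 (by norm_num [al5, be5]) (by norm_num [al5, be5])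

lemma cap6i5c3f2CLr {a p : ℝ} (ha0 : 0 ≤ a) (h : ∀ c, 0 ≤ c → c ≤ 1 → a ≤ al5 c * p + be5 c)
    (hp : (3/25) ≤ p) (hp1 : p ≤ (48333/200000)) : a ^ 2 ≤ (-11487/500000) + (12/25) * p := by
  rcases le_total p (783/4000) with h0 | h0
  · exact row5 (c := (1/2)) (P := (3/25)) (Q := (783/4000)) ha0 h (by norm_num) (by norm_num) hp h0 (by norm_num [al5, be5]) (by norm_num [al5, be5])
  exact row5 (c := (3/8)) (P := (783/4000)) (Q := (48333/200000)) ha0 h (by norm_num) (by norm_num) h0 hp1 (by norm_num [al5, be5]) (by norm_num [al5, be5])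

lemma cap6i5c3f2CL {a p : ℝ} (ha0 : 0 ≤ a) (h : ∀ c, 0 ≤ c → c ≤ 1 → a ≤ al5 c * p + be5 c)
    (hc : a < (61/200)) (hp : (3/25) ≤ p) : a ^ 2 ≤ (-11487/500000) + (12/25) * p := by
  rcases le_total p (48333/200000) with h1 | h1
  · exact cap6i5c3f2CLr ha0 h hp h1
  · exact cap_extend ha0 hc (by norm_num) (Pb := (48333/200000)) (by norm_num) h1

lemma cap6i5c3f2CS {a p : ℝ} (ha0 : 0 ≤ a) (hc : a < (61/200)) (hp : (7/200) ≤ p) : a ^ 2 ≤ (1/2) + (12/25) * p :=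
  cap_extend ha0 hc (by norm_num) (Pb := (7/200)) (by norm_num) hp

lemma cap6i5c3f2 (n p : ι → ℝ) (i0 : ι) (C : Finset ι) (hC : C ⊆ Finset.univ.erase i0)
    (hsum : ∑ i, p i = 1) (hn0 : ∀ j, 0 ≤ n j)
    (hrow : ∀ j, ∀ c, 0 ≤ c → c ≤ 1 → n j ≤ al5 c * p j + be5 c)
    (hlo : ∀ j, (7/200) ≤ p j) (hp1 : ∀ j, p j ≤ 1) (hcap : ∀ j ∈ C, n j < (61/200))
    (hu : n i0 ≤ (341/5000)) (hC2 : C.card = 3)
    (hF2 : (Finset.univ.erase i0 \ C).card = 2)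
    (hlc : (C.filter fun j => (3/25) ≤ p j).card = 3)
    (hlf : ((Finset.univ.erase i0 \ C).filter fun j => (3/25) ≤ p j).card = 2) :
    ∑ i, n i ^ 2 < (179049/500000) := by
  have key := joint_sum n p i0 C hC hsum (pc := (3/25)) (ACL := (-11487/500000)) (ACS := (1/2))
    (AL := (-11487/500000)) (AS := (1/2)) (B := (12/25))
    (fun j hj hp => cap6i5c3f2CL (hn0 j) (hrow j) (hcap j hj) hp)
    (fun j hj hp => cap6i5c3f2CS (hn0 j) (hcap j hj) (hlo j))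
    (fun j _ hp => cap6i5c3f2FL (hn0 j) (hrow j) hp (hp1 j))
    (fun j _ hp => cap6i5c3f2FS (hn0 j) (hrow j) (hlo j) hp.le)
  rw [card_filter_two C _ hC2 hlc, card_filter_two _ _ hF2 hlf, hlc, hlf] at key
  have h1 : n i0 ^ 2 ≤ (341/5000) ^ 2 := pow_le_pow_left₀ (hn0 i0) hu 2
  have h2 := hlo i0
  norm_num at key h1 h2 ⊢
  linarith

lemma cap6i5 (n p : ι → ℝ) (i0 : ι) (C : Finset ι) (hC : C ⊆ Finset.univ.erase i0)
    (hsum : ∑ i, p i = 1) (hn0 : ∀ j, 0 ≤ n j)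
    (hrow : ∀ j, ∀ c, 0 ≤ c → c ≤ 1 → n j ≤ al5 c * p j + be5 c)
    (hlo : ∀ j, (7/200) ≤ p j) (hp1 : ∀ j, p j ≤ 1) (hcap : ∀ j ∈ C, n j < (61/200))
    (hu : n i0 ≤ (341/5000)) (hC2 : C.card = 3)
    (hF2 : (Finset.univ.erase i0 \ C).card = 2) :
    ∑ i, n i ^ 2 < (179049/500000) := by
  have hA : (C.filter fun j => (3/25) ≤ p j).card ≤ 3 := (Finset.card_filter_le _ _).trans hC2.le
  have hB : ((Finset.univ.erase i0 \ C).filter fun j => (3/25) ≤ p j).card ≤ 2 := (Finset.card_filter_le _ _).trans hF2.le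
  have hc' : (C.filter fun j => (3/25) ≤ p j).card = 0 ∨ (C.filter fun j => (3/25) ≤ p j).card = 1 ∨ (C.filter fun j => (3/25) ≤ p j).card = 2 ∨ (C.filter fun j => (3/25) ≤ p j).card = 3 := by omega
  have hf' : ((Finset.univ.erase i0 \ C).filter fun j => (3/25) ≤ p j).card = 0 ∨ ((Finset.univ.erase i0 \ C).filter fun j => (3/25) ≤ p j).card = 1 ∨ ((Finset.univ.erase i0 \ C).filter fun j => (3/25) ≤ p j).card = 2 := by omega
  rcases hc' with hlc | hlc | hlc | hlc <;> rcases hf' with hlf | hlf | hlf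
  · exact cap6i5c0f0 n p i0 C hC hsum hn0 hrow hlo hp1 hcap hu hC2 hF2 hlc hlf
  · exact cap6i5c0f1 n p i0 C hC hsum hn0 hrow hlo hp1 hcap hu hC2 hF2 hlc hlf
  · exact cap6i5c0f2 n p i0 C hC hsum hn0 hrow hlo hp1 hcap hu hC2 hF2 hlc hlf
  · exact cap6i5c1f0 n p i0 C hC hsum hn0 hrow hlo hp1 hcap hu hC2 hF2 hlc hlf
  · exact cap6i5c1f1 n p i0 C hC hsum hn0 hrow hlo hp1 hcap hu hC2 hF2 hlc hlf
  · exact cap6i5c1f2 n p i0 C hC hsum hn0 hrow hlo hp1 hcap hu hC2 hF2 hlc hlf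
  · exact cap6i5c2f0 n p i0 C hC hsum hn0 hrow hlo hp1 hcap hu hC2 hF2 hlc hlf
  · exact cap6i5c2f1 n p i0 C hC hsum hn0 hrow hlo hp1 hcap hu hC2 hF2 hlc hlf
  · exact cap6i5c2f2 n p i0 C hC hsum hn0 hrow hlo hp1 hcap hu hC2 hF2 hlc hlf
  · exact cap6i5c3f0 n p i0 C hC hsum hn0 hrow hlo hp1 hcap hu hC2 hF2 hlc hlf
  · exact cap6i5c3f1 n p i0 C hC hsum hn0 hrow hlo hp1 hcap hu hC2 hF2 hlc hlf
  · exact cap6i5c3f2 n p i0 C hC hsum hn0 hrow hlo hp1 hcap hu hC2 hF2 hlc hlf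

lemma cap6i6c0f0FL {a p : ℝ} (ha0 : 0 ≤ a) (h : ∀ c, 0 ≤ c → c ≤ 1 → a ≤ al5 c * p + be5 c)
    (hp : (3/25) ≤ p) (hp1 : p ≤ 1) : a ^ 2 ≤ (1/2) + (1/10) * p := by
  exact row5 (c := 0) (P := (3/25)) (Q := 1) ha0 h (by norm_num) (by norm_num) hp hp1 (by norm_num [al5, be5]) (by norm_num [al5, be5])

lemma cap6i6c0f0FS {a p : ℝ} (ha0 : 0 ≤ a) (h : ∀ c, 0 ≤ c → c ≤ 1 → a ≤ al5 c * p + be5 c)
    (hp : (37/1000) ≤ p) (hp1 : p ≤ (3/25)) : a ^ 2 ≤ (3649/100000) + (1/10) * p := by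
  exact row5 (c := (13/40)) (P := (37/1000)) (Q := (3/25)) ha0 h (by norm_num) (by norm_num) hp hp1 (by norm_num [al5, be5]) (by norm_num [al5, be5])

lemma cap6i6c0f0CL {a p : ℝ} (ha0 : 0 ≤ a) (hc : a < (627/2000)) (hp : (3/25) ≤ p) : a ^ 2 ≤ (1/2) + (1/10) * p :=
  cap_extend ha0 hc (by norm_num) (Pb := (3/25)) (by norm_num) hp

lemma cap6i6c0f0CS {a p : ℝ} (ha0 : 0 ≤ a) (h : ∀ c, 0 ≤ c → c ≤ 1 → a ≤ al5 c * p + be5 c)
    (hp : (37/1000) ≤ p) (hp1 : p ≤ (3/25)) : a ^ 2 ≤ (3649/100000) + (1/10) * p := by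
  exact row5 (c := (13/40)) (P := (37/1000)) (Q := (3/25)) ha0 h (by norm_num) (by norm_num) hp hp1 (by norm_num [al5, be5]) (by norm_num [al5, be5])

lemma cap6i6c0f0 (n p : ι → ℝ) (i0 : ι) (C : Finset ι) (hC : C ⊆ Finset.univ.erase i0)
    (hsum : ∑ i, p i = 1) (hn0 : ∀ j, 0 ≤ n j)
    (hrow : ∀ j, ∀ c, 0 ≤ c → c ≤ 1 → n j ≤ al5 c * p j + be5 c)
    (hlo : ∀ j, (37/1000) ≤ p j) (hp1 : ∀ j, p j ≤ 1) (hcap : ∀ j ∈ C, n j < (627/2000))
    (hu : n i0 ≤ (701/10000)) (hC2 : C.card = 3)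
    (hF2 : (Finset.univ.erase i0 \ C).card = 2)
    (hlc : (C.filter fun j => (3/25) ≤ p j).card = 0)
    (hlf : ((Finset.univ.erase i0 \ C).filter fun j => (3/25) ≤ p j).card = 0) :
    ∑ i, n i ^ 2 < (179049/500000) := by
  have key := joint_sum n p i0 C hC hsum (pc := (3/25)) (ACL := (1/2)) (ACS := (3649/100000))
    (AL := (1/2)) (AS := (3649/100000)) (B := (1/10))
    (fun j hj hp => cap6i6c0f0CL (hn0 j) (hcap j hj) hp)
    (fun j hj hp => cap6i6c0f0CS (hn0 j) (hrow j) (hlo j) hp.le)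
    (fun j _ hp => cap6i6c0f0FL (hn0 j) (hrow j) hp (hp1 j))
    (fun j _ hp => cap6i6c0f0FS (hn0 j) (hrow j) (hlo j) hp.le)
  rw [card_filter_two C _ hC2 hlc, card_filter_two _ _ hF2 hlf, hlc, hlf] at key
  have h1 : n i0 ^ 2 ≤ (701/10000) ^ 2 := pow_le_pow_left₀ (hn0 i0) hu 2
  have h2 := hlo i0
  norm_num at key h1 h2 ⊢
  linarith

lemma cap6i6c0f1FL {a p : ℝ} (ha0 : 0 ≤ a) (h : ∀ c, 0 ≤ c → c ≤ 1 → a ≤ al5 c * p + be5 c)
    (hp : (3/25) ≤ p) (hp1 : p ≤ 1) : a ^ 2 ≤ (58681/500000) + (1/10) * p := by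
  rcases le_total p (2569/4000) with h0 | h0
  · exact row5 (c := (3/40)) (P := (3/25)) (Q := (2569/4000)) ha0 h (by norm_num) (by norm_num) hp h0 (by norm_num [al5, be5]) (by norm_num [al5, be5])
  exact row5 (c := 0) (P := (2569/4000)) (Q := 1) ha0 h (by norm_num) (by norm_num) h0 hp1 (by norm_num [al5, be5]) (by norm_num [al5, be5])

lemma cap6i6c0f1FS {a p : ℝ} (ha0 : 0 ≤ a) (h : ∀ c, 0 ≤ c → c ≤ 1 → a ≤ al5 c * p + be5 c)
    (hp : (37/1000) ≤ p) (hp1 : p ≤ (3/25)) : a ^ 2 ≤ (1719/62500) + (1/10) * p := by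
  exact row5 (c := (17/40)) (P := (37/1000)) (Q := (3/25)) ha0 h (by norm_num) (by norm_num) hp hp1 (by norm_num [al5, be5]) (by norm_num [al5, be5])

lemma cap6i6c0f1CL {a p : ℝ} (ha0 : 0 ≤ a) (hc : a < (627/2000)) (hp : (3/25) ≤ p) : a ^ 2 ≤ (1/2) + (1/10) * p :=
  cap_extend ha0 hc (by norm_num) (Pb := (3/25)) (by norm_num) hp

lemma cap6i6c0f1CS {a p : ℝ} (ha0 : 0 ≤ a) (h : ∀ c, 0 ≤ c → c ≤ 1 → a ≤ al5 c * p + be5 c)
    (hp : (37/1000) ≤ p) (hp1 : p ≤ (3/25)) : a ^ 2 ≤ (1719/62500) + (1/10) * p := by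
  exact row5 (c := (17/40)) (P := (37/1000)) (Q := (3/25)) ha0 h (by norm_num) (by norm_num) hp hp1 (by norm_num [al5, be5]) (by norm_num [al5, be5])

lemma cap6i6c0f1 (n p : ι → ℝ) (i0 : ι) (C : Finset ι) (hC : C ⊆ Finset.univ.erase i0)
    (hsum : ∑ i, p i = 1) (hn0 : ∀ j, 0 ≤ n j)
    (hrow : ∀ j, ∀ c, 0 ≤ c → c ≤ 1 → n j ≤ al5 c * p j + be5 c)
    (hlo : ∀ j, (37/1000) ≤ p j) (hp1 : ∀ j, p j ≤ 1) (hcap : ∀ j ∈ C, n j < (627/2000))
    (hu : n i0 ≤ (701/10000)) (hC2 : C.card = 3)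
    (hF2 : (Finset.univ.erase i0 \ C).card = 2)
    (hlc : (C.filter fun j => (3/25) ≤ p j).card = 0)
    (hlf : ((Finset.univ.erase i0 \ C).filter fun j => (3/25) ≤ p j).card = 1) :
    ∑ i, n i ^ 2 < (179049/500000) := by
  have key := joint_sum n p i0 C hC hsum (pc := (3/25)) (ACL := (1/2)) (ACS := (1719/62500))
    (AL := (58681/500000)) (AS := (1719/62500)) (B := (1/10))
    (fun j hj hp => cap6i6c0f1CL (hn0 j) (hcap j hj) hp)
    (fun j hj hp => cap6i6c0f1CS (hn0 j) (hrow j) (hlo j) hp.le)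
    (fun j _ hp => cap6i6c0f1FL (hn0 j) (hrow j) hp (hp1 j))
    (fun j _ hp => cap6i6c0f1FS (hn0 j) (hrow j) (hlo j) hp.le)
  rw [card_filter_two C _ hC2 hlc, card_filter_two _ _ hF2 hlf, hlc, hlf] at key
  have h1 : n i0 ^ 2 ≤ (701/10000) ^ 2 := pow_le_pow_left₀ (hn0 i0) hu 2
  have h2 := hlo i0
  norm_num at key h1 h2 ⊢
  linarith

lemma cap6i6c0f2FL {a p : ℝ} (ha0 : 0 ≤ a) (h : ∀ c, 0 ≤ c → c ≤ 1 → a ≤ al5 c * p + be5 c)
    (hp : (3/25) ≤ p) (hp1 : p ≤ 1) : a ^ 2 ≤ (8671/500000) + (17/50) * p := by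
  rcases le_total p (27/80) with h0 | h0
  · exact row5 (c := (11/40)) (P := (3/25)) (Q := (27/80)) ha0 h (by norm_num) (by norm_num) hp h0 (by norm_num [al5, be5]) (by norm_num [al5, be5])
  rcases le_total p (1697/2000) with h1 | h1
  · exact row5 (c := (7/40)) (P := (27/80)) (Q := (1697/2000)) ha0 h (by norm_num) (by norm_num) h0 h1 (by norm_num [al5, be5]) (by norm_num [al5, be5])
  exact row5 (c := 0) (P := (1697/2000)) (Q := 1) ha0 h (by norm_num) (by norm_num) h1 hp1 (by norm_num [al5, be5]) (by norm_num [al5, be5])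

lemma cap6i6c0f2FS {a p : ℝ} (ha0 : 0 ≤ a) (h : ∀ c, 0 ≤ c → c ≤ 1 → a ≤ al5 c * p + be5 c)
    (hp : (37/1000) ≤ p) (hp1 : p ≤ (3/25)) : a ^ 2 ≤ (1/2) + (17/50) * p := by
  exact row5 (c := 0) (P := (37/1000)) (Q := (3/25)) ha0 h (by norm_num) (by norm_num) hp hp1 (by norm_num [al5, be5]) (by norm_num [al5, be5])

lemma cap6i6c0f2CL {a p : ℝ} (ha0 : 0 ≤ a) (hc : a < (627/2000)) (hp : (3/25) ≤ p) : a ^ 2 ≤ (1/2) + (17/50) * p :=
  cap_extend ha0 hc (by norm_num) (Pb := (3/25)) (by norm_num) hp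

lemma cap6i6c0f2CS {a p : ℝ} (ha0 : 0 ≤ a) (h : ∀ c, 0 ≤ c → c ≤ 1 → a ≤ al5 c * p + be5 c)
    (hp : (37/1000) ≤ p) (hp1 : p ≤ (3/25)) : a ^ 2 ≤ (-2807/500000) + (17/50) * p := by
  exact row5 (c := (23/40)) (P := (37/1000)) (Q := (3/25)) ha0 h (by norm_num) (by norm_num) hp hp1 (by norm_num [al5, be5]) (by norm_num [al5, be5])

lemma cap6i6c0f2 (n p : ι → ℝ) (i0 : ι) (C : Finset ι) (hC : C ⊆ Finset.univ.erase i0)
    (hsum : ∑ i, p i = 1) (hn0 : ∀ j, 0 ≤ n j)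
    (hrow : ∀ j, ∀ c, 0 ≤ c → c ≤ 1 → n j ≤ al5 c * p j + be5 c)
    (hlo : ∀ j, (37/1000) ≤ p j) (hp1 : ∀ j, p j ≤ 1) (hcap : ∀ j ∈ C, n j < (627/2000))
    (hu : n i0 ≤ (701/10000)) (hC2 : C.card = 3)
    (hF2 : (Finset.univ.erase i0 \ C).card = 2)
    (hlc : (C.filter fun j => (3/25) ≤ p j).card = 0)
    (hlf : ((Finset.univ.erase i0 \ C).filter fun j => (3/25) ≤ p j).card = 2) :
    ∑ i, n i ^ 2 < (179049/500000) := by
  have key := joint_sum n p i0 C hC hsum (pc := (3/25)) (ACL := (1/2)) (ACS := (-2807/500000))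
    (AL := (8671/500000)) (AS := (1/2)) (B := (17/50))
    (fun j hj hp => cap6i6c0f2CL (hn0 j) (hcap j hj) hp)
    (fun j hj hp => cap6i6c0f2CS (hn0 j) (hrow j) (hlo j) hp.le)
    (fun j _ hp => cap6i6c0f2FL (hn0 j) (hrow j) hp (hp1 j))
    (fun j _ hp => cap6i6c0f2FS (hn0 j) (hrow j) (hlo j) hp.le)
  rw [card_filter_two C _ hC2 hlc, card_filter_two _ _ hF2 hlf, hlc, hlf] at key
  have h1 : n i0 ^ 2 ≤ (701/10000) ^ 2 := pow_le_pow_left₀ (hn0 i0) hu 2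
  have h2 := hlo i0
  norm_num at key h1 h2 ⊢
  linarith

lemma cap6i6c1f0FL {a p : ℝ} (ha0 : 0 ≤ a) (h : ∀ c, 0 ≤ c → c ≤ 1 → a ≤ al5 c * p + be5 c)
    (hp : (3/25) ≤ p) (hp1 : p ≤ 1) : a ^ 2 ≤ (1/2) + (1/10) * p := by
  exact row5 (c := 0) (P := (3/25)) (Q := 1) ha0 h (by norm_num) (by norm_num) hp hp1 (by norm_num [al5, be5]) (by norm_num [al5, be5])

lemma cap6i6c1f0FS {a p : ℝ} (ha0 : 0 ≤ a) (h : ∀ c, 0 ≤ c → c ≤ 1 → a ≤ al5 c * p + be5 c)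
    (hp : (37/1000) ≤ p) (hp1 : p ≤ (3/25)) : a ^ 2 ≤ (31389/1000000) + (1/10) * p := by
  exact row5 (c := (3/8)) (P := (37/1000)) (Q := (3/25)) ha0 h (by norm_num) (by norm_num) hp hp1 (by norm_num [al5, be5]) (by norm_num [al5, be5])

lemma cap6i6c1f0CLr {a p : ℝ} (ha0 : 0 ≤ a) (h : ∀ c, 0 ≤ c → c ≤ 1 → a ≤ al5 c * p + be5 c)
    (hp : (3/25) ≤ p) (hp1 : p ≤ (158853/1000000)) : a ^ 2 ≤ (82397/1000000) + (1/10) * p := by
  exact row5 (c := (3/20)) (P := (3/25)) (Q := (158853/1000000)) ha0 h (by norm_num) (by norm_num) hp hp1 (by norm_num [al5, be5]) (by norm_num [al5, be5])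

lemma cap6i6c1f0CL {a p : ℝ} (ha0 : 0 ≤ a) (h : ∀ c, 0 ≤ c → c ≤ 1 → a ≤ al5 c * p + be5 c)
    (hc : a < (627/2000)) (hp : (3/25) ≤ p) : a ^ 2 ≤ (82397/1000000) + (1/10) * p := by
  rcases le_total p (158853/1000000) with h1 | h1
  · exact cap6i6c1f0CLr ha0 h hp h1
  · exact cap_extend ha0 hc (by norm_num) (Pb := (158853/1000000)) (by norm_num) h1

lemma cap6i6c1f0CS {a p : ℝ} (ha0 : 0 ≤ a) (h : ∀ c, 0 ≤ c → c ≤ 1 → a ≤ al5 c * p + be5 c)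
    (hp : (37/1000) ≤ p) (hp1 : p ≤ (3/25)) : a ^ 2 ≤ (31389/1000000) + (1/10) * p := by
  exact row5 (c := (3/8)) (P := (37/1000)) (Q := (3/25)) ha0 h (by norm_num) (by norm_num) hp hp1 (by norm_num [al5, be5]) (by norm_num [al5, be5])

lemma cap6i6c1f0 (n p : ι → ℝ) (i0 : ι) (C : Finset ι) (hC : C ⊆ Finset.univ.erase i0)
    (hsum : ∑ i, p i = 1) (hn0 : ∀ j, 0 ≤ n j)
    (hrow : ∀ j, ∀ c, 0 ≤ c → c ≤ 1 → n j ≤ al5 c * p j + be5 c)
    (hlo : ∀ j, (37/1000) ≤ p j) (hp1 : ∀ j, p j ≤ 1) (hcap : ∀ j ∈ C, n j < (627/2000))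
    (hu : n i0 ≤ (701/10000)) (hC2 : C.card = 3)
    (hF2 : (Finset.univ.erase i0 \ C).card = 2)
    (hlc : (C.filter fun j => (3/25) ≤ p j).card = 1)
    (hlf : ((Finset.univ.erase i0 \ C).filter fun j => (3/25) ≤ p j).card = 0) :
    ∑ i, n i ^ 2 < (179049/500000) := by
  have key := joint_sum n p i0 C hC hsum (pc := (3/25)) (ACL := (82397/1000000)) (ACS := (31389/1000000))
    (AL := (1/2)) (AS := (31389/1000000)) (B := (1/10))
    (fun j hj hp => cap6i6c1f0CL (hn0 j) (hrow j) (hcap j hj) hp)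
    (fun j hj hp => cap6i6c1f0CS (hn0 j) (hrow j) (hlo j) hp.le)
    (fun j _ hp => cap6i6c1f0FL (hn0 j) (hrow j) hp (hp1 j))
    (fun j _ hp => cap6i6c1f0FS (hn0 j) (hrow j) (hlo j) hp.le)
  rw [card_filter_two C _ hC2 hlc, card_filter_two _ _ hF2 hlf, hlc, hlf] at key
  have h1 : n i0 ^ 2 ≤ (701/10000) ^ 2 := pow_le_pow_left₀ (hn0 i0) hu 2
  have h2 := hlo i0
  norm_num at key h1 h2 ⊢
  linarith

lemma cap6i6c1f1FL {a p : ℝ} (ha0 : 0 ≤ a) (h : ∀ c, 0 ≤ c → c ≤ 1 → a ≤ al5 c * p + be5 c)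
    (hp : (3/25) ≤ p) (hp1 : p ≤ 1) : a ^ 2 ≤ (6171/250000) + (8/25) * p := by
  rcases le_total p (1447/4000) with h0 | h0
  · exact row5 (c := (1/4)) (P := (3/25)) (Q := (1447/4000)) ha0 h (by norm_num) (by norm_num) hp h0 (by norm_num [al5, be5]) (by norm_num [al5, be5])
  exact row5 (c := (1/8)) (P := (1447/4000)) (Q := 1) ha0 h (by norm_num) (by norm_num) h0 hp1 (by norm_num [al5, be5]) (by norm_num [al5, be5])

lemma cap6i6c1f1FS {a p : ℝ} (ha0 : 0 ≤ a) (h : ∀ c, 0 ≤ c → c ≤ 1 → a ≤ al5 c * p + be5 c)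
    (hp : (37/1000) ≤ p) (hp1 : p ≤ (3/25)) : a ^ 2 ≤ (-2731/1000000) + (8/25) * p := by
  exact row5 (c := (21/40)) (P := (37/1000)) (Q := (3/25)) ha0 h (by norm_num) (by norm_num) hp hp1 (by norm_num [al5, be5]) (by norm_num [al5, be5])

lemma cap6i6c1f1CLr {a p : ℝ} (ha0 : 0 ≤ a) (h : ∀ c, 0 ≤ c → c ≤ 1 → a ≤ al5 c * p + be5 c)
    (hp : (3/25) ≤ p) (hp1 : p ≤ (31281/125000)) : a ^ 2 ≤ (18203/1000000) + (8/25) * p := by
  exact row5 (c := (11/40)) (P := (3/25)) (Q := (31281/125000)) ha0 h (by norm_num) (by norm_num) hp hp1 (by norm_num [al5, be5]) (by norm_num [al5, be5])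

lemma cap6i6c1f1CL {a p : ℝ} (ha0 : 0 ≤ a) (h : ∀ c, 0 ≤ c → c ≤ 1 → a ≤ al5 c * p + be5 c)
    (hc : a < (627/2000)) (hp : (3/25) ≤ p) : a ^ 2 ≤ (18203/1000000) + (8/25) * p := by
  rcases le_total p (31281/125000) with h1 | h1
  · exact cap6i6c1f1CLr ha0 h hp h1
  · exact cap_extend ha0 hc (by norm_num) (Pb := (31281/125000)) (by norm_num) h1

lemma cap6i6c1f1CS {a p : ℝ} (ha0 : 0 ≤ a) (h : ∀ c, 0 ≤ c → c ≤ 1 → a ≤ al5 c * p + be5 c)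
    (hp : (37/1000) ≤ p) (hp1 : p ≤ (3/25)) : a ^ 2 ≤ (-2731/1000000) + (8/25) * p := by
  exact row5 (c := (21/40)) (P := (37/1000)) (Q := (3/25)) ha0 h (by norm_num) (by norm_num) hp hp1 (by norm_num [al5, be5]) (by norm_num [al5, be5])

lemma cap6i6c1f1 (n p : ι → ℝ) (i0 : ι) (C : Finset ι) (hC : C ⊆ Finset.univ.erase i0)
    (hsum : ∑ i, p i = 1) (hn0 : ∀ j, 0 ≤ n j)
    (hrow : ∀ j, ∀ c, 0 ≤ c → c ≤ 1 → n j ≤ al5 c * p j + be5 c)
    (hlo : ∀ j, (37/1000) ≤ p j) (hp1 : ∀ j, p j ≤ 1) (hcap : ∀ j ∈ C, n j < (627/2000))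
    (hu : n i0 ≤ (701/10000)) (hC2 : C.card = 3)
    (hF2 : (Finset.univ.erase i0 \ C).card = 2)
    (hlc : (C.filter fun j => (3/25) ≤ p j).card = 1)
    (hlf : ((Finset.univ.erase i0 \ C).filter fun j => (3/25) ≤ p j).card = 1) :
    ∑ i, n i ^ 2 < (179049/500000) := by
  have key := joint_sum n p i0 C hC hsum (pc := (3/25)) (ACL := (18203/1000000)) (ACS := (-2731/1000000))
    (AL := (6171/250000)) (AS := (-2731/1000000)) (B := (8/25))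
    (fun j hj hp => cap6i6c1f1CL (hn0 j) (hrow j) (hcap j hj) hp)
    (fun j hj hp => cap6i6c1f1CS (hn0 j) (hrow j) (hlo j) hp.le)
    (fun j _ hp => cap6i6c1f1FL (hn0 j) (hrow j) hp (hp1 j))
    (fun j _ hp => cap6i6c1f1FS (hn0 j) (hrow j) (hlo j) hp.le)
  rw [card_filter_two C _ hC2 hlc, card_filter_two _ _ hF2 hlf, hlc, hlf] at key
  have h1 : n i0 ^ 2 ≤ (701/10000) ^ 2 := pow_le_pow_left₀ (hn0 i0) hu 2
  have h2 := hlo i0
  norm_num at key h1 h2 ⊢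
  linarith

lemma cap6i6c1f2FL {a p : ℝ} (ha0 : 0 ≤ a) (h : ∀ c, 0 ≤ c → c ≤ 1 → a ≤ al5 c * p + be5 c)
    (hp : (3/25) ≤ p) (hp1 : p ≤ 1) : a ^ 2 ≤ (561/200000) + (19/50) * p := by
  rcases le_total p (2871/10000) with h0 | h0
  · exact row5 (c := (13/40)) (P := (3/25)) (Q := (2871/10000)) ha0 h (by norm_num) (by norm_num) hp h0 (by norm_num [al5, be5]) (by norm_num [al5, be5])
  rcases le_total p (3081/10000) with h1 | h1
  · exact row5 (c := (11/40)) (P := (2871/10000)) (Q := (3081/10000)) ha0 h (by norm_num) (by norm_num) h0 h1 (by norm_num [al5, be5]) (by norm_num [al5, be5])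
  rcases le_total p (3507/10000) with h2 | h2
  · exact row5 (c := (1/4)) (P := (3081/10000)) (Q := (3507/10000)) ha0 h (by norm_num) (by norm_num) h1 h2 (by norm_num [al5, be5]) (by norm_num [al5, be5])
  exact row5 (c := (7/40)) (P := (3507/10000)) (Q := 1) ha0 h (by norm_num) (by norm_num) h2 hp1 (by norm_num [al5, be5]) (by norm_num [al5, be5])

lemma cap6i6c1f2FS {a p : ℝ} (ha0 : 0 ≤ a) (h : ∀ c, 0 ≤ c → c ≤ 1 → a ≤ al5 c * p + be5 c)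
    (hp : (37/1000) ≤ p) (hp1 : p ≤ (3/25)) : a ^ 2 ≤ (1/2) + (19/50) * p := by
  exact row5 (c := 0) (P := (37/1000)) (Q := (3/25)) ha0 h (by norm_num) (by norm_num) hp hp1 (by norm_num [al5, be5]) (by norm_num [al5, be5])

lemma cap6i6c1f2CLr {a p : ℝ} (ha0 : 0 ≤ a) (h : ∀ c, 0 ≤ c → c ≤ 1 → a ≤ al5 c * p + be5 c)
    (hp : (3/25) ≤ p) (hp1 : p ≤ (256667/1000000)) : a ^ 2 ≤ (749/1000000) + (19/50) * p := by
  exact row5 (c := (7/20)) (P := (3/25)) (Q := (256667/1000000)) ha0 h (by norm_num) (by norm_num) hp hp1 (by norm_num [al5, be5]) (by norm_num [al5, be5])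

lemma cap6i6c1f2CL {a p : ℝ} (ha0 : 0 ≤ a) (h : ∀ c, 0 ≤ c → c ≤ 1 → a ≤ al5 c * p + be5 c)
    (hc : a < (627/2000)) (hp : (3/25) ≤ p) : a ^ 2 ≤ (749/1000000) + (19/50) * p := by
  rcases le_total p (256667/1000000) with h1 | h1
  · exact cap6i6c1f2CLr ha0 h hp h1
  · exact cap_extend ha0 hc (by norm_num) (Pb := (256667/1000000)) (by norm_num) h1

lemma cap6i6c1f2CS {a p : ℝ} (ha0 : 0 ≤ a) (h : ∀ c, 0 ≤ c → c ≤ 1 → a ≤ al5 c * p + be5 c)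
    (hp : (37/1000) ≤ p) (hp1 : p ≤ (3/25)) : a ^ 2 ≤ (-1199/125000) + (19/50) * p := by
  rcases le_total p (2049/20000) with h0 | h0
  · exact row5 (c := (3/4)) (P := (37/1000)) (Q := (2049/20000)) ha0 h (by norm_num) (by norm_num) hp h0 (by norm_num [al5, be5]) (by norm_num [al5, be5])
  exact row5 (c := (19/40)) (P := (2049/20000)) (Q := (3/25)) ha0 h (by norm_num) (by norm_num) h0 hp1 (by norm_num [al5, be5]) (by norm_num [al5, be5])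

lemma cap6i6c1f2 (n p : ι → ℝ) (i0 : ι) (C : Finset ι) (hC : C ⊆ Finset.univ.erase i0)
    (hsum : ∑ i, p i = 1) (hn0 : ∀ j, 0 ≤ n j)
    (hrow : ∀ j, ∀ c, 0 ≤ c → c ≤ 1 → n j ≤ al5 c * p j + be5 c)
    (hlo : ∀ j, (37/1000) ≤ p j) (hp1 : ∀ j, p j ≤ 1) (hcap : ∀ j ∈ C, n j < (627/2000))
    (hu : n i0 ≤ (701/10000)) (hC2 : C.card = 3)
    (hF2 : (Finset.univ.erase i0 \ C).card = 2)
    (hlc : (C.filter fun j => (3/25) ≤ p j).card = 1)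
    (hlf : ((Finset.univ.erase i0 \ C).filter fun j => (3/25) ≤ p j).card = 2) :
    ∑ i, n i ^ 2 < (179049/500000) := by
  have key := joint_sum n p i0 C hC hsum (pc := (3/25)) (ACL := (749/1000000)) (ACS := (-1199/125000))
    (AL := (561/200000)) (AS := (1/2)) (B := (19/50))
    (fun j hj hp => cap6i6c1f2CL (hn0 j) (hrow j) (hcap j hj) hp)
    (fun j hj hp => cap6i6c1f2CS (hn0 j) (hrow j) (hlo j) hp.le)
    (fun j _ hp => cap6i6c1f2FL (hn0 j) (hrow j) hp (hp1 j))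
    (fun j _ hp => cap6i6c1f2FS (hn0 j) (hrow j) (hlo j) hp.le)
  rw [card_filter_two C _ hC2 hlc, card_filter_two _ _ hF2 hlf, hlc, hlf] at key
  have h1 : n i0 ^ 2 ≤ (701/10000) ^ 2 := pow_le_pow_left₀ (hn0 i0) hu 2
  have h2 := hlo i0
  norm_num at key h1 h2 ⊢
  linarith

lemma cap6i6c2f0FL {a p : ℝ} (ha0 : 0 ≤ a) (h : ∀ c, 0 ≤ c → c ≤ 1 → a ≤ al5 c * p + be5 c)
    (hp : (3/25) ≤ p) (hp1 : p ≤ 1) : a ^ 2 ≤ (1/2) + (1/10) * p := by
  exact row5 (c := 0) (P := (3/25)) (Q := 1) ha0 h (by norm_num) (by norm_num) hp hp1 (by norm_num [al5, be5]) (by norm_num [al5, be5])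

lemma cap6i6c2f0FS {a p : ℝ} (ha0 : 0 ≤ a) (h : ∀ c, 0 ≤ c → c ≤ 1 → a ≤ al5 c * p + be5 c)
    (hp : (37/1000) ≤ p) (hp1 : p ≤ (3/25)) : a ^ 2 ≤ (1643/62500) + (1/10) * p := by
  exact row5 (c := (17/40)) (P := (37/1000)) (Q := (3/25)) ha0 h (by norm_num) (by norm_num) hp hp1 (by norm_num [al5, be5]) (by norm_num [al5, be5])

lemma cap6i6c2f0CLr {a p : ℝ} (ha0 : 0 ≤ a) (h : ∀ c, 0 ≤ c → c ≤ 1 → a ≤ al5 c * p + be5 c)
    (hp : (3/25) ≤ p) (hp1 : p ≤ (209863/1000000)) : a ^ 2 ≤ (4831/62500) + (1/10) * p := by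
  exact row5 (c := (1/5)) (P := (3/25)) (Q := (209863/1000000)) ha0 h (by norm_num) (by norm_num) hp hp1 (by norm_num [al5, be5]) (by norm_num [al5, be5])

lemma cap6i6c2f0CL {a p : ℝ} (ha0 : 0 ≤ a) (h : ∀ c, 0 ≤ c → c ≤ 1 → a ≤ al5 c * p + be5 c)
    (hc : a < (627/2000)) (hp : (3/25) ≤ p) : a ^ 2 ≤ (4831/62500) + (1/10) * p := by
  rcases le_total p (209863/1000000) with h1 | h1
  · exact cap6i6c2f0CLr ha0 h hp h1
  · exact cap_extend ha0 hc (by norm_num) (Pb := (209863/1000000)) (by norm_num) h1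

lemma cap6i6c2f0CS {a p : ℝ} (ha0 : 0 ≤ a) (h : ∀ c, 0 ≤ c → c ≤ 1 → a ≤ al5 c * p + be5 c)
    (hp : (37/1000) ≤ p) (hp1 : p ≤ (3/25)) : a ^ 2 ≤ (1643/62500) + (1/10) * p := by
  exact row5 (c := (17/40)) (P := (37/1000)) (Q := (3/25)) ha0 h (by norm_num) (by norm_num) hp hp1 (by norm_num [al5, be5]) (by norm_num [al5, be5])

lemma cap6i6c2f0 (n p : ι → ℝ) (i0 : ι) (C : Finset ι) (hC : C ⊆ Finset.univ.erase i0)
    (hsum : ∑ i, p i = 1) (hn0 : ∀ j, 0 ≤ n j)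
    (hrow : ∀ j, ∀ c, 0 ≤ c → c ≤ 1 → n j ≤ al5 c * p j + be5 c)
    (hlo : ∀ j, (37/1000) ≤ p j) (hp1 : ∀ j, p j ≤ 1) (hcap : ∀ j ∈ C, n j < (627/2000))
    (hu : n i0 ≤ (701/10000)) (hC2 : C.card = 3)
    (hF2 : (Finset.univ.erase i0 \ C).card = 2)
    (hlc : (C.filter fun j => (3/25) ≤ p j).card = 2)
    (hlf : ((Finset.univ.erase i0 \ C).filter fun j => (3/25) ≤ p j).card = 0) :
    ∑ i, n i ^ 2 < (179049/500000) := by
  have key := joint_sum n p i0 C hC hsum (pc := (3/25)) (ACL := (4831/62500)) (ACS := (1643/62500))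
    (AL := (1/2)) (AS := (1643/62500)) (B := (1/10))
    (fun j hj hp => cap6i6c2f0CL (hn0 j) (hrow j) (hcap j hj) hp)
    (fun j hj hp => cap6i6c2f0CS (hn0 j) (hrow j) (hlo j) hp.le)
    (fun j _ hp => cap6i6c2f0FL (hn0 j) (hrow j) hp (hp1 j))
    (fun j _ hp => cap6i6c2f0FS (hn0 j) (hrow j) (hlo j) hp.le)
  rw [card_filter_two C _ hC2 hlc, card_filter_two _ _ hF2 hlf, hlc, hlf] at key
  have h1 : n i0 ^ 2 ≤ (701/10000) ^ 2 := pow_le_pow_left₀ (hn0 i0) hu 2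
  have h2 := hlo i0
  norm_num at key h1 h2 ⊢
  linarith

lemma cap6i6c2f1FL {a p : ℝ} (ha0 : 0 ≤ a) (h : ∀ c, 0 ≤ c → c ≤ 1 → a ≤ al5 c * p + be5 c)
    (hp : (3/25) ≤ p) (hp1 : p ≤ 1) : a ^ 2 ≤ (1901/200000) + (9/25) * p := by
  rcases le_total p (6133/20000) with h0 | h0
  · exact row5 (c := (3/10)) (P := (3/25)) (Q := (6133/20000)) ha0 h (by norm_num) (by norm_num) hp h0 (by norm_num [al5, be5]) (by norm_num [al5, be5])
  rcases le_total p (17/50) with h1 | h1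
  · exact row5 (c := (1/4)) (P := (6133/20000)) (Q := (17/50)) ha0 h (by norm_num) (by norm_num) h0 h1 (by norm_num [al5, be5]) (by norm_num [al5, be5])
  rcases le_total p (12651/20000) with h2 | h2
  · exact row5 (c := (1/5)) (P := (17/50)) (Q := (12651/20000)) ha0 h (by norm_num) (by norm_num) h1 h2 (by norm_num [al5, be5]) (by norm_num [al5, be5])
  exact row5 (c := 0) (P := (12651/20000)) (Q := 1) ha0 h (by norm_num) (by norm_num) h2 hp1 (by norm_num [al5, be5]) (by norm_num [al5, be5])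

lemma cap6i6c2f1FS {a p : ℝ} (ha0 : 0 ≤ a) (h : ∀ c, 0 ≤ c → c ≤ 1 → a ≤ al5 c * p + be5 c)
    (hp : (37/1000) ≤ p) (hp1 : p ≤ (3/25)) : a ^ 2 ≤ (-4267/500000) + (9/25) * p := by
  rcases le_total p (1081/10000) with h0 | h0
  · exact row5 (c := (7/10)) (P := (37/1000)) (Q := (1081/10000)) ha0 h (by norm_num) (by norm_num) hp h0 (by norm_num [al5, be5]) (by norm_num [al5, be5])
  exact row5 (c := (1/2)) (P := (1081/10000)) (Q := (3/25)) ha0 h (by norm_num) (by norm_num) h0 hp1 (by norm_num [al5, be5]) (by norm_num [al5, be5])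

lemma cap6i6c2f1CLr {a p : ℝ} (ha0 : 0 ≤ a) (h : ∀ c, 0 ≤ c → c ≤ 1 → a ≤ al5 c * p + be5 c)
    (hp : (3/25) ≤ p) (hp1 : p ≤ (127891/500000)) : a ^ 2 ≤ (6201/1000000) + (9/25) * p := by
  exact row5 (c := (13/40)) (P := (3/25)) (Q := (127891/500000)) ha0 h (by norm_num) (by norm_num) hp hp1 (by norm_num [al5, be5]) (by norm_num [al5, be5])

lemma cap6i6c2f1CL {a p : ℝ} (ha0 : 0 ≤ a) (h : ∀ c, 0 ≤ c → c ≤ 1 → a ≤ al5 c * p + be5 c)
    (hc : a < (627/2000)) (hp : (3/25) ≤ p) : a ^ 2 ≤ (6201/1000000) + (9/25) * p := by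
  rcases le_total p (127891/500000) with h1 | h1
  · exact cap6i6c2f1CLr ha0 h hp h1
  · exact cap_extend ha0 hc (by norm_num) (Pb := (127891/500000)) (by norm_num) h1

lemma cap6i6c2f1CS {a p : ℝ} (ha0 : 0 ≤ a) (h : ∀ c, 0 ≤ c → c ≤ 1 → a ≤ al5 c * p + be5 c)
    (hp : (37/1000) ≤ p) (hp1 : p ≤ (3/25)) : a ^ 2 ≤ (-4267/500000) + (9/25) * p := by
  rcases le_total p (1081/10000) with h0 | h0
  · exact row5 (c := (7/10)) (P := (37/1000)) (Q := (1081/10000)) ha0 h (by norm_num) (by norm_num) hp h0 (by norm_num [al5, be5]) (by norm_num [al5, be5])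
  exact row5 (c := (1/2)) (P := (1081/10000)) (Q := (3/25)) ha0 h (by norm_num) (by norm_num) h0 hp1 (by norm_num [al5, be5]) (by norm_num [al5, be5])

lemma cap6i6c2f1 (n p : ι → ℝ) (i0 : ι) (C : Finset ι) (hC : C ⊆ Finset.univ.erase i0)
    (hsum : ∑ i, p i = 1) (hn0 : ∀ j, 0 ≤ n j)
    (hrow : ∀ j, ∀ c, 0 ≤ c → c ≤ 1 → n j ≤ al5 c * p j + be5 c)
    (hlo : ∀ j, (37/1000) ≤ p j) (hp1 : ∀ j, p j ≤ 1) (hcap : ∀ j ∈ C, n j < (627/2000))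
    (hu : n i0 ≤ (701/10000)) (hC2 : C.card = 3)
    (hF2 : (Finset.univ.erase i0 \ C).card = 2)
    (hlc : (C.filter fun j => (3/25) ≤ p j).card = 2)
    (hlf : ((Finset.univ.erase i0 \ C).filter fun j => (3/25) ≤ p j).card = 1) :
    ∑ i, n i ^ 2 < (179049/500000) := by
  have key := joint_sum n p i0 C hC hsum (pc := (3/25)) (ACL := (6201/1000000)) (ACS := (-4267/500000))
    (AL := (1901/200000)) (AS := (-4267/500000)) (B := (9/25))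
    (fun j hj hp => cap6i6c2f1CL (hn0 j) (hrow j) (hcap j hj) hp)
    (fun j hj hp => cap6i6c2f1CS (hn0 j) (hrow j) (hlo j) hp.le)
    (fun j _ hp => cap6i6c2f1FL (hn0 j) (hrow j) hp (hp1 j))
    (fun j _ hp => cap6i6c2f1FS (hn0 j) (hrow j) (hlo j) hp.le)
  rw [card_filter_two C _ hC2 hlc, card_filter_two _ _ hF2 hlf, hlc, hlf] at key
  have h1 : n i0 ^ 2 ≤ (701/10000) ^ 2 := pow_le_pow_left₀ (hn0 i0) hu 2
  have h2 := hlo i0
  norm_num at key h1 h2 ⊢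
  linarith

lemma cap6i6c2f2FL {a p : ℝ} (ha0 : 0 ≤ a) (h : ∀ c, 0 ≤ c → c ≤ 1 → a ≤ al5 c * p + be5 c)
    (hp : (3/25) ≤ p) (hp1 : p ≤ 1) : a ^ 2 ≤ (-9789/500000) + (23/50) * p := by
  rcases le_total p (2007/10000) with h0 | h0
  · exact row5 (c := (19/40)) (P := (3/25)) (Q := (2007/10000)) ha0 h (by norm_num) (by norm_num) hp h0 (by norm_num [al5, be5]) (by norm_num [al5, be5])
  rcases le_total p (309/1250) with h1 | h1
  · exact row5 (c := (3/8)) (P := (2007/10000)) (Q := (309/1250)) ha0 h (by norm_num) (by norm_num) h0 h1 (by norm_num [al5, be5]) (by norm_num [al5, be5])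
  rcases le_total p (339/1250) with h2 | h2
  · exact row5 (c := (7/20)) (P := (309/1250)) (Q := (339/1250)) ha0 h (by norm_num) (by norm_num) h1 h2 (by norm_num [al5, be5]) (by norm_num [al5, be5])
  rcases le_total p (987/2500) with h3 | h3
  · exact row5 (c := (3/10)) (P := (339/1250)) (Q := (987/2500)) ha0 h (by norm_num) (by norm_num) h2 h3 (by norm_num [al5, be5]) (by norm_num [al5, be5])
  exact row5 (c := 0) (P := (987/2500)) (Q := 1) ha0 h (by norm_num) (by norm_num) h3 hp1 (by norm_num [al5, be5]) (by norm_num [al5, be5])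

lemma cap6i6c2f2FS {a p : ℝ} (ha0 : 0 ≤ a) (h : ∀ c, 0 ≤ c → c ≤ 1 → a ≤ al5 c * p + be5 c)
    (hp : (37/1000) ≤ p) (hp1 : p ≤ (3/25)) : a ^ 2 ≤ (1/2) + (23/50) * p := by
  exact row5 (c := 0) (P := (37/1000)) (Q := (3/25)) ha0 h (by norm_num) (by norm_num) hp hp1 (by norm_num [al5, be5]) (by norm_num [al5, be5])

lemma cap6i6c2f2CLr {a p : ℝ} (ha0 : 0 ≤ a) (h : ∀ c, 0 ≤ c → c ≤ 1 → a ≤ al5 c * p + be5 c)
    (hp : (3/25) ≤ p) (hp1 : p ≤ (128109/500000)) : a ^ 2 ≤ (-9789/500000) + (23/50) * p := by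
  rcases le_total p (2007/10000) with h0 | h0
  · exact row5 (c := (19/40)) (P := (3/25)) (Q := (2007/10000)) ha0 h (by norm_num) (by norm_num) hp h0 (by norm_num [al5, be5]) (by norm_num [al5, be5])
  rcases le_total p (309/1250) with h1 | h1
  · exact row5 (c := (3/8)) (P := (2007/10000)) (Q := (309/1250)) ha0 h (by norm_num) (by norm_num) h0 h1 (by norm_num [al5, be5]) (by norm_num [al5, be5])
  exact row5 (c := (7/20)) (P := (309/1250)) (Q := (128109/500000)) ha0 h (by norm_num) (by norm_num) h1 hp1 (by norm_num [al5, be5]) (by norm_num [al5, be5])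

lemma cap6i6c2f2CL {a p : ℝ} (ha0 : 0 ≤ a) (h : ∀ c, 0 ≤ c → c ≤ 1 → a ≤ al5 c * p + be5 c)
    (hc : a < (627/2000)) (hp : (3/25) ≤ p) : a ^ 2 ≤ (-9789/500000) + (23/50) * p := by
  rcases le_total p (128109/500000) with h1 | h1
  · exact cap6i6c2f2CLr ha0 h hp h1
  · exact cap_extend ha0 hc (by norm_num) (Pb := (128109/500000)) (by norm_num) h1

lemma cap6i6c2f2CS {a p : ℝ} (ha0 : 0 ≤ a) (h : ∀ c, 0 ≤ c → c ≤ 1 → a ≤ al5 c * p + be5 c)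
    (hp : (37/1000) ≤ p) (hp1 : p ≤ (3/25)) : a ^ 2 ≤ (-6193/500000) + (23/50) * p := by
  exact row5 (c := (29/40)) (P := (37/1000)) (Q := (3/25)) ha0 h (by norm_num) (by norm_num) hp hp1 (by norm_num [al5, be5]) (by norm_num [al5, be5])

lemma cap6i6c2f2 (n p : ι → ℝ) (i0 : ι) (C : Finset ι) (hC : C ⊆ Finset.univ.erase i0)
    (hsum : ∑ i, p i = 1) (hn0 : ∀ j, 0 ≤ n j)
    (hrow : ∀ j, ∀ c, 0 ≤ c → c ≤ 1 → n j ≤ al5 c * p j + be5 c)
    (hlo : ∀ j, (37/1000) ≤ p j) (hp1 : ∀ j, p j ≤ 1) (hcap : ∀ j ∈ C, n j < (627/2000))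
    (hu : n i0 ≤ (701/10000)) (hC2 : C.card = 3)
    (hF2 : (Finset.univ.erase i0 \ C).card = 2)
    (hlc : (C.filter fun j => (3/25) ≤ p j).card = 2)
    (hlf : ((Finset.univ.erase i0 \ C).filter fun j => (3/25) ≤ p j).card = 2) :
    ∑ i, n i ^ 2 < (179049/500000) := by
  have key := joint_sum n p i0 C hC hsum (pc := (3/25)) (ACL := (-9789/500000)) (ACS := (-6193/500000))
    (AL := (-9789/500000)) (AS := (1/2)) (B := (23/50))
    (fun j hj hp => cap6i6c2f2CL (hn0 j) (hrow j) (hcap j hj) hp)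
    (fun j hj hp => cap6i6c2f2CS (hn0 j) (hrow j) (hlo j) hp.le)
    (fun j _ hp => cap6i6c2f2FL (hn0 j) (hrow j) hp (hp1 j))
    (fun j _ hp => cap6i6c2f2FS (hn0 j) (hrow j) (hlo j) hp.le)
  rw [card_filter_two C _ hC2 hlc, card_filter_two _ _ hF2 hlf, hlc, hlf] at key
  have h1 : n i0 ^ 2 ≤ (701/10000) ^ 2 := pow_le_pow_left₀ (hn0 i0) hu 2
  have h2 := hlo i0
  norm_num at key h1 h2 ⊢
  linarith

lemma cap6i6c3f0FL {a p : ℝ} (ha0 : 0 ≤ a) (h : ∀ c, 0 ≤ c → c ≤ 1 → a ≤ al5 c * p + be5 c)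
    (hp : (3/25) ≤ p) (hp1 : p ≤ 1) : a ^ 2 ≤ (1/2) + (17/50) * p := by
  exact row5 (c := 0) (P := (3/25)) (Q := 1) ha0 h (by norm_num) (by norm_num) hp hp1 (by norm_num [al5, be5]) (by norm_num [al5, be5])

lemma cap6i6c3f0FS {a p : ℝ} (ha0 : 0 ≤ a) (h : ∀ c, 0 ≤ c → c ≤ 1 → a ≤ al5 c * p + be5 c)
    (hp : (37/1000) ≤ p) (hp1 : p ≤ (3/25)) : a ^ 2 ≤ (-6483/1000000) + (17/50) * p := by
  exact row5 (c := (3/5)) (P := (37/1000)) (Q := (3/25)) ha0 h (by norm_num) (by norm_num) hp hp1 (by norm_num [al5, be5]) (by norm_num [al5, be5])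

lemma cap6i6c3f0CLr {a p : ℝ} (ha0 : 0 ≤ a) (h : ∀ c, 0 ≤ c → c ≤ 1 → a ≤ al5 c * p + be5 c)
    (hp : (3/25) ≤ p) (hp1 : p ≤ (254601/1000000)) : a ^ 2 ≤ (5859/500000) + (17/50) * p := by
  exact row5 (c := (3/10)) (P := (3/25)) (Q := (254601/1000000)) ha0 h (by norm_num) (by norm_num) hp hp1 (by norm_num [al5, be5]) (by norm_num [al5, be5])

lemma cap6i6c3f0CL {a p : ℝ} (ha0 : 0 ≤ a) (h : ∀ c, 0 ≤ c → c ≤ 1 → a ≤ al5 c * p + be5 c)
    (hc : a < (627/2000)) (hp : (3/25) ≤ p) : a ^ 2 ≤ (5859/500000) + (17/50) * p := by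
  rcases le_total p (254601/1000000) with h1 | h1
  · exact cap6i6c3f0CLr ha0 h hp h1
  · exact cap_extend ha0 hc (by norm_num) (Pb := (254601/1000000)) (by norm_num) h1

lemma cap6i6c3f0CS {a p : ℝ} (ha0 : 0 ≤ a) (hc : a < (627/2000)) (hp : (37/1000) ≤ p) : a ^ 2 ≤ (1/2) + (17/50) * p :=
  cap_extend ha0 hc (by norm_num) (Pb := (37/1000)) (by norm_num) hp

lemma cap6i6c3f0 (n p : ι → ℝ) (i0 : ι) (C : Finset ι) (hC : C ⊆ Finset.univ.erase i0)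
    (hsum : ∑ i, p i = 1) (hn0 : ∀ j, 0 ≤ n j)
    (hrow : ∀ j, ∀ c, 0 ≤ c → c ≤ 1 → n j ≤ al5 c * p j + be5 c)
    (hlo : ∀ j, (37/1000) ≤ p j) (hp1 : ∀ j, p j ≤ 1) (hcap : ∀ j ∈ C, n j < (627/2000))
    (hu : n i0 ≤ (701/10000)) (hC2 : C.card = 3)
    (hF2 : (Finset.univ.erase i0 \ C).card = 2)
    (hlc : (C.filter fun j => (3/25) ≤ p j).card = 3)
    (hlf : ((Finset.univ.erase i0 \ C).filter fun j => (3/25) ≤ p j).card = 0) :
    ∑ i, n i ^ 2 < (179049/500000) := by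
  have key := joint_sum n p i0 C hC hsum (pc := (3/25)) (ACL := (5859/500000)) (ACS := (1/2))
    (AL := (1/2)) (AS := (-6483/1000000)) (B := (17/50))
    (fun j hj hp => cap6i6c3f0CL (hn0 j) (hrow j) (hcap j hj) hp)
    (fun j hj hp => cap6i6c3f0CS (hn0 j) (hcap j hj) (hlo j))
    (fun j _ hp => cap6i6c3f0FL (hn0 j) (hrow j) hp (hp1 j))
    (fun j _ hp => cap6i6c3f0FS (hn0 j) (hrow j) (hlo j) hp.le)
  rw [card_filter_two C _ hC2 hlc, card_filter_two _ _ hF2 hlf, hlc, hlf] at key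
  have h1 : n i0 ^ 2 ≤ (701/10000) ^ 2 := pow_le_pow_left₀ (hn0 i0) hu 2
  have h2 := hlo i0
  norm_num at key h1 h2 ⊢
  linarith

lemma cap6i6c3f1FL {a p : ℝ} (ha0 : 0 ≤ a) (h : ∀ c, 0 ≤ c → c ≤ 1 → a ≤ al5 c * p + be5 c)
    (hp : (3/25) ≤ p) (hp1 : p ≤ 1) : a ^ 2 ≤ (-9789/500000) + (23/50) * p := by
  rcases le_total p (2007/10000) with h0 | h0
  · exact row5 (c := (19/40)) (P := (3/25)) (Q := (2007/10000)) ha0 h (by norm_num) (by norm_num) hp h0 (by norm_num [al5, be5]) (by norm_num [al5, be5])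
  rcases le_total p (309/1250) with h1 | h1
  · exact row5 (c := (3/8)) (P := (2007/10000)) (Q := (309/1250)) ha0 h (by norm_num) (by norm_num) h0 h1 (by norm_num [al5, be5]) (by norm_num [al5, be5])
  rcases le_total p (339/1250) with h2 | h2
  · exact row5 (c := (7/20)) (P := (309/1250)) (Q := (339/1250)) ha0 h (by norm_num) (by norm_num) h1 h2 (by norm_num [al5, be5]) (by norm_num [al5, be5])
  rcases le_total p (987/2500) with h3 | h3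
  · exact row5 (c := (3/10)) (P := (339/1250)) (Q := (987/2500)) ha0 h (by norm_num) (by norm_num) h2 h3 (by norm_num [al5, be5]) (by norm_num [al5, be5])
  exact row5 (c := 0) (P := (987/2500)) (Q := 1) ha0 h (by norm_num) (by norm_num) h3 hp1 (by norm_num [al5, be5]) (by norm_num [al5, be5])

lemma cap6i6c3f1FS {a p : ℝ} (ha0 : 0 ≤ a) (h : ∀ c, 0 ≤ c → c ≤ 1 → a ≤ al5 c * p + be5 c)
    (hp : (37/1000) ≤ p) (hp1 : p ≤ (3/25)) : a ^ 2 ≤ (-6193/500000) + (23/50) * p := by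
  exact row5 (c := (29/40)) (P := (37/1000)) (Q := (3/25)) ha0 h (by norm_num) (by norm_num) hp hp1 (by norm_num [al5, be5]) (by norm_num [al5, be5])

lemma cap6i6c3f1CLr {a p : ℝ} (ha0 : 0 ≤ a) (h : ∀ c, 0 ≤ c → c ≤ 1 → a ≤ al5 c * p + be5 c)
    (hp : (3/25) ≤ p) (hp1 : p ≤ (128109/500000)) : a ^ 2 ≤ (-9789/500000) + (23/50) * p := by
  rcases le_total p (2007/10000) with h0 | h0
  · exact row5 (c := (19/40)) (P := (3/25)) (Q := (2007/10000)) ha0 h (by norm_num) (by norm_num) hp h0 (by norm_num [al5, be5]) (by norm_num [al5, be5])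
  rcases le_total p (309/1250) with h1 | h1
  · exact row5 (c := (3/8)) (P := (2007/10000)) (Q := (309/1250)) ha0 h (by norm_num) (by norm_num) h0 h1 (by norm_num [al5, be5]) (by norm_num [al5, be5])
  exact row5 (c := (7/20)) (P := (309/1250)) (Q := (128109/500000)) ha0 h (by norm_num) (by norm_num) h1 hp1 (by norm_num [al5, be5]) (by norm_num [al5, be5])

lemma cap6i6c3f1CL {a p : ℝ} (ha0 : 0 ≤ a) (h : ∀ c, 0 ≤ c → c ≤ 1 → a ≤ al5 c * p + be5 c)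
    (hc : a < (627/2000)) (hp : (3/25) ≤ p) : a ^ 2 ≤ (-9789/500000) + (23/50) * p := by
  rcases le_total p (128109/500000) with h1 | h1
  · exact cap6i6c3f1CLr ha0 h hp h1
  · exact cap_extend ha0 hc (by norm_num) (Pb := (128109/500000)) (by norm_num) h1

lemma cap6i6c3f1CS {a p : ℝ} (ha0 : 0 ≤ a) (hc : a < (627/2000)) (hp : (37/1000) ≤ p) : a ^ 2 ≤ (1/2) + (23/50) * p :=
  cap_extend ha0 hc (by norm_num) (Pb := (37/1000)) (by norm_num) hp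

lemma cap6i6c3f1 (n p : ι → ℝ) (i0 : ι) (C : Finset ι) (hC : C ⊆ Finset.univ.erase i0)
    (hsum : ∑ i, p i = 1) (hn0 : ∀ j, 0 ≤ n j)
    (hrow : ∀ j, ∀ c, 0 ≤ c → c ≤ 1 → n j ≤ al5 c * p j + be5 c)
    (hlo : ∀ j, (37/1000) ≤ p j) (hp1 : ∀ j, p j ≤ 1) (hcap : ∀ j ∈ C, n j < (627/2000))
    (hu : n i0 ≤ (701/10000)) (hC2 : C.card = 3)
    (hF2 : (Finset.univ.erase i0 \ C).card = 2)
    (hlc : (C.filter fun j => (3/25) ≤ p j).card = 3)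
    (hlf : ((Finset.univ.erase i0 \ C).filter fun j => (3/25) ≤ p j).card = 1) :
    ∑ i, n i ^ 2 < (179049/500000) := by
  have key := joint_sum n p i0 C hC hsum (pc := (3/25)) (ACL := (-9789/500000)) (ACS := (1/2))
    (AL := (-9789/500000)) (AS := (-6193/500000)) (B := (23/50))
    (fun j hj hp => cap6i6c3f1CL (hn0 j) (hrow j) (hcap j hj) hp)
    (fun j hj hp => cap6i6c3f1CS (hn0 j) (hcap j hj) (hlo j))
    (fun j _ hp => cap6i6c3f1FL (hn0 j) (hrow j) hp (hp1 j))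
    (fun j _ hp => cap6i6c3f1FS (hn0 j) (hrow j) (hlo j) hp.le)
  rw [card_filter_two C _ hC2 hlc, card_filter_two _ _ hF2 hlf, hlc, hlf] at key
  have h1 : n i0 ^ 2 ≤ (701/10000) ^ 2 := pow_le_pow_left₀ (hn0 i0) hu 2
  have h2 := hlo i0
  norm_num at key h1 h2 ⊢
  linarith

lemma cap6i6c3f2FL {a p : ℝ} (ha0 : 0 ≤ a) (h : ∀ c, 0 ≤ c → c ≤ 1 → a ≤ al5 c * p + be5 c)
    (hp : (3/25) ≤ p) (hp1 : p ≤ 1) : a ^ 2 ≤ (-2863/125000) + (12/25) * p := by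
  rcases le_total p (3931/20000) with h0 | h0
  · exact row5 (c := (1/2)) (P := (3/25)) (Q := (3931/20000)) ha0 h (by norm_num) (by norm_num) hp h0 (by norm_num [al5, be5]) (by norm_num [al5, be5])
  rcases le_total p (1453/5000) with h1 | h1
  · exact row5 (c := (3/8)) (P := (3931/20000)) (Q := (1453/5000)) ha0 h (by norm_num) (by norm_num) h0 h1 (by norm_num [al5, be5]) (by norm_num [al5, be5])
  rcases le_total p (9813/10000) with h2 | h2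
  · exact row5 (c := (9/40)) (P := (1453/5000)) (Q := (9813/10000)) ha0 h (by norm_num) (by norm_num) h1 h2 (by norm_num [al5, be5]) (by norm_num [al5, be5])
  exact row5 (c := 0) (P := (9813/10000)) (Q := 1) ha0 h (by norm_num) (by norm_num) h2 hp1 (by norm_num [al5, be5]) (by norm_num [al5, be5])

lemma cap6i6c3f2FS {a p : ℝ} (ha0 : 0 ≤ a) (h : ∀ c, 0 ≤ c → c ≤ 1 → a ≤ al5 c * p + be5 c)
    (hp : (37/1000) ≤ p) (hp1 : p ≤ (3/25)) : a ^ 2 ≤ (1/2) + (12/25) * p := by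
  exact row5 (c := 0) (P := (37/1000)) (Q := (3/25)) ha0 h (by norm_num) (by norm_num) hp hp1 (by norm_num [al5, be5]) (by norm_num [al5, be5])

lemma cap6i6c3f2CLr {a p : ℝ} (ha0 : 0 ≤ a) (h : ∀ c, 0 ≤ c → c ≤ 1 → a ≤ al5 c * p + be5 c)
    (hp : (3/25) ≤ p) (hp1 : p ≤ (31559/125000)) : a ^ 2 ≤ (-2863/125000) + (12/25) * p := by
  rcases le_total p (3931/20000) with h0 | h0
  · exact row5 (c := (1/2)) (P := (3/25)) (Q := (3931/20000)) ha0 h (by norm_num) (by norm_num) hp h0 (by norm_num [al5, be5]) (by norm_num [al5, be5])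
  exact row5 (c := (3/8)) (P := (3931/20000)) (Q := (31559/125000)) ha0 h (by norm_num) (by norm_num) h0 hp1 (by norm_num [al5, be5]) (by norm_num [al5, be5])

lemma cap6i6c3f2CL {a p : ℝ} (ha0 : 0 ≤ a) (h : ∀ c, 0 ≤ c → c ≤ 1 → a ≤ al5 c * p + be5 c)
    (hc : a < (627/2000)) (hp : (3/25) ≤ p) : a ^ 2 ≤ (-2863/125000) + (12/25) * p := by
  rcases le_total p (31559/125000) with h1 | h1
  · exact cap6i6c3f2CLr ha0 h hp h1
  · exact cap_extend ha0 hc (by norm_num) (Pb := (31559/125000)) (by norm_num) h1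

lemma cap6i6c3f2CS {a p : ℝ} (ha0 : 0 ≤ a) (hc : a < (627/2000)) (hp : (37/1000) ≤ p) : a ^ 2 ≤ (1/2) + (12/25) * p :=
  cap_extend ha0 hc (by norm_num) (Pb := (37/1000)) (by norm_num) hp

lemma cap6i6c3f2 (n p : ι → ℝ) (i0 : ι) (C : Finset ι) (hC : C ⊆ Finset.univ.erase i0)
    (hsum : ∑ i, p i = 1) (hn0 : ∀ j, 0 ≤ n j)
    (hrow : ∀ j, ∀ c, 0 ≤ c → c ≤ 1 → n j ≤ al5 c * p j + be5 c)
    (hlo : ∀ j, (37/1000) ≤ p j) (hp1 : ∀ j, p j ≤ 1) (hcap : ∀ j ∈ C, n j < (627/2000))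
    (hu : n i0 ≤ (701/10000)) (hC2 : C.card = 3)
    (hF2 : (Finset.univ.erase i0 \ C).card = 2)
    (hlc : (C.filter fun j => (3/25) ≤ p j).card = 3)
    (hlf : ((Finset.univ.erase i0 \ C).filter fun j => (3/25) ≤ p j).card = 2) :
    ∑ i, n i ^ 2 < (179049/500000) := by
  have key := joint_sum n p i0 C hC hsum (pc := (3/25)) (ACL := (-2863/125000)) (ACS := (1/2))
    (AL := (-2863/125000)) (AS := (1/2)) (B := (12/25))
    (fun j hj hp => cap6i6c3f2CL (hn0 j) (hrow j) (hcap j hj) hp)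
    (fun j hj hp => cap6i6c3f2CS (hn0 j) (hcap j hj) (hlo j))
    (fun j _ hp => cap6i6c3f2FL (hn0 j) (hrow j) hp (hp1 j))
    (fun j _ hp => cap6i6c3f2FS (hn0 j) (hrow j) (hlo j) hp.le)
  rw [card_filter_two C _ hC2 hlc, card_filter_two _ _ hF2 hlf, hlc, hlf] at key
  have h1 : n i0 ^ 2 ≤ (701/10000) ^ 2 := pow_le_pow_left₀ (hn0 i0) hu 2
  have h2 := hlo i0
  norm_num at key h1 h2 ⊢
  linarith

lemma cap6i6 (n p : ι → ℝ) (i0 : ι) (C : Finset ι) (hC : C ⊆ Finset.univ.erase i0)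
    (hsum : ∑ i, p i = 1) (hn0 : ∀ j, 0 ≤ n j)
    (hrow : ∀ j, ∀ c, 0 ≤ c → c ≤ 1 → n j ≤ al5 c * p j + be5 c)
    (hlo : ∀ j, (37/1000) ≤ p j) (hp1 : ∀ j, p j ≤ 1) (hcap : ∀ j ∈ C, n j < (627/2000))
    (hu : n i0 ≤ (701/10000)) (hC2 : C.card = 3)
    (hF2 : (Finset.univ.erase i0 \ C).card = 2) :
    ∑ i, n i ^ 2 < (179049/500000) := by
  have hA : (C.filter fun j => (3/25) ≤ p j).card ≤ 3 := (Finset.card_filter_le _ _).trans hC2.le
  have hB : ((Finset.univ.erase i0 \ C).filter fun j => (3/25) ≤ p j).card ≤ 2 := (Finset.card_filter_le _ _).trans hF2.le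
  have hc' : (C.filter fun j => (3/25) ≤ p j).card = 0 ∨ (C.filter fun j => (3/25) ≤ p j).card = 1 ∨ (C.filter fun j => (3/25) ≤ p j).card = 2 ∨ (C.filter fun j => (3/25) ≤ p j).card = 3 := by omega
  have hf' : ((Finset.univ.erase i0 \ C).filter fun j => (3/25) ≤ p j).card = 0 ∨ ((Finset.univ.erase i0 \ C).filter fun j => (3/25) ≤ p j).card = 1 ∨ ((Finset.univ.erase i0 \ C).filter fun j => (3/25) ≤ p j).card = 2 := by omega
  rcases hc' with hlc | hlc | hlc | hlc <;> rcases hf' with hlf | hlf | hlf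
  · exact cap6i6c0f0 n p i0 C hC hsum hn0 hrow hlo hp1 hcap hu hC2 hF2 hlc hlf
  · exact cap6i6c0f1 n p i0 C hC hsum hn0 hrow hlo hp1 hcap hu hC2 hF2 hlc hlf
  · exact cap6i6c0f2 n p i0 C hC hsum hn0 hrow hlo hp1 hcap hu hC2 hF2 hlc hlf
  · exact cap6i6c1f0 n p i0 C hC hsum hn0 hrow hlo hp1 hcap hu hC2 hF2 hlc hlf
  · exact cap6i6c1f1 n p i0 C hC hsum hn0 hrow hlo hp1 hcap hu hC2 hF2 hlc hlf
  · exact cap6i6c1f2 n p i0 C hC hsum hn0 hrow hlo hp1 hcap hu hC2 hF2 hlc hlf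
  · exact cap6i6c2f0 n p i0 C hC hsum hn0 hrow hlo hp1 hcap hu hC2 hF2 hlc hlf
  · exact cap6i6c2f1 n p i0 C hC hsum hn0 hrow hlo hp1 hcap hu hC2 hF2 hlc hlf
  · exact cap6i6c2f2 n p i0 C hC hsum hn0 hrow hlo hp1 hcap hu hC2 hF2 hlc hlf
  · exact cap6i6c3f0 n p i0 C hC hsum hn0 hrow hlo hp1 hcap hu hC2 hF2 hlc hlf
  · exact cap6i6c3f1 n p i0 C hC hsum hn0 hrow hlo hp1 hcap hu hC2 hF2 hlc hlf
  · exact cap6i6c3f2 n p i0 C hC hsum hn0 hrow hlo hp1 hcap hu hC2 hF2 hlc hlf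

lemma cap6i7c0f0FL {a p : ℝ} (ha0 : 0 ≤ a) (h : ∀ c, 0 ≤ c → c ≤ 1 → a ≤ al5 c * p + be5 c)
    (hp : (3/20) ≤ p) (hp1 : p ≤ 1) : a ^ 2 ≤ (1/2) + (1/10) * p := by
  exact row5 (c := 0) (P := (3/20)) (Q := 1) ha0 h (by norm_num) (by norm_num) hp hp1 (by norm_num [al5, be5]) (by norm_num [al5, be5])

lemma cap6i7c0f0FS {a p : ℝ} (ha0 : 0 ≤ a) (h : ∀ c, 0 ≤ c → c ≤ 1 → a ≤ al5 c * p + be5 c)
    (hp : (39/1000) ≤ p) (hp1 : p ≤ (3/20)) : a ^ 2 ≤ (10469/250000) + (1/10) * p := by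
  exact row5 (c := (7/20)) (P := (39/1000)) (Q := (3/20)) ha0 h (by norm_num) (by norm_num) hp hp1 (by norm_num [al5, be5]) (by norm_num [al5, be5])

lemma cap6i7c0f0CL {a p : ℝ} (ha0 : 0 ≤ a) (hc : a < (32647/100000)) (hp : (3/20) ≤ p) : a ^ 2 ≤ (1/2) + (1/10) * p :=
  cap_extend ha0 hc (by norm_num) (Pb := (3/20)) (by norm_num) hp

lemma cap6i7c0f0CS {a p : ℝ} (ha0 : 0 ≤ a) (h : ∀ c, 0 ≤ c → c ≤ 1 → a ≤ al5 c * p + be5 c)
    (hp : (39/1000) ≤ p) (hp1 : p ≤ (3/20)) : a ^ 2 ≤ (10469/250000) + (1/10) * p := by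
  exact row5 (c := (7/20)) (P := (39/1000)) (Q := (3/20)) ha0 h (by norm_num) (by norm_num) hp hp1 (by norm_num [al5, be5]) (by norm_num [al5, be5])

lemma cap6i7c0f0 (n p : ι → ℝ) (i0 : ι) (C : Finset ι) (hC : C ⊆ Finset.univ.erase i0)
    (hsum : ∑ i, p i = 1) (hn0 : ∀ j, 0 ≤ n j)
    (hrow : ∀ j, ∀ c, 0 ≤ c → c ≤ 1 → n j ≤ al5 c * p j + be5 c)
    (hlo : ∀ j, (39/1000) ≤ p j) (hp1 : ∀ j, p j ≤ 1) (hcap : ∀ j ∈ C, n j < (32647/100000))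
    (hu : n i0 ≤ (73/1000)) (hC2 : C.card = 3)
    (hF2 : (Finset.univ.erase i0 \ C).card = 2)
    (hlc : (C.filter fun j => (3/20) ≤ p j).card = 0)
    (hlf : ((Finset.univ.erase i0 \ C).filter fun j => (3/20) ≤ p j).card = 0) :
    ∑ i, n i ^ 2 < (179049/500000) := by
  have key := joint_sum n p i0 C hC hsum (pc := (3/20)) (ACL := (1/2)) (ACS := (10469/250000))
    (AL := (1/2)) (AS := (10469/250000)) (B := (1/10))
    (fun j hj hp => cap6i7c0f0CL (hn0 j) (hcap j hj) hp)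
    (fun j hj hp => cap6i7c0f0CS (hn0 j) (hrow j) (hlo j) hp.le)
    (fun j _ hp => cap6i7c0f0FL (hn0 j) (hrow j) hp (hp1 j))
    (fun j _ hp => cap6i7c0f0FS (hn0 j) (hrow j) (hlo j) hp.le)
  rw [card_filter_two C _ hC2 hlc, card_filter_two _ _ hF2 hlf, hlc, hlf] at key
  have h1 : n i0 ^ 2 ≤ (73/1000) ^ 2 := pow_le_pow_left₀ (hn0 i0) hu 2
  have h2 := hlo i0
  norm_num at key h1 h2 ⊢
  linarith

lemma cap6i7c0f1FL {a p : ℝ} (ha0 : 0 ≤ a) (h : ∀ c, 0 ≤ c → c ≤ 1 → a ≤ al5 c * p + be5 c)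
    (hp : (3/20) ≤ p) (hp1 : p ≤ 1) : a ^ 2 ≤ (493/12500) + (7/25) * p := by
  rcases le_total p (8309/20000) with h0 | h0
  · exact row5 (c := (1/5)) (P := (3/20)) (Q := (8309/20000)) ha0 h (by norm_num) (by norm_num) hp h0 (by norm_num [al5, be5]) (by norm_num [al5, be5])
  exact row5 (c := (1/20)) (P := (8309/20000)) (Q := 1) ha0 h (by norm_num) (by norm_num) h0 hp1 (by norm_num [al5, be5]) (by norm_num [al5, be5])

lemma cap6i7c0f1FS {a p : ℝ} (ha0 : 0 ≤ a) (h : ∀ c, 0 ≤ c → c ≤ 1 → a ≤ al5 c * p + be5 c)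
    (hp : (39/1000) ≤ p) (hp1 : p ≤ (3/20)) : a ^ 2 ≤ (7927/1000000) + (7/25) * p := by
  exact row5 (c := (17/40)) (P := (39/1000)) (Q := (3/20)) ha0 h (by norm_num) (by norm_num) hp hp1 (by norm_num [al5, be5]) (by norm_num [al5, be5])

lemma cap6i7c0f1CL {a p : ℝ} (ha0 : 0 ≤ a) (hc : a < (32647/100000)) (hp : (3/20) ≤ p) : a ^ 2 ≤ (1/2) + (7/25) * p :=
  cap_extend ha0 hc (by norm_num) (Pb := (3/20)) (by norm_num) hp

lemma cap6i7c0f1CS {a p : ℝ} (ha0 : 0 ≤ a) (h : ∀ c, 0 ≤ c → c ≤ 1 → a ≤ al5 c * p + be5 c)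
    (hp : (39/1000) ≤ p) (hp1 : p ≤ (3/20)) : a ^ 2 ≤ (7927/1000000) + (7/25) * p := by
  exact row5 (c := (17/40)) (P := (39/1000)) (Q := (3/20)) ha0 h (by norm_num) (by norm_num) hp hp1 (by norm_num [al5, be5]) (by norm_num [al5, be5])

lemma cap6i7c0f1 (n p : ι → ℝ) (i0 : ι) (C : Finset ι) (hC : C ⊆ Finset.univ.erase i0)
    (hsum : ∑ i, p i = 1) (hn0 : ∀ j, 0 ≤ n j)
    (hrow : ∀ j, ∀ c, 0 ≤ c → c ≤ 1 → n j ≤ al5 c * p j + be5 c)
    (hlo : ∀ j, (39/1000) ≤ p j) (hp1 : ∀ j, p j ≤ 1) (hcap : ∀ j ∈ C, n j < (32647/100000))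
    (hu : n i0 ≤ (73/1000)) (hC2 : C.card = 3)
    (hF2 : (Finset.univ.erase i0 \ C).card = 2)
    (hlc : (C.filter fun j => (3/20) ≤ p j).card = 0)
    (hlf : ((Finset.univ.erase i0 \ C).filter fun j => (3/20) ≤ p j).card = 1) :
    ∑ i, n i ^ 2 < (179049/500000) := by
  have key := joint_sum n p i0 C hC hsum (pc := (3/20)) (ACL := (1/2)) (ACS := (7927/1000000))
    (AL := (493/12500)) (AS := (7927/1000000)) (B := (7/25))
    (fun j hj hp => cap6i7c0f1CL (hn0 j) (hcap j hj) hp)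
    (fun j hj hp => cap6i7c0f1CS (hn0 j) (hrow j) (hlo j) hp.le)
    (fun j _ hp => cap6i7c0f1FL (hn0 j) (hrow j) hp (hp1 j))
    (fun j _ hp => cap6i7c0f1FS (hn0 j) (hrow j) (hlo j) hp.le)
  rw [card_filter_two C _ hC2 hlc, card_filter_two _ _ hF2 hlf, hlc, hlf] at key
  have h1 : n i0 ^ 2 ≤ (73/1000) ^ 2 := pow_le_pow_left₀ (hn0 i0) hu 2
  have h2 := hlo i0
  norm_num at key h1 h2 ⊢
  linarith

lemma cap6i7c0f2FL {a p : ℝ} (ha0 : 0 ≤ a) (h : ∀ c, 0 ≤ c → c ≤ 1 → a ≤ al5 c * p + be5 c)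
    (hp : (3/20) ≤ p) (hp1 : p ≤ 1) : a ^ 2 ≤ (773/200000) + (19/50) * p := by
  rcases le_total p (1257/4000) with h0 | h0
  · exact row5 (c := (3/10)) (P := (3/20)) (Q := (1257/4000)) ha0 h (by norm_num) (by norm_num) hp h0 (by norm_num [al5, be5]) (by norm_num [al5, be5])
  rcases le_total p (10497/20000) with h1 | h1
  · exact row5 (c := (9/40)) (P := (1257/4000)) (Q := (10497/20000)) ha0 h (by norm_num) (by norm_num) h0 h1 (by norm_num [al5, be5]) (by norm_num [al5, be5])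
  exact row5 (c := 0) (P := (10497/20000)) (Q := 1) ha0 h (by norm_num) (by norm_num) h1 hp1 (by norm_num [al5, be5]) (by norm_num [al5, be5])

lemma cap6i7c0f2FS {a p : ℝ} (ha0 : 0 ≤ a) (h : ∀ c, 0 ≤ c → c ≤ 1 → a ≤ al5 c * p + be5 c)
    (hp : (39/1000) ≤ p) (hp1 : p ≤ (3/20)) : a ^ 2 ≤ (1/2) + (19/50) * p := by
  exact row5 (c := 0) (P := (39/1000)) (Q := (3/20)) ha0 h (by norm_num) (by norm_num) hp hp1 (by norm_num [al5, be5]) (by norm_num [al5, be5])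

lemma cap6i7c0f2CL {a p : ℝ} (ha0 : 0 ≤ a) (hc : a < (32647/100000)) (hp : (3/20) ≤ p) : a ^ 2 ≤ (1/2) + (19/50) * p :=
  cap_extend ha0 hc (by norm_num) (Pb := (3/20)) (by norm_num) hp

lemma cap6i7c0f2CS {a p : ℝ} (ha0 : 0 ≤ a) (h : ∀ c, 0 ≤ c → c ≤ 1 → a ≤ al5 c * p + be5 c)
    (hp : (39/1000) ≤ p) (hp1 : p ≤ (3/20)) : a ^ 2 ≤ (-4253/500000) + (19/50) * p := by
  rcases le_total p (2791/20000) with h0 | h0
  · exact row5 (c := (5/8)) (P := (39/1000)) (Q := (2791/20000)) ha0 h (by norm_num) (by norm_num) hp h0 (by norm_num [al5, be5]) (by norm_num [al5, be5])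
  exact row5 (c := (9/20)) (P := (2791/20000)) (Q := (3/20)) ha0 h (by norm_num) (by norm_num) h0 hp1 (by norm_num [al5, be5]) (by norm_num [al5, be5])

lemma cap6i7c0f2 (n p : ι → ℝ) (i0 : ι) (C : Finset ι) (hC : C ⊆ Finset.univ.erase i0)
    (hsum : ∑ i, p i = 1) (hn0 : ∀ j, 0 ≤ n j)
    (hrow : ∀ j, ∀ c, 0 ≤ c → c ≤ 1 → n j ≤ al5 c * p j + be5 c)
    (hlo : ∀ j, (39/1000) ≤ p j) (hp1 : ∀ j, p j ≤ 1) (hcap : ∀ j ∈ C, n j < (32647/100000))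
    (hu : n i0 ≤ (73/1000)) (hC2 : C.card = 3)
    (hF2 : (Finset.univ.erase i0 \ C).card = 2)
    (hlc : (C.filter fun j => (3/20) ≤ p j).card = 0)
    (hlf : ((Finset.univ.erase i0 \ C).filter fun j => (3/20) ≤ p j).card = 2) :
    ∑ i, n i ^ 2 < (179049/500000) := by
  have key := joint_sum n p i0 C hC hsum (pc := (3/20)) (ACL := (1/2)) (ACS := (-4253/500000))
    (AL := (773/200000)) (AS := (1/2)) (B := (19/50))
    (fun j hj hp => cap6i7c0f2CL (hn0 j) (hcap j hj) hp)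
    (fun j hj hp => cap6i7c0f2CS (hn0 j) (hrow j) (hlo j) hp.le)
    (fun j _ hp => cap6i7c0f2FL (hn0 j) (hrow j) hp (hp1 j))
    (fun j _ hp => cap6i7c0f2FS (hn0 j) (hrow j) (hlo j) hp.le)
  rw [card_filter_two C _ hC2 hlc, card_filter_two _ _ hF2 hlf, hlc, hlf] at key
  have h1 : n i0 ^ 2 ≤ (73/1000) ^ 2 := pow_le_pow_left₀ (hn0 i0) hu 2
  have h2 := hlo i0
  norm_num at key h1 h2 ⊢
  linarith

lemma cap6i7c1f0FL {a p : ℝ} (ha0 : 0 ≤ a) (h : ∀ c, 0 ≤ c → c ≤ 1 → a ≤ al5 c * p + be5 c)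
    (hp : (3/20) ≤ p) (hp1 : p ≤ 1) : a ^ 2 ≤ (1/2) + (1/10) * p := by
  exact row5 (c := 0) (P := (3/20)) (Q := 1) ha0 h (by norm_num) (by norm_num) hp hp1 (by norm_num [al5, be5]) (by norm_num [al5, be5])

lemma cap6i7c1f0FS {a p : ℝ} (ha0 : 0 ≤ a) (h : ∀ c, 0 ≤ c → c ≤ 1 → a ≤ al5 c * p + be5 c)
    (hp : (39/1000) ≤ p) (hp1 : p ≤ (3/20)) : a ^ 2 ≤ (37217/1000000) + (1/10) * p := by
  exact row5 (c := (2/5)) (P := (39/1000)) (Q := (3/20)) ha0 h (by norm_num) (by norm_num) hp hp1 (by norm_num [al5, be5]) (by norm_num [al5, be5])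

lemma cap6i7c1f0CLr {a p : ℝ} (ha0 : 0 ≤ a) (h : ∀ c, 0 ≤ c → c ≤ 1 → a ≤ al5 c * p + be5 c)
    (hp : (3/20) ≤ p) (hp1 : p ≤ (227687/1000000)) : a ^ 2 ≤ (41907/500000) + (1/10) * p := by
  exact row5 (c := (7/40)) (P := (3/20)) (Q := (227687/1000000)) ha0 h (by norm_num) (by norm_num) hp hp1 (by norm_num [al5, be5]) (by norm_num [al5, be5])

lemma cap6i7c1f0CL {a p : ℝ} (ha0 : 0 ≤ a) (h : ∀ c, 0 ≤ c → c ≤ 1 → a ≤ al5 c * p + be5 c)
    (hc : a < (32647/100000)) (hp : (3/20) ≤ p) : a ^ 2 ≤ (41907/500000) + (1/10) * p := by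
  rcases le_total p (227687/1000000) with h1 | h1
  · exact cap6i7c1f0CLr ha0 h hp h1
  · exact cap_extend ha0 hc (by norm_num) (Pb := (227687/1000000)) (by norm_num) h1

lemma cap6i7c1f0CS {a p : ℝ} (ha0 : 0 ≤ a) (h : ∀ c, 0 ≤ c → c ≤ 1 → a ≤ al5 c * p + be5 c)
    (hp : (39/1000) ≤ p) (hp1 : p ≤ (3/20)) : a ^ 2 ≤ (37217/1000000) + (1/10) * p := by
  exact row5 (c := (2/5)) (P := (39/1000)) (Q := (3/20)) ha0 h (by norm_num) (by norm_num) hp hp1 (by norm_num [al5, be5]) (by norm_num [al5, be5])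

lemma cap6i7c1f0 (n p : ι → ℝ) (i0 : ι) (C : Finset ι) (hC : C ⊆ Finset.univ.erase i0)
    (hsum : ∑ i, p i = 1) (hn0 : ∀ j, 0 ≤ n j)
    (hrow : ∀ j, ∀ c, 0 ≤ c → c ≤ 1 → n j ≤ al5 c * p j + be5 c)
    (hlo : ∀ j, (39/1000) ≤ p j) (hp1 : ∀ j, p j ≤ 1) (hcap : ∀ j ∈ C, n j < (32647/100000))
    (hu : n i0 ≤ (73/1000)) (hC2 : C.card = 3)
    (hF2 : (Finset.univ.erase i0 \ C).card = 2)
    (hlc : (C.filter fun j => (3/20) ≤ p j).card = 1)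
    (hlf : ((Finset.univ.erase i0 \ C).filter fun j => (3/20) ≤ p j).card = 0) :
    ∑ i, n i ^ 2 < (179049/500000) := by
  have key := joint_sum n p i0 C hC hsum (pc := (3/20)) (ACL := (41907/500000)) (ACS := (37217/1000000))
    (AL := (1/2)) (AS := (37217/1000000)) (B := (1/10))
    (fun j hj hp => cap6i7c1f0CL (hn0 j) (hrow j) (hcap j hj) hp)
    (fun j hj hp => cap6i7c1f0CS (hn0 j) (hrow j) (hlo j) hp.le)
    (fun j _ hp => cap6i7c1f0FL (hn0 j) (hrow j) hp (hp1 j))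
    (fun j _ hp => cap6i7c1f0FS (hn0 j) (hrow j) (hlo j) hp.le)
  rw [card_filter_two C _ hC2 hlc, card_filter_two _ _ hF2 hlf, hlc, hlf] at key
  have h1 : n i0 ^ 2 ≤ (73/1000) ^ 2 := pow_le_pow_left₀ (hn0 i0) hu 2
  have h2 := hlo i0
  norm_num at key h1 h2 ⊢
  linarith

lemma cap6i7c1f1FL {a p : ℝ} (ha0 : 0 ≤ a) (h : ∀ c, 0 ≤ c → c ≤ 1 → a ≤ al5 c * p + be5 c)
    (hp : (3/20) ≤ p) (hp1 : p ≤ 1) : a ^ 2 ≤ (3961/1000000) + (19/50) * p := by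
  rcases le_total p (789/2500) with h0 | h0
  · exact row5 (c := (3/10)) (P := (3/20)) (Q := (789/2500)) ha0 h (by norm_num) (by norm_num) hp h0 (by norm_num [al5, be5]) (by norm_num [al5, be5])
  rcases le_total p (5267/10000) with h1 | h1
  · exact row5 (c := (9/40)) (P := (789/2500)) (Q := (5267/10000)) ha0 h (by norm_num) (by norm_num) h0 h1 (by norm_num [al5, be5]) (by norm_num [al5, be5])
  exact row5 (c := 0) (P := (5267/10000)) (Q := 1) ha0 h (by norm_num) (by norm_num) h1 hp1 (by norm_num [al5, be5]) (by norm_num [al5, be5])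

lemma cap6i7c1f1FS {a p : ℝ} (ha0 : 0 ≤ a) (h : ∀ c, 0 ≤ c → c ≤ 1 → a ≤ al5 c * p + be5 c)
    (hp : (39/1000) ≤ p) (hp1 : p ≤ (3/20)) : a ^ 2 ≤ (-8411/1000000) + (19/50) * p := by
  rcases le_total p (2801/20000) with h0 | h0
  · exact row5 (c := (5/8)) (P := (39/1000)) (Q := (2801/20000)) ha0 h (by norm_num) (by norm_num) hp h0 (by norm_num [al5, be5]) (by norm_num [al5, be5])
  exact row5 (c := (9/20)) (P := (2801/20000)) (Q := (3/20)) ha0 h (by norm_num) (by norm_num) h0 hp1 (by norm_num [al5, be5]) (by norm_num [al5, be5])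

lemma cap6i7c1f1CLr {a p : ℝ} (ha0 : 0 ≤ a) (h : ∀ c, 0 ≤ c → c ≤ 1 → a ≤ al5 c * p + be5 c)
    (hp : (3/20) ≤ p) (hp1 : p ≤ (54513/200000)) : a ^ 2 ≤ (47/15625) + (19/50) * p := by
  exact row5 (c := (13/40)) (P := (3/20)) (Q := (54513/200000)) ha0 h (by norm_num) (by norm_num) hp hp1 (by norm_num [al5, be5]) (by norm_num [al5, be5])

lemma cap6i7c1f1CL {a p : ℝ} (ha0 : 0 ≤ a) (h : ∀ c, 0 ≤ c → c ≤ 1 → a ≤ al5 c * p + be5 c)
    (hc : a < (32647/100000)) (hp : (3/20) ≤ p) : a ^ 2 ≤ (47/15625) + (19/50) * p := by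
  rcases le_total p (54513/200000) with h1 | h1
  · exact cap6i7c1f1CLr ha0 h hp h1
  · exact cap_extend ha0 hc (by norm_num) (Pb := (54513/200000)) (by norm_num) h1

lemma cap6i7c1f1CS {a p : ℝ} (ha0 : 0 ≤ a) (h : ∀ c, 0 ≤ c → c ≤ 1 → a ≤ al5 c * p + be5 c)
    (hp : (39/1000) ≤ p) (hp1 : p ≤ (3/20)) : a ^ 2 ≤ (-8411/1000000) + (19/50) * p := by
  rcases le_total p (2801/20000) with h0 | h0
  · exact row5 (c := (5/8)) (P := (39/1000)) (Q := (2801/20000)) ha0 h (by norm_num) (by norm_num) hp h0 (by norm_num [al5, be5]) (by norm_num [al5, be5])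
  exact row5 (c := (9/20)) (P := (2801/20000)) (Q := (3/20)) ha0 h (by norm_num) (by norm_num) h0 hp1 (by norm_num [al5, be5]) (by norm_num [al5, be5])

lemma cap6i7c1f1 (n p : ι → ℝ) (i0 : ι) (C : Finset ι) (hC : C ⊆ Finset.univ.erase i0)
    (hsum : ∑ i, p i = 1) (hn0 : ∀ j, 0 ≤ n j)
    (hrow : ∀ j, ∀ c, 0 ≤ c → c ≤ 1 → n j ≤ al5 c * p j + be5 c)
    (hlo : ∀ j, (39/1000) ≤ p j) (hp1 : ∀ j, p j ≤ 1) (hcap : ∀ j ∈ C, n j < (32647/100000))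
    (hu : n i0 ≤ (73/1000)) (hC2 : C.card = 3)
    (hF2 : (Finset.univ.erase i0 \ C).card = 2)
    (hlc : (C.filter fun j => (3/20) ≤ p j).card = 1)
    (hlf : ((Finset.univ.erase i0 \ C).filter fun j => (3/20) ≤ p j).card = 1) :
    ∑ i, n i ^ 2 < (179049/500000) := by
  have key := joint_sum n p i0 C hC hsum (pc := (3/20)) (ACL := (47/15625)) (ACS := (-8411/1000000))
    (AL := (3961/1000000)) (AS := (-8411/1000000)) (B := (19/50))
    (fun j hj hp => cap6i7c1f1CL (hn0 j) (hrow j) (hcap j hj) hp)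
    (fun j hj hp => cap6i7c1f1CS (hn0 j) (hrow j) (hlo j) hp.le)
    (fun j _ hp => cap6i7c1f1FL (hn0 j) (hrow j) hp (hp1 j))
    (fun j _ hp => cap6i7c1f1FS (hn0 j) (hrow j) (hlo j) hp.le)
  rw [card_filter_two C _ hC2 hlc, card_filter_two _ _ hF2 hlf, hlc, hlf] at key
  have h1 : n i0 ^ 2 ≤ (73/1000) ^ 2 := pow_le_pow_left₀ (hn0 i0) hu 2
  have h2 := hlo i0
  norm_num at key h1 h2 ⊢
  linarith

lemma cap6i7c1f2FL {a p : ℝ} (ha0 : 0 ≤ a) (h : ∀ c, 0 ≤ c → c ≤ 1 → a ≤ al5 c * p + be5 c)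
    (hp : (3/20) ≤ p) (hp1 : p ≤ 1) : a ^ 2 ≤ (-3333/1000000) + (2/5) * p := by
  rcases le_total p (5417/20000) with h0 | h0
  · exact row5 (c := (7/20)) (P := (3/20)) (Q := (5417/20000)) ha0 h (by norm_num) (by norm_num) hp h0 (by norm_num [al5, be5]) (by norm_num [al5, be5])
  rcases le_total p (1453/5000) with h1 | h1
  · exact row5 (c := (3/10)) (P := (5417/20000)) (Q := (1453/5000)) ha0 h (by norm_num) (by norm_num) h0 h1 (by norm_num [al5, be5]) (by norm_num [al5, be5])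
  rcases le_total p (1559/5000) with h2 | h2
  · exact row5 (c := (11/40)) (P := (1453/5000)) (Q := (1559/5000)) ha0 h (by norm_num) (by norm_num) h1 h2 (by norm_num [al5, be5]) (by norm_num [al5, be5])
  rcases le_total p (4213/10000) with h3 | h3
  · exact row5 (c := (1/4)) (P := (1559/5000)) (Q := (4213/10000)) ha0 h (by norm_num) (by norm_num) h2 h3 (by norm_num [al5, be5]) (by norm_num [al5, be5])
  exact row5 (c := 0) (P := (4213/10000)) (Q := 1) ha0 h (by norm_num) (by norm_num) h3 hp1 (by norm_num [al5, be5]) (by norm_num [al5, be5])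

lemma cap6i7c1f2FS {a p : ℝ} (ha0 : 0 ≤ a) (h : ∀ c, 0 ≤ c → c ≤ 1 → a ≤ al5 c * p + be5 c)
    (hp : (39/1000) ≤ p) (hp1 : p ≤ (3/20)) : a ^ 2 ≤ (1/2) + (2/5) * p := by
  exact row5 (c := 0) (P := (39/1000)) (Q := (3/20)) ha0 h (by norm_num) (by norm_num) hp hp1 (by norm_num [al5, be5]) (by norm_num [al5, be5])

lemma cap6i7c1f2CLr {a p : ℝ} (ha0 : 0 ≤ a) (h : ∀ c, 0 ≤ c → c ≤ 1 → a ≤ al5 c * p + be5 c)
    (hp : (3/20) ≤ p) (hp1 : p ≤ (68903/250000)) : a ^ 2 ≤ (-1831/500000) + (2/5) * p := by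
  rcases le_total p (1067/4000) with h0 | h0
  · exact row5 (c := (7/20)) (P := (3/20)) (Q := (1067/4000)) ha0 h (by norm_num) (by norm_num) hp h0 (by norm_num [al5, be5]) (by norm_num [al5, be5])
  exact row5 (c := (3/10)) (P := (1067/4000)) (Q := (68903/250000)) ha0 h (by norm_num) (by norm_num) h0 hp1 (by norm_num [al5, be5]) (by norm_num [al5, be5])

lemma cap6i7c1f2CL {a p : ℝ} (ha0 : 0 ≤ a) (h : ∀ c, 0 ≤ c → c ≤ 1 → a ≤ al5 c * p + be5 c)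
    (hc : a < (32647/100000)) (hp : (3/20) ≤ p) : a ^ 2 ≤ (-1831/500000) + (2/5) * p := by
  rcases le_total p (68903/250000) with h1 | h1
  · exact cap6i7c1f2CLr ha0 h hp h1
  · exact cap_extend ha0 hc (by norm_num) (Pb := (68903/250000)) (by norm_num) h1

lemma cap6i7c1f2CS {a p : ℝ} (ha0 : 0 ≤ a) (h : ∀ c, 0 ≤ c → c ≤ 1 → a ≤ al5 c * p + be5 c)
    (hp : (39/1000) ≤ p) (hp1 : p ≤ (3/20)) : a ^ 2 ≤ (-10683/1000000) + (2/5) * p := by
  rcases le_total p (2167/20000) with h0 | h0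
  · exact row5 (c := (3/4)) (P := (39/1000)) (Q := (2167/20000)) ha0 h (by norm_num) (by norm_num) hp h0 (by norm_num [al5, be5]) (by norm_num [al5, be5])
  exact row5 (c := (9/20)) (P := (2167/20000)) (Q := (3/20)) ha0 h (by norm_num) (by norm_num) h0 hp1 (by norm_num [al5, be5]) (by norm_num [al5, be5])

lemma cap6i7c1f2 (n p : ι → ℝ) (i0 : ι) (C : Finset ι) (hC : C ⊆ Finset.univ.erase i0)
    (hsum : ∑ i, p i = 1) (hn0 : ∀ j, 0 ≤ n j)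
    (hrow : ∀ j, ∀ c, 0 ≤ c → c ≤ 1 → n j ≤ al5 c * p j + be5 c)
    (hlo : ∀ j, (39/1000) ≤ p j) (hp1 : ∀ j, p j ≤ 1) (hcap : ∀ j ∈ C, n j < (32647/100000))
    (hu : n i0 ≤ (73/1000)) (hC2 : C.card = 3)
    (hF2 : (Finset.univ.erase i0 \ C).card = 2)
    (hlc : (C.filter fun j => (3/20) ≤ p j).card = 1)
    (hlf : ((Finset.univ.erase i0 \ C).filter fun j => (3/20) ≤ p j).card = 2) :
    ∑ i, n i ^ 2 < (179049/500000) := by
  have key := joint_sum n p i0 C hC hsum (pc := (3/20)) (ACL := (-1831/500000)) (ACS := (-10683/1000000))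
    (AL := (-3333/1000000)) (AS := (1/2)) (B := (2/5))
    (fun j hj hp => cap6i7c1f2CL (hn0 j) (hrow j) (hcap j hj) hp)
    (fun j hj hp => cap6i7c1f2CS (hn0 j) (hrow j) (hlo j) hp.le)
    (fun j _ hp => cap6i7c1f2FL (hn0 j) (hrow j) hp (hp1 j))
    (fun j _ hp => cap6i7c1f2FS (hn0 j) (hrow j) (hlo j) hp.le)
  rw [card_filter_two C _ hC2 hlc, card_filter_two _ _ hF2 hlf, hlc, hlf] at key
  have h1 : n i0 ^ 2 ≤ (73/1000) ^ 2 := pow_le_pow_left₀ (hn0 i0) hu 2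
  have h2 := hlo i0
  norm_num at key h1 h2 ⊢
  linarith

lemma cap6i7c2f0FL {a p : ℝ} (ha0 : 0 ≤ a) (h : ∀ c, 0 ≤ c → c ≤ 1 → a ≤ al5 c * p + be5 c)
    (hp : (3/20) ≤ p) (hp1 : p ≤ 1) : a ^ 2 ≤ (1/2) + (19/50) * p := by
  exact row5 (c := 0) (P := (3/20)) (Q := 1) ha0 h (by norm_num) (by norm_num) hp hp1 (by norm_num [al5, be5]) (by norm_num [al5, be5])

lemma cap6i7c2f0FS {a p : ℝ} (ha0 : 0 ≤ a) (h : ∀ c, 0 ≤ c → c ≤ 1 → a ≤ al5 c * p + be5 c)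
    (hp : (39/1000) ≤ p) (hp1 : p ≤ (3/20)) : a ^ 2 ≤ (-1663/200000) + (19/50) * p := by
  rcases le_total p (2927/20000) with h0 | h0
  · exact row5 (c := (3/5)) (P := (39/1000)) (Q := (2927/20000)) ha0 h (by norm_num) (by norm_num) hp h0 (by norm_num [al5, be5]) (by norm_num [al5, be5])
  exact row5 (c := (9/20)) (P := (2927/20000)) (Q := (3/20)) ha0 h (by norm_num) (by norm_num) h0 hp1 (by norm_num [al5, be5]) (by norm_num [al5, be5])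

lemma cap6i7c2f0CLr {a p : ℝ} (ha0 : 0 ≤ a) (h : ∀ c, 0 ≤ c → c ≤ 1 → a ≤ al5 c * p + be5 c)
    (hp : (3/20) ≤ p) (hp1 : p ≤ (272313/1000000)) : a ^ 2 ≤ (97/31250) + (19/50) * p := by
  exact row5 (c := (13/40)) (P := (3/20)) (Q := (272313/1000000)) ha0 h (by norm_num) (by norm_num) hp hp1 (by norm_num [al5, be5]) (by norm_num [al5, be5])

lemma cap6i7c2f0CL {a p : ℝ} (ha0 : 0 ≤ a) (h : ∀ c, 0 ≤ c → c ≤ 1 → a ≤ al5 c * p + be5 c)
    (hc : a < (32647/100000)) (hp : (3/20) ≤ p) : a ^ 2 ≤ (97/31250) + (19/50) * p := by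
  rcases le_total p (272313/1000000) with h1 | h1
  · exact cap6i7c2f0CLr ha0 h hp h1
  · exact cap_extend ha0 hc (by norm_num) (Pb := (272313/1000000)) (by norm_num) h1

lemma cap6i7c2f0CS {a p : ℝ} (ha0 : 0 ≤ a) (h : ∀ c, 0 ≤ c → c ≤ 1 → a ≤ al5 c * p + be5 c)
    (hp : (39/1000) ≤ p) (hp1 : p ≤ (3/20)) : a ^ 2 ≤ (-1663/200000) + (19/50) * p := by
  rcases le_total p (2927/20000) with h0 | h0
  · exact row5 (c := (3/5)) (P := (39/1000)) (Q := (2927/20000)) ha0 h (by norm_num) (by norm_num) hp h0 (by norm_num [al5, be5]) (by norm_num [al5, be5])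
  exact row5 (c := (9/20)) (P := (2927/20000)) (Q := (3/20)) ha0 h (by norm_num) (by norm_num) h0 hp1 (by norm_num [al5, be5]) (by norm_num [al5, be5])

lemma cap6i7c2f0 (n p : ι → ℝ) (i0 : ι) (C : Finset ι) (hC : C ⊆ Finset.univ.erase i0)
    (hsum : ∑ i, p i = 1) (hn0 : ∀ j, 0 ≤ n j)
    (hrow : ∀ j, ∀ c, 0 ≤ c → c ≤ 1 → n j ≤ al5 c * p j + be5 c)
    (hlo : ∀ j, (39/1000) ≤ p j) (hp1 : ∀ j, p j ≤ 1) (hcap : ∀ j ∈ C, n j < (32647/100000))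
    (hu : n i0 ≤ (73/1000)) (hC2 : C.card = 3)
    (hF2 : (Finset.univ.erase i0 \ C).card = 2)
    (hlc : (C.filter fun j => (3/20) ≤ p j).card = 2)
    (hlf : ((Finset.univ.erase i0 \ C).filter fun j => (3/20) ≤ p j).card = 0) :
    ∑ i, n i ^ 2 < (179049/500000) := by
  have key := joint_sum n p i0 C hC hsum (pc := (3/20)) (ACL := (97/31250)) (ACS := (-1663/200000))
    (AL := (1/2)) (AS := (-1663/200000)) (B := (19/50))
    (fun j hj hp => cap6i7c2f0CL (hn0 j) (hrow j) (hcap j hj) hp)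
    (fun j hj hp => cap6i7c2f0CS (hn0 j) (hrow j) (hlo j) hp.le)
    (fun j _ hp => cap6i7c2f0FL (hn0 j) (hrow j) hp (hp1 j))
    (fun j _ hp => cap6i7c2f0FS (hn0 j) (hrow j) (hlo j) hp.le)
  rw [card_filter_two C _ hC2 hlc, card_filter_two _ _ hF2 hlf, hlc, hlf] at key
  have h1 : n i0 ^ 2 ≤ (73/1000) ^ 2 := pow_le_pow_left₀ (hn0 i0) hu 2
  have h2 := hlo i0
  norm_num at key h1 h2 ⊢
  linarith

lemma cap6i7c2f1FL {a p : ℝ} (ha0 : 0 ≤ a) (h : ∀ c, 0 ≤ c → c ≤ 1 → a ≤ al5 c * p + be5 c)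
    (hp : (3/20) ≤ p) (hp1 : p ≤ 1) : a ^ 2 ≤ (-33/10000) + (2/5) * p := by
  rcases le_total p (217/800) with h0 | h0
  · exact row5 (c := (7/20)) (P := (3/20)) (Q := (217/800)) ha0 h (by norm_num) (by norm_num) hp h0 (by norm_num [al5, be5]) (by norm_num [al5, be5])
  rcases le_total p (2917/10000) with h1 | h1
  · exact row5 (c := (3/10)) (P := (217/800)) (Q := (2917/10000)) ha0 h (by norm_num) (by norm_num) h0 h1 (by norm_num [al5, be5]) (by norm_num [al5, be5])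
  rcases le_total p (631/2000) with h2 | h2
  · exact row5 (c := (11/40)) (P := (2917/10000)) (Q := (631/2000)) ha0 h (by norm_num) (by norm_num) h1 h2 (by norm_num [al5, be5]) (by norm_num [al5, be5])
  rcases le_total p (4223/10000) with h3 | h3
  · exact row5 (c := (1/4)) (P := (631/2000)) (Q := (4223/10000)) ha0 h (by norm_num) (by norm_num) h2 h3 (by norm_num [al5, be5]) (by norm_num [al5, be5])
  exact row5 (c := 0) (P := (4223/10000)) (Q := 1) ha0 h (by norm_num) (by norm_num) h3 hp1 (by norm_num [al5, be5]) (by norm_num [al5, be5])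

lemma cap6i7c2f1FS {a p : ℝ} (ha0 : 0 ≤ a) (h : ∀ c, 0 ≤ c → c ≤ 1 → a ≤ al5 c * p + be5 c)
    (hp : (39/1000) ≤ p) (hp1 : p ≤ (3/20)) : a ^ 2 ≤ (-213/20000) + (2/5) * p := by
  rcases le_total p (2171/20000) with h0 | h0
  · exact row5 (c := (3/4)) (P := (39/1000)) (Q := (2171/20000)) ha0 h (by norm_num) (by norm_num) hp h0 (by norm_num [al5, be5]) (by norm_num [al5, be5])
  exact row5 (c := (9/20)) (P := (2171/20000)) (Q := (3/20)) ha0 h (by norm_num) (by norm_num) h0 hp1 (by norm_num [al5, be5]) (by norm_num [al5, be5])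

lemma cap6i7c2f1CLr {a p : ℝ} (ha0 : 0 ≤ a) (h : ∀ c, 0 ≤ c → c ≤ 1 → a ≤ al5 c * p + be5 c)
    (hp : (3/20) ≤ p) (hp1 : p ≤ (27553/100000)) : a ^ 2 ≤ (-3629/1000000) + (2/5) * p := by
  rcases le_total p (167/625) with h0 | h0
  · exact row5 (c := (7/20)) (P := (3/20)) (Q := (167/625)) ha0 h (by norm_num) (by norm_num) hp h0 (by norm_num [al5, be5]) (by norm_num [al5, be5])
  exact row5 (c := (3/10)) (P := (167/625)) (Q := (27553/100000)) ha0 h (by norm_num) (by norm_num) h0 hp1 (by norm_num [al5, be5]) (by norm_num [al5, be5])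

lemma cap6i7c2f1CL {a p : ℝ} (ha0 : 0 ≤ a) (h : ∀ c, 0 ≤ c → c ≤ 1 → a ≤ al5 c * p + be5 c)
    (hc : a < (32647/100000)) (hp : (3/20) ≤ p) : a ^ 2 ≤ (-3629/1000000) + (2/5) * p := by
  rcases le_total p (27553/100000) with h1 | h1
  · exact cap6i7c2f1CLr ha0 h hp h1
  · exact cap_extend ha0 hc (by norm_num) (Pb := (27553/100000)) (by norm_num) h1

lemma cap6i7c2f1CS {a p : ℝ} (ha0 : 0 ≤ a) (h : ∀ c, 0 ≤ c → c ≤ 1 → a ≤ al5 c * p + be5 c)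
    (hp : (39/1000) ≤ p) (hp1 : p ≤ (3/20)) : a ^ 2 ≤ (-213/20000) + (2/5) * p := by
  rcases le_total p (2171/20000) with h0 | h0
  · exact row5 (c := (3/4)) (P := (39/1000)) (Q := (2171/20000)) ha0 h (by norm_num) (by norm_num) hp h0 (by norm_num [al5, be5]) (by norm_num [al5, be5])
  exact row5 (c := (9/20)) (P := (2171/20000)) (Q := (3/20)) ha0 h (by norm_num) (by norm_num) h0 hp1 (by norm_num [al5, be5]) (by norm_num [al5, be5])

lemma cap6i7c2f1 (n p : ι → ℝ) (i0 : ι) (C : Finset ι) (hC : C ⊆ Finset.univ.erase i0)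
    (hsum : ∑ i, p i = 1) (hn0 : ∀ j, 0 ≤ n j)
    (hrow : ∀ j, ∀ c, 0 ≤ c → c ≤ 1 → n j ≤ al5 c * p j + be5 c)
    (hlo : ∀ j, (39/1000) ≤ p j) (hp1 : ∀ j, p j ≤ 1) (hcap : ∀ j ∈ C, n j < (32647/100000))
    (hu : n i0 ≤ (73/1000)) (hC2 : C.card = 3)
    (hF2 : (Finset.univ.erase i0 \ C).card = 2)
    (hlc : (C.filter fun j => (3/20) ≤ p j).card = 2)
    (hlf : ((Finset.univ.erase i0 \ C).filter fun j => (3/20) ≤ p j).card = 1) :
    ∑ i, n i ^ 2 < (179049/500000) := by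
  have key := joint_sum n p i0 C hC hsum (pc := (3/20)) (ACL := (-3629/1000000)) (ACS := (-213/20000))
    (AL := (-33/10000)) (AS := (-213/20000)) (B := (2/5))
    (fun j hj hp => cap6i7c2f1CL (hn0 j) (hrow j) (hcap j hj) hp)
    (fun j hj hp => cap6i7c2f1CS (hn0 j) (hrow j) (hlo j) hp.le)
    (fun j _ hp => cap6i7c2f1FL (hn0 j) (hrow j) hp (hp1 j))
    (fun j _ hp => cap6i7c2f1FS (hn0 j) (hrow j) (hlo j) hp.le)
  rw [card_filter_two C _ hC2 hlc, card_filter_two _ _ hF2 hlf, hlc, hlf] at key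
  have h1 : n i0 ^ 2 ≤ (73/1000) ^ 2 := pow_le_pow_left₀ (hn0 i0) hu 2
  have h2 := hlo i0
  norm_num at key h1 h2 ⊢
  linarith

lemma cap6i7c2f2FL {a p : ℝ} (ha0 : 0 ≤ a) (h : ∀ c, 0 ≤ c → c ≤ 1 → a ≤ al5 c * p + be5 c)
    (hp : (3/20) ≤ p) (hp1 : p ≤ 1) : a ^ 2 ≤ (-4821/200000) + (12/25) * p := by
  rcases le_total p (383/2000) with h0 | h0
  · exact row5 (c := (19/40)) (P := (3/20)) (Q := (383/2000)) ha0 h (by norm_num) (by norm_num) hp h0 (by norm_num [al5, be5]) (by norm_num [al5, be5])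
  rcases le_total p (2191/10000) with h1 | h1
  · exact row5 (c := (17/40)) (P := (383/2000)) (Q := (2191/10000)) ha0 h (by norm_num) (by norm_num) h0 h1 (by norm_num [al5, be5]) (by norm_num [al5, be5])
  rcases le_total p (2663/10000) with h2 | h2
  · exact row5 (c := (3/8)) (P := (2191/10000)) (Q := (2663/10000)) ha0 h (by norm_num) (by norm_num) h1 h2 (by norm_num [al5, be5]) (by norm_num [al5, be5])
  rcases le_total p (5701/10000) with h3 | h3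
  · exact row5 (c := (11/40)) (P := (2663/10000)) (Q := (5701/10000)) ha0 h (by norm_num) (by norm_num) h2 h3 (by norm_num [al5, be5]) (by norm_num [al5, be5])
  exact row5 (c := 0) (P := (5701/10000)) (Q := 1) ha0 h (by norm_num) (by norm_num) h3 hp1 (by norm_num [al5, be5]) (by norm_num [al5, be5])

lemma cap6i7c2f2FS {a p : ℝ} (ha0 : 0 ≤ a) (h : ∀ c, 0 ≤ c → c ≤ 1 → a ≤ al5 c * p + be5 c)
    (hp : (39/1000) ≤ p) (hp1 : p ≤ (3/20)) : a ^ 2 ≤ (1/2) + (12/25) * p := by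
  exact row5 (c := 0) (P := (39/1000)) (Q := (3/20)) ha0 h (by norm_num) (by norm_num) hp hp1 (by norm_num [al5, be5]) (by norm_num [al5, be5])

lemma cap6i7c2f2CLr {a p : ℝ} (ha0 : 0 ≤ a) (h : ∀ c, 0 ≤ c → c ≤ 1 → a ≤ al5 c * p + be5 c)
    (hp : (3/20) ≤ p) (hp1 : p ≤ (136133/500000)) : a ^ 2 ≤ (-4821/200000) + (12/25) * p := by
  rcases le_total p (383/2000) with h0 | h0
  · exact row5 (c := (19/40)) (P := (3/20)) (Q := (383/2000)) ha0 h (by norm_num) (by norm_num) hp h0 (by norm_num [al5, be5]) (by norm_num [al5, be5])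
  rcases le_total p (2191/10000) with h1 | h1
  · exact row5 (c := (17/40)) (P := (383/2000)) (Q := (2191/10000)) ha0 h (by norm_num) (by norm_num) h0 h1 (by norm_num [al5, be5]) (by norm_num [al5, be5])
  rcases le_total p (2663/10000) with h2 | h2
  · exact row5 (c := (3/8)) (P := (2191/10000)) (Q := (2663/10000)) ha0 h (by norm_num) (by norm_num) h1 h2 (by norm_num [al5, be5]) (by norm_num [al5, be5])
  exact row5 (c := (11/40)) (P := (2663/10000)) (Q := (136133/500000)) ha0 h (by norm_num) (by norm_num) h2 hp1 (by norm_num [al5, be5]) (by norm_num [al5, be5])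

lemma cap6i7c2f2CL {a p : ℝ} (ha0 : 0 ≤ a) (h : ∀ c, 0 ≤ c → c ≤ 1 → a ≤ al5 c * p + be5 c)
    (hc : a < (32647/100000)) (hp : (3/20) ≤ p) : a ^ 2 ≤ (-4821/200000) + (12/25) * p := by
  rcases le_total p (136133/500000) with h1 | h1
  · exact cap6i7c2f2CLr ha0 h hp h1
  · exact cap_extend ha0 hc (by norm_num) (Pb := (136133/500000)) (by norm_num) h1

lemma cap6i7c2f2CS {a p : ℝ} (ha0 : 0 ≤ a) (h : ∀ c, 0 ≤ c → c ≤ 1 → a ≤ al5 c * p + be5 c)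
    (hp : (39/1000) ≤ p) (hp1 : p ≤ (3/20)) : a ^ 2 ≤ (-1691/125000) + (12/25) * p := by
  exact row5 (c := (7/10)) (P := (39/1000)) (Q := (3/20)) ha0 h (by norm_num) (by norm_num) hp hp1 (by norm_num [al5, be5]) (by norm_num [al5, be5])

lemma cap6i7c2f2 (n p : ι → ℝ) (i0 : ι) (C : Finset ι) (hC : C ⊆ Finset.univ.erase i0)
    (hsum : ∑ i, p i = 1) (hn0 : ∀ j, 0 ≤ n j)
    (hrow : ∀ j, ∀ c, 0 ≤ c → c ≤ 1 → n j ≤ al5 c * p j + be5 c)
    (hlo : ∀ j, (39/1000) ≤ p j) (hp1 : ∀ j, p j ≤ 1) (hcap : ∀ j ∈ C, n j < (32647/100000))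
    (hu : n i0 ≤ (73/1000)) (hC2 : C.card = 3)
    (hF2 : (Finset.univ.erase i0 \ C).card = 2)
    (hlc : (C.filter fun j => (3/20) ≤ p j).card = 2)
    (hlf : ((Finset.univ.erase i0 \ C).filter fun j => (3/20) ≤ p j).card = 2) :
    ∑ i, n i ^ 2 < (179049/500000) := by
  have key := joint_sum n p i0 C hC hsum (pc := (3/20)) (ACL := (-4821/200000)) (ACS := (-1691/125000))
    (AL := (-4821/200000)) (AS := (1/2)) (B := (12/25))
    (fun j hj hp => cap6i7c2f2CL (hn0 j) (hrow j) (hcap j hj) hp)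
    (fun j hj hp => cap6i7c2f2CS (hn0 j) (hrow j) (hlo j) hp.le)
    (fun j _ hp => cap6i7c2f2FL (hn0 j) (hrow j) hp (hp1 j))
    (fun j _ hp => cap6i7c2f2FS (hn0 j) (hrow j) (hlo j) hp.le)
  rw [card_filter_two C _ hC2 hlc, card_filter_two _ _ hF2 hlf, hlc, hlf] at key
  have h1 : n i0 ^ 2 ≤ (73/1000) ^ 2 := pow_le_pow_left₀ (hn0 i0) hu 2
  have h2 := hlo i0
  norm_num at key h1 h2 ⊢
  linarith

lemma cap6i7c3f0FL {a p : ℝ} (ha0 : 0 ≤ a) (h : ∀ c, 0 ≤ c → c ≤ 1 → a ≤ al5 c * p + be5 c)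
    (hp : (3/20) ≤ p) (hp1 : p ≤ 1) : a ^ 2 ≤ (1/2) + (19/50) * p := by
  exact row5 (c := 0) (P := (3/20)) (Q := 1) ha0 h (by norm_num) (by norm_num) hp hp1 (by norm_num [al5, be5]) (by norm_num [al5, be5])

lemma cap6i7c3f0FS {a p : ℝ} (ha0 : 0 ≤ a) (h : ∀ c, 0 ≤ c → c ≤ 1 → a ≤ al5 c * p + be5 c)
    (hp : (39/1000) ≤ p) (hp1 : p ≤ (3/20)) : a ^ 2 ≤ (-9457/1000000) + (19/50) * p := by
  rcases le_total p (611/5000) with h0 | h0
  · exact row5 (c := (27/40)) (P := (39/1000)) (Q := (611/5000)) ha0 h (by norm_num) (by norm_num) hp h0 (by norm_num [al5, be5]) (by norm_num [al5, be5])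
  exact row5 (c := (1/2)) (P := (611/5000)) (Q := (3/20)) ha0 h (by norm_num) (by norm_num) h0 hp1 (by norm_num [al5, be5]) (by norm_num [al5, be5])

lemma cap6i7c3f0CLr {a p : ℝ} (ha0 : 0 ≤ a) (h : ∀ c, 0 ≤ c → c ≤ 1 → a ≤ al5 c * p + be5 c)
    (hp : (3/20) ≤ p) (hp1 : p ≤ (137659/500000)) : a ^ 2 ≤ (981/500000) + (19/50) * p := by
  exact row5 (c := (13/40)) (P := (3/20)) (Q := (137659/500000)) ha0 h (by norm_num) (by norm_num) hp hp1 (by norm_num [al5, be5]) (by norm_num [al5, be5])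

lemma cap6i7c3f0CL {a p : ℝ} (ha0 : 0 ≤ a) (h : ∀ c, 0 ≤ c → c ≤ 1 → a ≤ al5 c * p + be5 c)
    (hc : a < (32647/100000)) (hp : (3/20) ≤ p) : a ^ 2 ≤ (981/500000) + (19/50) * p := by
  rcases le_total p (137659/500000) with h1 | h1
  · exact cap6i7c3f0CLr ha0 h hp h1
  · exact cap_extend ha0 hc (by norm_num) (Pb := (137659/500000)) (by norm_num) h1

lemma cap6i7c3f0CS {a p : ℝ} (ha0 : 0 ≤ a) (hc : a < (32647/100000)) (hp : (39/1000) ≤ p) : a ^ 2 ≤ (1/2) + (19/50) * p :=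
  cap_extend ha0 hc (by norm_num) (Pb := (39/1000)) (by norm_num) hp

lemma cap6i7c3f0 (n p : ι → ℝ) (i0 : ι) (C : Finset ι) (hC : C ⊆ Finset.univ.erase i0)
    (hsum : ∑ i, p i = 1) (hn0 : ∀ j, 0 ≤ n j)
    (hrow : ∀ j, ∀ c, 0 ≤ c → c ≤ 1 → n j ≤ al5 c * p j + be5 c)
    (hlo : ∀ j, (39/1000) ≤ p j) (hp1 : ∀ j, p j ≤ 1) (hcap : ∀ j ∈ C, n j < (32647/100000))
    (hu : n i0 ≤ (73/1000)) (hC2 : C.card = 3)
    (hF2 : (Finset.univ.erase i0 \ C).card = 2)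
    (hlc : (C.filter fun j => (3/20) ≤ p j).card = 3)
    (hlf : ((Finset.univ.erase i0 \ C).filter fun j => (3/20) ≤ p j).card = 0) :
    ∑ i, n i ^ 2 < (179049/500000) := by
  have key := joint_sum n p i0 C hC hsum (pc := (3/20)) (ACL := (981/500000)) (ACS := (1/2))
    (AL := (1/2)) (AS := (-9457/1000000)) (B := (19/50))
    (fun j hj hp => cap6i7c3f0CL (hn0 j) (hrow j) (hcap j hj) hp)
    (fun j hj hp => cap6i7c3f0CS (hn0 j) (hcap j hj) (hlo j))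
    (fun j _ hp => cap6i7c3f0FL (hn0 j) (hrow j) hp (hp1 j))
    (fun j _ hp => cap6i7c3f0FS (hn0 j) (hrow j) (hlo j) hp.le)
  rw [card_filter_two C _ hC2 hlc, card_filter_two _ _ hF2 hlf, hlc, hlf] at key
  have h1 : n i0 ^ 2 ≤ (73/1000) ^ 2 := pow_le_pow_left₀ (hn0 i0) hu 2
  have h2 := hlo i0
  norm_num at key h1 h2 ⊢
  linarith

lemma cap6i7c3f1FL {a p : ℝ} (ha0 : 0 ≤ a) (h : ∀ c, 0 ≤ c → c ≤ 1 → a ≤ al5 c * p + be5 c)
    (hp : (3/20) ≤ p) (hp1 : p ≤ 1) : a ^ 2 ≤ (-4821/200000) + (12/25) * p := by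
  rcases le_total p (383/2000) with h0 | h0
  · exact row5 (c := (19/40)) (P := (3/20)) (Q := (383/2000)) ha0 h (by norm_num) (by norm_num) hp h0 (by norm_num [al5, be5]) (by norm_num [al5, be5])
  rcases le_total p (2191/10000) with h1 | h1
  · exact row5 (c := (17/40)) (P := (383/2000)) (Q := (2191/10000)) ha0 h (by norm_num) (by norm_num) h0 h1 (by norm_num [al5, be5]) (by norm_num [al5, be5])
  rcases le_total p (2663/10000) with h2 | h2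
  · exact row5 (c := (3/8)) (P := (2191/10000)) (Q := (2663/10000)) ha0 h (by norm_num) (by norm_num) h1 h2 (by norm_num [al5, be5]) (by norm_num [al5, be5])
  rcases le_total p (5701/10000) with h3 | h3
  · exact row5 (c := (11/40)) (P := (2663/10000)) (Q := (5701/10000)) ha0 h (by norm_num) (by norm_num) h2 h3 (by norm_num [al5, be5]) (by norm_num [al5, be5])
  exact row5 (c := 0) (P := (5701/10000)) (Q := 1) ha0 h (by norm_num) (by norm_num) h3 hp1 (by norm_num [al5, be5]) (by norm_num [al5, be5])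

lemma cap6i7c3f1FS {a p : ℝ} (ha0 : 0 ≤ a) (h : ∀ c, 0 ≤ c → c ≤ 1 → a ≤ al5 c * p + be5 c)
    (hp : (39/1000) ≤ p) (hp1 : p ≤ (3/20)) : a ^ 2 ≤ (-1691/125000) + (12/25) * p := by
  exact row5 (c := (7/10)) (P := (39/1000)) (Q := (3/20)) ha0 h (by norm_num) (by norm_num) hp hp1 (by norm_num [al5, be5]) (by norm_num [al5, be5])

lemma cap6i7c3f1CLr {a p : ℝ} (ha0 : 0 ≤ a) (h : ∀ c, 0 ≤ c → c ≤ 1 → a ≤ al5 c * p + be5 c)
    (hp : (3/20) ≤ p) (hp1 : p ≤ (136133/500000)) : a ^ 2 ≤ (-4821/200000) + (12/25) * p := by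
  rcases le_total p (383/2000) with h0 | h0
  · exact row5 (c := (19/40)) (P := (3/20)) (Q := (383/2000)) ha0 h (by norm_num) (by norm_num) hp h0 (by norm_num [al5, be5]) (by norm_num [al5, be5])
  rcases le_total p (2191/10000) with h1 | h1
  · exact row5 (c := (17/40)) (P := (383/2000)) (Q := (2191/10000)) ha0 h (by norm_num) (by norm_num) h0 h1 (by norm_num [al5, be5]) (by norm_num [al5, be5])
  rcases le_total p (2663/10000) with h2 | h2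
  · exact row5 (c := (3/8)) (P := (2191/10000)) (Q := (2663/10000)) ha0 h (by norm_num) (by norm_num) h1 h2 (by norm_num [al5, be5]) (by norm_num [al5, be5])
  exact row5 (c := (11/40)) (P := (2663/10000)) (Q := (136133/500000)) ha0 h (by norm_num) (by norm_num) h2 hp1 (by norm_num [al5, be5]) (by norm_num [al5, be5])

lemma cap6i7c3f1CL {a p : ℝ} (ha0 : 0 ≤ a) (h : ∀ c, 0 ≤ c → c ≤ 1 → a ≤ al5 c * p + be5 c)
    (hc : a < (32647/100000)) (hp : (3/20) ≤ p) : a ^ 2 ≤ (-4821/200000) + (12/25) * p := by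
  rcases le_total p (136133/500000) with h1 | h1
  · exact cap6i7c3f1CLr ha0 h hp h1
  · exact cap_extend ha0 hc (by norm_num) (Pb := (136133/500000)) (by norm_num) h1

lemma cap6i7c3f1CS {a p : ℝ} (ha0 : 0 ≤ a) (hc : a < (32647/100000)) (hp : (39/1000) ≤ p) : a ^ 2 ≤ (1/2) + (12/25) * p :=
  cap_extend ha0 hc (by norm_num) (Pb := (39/1000)) (by norm_num) hp

lemma cap6i7c3f1 (n p : ι → ℝ) (i0 : ι) (C : Finset ι) (hC : C ⊆ Finset.univ.erase i0)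
    (hsum : ∑ i, p i = 1) (hn0 : ∀ j, 0 ≤ n j)
    (hrow : ∀ j, ∀ c, 0 ≤ c → c ≤ 1 → n j ≤ al5 c * p j + be5 c)
    (hlo : ∀ j, (39/1000) ≤ p j) (hp1 : ∀ j, p j ≤ 1) (hcap : ∀ j ∈ C, n j < (32647/100000))
    (hu : n i0 ≤ (73/1000)) (hC2 : C.card = 3)
    (hF2 : (Finset.univ.erase i0 \ C).card = 2)
    (hlc : (C.filter fun j => (3/20) ≤ p j).card = 3)
    (hlf : ((Finset.univ.erase i0 \ C).filter fun j => (3/20) ≤ p j).card = 1) :
    ∑ i, n i ^ 2 < (179049/500000) := by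
  have key := joint_sum n p i0 C hC hsum (pc := (3/20)) (ACL := (-4821/200000)) (ACS := (1/2))
    (AL := (-4821/200000)) (AS := (-1691/125000)) (B := (12/25))
    (fun j hj hp => cap6i7c3f1CL (hn0 j) (hrow j) (hcap j hj) hp)
    (fun j hj hp => cap6i7c3f1CS (hn0 j) (hcap j hj) (hlo j))
    (fun j _ hp => cap6i7c3f1FL (hn0 j) (hrow j) hp (hp1 j))
    (fun j _ hp => cap6i7c3f1FS (hn0 j) (hrow j) (hlo j) hp.le)
  rw [card_filter_two C _ hC2 hlc, card_filter_two _ _ hF2 hlf, hlc, hlf] at key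
  have h1 : n i0 ^ 2 ≤ (73/1000) ^ 2 := pow_le_pow_left₀ (hn0 i0) hu 2
  have h2 := hlo i0
  norm_num at key h1 h2 ⊢
  linarith

lemma cap6i7c3f2FL {a p : ℝ} (ha0 : 0 ≤ a) (h : ∀ c, 0 ≤ c → c ≤ 1 → a ≤ al5 c * p + be5 c)
    (hp : (3/20) ≤ p) (hp1 : p ≤ 1) : a ^ 2 ≤ (-23047/1000000) + (12/25) * p := by
  rcases le_total p (891/4000) with h0 | h0
  · exact row5 (c := (9/20)) (P := (3/20)) (Q := (891/4000)) ha0 h (by norm_num) (by norm_num) hp h0 (by norm_num [al5, be5]) (by norm_num [al5, be5])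
  rcases le_total p (3279/10000) with h1 | h1
  · exact row5 (c := (7/20)) (P := (891/4000)) (Q := (3279/10000)) ha0 h (by norm_num) (by norm_num) h0 h1 (by norm_num [al5, be5]) (by norm_num [al5, be5])
  exact row5 (c := (1/8)) (P := (3279/10000)) (Q := 1) ha0 h (by norm_num) (by norm_num) h1 hp1 (by norm_num [al5, be5]) (by norm_num [al5, be5])

lemma cap6i7c3f2FS {a p : ℝ} (ha0 : 0 ≤ a) (h : ∀ c, 0 ≤ c → c ≤ 1 → a ≤ al5 c * p + be5 c)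
    (hp : (39/1000) ≤ p) (hp1 : p ≤ (3/20)) : a ^ 2 ≤ (1/2) + (12/25) * p := by
  exact row5 (c := 0) (P := (39/1000)) (Q := (3/20)) ha0 h (by norm_num) (by norm_num) hp hp1 (by norm_num [al5, be5]) (by norm_num [al5, be5])

lemma cap6i7c3f2CLr {a p : ℝ} (ha0 : 0 ≤ a) (h : ∀ c, 0 ≤ c → c ≤ 1 → a ≤ al5 c * p + be5 c)
    (hp : (3/20) ≤ p) (hp1 : p ≤ (135031/500000)) : a ^ 2 ≤ (-23047/1000000) + (12/25) * p := by
  rcases le_total p (891/4000) with h0 | h0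
  · exact row5 (c := (9/20)) (P := (3/20)) (Q := (891/4000)) ha0 h (by norm_num) (by norm_num) hp h0 (by norm_num [al5, be5]) (by norm_num [al5, be5])
  exact row5 (c := (7/20)) (P := (891/4000)) (Q := (135031/500000)) ha0 h (by norm_num) (by norm_num) h0 hp1 (by norm_num [al5, be5]) (by norm_num [al5, be5])

lemma cap6i7c3f2CL {a p : ℝ} (ha0 : 0 ≤ a) (h : ∀ c, 0 ≤ c → c ≤ 1 → a ≤ al5 c * p + be5 c)
    (hc : a < (32647/100000)) (hp : (3/20) ≤ p) : a ^ 2 ≤ (-23047/1000000) + (12/25) * p := by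
  rcases le_total p (135031/500000) with h1 | h1
  · exact cap6i7c3f2CLr ha0 h hp h1
  · exact cap_extend ha0 hc (by norm_num) (Pb := (135031/500000)) (by norm_num) h1

lemma cap6i7c3f2CS {a p : ℝ} (ha0 : 0 ≤ a) (hc : a < (32647/100000)) (hp : (39/1000) ≤ p) : a ^ 2 ≤ (1/2) + (12/25) * p :=
  cap_extend ha0 hc (by norm_num) (Pb := (39/1000)) (by norm_num) hp

lemma cap6i7c3f2 (n p : ι → ℝ) (i0 : ι) (C : Finset ι) (hC : C ⊆ Finset.univ.erase i0)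
    (hsum : ∑ i, p i = 1) (hn0 : ∀ j, 0 ≤ n j)
    (hrow : ∀ j, ∀ c, 0 ≤ c → c ≤ 1 → n j ≤ al5 c * p j + be5 c)
    (hlo : ∀ j, (39/1000) ≤ p j) (hp1 : ∀ j, p j ≤ 1) (hcap : ∀ j ∈ C, n j < (32647/100000))
    (hu : n i0 ≤ (73/1000)) (hC2 : C.card = 3)
    (hF2 : (Finset.univ.erase i0 \ C).card = 2)
    (hlc : (C.filter fun j => (3/20) ≤ p j).card = 3)
    (hlf : ((Finset.univ.erase i0 \ C).filter fun j => (3/20) ≤ p j).card = 2) :
    ∑ i, n i ^ 2 < (179049/500000) := by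
  have key := joint_sum n p i0 C hC hsum (pc := (3/20)) (ACL := (-23047/1000000)) (ACS := (1/2))
    (AL := (-23047/1000000)) (AS := (1/2)) (B := (12/25))
    (fun j hj hp => cap6i7c3f2CL (hn0 j) (hrow j) (hcap j hj) hp)
    (fun j hj hp => cap6i7c3f2CS (hn0 j) (hcap j hj) (hlo j))
    (fun j _ hp => cap6i7c3f2FL (hn0 j) (hrow j) hp (hp1 j))
    (fun j _ hp => cap6i7c3f2FS (hn0 j) (hrow j) (hlo j) hp.le)
  rw [card_filter_two C _ hC2 hlc, card_filter_two _ _ hF2 hlf, hlc, hlf] at key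
  have h1 : n i0 ^ 2 ≤ (73/1000) ^ 2 := pow_le_pow_left₀ (hn0 i0) hu 2
  have h2 := hlo i0
  norm_num at key h1 h2 ⊢
  linarith

lemma cap6i7 (n p : ι → ℝ) (i0 : ι) (C : Finset ι) (hC : C ⊆ Finset.univ.erase i0)
    (hsum : ∑ i, p i = 1) (hn0 : ∀ j, 0 ≤ n j)
    (hrow : ∀ j, ∀ c, 0 ≤ c → c ≤ 1 → n j ≤ al5 c * p j + be5 c)
    (hlo : ∀ j, (39/1000) ≤ p j) (hp1 : ∀ j, p j ≤ 1) (hcap : ∀ j ∈ C, n j < (32647/100000))
    (hu : n i0 ≤ (73/1000)) (hC2 : C.card = 3)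
    (hF2 : (Finset.univ.erase i0 \ C).card = 2) :
    ∑ i, n i ^ 2 < (179049/500000) := by
  have hA : (C.filter fun j => (3/20) ≤ p j).card ≤ 3 := (Finset.card_filter_le _ _).trans hC2.le
  have hB : ((Finset.univ.erase i0 \ C).filter fun j => (3/20) ≤ p j).card ≤ 2 := (Finset.card_filter_le _ _).trans hF2.le
  have hc' : (C.filter fun j => (3/20) ≤ p j).card = 0 ∨ (C.filter fun j => (3/20) ≤ p j).card = 1 ∨ (C.filter fun j => (3/20) ≤ p j).card = 2 ∨ (C.filter fun j => (3/20) ≤ p j).card = 3 := by omega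
  have hf' : ((Finset.univ.erase i0 \ C).filter fun j => (3/20) ≤ p j).card = 0 ∨ ((Finset.univ.erase i0 \ C).filter fun j => (3/20) ≤ p j).card = 1 ∨ ((Finset.univ.erase i0 \ C).filter fun j => (3/20) ≤ p j).card = 2 := by omega
  rcases hc' with hlc | hlc | hlc | hlc <;> rcases hf' with hlf | hlf | hlf
  · exact cap6i7c0f0 n p i0 C hC hsum hn0 hrow hlo hp1 hcap hu hC2 hF2 hlc hlf
  · exact cap6i7c0f1 n p i0 C hC hsum hn0 hrow hlo hp1 hcap hu hC2 hF2 hlc hlf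
  · exact cap6i7c0f2 n p i0 C hC hsum hn0 hrow hlo hp1 hcap hu hC2 hF2 hlc hlf
  · exact cap6i7c1f0 n p i0 C hC hsum hn0 hrow hlo hp1 hcap hu hC2 hF2 hlc hlf
  · exact cap6i7c1f1 n p i0 C hC hsum hn0 hrow hlo hp1 hcap hu hC2 hF2 hlc hlf
  · exact cap6i7c1f2 n p i0 C hC hsum hn0 hrow hlo hp1 hcap hu hC2 hF2 hlc hlf
  · exact cap6i7c2f0 n p i0 C hC hsum hn0 hrow hlo hp1 hcap hu hC2 hF2 hlc hlf
  · exact cap6i7c2f1 n p i0 C hC hsum hn0 hrow hlo hp1 hcap hu hC2 hF2 hlc hlf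
  · exact cap6i7c2f2 n p i0 C hC hsum hn0 hrow hlo hp1 hcap hu hC2 hF2 hlc hlf
  · exact cap6i7c3f0 n p i0 C hC hsum hn0 hrow hlo hp1 hcap hu hC2 hF2 hlc hlf
  · exact cap6i7c3f1 n p i0 C hC hsum hn0 hrow hlo hp1 hcap hu hC2 hF2 hlc hlf
  · exact cap6i7c3f2 n p i0 C hC hsum hn0 hrow hlo hp1 hcap hu hC2 hF2 hlc hlf

/-- The joint cap bound for 6 cells: at a fixed point with `F ≥ 9/(8π)` and `i0` a vertex of minimal
norm, at least three other vertices have squared norm at least `20.0` times that of `i0`. -/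
theorem cap6_joint {E : Type*} [NormedAddCommGroup E] [InnerProductSpace ℝ E] [FiniteDimensional ℝ E]
    [MeasurableSpace E] [BorelSpace E] {ι : Type*} [Fintype ι] [LinearOrder ι] [Nonempty ι]
    (w : ι → E) (hfix : ∀ i, mom (vcell w i) = w i) (hk : Fintype.card ι = 6)
    (hF : 9 / (8 * π) ≤ ∑ i, ‖w i‖ ^ 2) (i0 : ι) (hmin : ∀ j, ‖w i0‖ ≤ ‖w j‖) :
    3 ≤ (Finset.univ.filter fun j => j ≠ i0 ∧ (20 : ℝ) * ‖w i0‖ ^ 2 ≤ ‖w j‖ ^ 2).card := by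
  classical
  obtain ⟨p, hp0, hp1, hp⟩ := cap5_line w hfix (by omega)
  have hple : ∀ i, p i ≤ 1 := by
    intro i
    rw [← hp1]
    exact Finset.single_le_sum (fun j _ => hp0 j) (Finset.mem_univ i)
  have hmu : ((179049/500000) : ℝ) < 9 / (8 * π) := by
    rw [lt_div_iff₀ (by positivity)]
    nlinarith [pi_lt_d6]
  have hsig : ‖w i0‖ ≤ (73/1000) := by
    obtain ⟨i, hi⟩ := (cap6 w hfix hk hF).1
    exact (hmin i).trans hi
  by_contra hc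
  push Not at hc
  obtain ⟨C, hC, hdisj, hC2, hF2⟩ := exists_capped i0
    (Finset.univ.filter fun j => j ≠ i0 ∧ (20 : ℝ) * ‖w i0‖ ^ 2 ≤ ‖w j‖ ^ 2) (m := 3)
    (by omega) (by omega)
  have hcapC : ∀ j ∈ C, ‖w j‖ ^ 2 < (20 : ℝ) * ‖w i0‖ ^ 2 := by
    intro j hj
    by_contra h
    push Not at h
    have hne : j ≠ i0 := (Finset.mem_erase.1 (hC hj)).1
    exact (Finset.disjoint_left.1 hdisj hj) (Finset.mem_filter.2 ⟨Finset.mem_univ _, hne, h⟩)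
  have hn0 : ∀ j, 0 ≤ ‖w j‖ := fun j => norm_nonneg _
  have hlt : ∑ i, ‖w i‖ ^ 2 < (179049/500000) := by
    rcases le_total ‖w i0‖ (427/10000) with hu | hl
    · exact cap6i0 (fun i => ‖w i‖) p i0 C hC hp1 hn0 hp (fun j => hp0 j) hple
        (fun j hj => norm_lt_of_sq (κ := 20) (s := ‖w i0‖) (t := (427/10000)) (by norm_num) (by norm_num) (hcapC j hj) (norm_nonneg _) hu (by norm_num)) hu hC2 hF2
    rcases le_total ‖w i0‖ (133/2500) with hu | hl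
    · exact cap6i1 (fun i => ‖w i‖) p i0 C hC hp1 hn0 hp (fun j => lower_p (σ := (427/10000)) (hl.trans (hmin j)) (hp j (33/40) (by norm_num) (by norm_num)) (by norm_num [al5, be5]) (by norm_num [al5, be5])) hple
        (fun j hj => norm_lt_of_sq (κ := 20) (s := ‖w i0‖) (t := (133/2500)) (by norm_num) (by norm_num) (hcapC j hj) (norm_nonneg _) hu (by norm_num)) hu hC2 hF2
    rcases le_total ‖w i0‖ (577/10000) with hu | hl
    · exact cap6i2 (fun i => ‖w i‖) p i0 C hC hp1 hn0 hp (fun j => lower_p (σ := (133/2500)) (hl.trans (hmin j)) (hp j (4/5) (by norm_num) (by norm_num)) (by norm_num [al5, be5]) (by norm_num [al5, be5])) hple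
        (fun j hj => norm_lt_of_sq (κ := 20) (s := ‖w i0‖) (t := (577/10000)) (by norm_num) (by norm_num) (hcapC j hj) (norm_nonneg _) hu (by norm_num)) hu hC2 hF2
    rcases le_total ‖w i0‖ (609/10000) with hu | hl
    · exact cap6i3 (fun i => ‖w i‖) p i0 C hC hp1 hn0 hp (fun j => lower_p (σ := (577/10000)) (hl.trans (hmin j)) (hp j (31/40) (by norm_num) (by norm_num)) (by norm_num [al5, be5]) (by norm_num [al5, be5])) hple
        (fun j hj => norm_lt_of_sq (κ := 20) (s := ‖w i0‖) (t := (609/10000)) (by norm_num) (by norm_num) (hcapC j hj) (norm_nonneg _) hu (by norm_num)) hu hC2 hF2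
    rcases le_total ‖w i0‖ (643/10000) with hu | hl
    · exact cap6i4 (fun i => ‖w i‖) p i0 C hC hp1 hn0 hp (fun j => lower_p (σ := (609/10000)) (hl.trans (hmin j)) (hp j (31/40) (by norm_num) (by norm_num)) (by norm_num [al5, be5]) (by norm_num [al5, be5])) hple
        (fun j hj => norm_lt_of_sq (κ := 20) (s := ‖w i0‖) (t := (643/10000)) (by norm_num) (by norm_num) (hcapC j hj) (norm_nonneg _) hu (by norm_num)) hu hC2 hF2
    rcases le_total ‖w i0‖ (341/5000) with hu | hl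
    · exact cap6i5 (fun i => ‖w i‖) p i0 C hC hp1 hn0 hp (fun j => lower_p (σ := (643/10000)) (hl.trans (hmin j)) (hp j (31/40) (by norm_num) (by norm_num)) (by norm_num [al5, be5]) (by norm_num [al5, be5])) hple
        (fun j hj => norm_lt_of_sq (κ := 20) (s := ‖w i0‖) (t := (341/5000)) (by norm_num) (by norm_num) (hcapC j hj) (norm_nonneg _) hu (by norm_num)) hu hC2 hF2
    rcases le_total ‖w i0‖ (701/10000) with hu | hl
    · exact cap6i6 (fun i => ‖w i‖) p i0 C hC hp1 hn0 hp (fun j => lower_p (σ := (341/5000)) (hl.trans (hmin j)) (hp j (31/40) (by norm_num) (by norm_num)) (by norm_num [al5, be5]) (by norm_num [al5, be5])) hple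
        (fun j hj => norm_lt_of_sq (κ := 20) (s := ‖w i0‖) (t := (701/10000)) (by norm_num) (by norm_num) (hcapC j hj) (norm_nonneg _) hu (by norm_num)) hu hC2 hF2
    have hu := hsig
    exact cap6i7 (fun i => ‖w i‖) p i0 C hC hp1 hn0 hp (fun j => lower_p (σ := (701/10000)) (hl.trans (hmin j)) (hp j (3/4) (by norm_num) (by norm_num)) (by norm_num [al5, be5]) (by norm_num [al5, be5])) hple
        (fun j hj => norm_lt_of_sq (κ := 20) (s := ‖w i0‖) (t := (73/1000)) (by norm_num) (by norm_num) (hcapC j hj) (norm_nonneg _) hu (by norm_num)) hu hC2 hF2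
  linarith

end Vale.Agent.P226h15
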