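import Vale.Agent.P226h15.Moments
import Vale.Agent.P226h14.Fixed

open MeasureTheory ProbabilityTheory Real Set Filter Topology
open scoped RealInnerProductSpace ENNReal

namespace Vale.Agent.P226h15

set_option linter.unusedSectionVars false

open Vale.Agent.P226h14

/-- the mean excess of the angular coordinate -/
noncomputable def exc (s c : ℝ) : ℝ :=
  (∫ t in (-1 : ℝ)..1, max (t - c) 0 * (1 - t ^ 2) ^ s) / betaI s 0

lemma exc_nonneg {s : ℝ} (hs : 0 ≤ s) (c : ℝ) : 0 ≤ exc s c := by
  unfold exc
  apply div_nonneg _ (betaI_zero_pos hs).le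
  apply intervalIntegral.integral_nonneg (by norm_num)
  intro t ht
  apply mul_nonneg (le_max_right _ _)
  apply rpow_nonneg
  nlinarith [ht.1, ht.2]

variable {Y : Type*} [NormedAddCommGroup Y] [InnerProductSpace ℝ Y] [FiniteDimensional ℝ Y]
  [MeasurableSpace Y] [BorelSpace Y]

/-- The tangent line bound for the first moment of a cone. -/
theorem cone_tangent [Nontrivial Y] {A : Set Y} (hA : MeasurableSet A)
    (hcone : ∀ (r : ℝ) (y : Y), 0 < r → (r • y ∈ A ↔ y ∈ A)) {u : Y} (hu : ‖u‖ = 1) {s : ℝ}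
    (hs : 0 ≤ s) (hD : (Module.finrank ℝ Y : ℝ) = 2 * s + 3) {c : ℝ} (hc : 0 ≤ c) :
    ∫ y in A, ⟪u, y⟫ ∂(stdGaussian Y) ≤
      EN Y 1 * (c * (stdGaussian Y).real A + exc s c) := by
  classical
  set H : Y → ℝ := fun y => A.indicator (fun _ => c) y + max (theta u y - c) 0 with hH
  have hind : Measurable (fun y : Y => A.indicator (fun _ => c) y) :=
    measurable_const.indicator hA
  have hexc : Measurable (fun y : Y => max (theta u y - c) 0) := by
    have := measurable_theta u
    fun_prop
  have hHm : Measurable H := hind.add hexc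
  have hind0 : ∀ y : Y, 0 ≤ A.indicator (fun _ => c) y := fun y => indicator_nonneg (fun _ _ => hc) y
  have hindle : ∀ y : Y, A.indicator (fun _ => c) y ≤ c := fun y => by
    by_cases hy : y ∈ A
    · simp [hy]
    · simp [hy, hc]
  have hexcle : ∀ y : Y, max (theta u y - c) 0 ≤ 1 := fun y => by
    have := (abs_le.1 (abs_theta_le hu y)).2
    apply max_le <;> linarith
  have hH0 : ∀ y, 0 ≤ H y := fun y => add_nonneg (hind0 y) (le_max_right _ _)
  have hHB : ∀ y, H y ≤ c + 1 := fun y => add_le_add (hindle y) (hexcle y)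
  have hhom : ∀ (r : ℝ) (y : Y), 0 < r → H (r • y) = H y := by
    intro r y hr
    simp only [hH, theta_smul u y hr]
    congr 1
    by_cases hy : y ∈ A
    · simp [hy, (hcone r y hr).2 hy]
    · have : r • y ∉ A := fun h => hy ((hcone r y hr).1 h)
      simp [hy, this]
  have hrad := integral_norm_pow_mul hHm hH0 hHB hhom 1
  simp only [pow_one] at hrad
  have hintInd : Integrable (fun y : Y => A.indicator (fun _ => c) y) (stdGaussian Y) :=
    (integrable_const c).indicator hA
  have hintExc : Integrable (fun y : Y => max (theta u y - c) 0) (stdGaussian Y) := by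
    refine Integrable.mono' (integrable_const (1 : ℝ)) hexc.aestronglyMeasurable
      (Eventually.of_forall fun y => ?_)
    rw [Real.norm_eq_abs, abs_of_nonneg (le_max_right _ _)]
    exact hexcle y
  have hval : ∫ y, H y ∂(stdGaussian Y) = c * (stdGaussian Y).real A + exc s c := by
    simp only [hH]
    rw [integral_add hintInd hintExc, integral_indicator_const _ hA]
    congr 1
    · simp [mul_comm]
    · have := integral_theta_comp (Y := Y) hu hs hD (f := fun t => max (t - c) 0) (by fun_prop)
      rw [this]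
      rfl
  rw [← hval, ← hrad, ← integral_indicator hA]
  have hint1 : Integrable (A.indicator fun y : Y => ⟪u, y⟫) (stdGaussian Y) :=
    (integrable_inner_std u).indicator hA
  have hint2 : Integrable (fun y : Y => ‖y‖ * H y) (stdGaussian Y) := by
    refine Integrable.mono' ((integrable_norm_pow 1).mul_const (c + 1))
      (measurable_norm.mul hHm).aestronglyMeasurable (Eventually.of_forall fun y => ?_)
    rw [Real.norm_eq_abs, abs_of_nonneg (mul_nonneg (norm_nonneg _) (hH0 y)), pow_one]
    exact mul_le_mul_of_nonneg_left (hHB y) (norm_nonneg _)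
  refine integral_mono hint1 hint2 fun y => ?_
  simp only
  by_cases hy : y ∈ A
  · rw [indicator_of_mem hy, inner_eq_norm_mul_theta]
    apply mul_le_mul_of_nonneg_left _ (norm_nonneg _)
    simp only [hH, indicator_of_mem hy]
    have := le_max_left (theta u y - c) 0
    linarith
  · rw [indicator_of_notMem hy]
    exact mul_nonneg (norm_nonneg _) (hH0 y)

section transfer

variable {E : Type*} [NormedAddCommGroup E] [InnerProductSpace ℝ E] [FiniteDimensional ℝ E]
  [MeasurableSpace E] [BorelSpace E]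
variable {ι : Type*} [Fintype ι]

/-- inner products with a family, as a map into Euclidean space -/
noncomputable def gramMap (w : ι → E) (x : E) : EuclideanSpace ℝ ι :=
  WithLp.toLp 2 (fun j => ⟪w j, x⟫)

lemma measurable_gramMap (w : ι → E) : Measurable (gramMap w) := by
  unfold gramMap
  apply (WithLp.measurable_toLp 2 _).comp
  exact measurable_pi_lambda _ fun j => measurable_inner_left _

lemma charFun_map_gramMap (w : ι → E) (t : EuclideanSpace ℝ ι) :
    charFun ((stdGaussian E).map (gramMap w)) t =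
      Complex.exp (-((∑ i, ∑ j, t i * t j * ⟪w i, w j⟫ : ℝ) : ℂ) / 2) := by
  rw [charFun_apply, integral_map (measurable_gramMap w).aemeasurable
    (Measurable.aestronglyMeasurable (by fun_prop))]
  have h1 : ∀ x : E, ⟪gramMap w x, t⟫ = ⟪x, ∑ j, t j • w j⟫ := by
    intro x
    simp only [gramMap, PiLp.inner_apply, inner_sum, inner_smul_right]
    refine Finset.sum_congr rfl fun j _ => ?_
    simp [real_inner_comm, mul_comm]
  simp_rw [h1]
  have h2 := charFun_stdGaussian (E := E) (∑ j, t j • w j)
  rw [charFun_apply] at h2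
  rw [h2]
  have h3 : ‖∑ j, t j • w j‖ ^ 2 = ∑ i, ∑ j, t i * t j * ⟪w i, w j⟫ := by
    rw [← real_inner_self_eq_norm_sq, sum_inner]
    refine Finset.sum_congr rfl fun i _ => ?_
    rw [inner_sum]
    refine Finset.sum_congr rfl fun j _ => ?_
    rw [inner_smul_left, inner_smul_right]
    simp
    ring
  have h4 : ((‖∑ j, t j • w j‖ : ℝ) : ℂ) ^ 2 = ((∑ i, ∑ j, t i * t j * ⟪w i, w j⟫ : ℝ) : ℂ) := by
    rw [← h3]
    push_cast
    rfl
  rw [h4]

variable {F : Type*} [NormedAddCommGroup F] [InnerProductSpace ℝ F] [FiniteDimensional ℝ F]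
  [MeasurableSpace F] [BorelSpace F]

lemma map_gramMap {w : ι → E} {w' : ι → F} (h : ∀ i j, ⟪w' i, w' j⟫ = ⟪w i, w j⟫) :
    (stdGaussian E).map (gramMap w) = (stdGaussian F).map (gramMap w') := by
  have h1 : IsProbabilityMeasure ((stdGaussian E).map (gramMap w)) :=
    Measure.isProbabilityMeasure_map (measurable_gramMap w).aemeasurable
  have h2 : IsProbabilityMeasure ((stdGaussian F).map (gramMap w')) :=
    Measure.isProbabilityMeasure_map (measurable_gramMap w').aemeasurable
  apply Measure.ext_of_charFun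
  ext t
  rw [charFun_map_gramMap, charFun_map_gramMap]
  simp_rw [h]

variable [LinearOrder ι]

/-- the model cell -/
def bcell (i : ι) : Set (EuclideanSpace ℝ ι) :=
  {t | (∀ j, t j ≤ t i) ∧ ∀ j, j < i → t j < t i}

lemma measurableSet_bcell (i : ι) : MeasurableSet (bcell i) := by
  have hm : ∀ j, Measurable (fun t : EuclideanSpace ℝ ι => t j) := fun j => by fun_prop
  have h1 : {t : EuclideanSpace ℝ ι | ∀ j, t j ≤ t i} = ⋂ j, {t | t j ≤ t i} := by
    ext x; simp
  have h2 : {t : EuclideanSpace ℝ ι | ∀ j, j < i → t j < t i} =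
      ⋂ j, ⋂ (_ : j < i), {t | t j < t i} := by
    ext x; simp
  have h3 : bcell i = {t : EuclideanSpace ℝ ι | ∀ j, t j ≤ t i} ∩
      {t | ∀ j, j < i → t j < t i} := rfl
  rw [h3, h1, h2]
  exact (MeasurableSet.iInter fun j => measurableSet_le (hm j) (hm i)).inter
    (MeasurableSet.iInter fun j => MeasurableSet.iInter fun _ => measurableSet_lt (hm j) (hm i))

lemma preimage_bcell (w : ι → E) (i : ι) : gramMap w ⁻¹' bcell i = vcell w i := rfl

lemma real_vcell_eq {w : ι → E} {w' : ι → F} (h : ∀ i j, ⟪w' i, w' j⟫ = ⟪w i, w j⟫) (i : ι) :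
    (stdGaussian E).real (vcell w i) = (stdGaussian F).real (vcell w' i) := by
  rw [← preimage_bcell, ← preimage_bcell, measureReal_def, measureReal_def,
    ← Measure.map_apply (measurable_gramMap w) (measurableSet_bcell i),
    ← Measure.map_apply (measurable_gramMap w') (measurableSet_bcell i), map_gramMap h]

lemma setIntegral_vcell_eq {w : ι → E} {w' : ι → F} (h : ∀ i j, ⟪w' i, w' j⟫ = ⟪w i, w j⟫) (i : ι) :
    ∫ x in vcell w i, ⟪w i, x⟫ ∂(stdGaussian E) = ∫ y in vcell w' i, ⟪w' i, y⟫ ∂(stdGaussian F) := by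
  have hm : Measurable (fun t : EuclideanSpace ℝ ι => t i) := by fun_prop
  have h1 := setIntegral_map (μ := stdGaussian E) (measurableSet_bcell i) hm.aestronglyMeasurable
    (measurable_gramMap w).aemeasurable
  have h2 := setIntegral_map (μ := stdGaussian F) (measurableSet_bcell i) hm.aestronglyMeasurable
    (measurable_gramMap w').aemeasurable
  rw [map_gramMap h] at h1
  rw [h1] at h2
  exact h2

omit [FiniteDimensional ℝ E] [MeasurableSpace E] [BorelSpace E] [Fintype ι] in
lemma vcell_cone (Z : ι → E) (i : ι) (r : ℝ) (y : E) (hr : 0 < r) :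
    r • y ∈ vcell Z i ↔ y ∈ vcell Z i := by
  simp only [vcell, mem_ofPred_eq, inner_smul_right]
  constructor
  · rintro ⟨h1, h2⟩
    exact ⟨fun j => le_of_mul_le_mul_left (h1 j) hr, fun j hj => lt_of_mul_lt_mul_left (h2 j hj) hr.le⟩
  · rintro ⟨h1, h2⟩
    exact ⟨fun j => mul_le_mul_of_nonneg_left (h1 j) hr.le, fun j hj => mul_lt_mul_of_pos_left (h2 j hj) hr⟩

omit [MeasurableSpace E] [BorelSpace E] [LinearOrder ι] in
lemma exists_gram_embedding (w : ι → E) (D : ℕ)
    (h : Module.finrank ℝ (Submodule.span ℝ (Set.range w)) ≤ D) :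
    ∃ w' : ι → EuclideanSpace ℝ (Fin D), ∀ i j, ⟪w' i, w' j⟫ = ⟪w i, w j⟫ := by
  set W := Submodule.span ℝ (Set.range w) with hW
  set b := stdOrthonormalBasis ℝ W with hb
  have hmem : ∀ i, w i ∈ W := fun i => Submodule.subset_span ⟨i, rfl⟩
  set e : Fin (Module.finrank ℝ W) → Fin D := Fin.castLE h with he
  have hinj : Function.Injective e := Fin.castLE_injective h
  have hv := (EuclideanSpace.basisFun (Fin D) ℝ).orthonormal.comp e hinj
  refine ⟨fun i => ∑ a, ⟪b a, (⟨w i, hmem i⟩ : W)⟫ • ((EuclideanSpace.basisFun (Fin D) ℝ) ∘ e) a,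
    fun i j => ?_⟩
  have h1 := hv.inner_sum (fun a => ⟪b a, (⟨w i, hmem i⟩ : W)⟫)
    (fun a => ⟪b a, (⟨w j, hmem j⟩ : W)⟫) Finset.univ
  simp only [conj_trivial] at h1
  refine h1.trans ?_
  have h2 := b.sum_inner_mul_inner (⟨w i, hmem i⟩ : W) (⟨w j, hmem j⟩ : W)
  have h3 : ⟪(⟨w i, hmem i⟩ : W), (⟨w j, hmem j⟩ : W)⟫ = ⟪w i, w j⟫ := rfl
  rw [← h3, ← h2]
  refine Finset.sum_congr rfl fun a _ => ?_
  rw [real_inner_comm]

omit [MeasurableSpace E] [BorelSpace E] [LinearOrder ι] in
lemma finrank_span_le (w : ι → E) (hw : ∑ i, w i = 0) [Nonempty ι] :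
    Module.finrank ℝ (Submodule.span ℝ (Set.range w)) ≤ Fintype.card ι - 1 := by
  classical
  obtain ⟨i0⟩ := ‹Nonempty ι›
  set S : Finset E := (Finset.univ.erase i0).image w with hS
  have hle : Submodule.span ℝ (Set.range w) ≤ Submodule.span ℝ (S : Set E) := by
    rw [Submodule.span_le]
    rintro _ ⟨i, rfl⟩
    by_cases hi : i = i0
    · subst hi
      have h1 : w i = - ∑ j ∈ Finset.univ.erase i, w j := by
        have := Finset.add_sum_erase Finset.univ w (Finset.mem_univ i)
        rw [hw] at this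
        exact eq_neg_of_add_eq_zero_left this
      rw [h1]
      refine Submodule.neg_mem _ (Submodule.sum_mem _ fun j hj => Submodule.subset_span ?_)
      exact Finset.mem_coe.2 (Finset.mem_image_of_mem w hj)
    · apply Submodule.subset_span
      exact Finset.mem_coe.2 (Finset.mem_image_of_mem w (Finset.mem_erase.2 ⟨hi, Finset.mem_univ i⟩))
  have h1 := Submodule.finrank_mono hle
  have h2 : Module.finrank ℝ (Submodule.span ℝ (S : Set E)) ≤ S.card :=
    finrank_span_finset_le_card (R := ℝ) S
  have h3 : S.card ≤ Fintype.card ι - 1 := by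
    calc S.card ≤ (Finset.univ.erase i0).card := Finset.card_image_le
      _ = Fintype.card ι - 1 := by
        rw [Finset.card_erase_of_mem (Finset.mem_univ _), Finset.card_univ]
  omega

/-- The cap bound: at a fixed point with at most `D + 1` cells, there are weights `p i` (the Gaussian
measures of the cells), summing to one, for which every tangent line bound holds. -/
theorem cap_bound [Nonempty ι] (w : ι → E) (hfix : ∀ i, mom (vcell w i) = w i) (D : ℕ) (hD3 : 3 ≤ D)
    (hk : Fintype.card ι ≤ D + 1) :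
    ∃ p : ι → ℝ, (∀ i, 0 ≤ p i) ∧ ∑ i, p i = 1 ∧ ∀ i c, 0 ≤ c →
      ‖w i‖ ≤ EN (EuclideanSpace ℝ (Fin D)) 1 *
        (c * p i + exc (((D : ℝ) - 3) / 2) c) := by
  classical
  have hsum : ∑ i, w i = 0 := by
    have := sum_mom (isPart_vcell w)
    simpa [hfix] using this
  have hrank : Module.finrank ℝ (Submodule.span ℝ (Set.range w)) ≤ D := by
    have := finrank_span_le w hsum
    omega
  obtain ⟨w', hw'⟩ := exists_gram_embedding w D hrank
  have hNe : Nonempty (Fin D) := ⟨⟨0, by omega⟩⟩
  have hnt : Nontrivial (EuclideanSpace ℝ (Fin D)) := by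
    apply Module.nontrivial_of_finrank_pos (R := ℝ)
    rw [finrank_euclideanSpace_fin]
    omega
  refine ⟨fun i => (stdGaussian E).real (vcell w i), fun i => measureReal_nonneg, ?_, ?_⟩
  · have hp := isPart_vcell w
    have h1 : (stdGaussian E).real (⋃ i, vcell w i) = ∑ i, (stdGaussian E).real (vcell w i) := by
      rw [measureReal_def, measure_iUnion hp.2.1 hp.1, tsum_fintype, ENNReal.toReal_sum]
      · rfl
      · exact fun i _ => measure_ne_top _ _
    rw [← h1, hp.2.2]
    simp
  · intro i c hc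
    have hs0 : (0 : ℝ) ≤ ((D : ℝ) - 3) / 2 := by
      have : (3 : ℝ) ≤ D := by exact_mod_cast hD3
      linarith
    have hEN := EN_pos (Y := EuclideanSpace ℝ (Fin D)) 1
    have hp0 : 0 ≤ (stdGaussian E).real (vcell w i) := measureReal_nonneg
    have hnorm : ‖w' i‖ = ‖w i‖ := by
      have h1 := hw' i i
      rw [real_inner_self_eq_norm_sq, real_inner_self_eq_norm_sq] at h1
      exact (sq_eq_sq₀ (norm_nonneg _) (norm_nonneg _)).1 h1
    rcases eq_or_ne (w i) 0 with h0 | h0
    · rw [h0, norm_zero]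
      have := exc_nonneg hs0 c
      positivity
    · have hpos : 0 < ‖w i‖ := norm_pos_iff.2 h0
      set u : EuclideanSpace ℝ (Fin D) := ‖w i‖⁻¹ • w' i with hu
      have hun : ‖u‖ = 1 := by
        rw [hu, norm_smul, hnorm, Real.norm_eq_abs, abs_of_pos (inv_pos.2 hpos),
          inv_mul_cancel₀ hpos.ne']
      have hwu : w' i = ‖w i‖ • u := by
        rw [hu, smul_smul, mul_inv_cancel₀ hpos.ne', one_smul]
      have hfin : (Module.finrank ℝ (EuclideanSpace ℝ (Fin D)) : ℝ) =
          2 * (((D : ℝ) - 3) / 2) + 3 := by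
        rw [finrank_euclideanSpace_fin]
        ring
      have htan := cone_tangent (measurableSet_vcell w' i) (vcell_cone w' i) hun hs0 hfin hc
      rw [← real_vcell_eq hw' i] at htan
      have h1 : ‖w i‖ ^ 2 = ∫ y in vcell w' i, ⟪w' i, y⟫ ∂(stdGaussian _) := by
        rw [← setIntegral_vcell_eq hw' i, ← inner_mom, hfix, real_inner_self_eq_norm_sq]
      have h2 : ∫ y in vcell w' i, ⟪w' i, y⟫ ∂(stdGaussian (EuclideanSpace ℝ (Fin D))) =
          ‖w i‖ * ∫ y in vcell w' i, ⟪u, y⟫ ∂(stdGaussian _) := by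
        rw [← integral_const_mul]
        refine integral_congr_ae (Eventually.of_forall fun y => ?_)
        simp only
        rw [hwu, inner_smul_left]
        simp
      rw [h2] at h1
      have h3 : ‖w i‖ = ∫ y in vcell w' i, ⟪u, y⟫ ∂(stdGaussian _) := by
        have : ‖w i‖ * ‖w i‖ = ‖w i‖ * ∫ y in vcell w' i, ⟪u, y⟫ ∂(stdGaussian _) := by
          rw [← h1]; ring
        exact mul_left_cancel₀ hpos.ne' this
      rw [h3]
      exact htan

end transfer

end Vale.Agent.P226h15
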