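import Vale.Agent.P226h15.CapD57

open MeasureTheory ProbabilityTheory Real Set Filter Topology
open scoped RealInnerProductSpace ENNReal

namespace Vale.Agent.P226h15

set_option linter.unusedSectionVars false

open Vale.Agent.P226h14

lemma tab7a {a p : ℝ} (ha0 : 0 ≤ a) (h : ∀ c, 0 ≤ c → c ≤ 1 → a ≤ al7 c * p + be7 c)
    (hp : (7/200) ≤ p) (hp1 : p ≤ 1) : a ^ 2 ≤ (-2097/200000) + (539/1250) * p := by
  rcases le_total p (113/1000) with h0 | h0
  · exact row7 (c := (16/25)) (P := (7/200)) (Q := (113/1000)) ha0 h (by norm_num) (by norm_num) hp h0 (by norm_num [al7, be7, ex7]) (by norm_num [al7, be7, ex7])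
  rcases le_total p (113/500) with h1 | h1
  · exact row7 (c := (7/20)) (P := (113/1000)) (Q := (113/500)) ha0 h (by norm_num) (by norm_num) h0 h1 (by norm_num [al7, be7, ex7]) (by norm_num [al7, be7, ex7])
  rcases le_total p (13/50) with h2 | h2
  · exact row7 (c := (7/25)) (P := (113/500)) (Q := (13/50)) ha0 h (by norm_num) (by norm_num) h1 h2 (by norm_num [al7, be7, ex7]) (by norm_num [al7, be7, ex7])
  rcases le_total p (141/500) with h3 | h3
  · exact row7 (c := (13/50)) (P := (13/50)) (Q := (141/500)) ha0 h (by norm_num) (by norm_num) h2 h3 (by norm_num [al7, be7, ex7]) (by norm_num [al7, be7, ex7])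
  rcases le_total p (401/1000) with h4 | h4
  · exact row7 (c := (23/100)) (P := (141/500)) (Q := (401/1000)) ha0 h (by norm_num) (by norm_num) h3 h4 (by norm_num [al7, be7, ex7]) (by norm_num [al7, be7, ex7])
  exact row7 (c := 0) (P := (401/1000)) (Q := 1) ha0 h (by norm_num) (by norm_num) h4 hp1 (by norm_num [al7, be7, ex7]) (by norm_num [al7, be7, ex7])

lemma tab7b {a p : ℝ} (ha0 : 0 ≤ a) (h : ∀ c, 0 ≤ c → c ≤ 1 → a ≤ al7 c * p + be7 c)
    (hp : 0 ≤ p) (hp1 : p ≤ 1) : a ^ 2 ≤ (352501/10000000) + (717/2500) * p := by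
  rcases le_total p (167/500) with h0 | h0
  · exact row7 (c := (21/100)) (P := 0) (Q := (167/500)) ha0 h (by norm_num) (by norm_num) hp h0 (by norm_num [al7, be7, ex7]) (by norm_num [al7, be7, ex7])
  rcases le_total p (721/2000) with h1 | h1
  · exact row7 (c := (4/25)) (P := (167/500)) (Q := (721/2000)) ha0 h (by norm_num) (by norm_num) h0 h1 (by norm_num [al7, be7, ex7]) (by norm_num [al7, be7, ex7])
  rcases le_total p (389/1000) with h2 | h2
  · exact row7 (c := (3/20)) (P := (721/2000)) (Q := (389/1000)) ha0 h (by norm_num) (by norm_num) h1 h2 (by norm_num [al7, be7, ex7]) (by norm_num [al7, be7, ex7])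
  exact row7 (c := (9/100)) (P := (389/1000)) (Q := 1) ha0 h (by norm_num) (by norm_num) h2 hp1 (by norm_num [al7, be7, ex7]) (by norm_num [al7, be7, ex7])

lemma tab7c {a p : ℝ} (ha0 : 0 ≤ a) (h : ∀ c, 0 ≤ c → c ≤ 1 → a ≤ al7 c * p + be7 c)
    (hp : 0 ≤ p) (hp1 : p ≤ (113/1000)) : a ^ 2 ≤ (133/2000000) + (717/2500) * p := by
  rcases le_total p (89/1000) with h0 | h0
  · exact row7 (c := (67/100)) (P := 0) (Q := (89/1000)) ha0 h (by norm_num) (by norm_num) hp h0 (by norm_num [al7, be7, ex7]) (by norm_num [al7, be7, ex7])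
  exact row7 (c := (12/25)) (P := (89/1000)) (Q := (113/1000)) ha0 h (by norm_num) (by norm_num) h0 hp1 (by norm_num [al7, be7, ex7]) (by norm_num [al7, be7, ex7])

lemma tab7d {a p : ℝ} (h : ∀ c, 0 ≤ c → c ≤ 1 → a ≤ al7 c * p + be7 c)
    (ha : (17/250) < a) : (7/200) ≤ p := by
  have h1 := h (67/100) (by norm_num) (by norm_num)
  norm_num [al7, be7, ex7] at h1
  by_contra hc
  push Not at hc
  nlinarith

lemma tab7e {a p : ℝ} (ha0 : 0 ≤ a) (h : ∀ c, 0 ≤ c → c ≤ 1 → a ≤ al7 c * p + be7 c)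
    (hp0 : 0 ≤ p) (ha : a < (9/50)) : a ^ 2 ≤ (133/2000000) + (717/2500) * p := by
  rcases le_total p (113/1000) with h1 | h1
  · exact tab7c ha0 h hp0 h1
  · have h2 : a ^ 2 ≤ (9/50) ^ 2 := pow_le_pow_left₀ ha0 ha.le 2
    have h3 : ((9/50) : ℝ) ^ 2 ≤ (133/2000000) + (717/2500) * (113/1000) := by norm_num
    nlinarith

/-- The cap bound for 7 cells: at a fixed point with `F ≥ 9/(8π)` some vertex is tiny and at
least three vertices are big. -/
theorem cap7 {E : Type*} [NormedAddCommGroup E] [InnerProductSpace ℝ E] [FiniteDimensional ℝ E]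
    [MeasurableSpace E] [BorelSpace E] {ι : Type*} [Fintype ι] [LinearOrder ι] [Nonempty ι]
    (w : ι → E) (hfix : ∀ i, mom (vcell w i) = w i) (hk : Fintype.card ι = 7)
    (hF : 9 / (8 * π) ≤ ∑ i, ‖w i‖ ^ 2) :
    (∃ i, ‖w i‖ ≤ (17/250)) ∧ 3 ≤ (Finset.univ.filter fun i => ((9/50) : ℝ) ≤ ‖w i‖).card := by
  obtain ⟨p, hp0, hp1, hp⟩ := cap7_line w hfix (by omega)
  have hple : ∀ i, p i ≤ 1 := by
    intro i
    rw [← hp1]
    exact Finset.single_le_sum (fun j _ => hp0 j) (Finset.mem_univ i)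
  have hcard : (Fintype.card ι : ℝ) = 7 := by exact_mod_cast hk
  have hmu : ((179049/500000) : ℝ) < 9 / (8 * π) := by
    rw [lt_div_iff₀ (by positivity)]
    nlinarith [pi_lt_d6]
  constructor
  · refine cap_min_generic (fun i => ‖w i‖) p hp1 (A := (-2097/200000)) (B := (539/1250)) (fun i hi => ?_) ?_ hF
    · exact tab7a (norm_nonneg _) (hp i) (tab7d (hp i) hi) (hple i)
    · rw [hcard]
      norm_num at hmu ⊢
      linarith
  · refine cap_big_generic (fun i => ‖w i‖) p hp1 (A := (352501/10000000)) (A' := (133/2000000)) (B := (717/2500))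
      (fun i => ?_) (fun i hi => ?_) (by norm_num) ?_ hF
    · exact tab7b (norm_nonneg _) (hp i) (hp0 i) (hple i)
    · exact tab7e (norm_nonneg _) (hp i) (hp0 i) hi
    · rw [hcard]
      norm_num at hmu ⊢
      linarith

end Vale.Agent.P226h15
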