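import Vale.Agent.P226h15.CapD4

open MeasureTheory ProbabilityTheory Real Set Filter Topology
open scoped RealInnerProductSpace ENNReal

namespace Vale.Agent.P226h15

set_option linter.unusedSectionVars false

open Vale.Agent.P226h14

/-! ### dimension three -/

lemma EN_three : EN (EuclideanSpace ℝ (Fin 3)) 1 = 2 / TT 0 := by
  rw [EN_fin_eq 3 (by norm_num) (nontrivial_fin 3 (by norm_num))]
  have h2 : TT 2 = TT 0 := by have := TT_add_two 0; simpa using this
  have h3 : TT 3 = 2 * TT 1 := by have := TT_add_two 1; norm_num at this; linarith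
  show TT 3 / TT 2 = _
  rw [h3, TT_one, h2]
  ring

lemma betaI_zero_zero : betaI 0 0 = 2 := by
  unfold betaI
  simp
  norm_num

/-- the exact excess for `D = 3` -/
lemma exc_zero {c : ℝ} (h0 : 0 ≤ c) (h1 : c ≤ 1) : exc 0 c = (1 - c) ^ 2 / 4 := by
  unfold exc
  rw [betaI_zero_zero, max_split _ ⟨by linarith, h1⟩ (continuous_beta (by norm_num))]
  have h : ∀ t : ℝ, (t - c) * (1 - t ^ 2) ^ (0 : ℝ) = t - c := by
    intro t
    rw [rpow_zero, mul_one]
  simp_rw [h]
  have hd : ∀ t ∈ uIcc c 1, HasDerivAt (fun t : ℝ => t ^ 2 / 2 - c * t) (t - c) t := by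
    intro t _
    have h1 := ((hasDerivAt_pow 2 t).div_const 2).sub ((hasDerivAt_id t).const_mul c)
    refine HasDerivAt.congr_deriv h1 ?_
    simp
  rw [intervalIntegral.integral_eq_sub_of_hasDerivAt hd
    (Continuous.intervalIntegrable (by fun_prop) _ _)]
  ring

/-- the tangent lines for at most four cells, with the exact constant -/
lemma cap3_line {E : Type*} [NormedAddCommGroup E] [InnerProductSpace ℝ E] [FiniteDimensional ℝ E]
    [MeasurableSpace E] [BorelSpace E] {ι : Type*} [Fintype ι] [LinearOrder ι] [Nonempty ι]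
    (w : ι → E) (hfix : ∀ i, mom (vcell w i) = w i) (hk : Fintype.card ι ≤ 4) :
    ∃ p : ι → ℝ, (∀ i, 0 ≤ p i) ∧ ∑ i, p i = 1 ∧ ∀ i c, 0 ≤ c → c ≤ 1 →
      ‖w i‖ ≤ 2 / TT 0 * (c * p i + (1 - c) ^ 2 / 4) := by
  obtain ⟨p, hp0, hp1, hp⟩ := cap_bound w hfix 3 (by norm_num) (by omega)
  refine ⟨p, hp0, hp1, fun i c h0 h1 => ?_⟩
  have h := hp i c h0
  have hs : (((3 : ℕ) : ℝ) - 3) / 2 = 0 := by norm_num
  rw [hs, EN_three, exc_zero h0 h1] at h
  exact h

/-- the scale: `TT 0 = 1 / (2 ph 0)` -/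
lemma TT_zero_ph : TT 0 * (2 * ph 0) = 1 := by
  have h := TT_zero_sq
  have h0 := TT_pos 0
  have hpi := Real.pi_pos
  have hs : √(2 * π) = 2 * TT 0 := by
    rw [Real.sqrt_eq_iff_mul_self_eq (by positivity) (by positivity)]
    nlinarith
  have h2 : ph 0 = (√(2 * π))⁻¹ := by
    simp [ph]
  rw [h2, hs]
  field_simp

end Vale.Agent.P226h15
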