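import Vale.Agent.P226h15.Cap

open MeasureTheory ProbabilityTheory Real Set Filter Topology
open scoped RealInnerProductSpace ENNReal

namespace Vale.Agent.P226h15

set_option linter.unusedSectionVars false

open Vale.Agent.P226h14

/-! ### constants -/

lemma TT_one : TT 1 = 1 := by
  rw [TT_eq]
  norm_num

lemma TT_zero_sq : TT 0 ^ 2 = π / 2 := by
  rw [TT_eq]
  have h1 : Gamma (((0 : ℕ) + 1) / 2) = √π := by
    have : (((0 : ℕ) : ℝ) + 1) / 2 = 1 / 2 := by norm_num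
    rw [this, Gamma_one_half_eq]
  have h1' : Gamma (((0 : ℕ) + 1 : ℝ) / 2) = √π := h1
  rw [h1']
  have h2 : (1 / 2 : ℝ) ^ (-(((0 : ℕ) : ℝ) + 1) / 2) = √2 := by
    have : (-(((0 : ℕ) : ℝ) + 1) / 2) = -(1 / 2 : ℝ) := by norm_num
    rw [this, rpow_neg (by norm_num), ← Real.sqrt_eq_rpow, Real.sqrt_div (by norm_num)]
    simp
  rw [h2]
  have h3 : √2 ^ 2 = 2 := Real.sq_sqrt (by norm_num)
  have h4 : √π ^ 2 = π := Real.sq_sqrt pi_pos.le
  calc (√2 * (1 / 2) * √π) ^ 2 = √2 ^ 2 * (1 / 4) * √π ^ 2 := by ring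
    _ = π / 2 := by rw [h3, h4]; ring

lemma TT_zero_bounds : (1.25331 : ℝ) < TT 0 ∧ TT 0 < 1.25332 := by
  have h := TT_zero_sq
  have h0 := TT_pos 0
  have h1 := pi_gt_d6
  have h2 := pi_lt_d6
  constructor
  · by_contra hc
    push Not at hc
    nlinarith
  · by_contra hc
    push Not at hc
    nlinarith

lemma EN_fin_eq (D : ℕ) (hD : 1 ≤ D) (hnt : Nontrivial (EuclideanSpace ℝ (Fin D))) :
    EN (EuclideanSpace ℝ (Fin D)) 1 = TT D / TT (D - 1) := by
  rw [EN_eq, finrank_euclideanSpace_fin]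
  congr 2
  omega

lemma nontrivial_fin (D : ℕ) (hD : 1 ≤ D) : Nontrivial (EuclideanSpace ℝ (Fin D)) := by
  apply Module.nontrivial_of_finrank_pos (R := ℝ)
  rw [finrank_euclideanSpace_fin]
  omega

lemma EN_four : EN (EuclideanSpace ℝ (Fin 4)) 1 = 3 / 2 * TT 0 := by
  rw [EN_fin_eq 4 (by norm_num) (nontrivial_fin 4 (by norm_num))]
  have h2 : TT 2 = TT 0 := by have := TT_add_two 0; simpa using this
  have h3 : TT 3 = 2 * TT 1 := by have := TT_add_two 1; norm_num at this; linarith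
  have h4 : TT 4 = 3 * TT 2 := by have := TT_add_two 2; norm_num at this; linarith
  show TT 4 / TT 3 = _
  rw [h3, TT_one, h4, h2]
  ring

lemma EN_five : EN (EuclideanSpace ℝ (Fin 5)) 1 = 8 / 3 / TT 0 := by
  rw [EN_fin_eq 5 (by norm_num) (nontrivial_fin 5 (by norm_num))]
  have h0 := (TT_pos 0).ne'
  have h2 : TT 2 = TT 0 := by have := TT_add_two 0; simpa using this
  have h3 : TT 3 = 2 * TT 1 := by have := TT_add_two 1; norm_num at this; linarith
  have h4 : TT 4 = 3 * TT 2 := by have := TT_add_two 2; norm_num at this; linarith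
  have h5 : TT 5 = 4 * TT 3 := by have := TT_add_two 3; norm_num at this; linarith
  show TT 5 / TT 4 = _
  rw [h5, h4, h3, TT_one, h2]
  field_simp
  ring

lemma EN_six : EN (EuclideanSpace ℝ (Fin 6)) 1 = 15 / 8 * TT 0 := by
  rw [EN_fin_eq 6 (by norm_num) (nontrivial_fin 6 (by norm_num))]
  have h2 : TT 2 = TT 0 := by have := TT_add_two 0; simpa using this
  have h3 : TT 3 = 2 * TT 1 := by have := TT_add_two 1; norm_num at this; linarith
  have h4 : TT 4 = 3 * TT 2 := by have := TT_add_two 2; norm_num at this; linarith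
  have h5 : TT 5 = 4 * TT 3 := by have := TT_add_two 3; norm_num at this; linarith
  have h6 : TT 6 = 5 * TT 4 := by have := TT_add_two 4; norm_num at this; linarith
  show TT 6 / TT 5 = _
  rw [h6, h5, h4, h3, TT_one, h2]
  ring

lemma EN_seven : EN (EuclideanSpace ℝ (Fin 7)) 1 = 16 / 5 / TT 0 := by
  rw [EN_fin_eq 7 (by norm_num) (nontrivial_fin 7 (by norm_num))]
  have h0 := (TT_pos 0).ne'
  have h2 : TT 2 = TT 0 := by have := TT_add_two 0; simpa using this
  have h3 : TT 3 = 2 * TT 1 := by have := TT_add_two 1; norm_num at this; linarith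
  have h4 : TT 4 = 3 * TT 2 := by have := TT_add_two 2; norm_num at this; linarith
  have h5 : TT 5 = 4 * TT 3 := by have := TT_add_two 3; norm_num at this; linarith
  have h6 : TT 6 = 5 * TT 4 := by have := TT_add_two 4; norm_num at this; linarith
  have h7 : TT 7 = 6 * TT 5 := by have := TT_add_two 5; norm_num at this; linarith
  show TT 7 / TT 6 = _
  rw [h7, h6, h5, h4, h3, TT_one, h2]
  field_simp
  ring

/-! ### the excess integrals -/

lemma max_split {g : ℝ → ℝ} (c : ℝ) (hc : c ∈ Icc (-1 : ℝ) 1) (hg : Continuous g) :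
    ∫ t in (-1 : ℝ)..1, max (t - c) 0 * g t = ∫ t in c..1, (t - c) * g t := by
  have hcont : Continuous (fun t : ℝ => max (t - c) 0 * g t) := by fun_prop
  rw [← intervalIntegral.integral_add_adjacent_intervals (b := c)
    (hcont.intervalIntegrable _ _) (hcont.intervalIntegrable _ _)]
  have h1 : ∫ t in (-1 : ℝ)..c, max (t - c) 0 * g t = 0 := by
    rw [intervalIntegral.integral_congr (g := fun _ => (0 : ℝ))]
    · simp
    · intro t ht
      rw [uIcc_of_le hc.1] at ht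
      simp [max_eq_right (sub_nonpos.2 ht.2)]
  rw [h1, zero_add]
  apply intervalIntegral.integral_congr
  intro t ht
  rw [uIcc_of_le hc.2] at ht
  simp [max_eq_left (sub_nonneg.2 ht.1)]

/-- `betaI (1/2) 0` is `π / 2` -/
lemma betaI_half_zero : betaI (1 / 2) 0 = π / 2 := by
  unfold betaI
  have h : ∀ t : ℝ, t ^ 0 * (1 - t ^ 2) ^ (1 / 2 : ℝ) = √(1 - t ^ 2) := by
    intro t
    rw [pow_zero, one_mul, Real.sqrt_eq_rpow]
  simp_rw [h]
  exact integral_sqrt_one_sub_sq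

/-- The polynomial majorant for `D = 4`: the integral is at most `√2 * sb^5 * Q(sb^2)`. -/
lemma excess_half_le {sb : ℝ} (h0 : 0 < sb) (h1 : sb ≤ 1) :
    ∫ t in (1 - sb ^ 2)..1, (t - (1 - sb ^ 2)) * (1 - t ^ 2) ^ (1 / 2 : ℝ) ≤
      √2 * (sb ^ 5 * (4 / 15 - sb ^ 2 / 35 - sb ^ 4 / 504)) := by
  set b := sb ^ 2 with hb
  set c := 1 - b with hc
  have hb0 : 0 < b := by positivity
  have hb1 : b ≤ 1 := by rw [hb]; nlinarith
  have hc0 : 0 ≤ c := by rw [hc]; linarith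
  have hc1 : c ≤ 1 := by rw [hc]; linarith
  -- pointwise bound
  set f' : ℝ → ℝ := fun t => √(1 - t) * ((t - c) * (1 - (1 - t) / 4 - (1 - t) ^ 2 / 32)) with hf'
  have hf'c : Continuous f' := by
    simp only [hf']
    fun_prop
  have hle : ∀ t ∈ Icc c 1, (t - c) * (1 - t ^ 2) ^ (1 / 2 : ℝ) ≤ √2 * f' t := by
    intro t ht
    set v := 1 - t with hv
    have hv0 : 0 ≤ v := by rw [hv]; linarith [ht.2]
    have hv1 : v ≤ 1 := by rw [hv]; linarith [ht.1]
    have hq : 0 ≤ 1 - v / 4 - v ^ 2 / 32 := by nlinarith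
    have h2 : (1 - t ^ 2) ^ (1 / 2 : ℝ) = √v * √(2 - v) := by
      rw [← Real.sqrt_eq_rpow, ← Real.sqrt_mul hv0]
      congr 1
      rw [hv]
      ring
    have h3 : √(2 - v) ≤ √2 * (1 - v / 4 - v ^ 2 / 32) := by
      apply Real.sqrt_le_iff.2
      refine ⟨by positivity, ?_⟩
      rw [mul_pow, Real.sq_sqrt (by norm_num)]
      have : 0 ≤ v ^ 3 := by positivity
      have : 0 ≤ v ^ 4 := by positivity
      nlinarith
    rw [h2]
    simp only [hf']
    have h4 : 0 ≤ t - c := by linarith [ht.1]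
    have h5 : 0 ≤ √v := Real.sqrt_nonneg v
    have h6 : (t - c) * (√v * √(2 - v)) ≤ (t - c) * (√v * (√2 * (1 - v / 4 - v ^ 2 / 32))) :=
      mul_le_mul_of_nonneg_left (mul_le_mul_of_nonneg_left h3 h5) h4
    calc _ ≤ _ := h6
      _ = _ := by ring
  have hcont1 : Continuous (fun t : ℝ => (t - c) * (1 - t ^ 2) ^ (1 / 2 : ℝ)) := by
    have := continuous_beta (s := 1 / 2) (by norm_num)
    fun_prop
  have h2 : ∫ t in c..1, (t - c) * (1 - t ^ 2) ^ (1 / 2 : ℝ) ≤ ∫ t in c..1, √2 * f' t :=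
    intervalIntegral.integral_mono_on hc1 (hcont1.intervalIntegrable _ _)
      ((hf'c.const_smul (√2)).intervalIntegrable _ _) hle
  refine h2.trans (le_of_eq ?_)
  rw [intervalIntegral.integral_const_mul]
  congr 1
  -- the exact integral by the fundamental theorem of calculus
  set R : ℝ → ℝ := fun v => b * (2 / 3) - (1 + b / 4) * (2 / 5) * v + (1 / 4 - b / 32) * (2 / 7) * v ^ 2 +
    (1 / 32) * (2 / 9) * v ^ 3 with hR
  set F : ℝ → ℝ := fun t => -(√(1 - t) * ((1 - t) * R (1 - t))) with hF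
  have hFc : ContinuousOn F (Icc c 1) := by
    apply Continuous.continuousOn
    simp only [hF, hR]
    fun_prop
  have hFd : ∀ t ∈ Ioo c 1, HasDerivAt F (f' t) t := by
    intro t ht
    have hv : 0 < 1 - t := by linarith [ht.2]
    have h1v : HasDerivAt (fun t : ℝ => 1 - t) (-1) t := by
      simpa using (hasDerivAt_id t).const_sub 1
    have hsq : HasDerivAt (fun t : ℝ => √(1 - t)) (-1 / (2 * √(1 - t))) t := by
      have := h1v.sqrt hv.ne'
      simpa using this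
    have hR' : HasDerivAt (fun t : ℝ => (1 - t) * R (1 - t))
        (-(b * (2 / 3) * 1 - 2 * (1 + b / 4) * (2 / 5) * (1 - t) + 3 * (1 / 4 - b / 32) * (2 / 7) * (1 - t) ^ 2 +
          4 * (1 / 32) * (2 / 9) * (1 - t) ^ 3)) t := by
      have hpoly : HasDerivAt (fun v : ℝ => v * R v)
          (b * (2 / 3) - 2 * (1 + b / 4) * (2 / 5) * (1 - t) + 3 * (1 / 4 - b / 32) * (2 / 7) * (1 - t) ^ 2 +
            4 * (1 / 32) * (2 / 9) * (1 - t) ^ 3) (1 - t) := by
        have h3 : (fun v : ℝ => v * R v) = fun v => b * (2 / 3) * v - (1 + b / 4) * (2 / 5) * v ^ 2 +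
            (1 / 4 - b / 32) * (2 / 7) * v ^ 3 + (1 / 32) * (2 / 9) * v ^ 4 := by
          funext v
          simp only [hR]
          ring
        rw [h3]
        have h8 := (((hasDerivAt_id (1 - t)).const_mul (b * (2 / 3))).sub
          (((hasDerivAt_pow 2 (1 - t))).const_mul ((1 + b / 4) * (2 / 5)))).add
          (((hasDerivAt_pow 3 (1 - t)).const_mul ((1 / 4 - b / 32) * (2 / 7)))) |>.add
          ((hasDerivAt_pow 4 (1 - t)).const_mul ((1 / 32) * (2 / 9)))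
        refine HasDerivAt.congr_deriv h8 ?_
        norm_num
        ring
      have h5 := hpoly.comp t h1v
      refine HasDerivAt.congr_deriv h5 ?_
      ring
    have h7 := (hsq.mul hR').neg
    have hs : √(1 - t) ≠ 0 := (Real.sqrt_pos.2 hv).ne'
    have hss2 : √(1 - t) ^ 2 = 1 - t := Real.sq_sqrt hv.le
    refine HasDerivAt.congr_deriv h7 ?_
    simp only [hf', hR, hc]
    field_simp
    rw [hss2]
    ring
  rw [intervalIntegral.integral_eq_sub_of_hasDerivAt_of_le hc1 hFc hFd (hf'c.intervalIntegrable _ _)]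
  simp only [hF, hR, sub_self, Real.sqrt_zero, zero_mul, neg_zero, zero_sub, neg_neg]
  have hcb : 1 - c = b := by rw [hc]; ring
  rw [hcb, hb, Real.sqrt_sq h0.le]
  ring

/-! ### generic table lemmas -/

lemma row_bound {a p α β A B P Q : ℝ} (ha0 : 0 ≤ a)
    (ha : a ≤ α * p + β) (hp : P ≤ p) (hq : p ≤ Q)
    (h1 : (α * P + β) ^ 2 ≤ A + B * P) (h2 : (α * Q + β) ^ 2 ≤ A + B * Q) :
    a ^ 2 ≤ A + B * p := by
  have h3 : a ^ 2 ≤ (α * p + β) ^ 2 := pow_le_pow_left₀ ha0 ha 2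
  refine h3.trans ?_
  rcases eq_or_lt_of_le (hp.trans hq) with hPQ | hPQ
  · have : p = P := by
      apply le_antisymm _ hp
      rw [hPQ]; exact hq
    rw [this]; exact h1
  · have hd : 0 < Q - P := sub_pos.2 hPQ
    have key : (Q - P) * ((α * p + β) ^ 2 - A - B * p) =
        (Q - p) * ((α * P + β) ^ 2 - A - B * P) + (p - P) * ((α * Q + β) ^ 2 - A - B * Q) +
          α ^ 2 * (p - P) * (p - Q) * (Q - P) := by ring
    have k1 : (Q - p) * ((α * P + β) ^ 2 - A - B * P) ≤ 0 :=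
      mul_nonpos_of_nonneg_of_nonpos (by linarith) (by linarith)
    have k2 : (p - P) * ((α * Q + β) ^ 2 - A - B * Q) ≤ 0 :=
      mul_nonpos_of_nonneg_of_nonpos (by linarith) (by linarith)
    have k3 : α ^ 2 * (p - P) * (p - Q) * (Q - P) ≤ 0 := by
      have : (p - P) * (p - Q) ≤ 0 := mul_nonpos_of_nonneg_of_nonpos (by linarith) (by linarith)
      have h5 : 0 ≤ α ^ 2 * (Q - P) := by positivity
      nlinarith
    have k4 : (Q - P) * ((α * p + β) ^ 2 - A - B * p) ≤ 0 := by rw [key]; linarith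
    have k5 : (α * p + β) ^ 2 - A - B * p ≤ 0 := by
      by_contra hc
      push Not at hc
      have := mul_pos hd hc
      linarith
    linarith

section generic

variable {ι : Type*} [Fintype ι]

lemma cap_min_generic [Nonempty ι] (n p : ι → ℝ) {A B μ a0 : ℝ} (hsum : ∑ i, p i = 1)
    (htab : ∀ i, a0 < n i → n i ^ 2 ≤ A + B * p i)
    (hk : (Fintype.card ι : ℝ) * A + B < μ) (hF : μ ≤ ∑ i, n i ^ 2) :
    ∃ i, n i ≤ a0 := by
  by_contra hc
  push Not at hc
  have h1 : ∑ i, n i ^ 2 ≤ ∑ i, (A + B * p i) := Finset.sum_le_sum fun i _ => htab i (hc i)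
  rw [Finset.sum_add_distrib, ← Finset.mul_sum, hsum] at h1
  simp only [Finset.sum_const, Finset.card_univ, nsmul_eq_mul] at h1
  linarith

lemma cap_big_generic (n p : ι → ℝ) {A A' B μ a : ℝ} (hsum : ∑ i, p i = 1)
    (hA : ∀ i, n i ^ 2 ≤ A + B * p i) (hA' : ∀ i, n i < a → n i ^ 2 ≤ A' + B * p i)
    (hAA : A' ≤ A) (hk : 2 * A + ((Fintype.card ι : ℝ) - 2) * A' + B < μ)
    (hF : μ ≤ ∑ i, n i ^ 2) :
    3 ≤ (Finset.univ.filter fun i => a ≤ n i).card := by
  classical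
  by_contra hc
  push Not at hc
  set S := Finset.univ.filter fun i => a ≤ n i with hS
  have hScard : (S.card : ℝ) ≤ 2 := by
    have : S.card ≤ 2 := by omega
    exact_mod_cast this
  have h1 : ∑ i, n i ^ 2 ≤ ∑ i, ((if a ≤ n i then A else A') + B * p i) := by
    refine Finset.sum_le_sum fun i _ => ?_
    by_cases hi : a ≤ n i
    · simp only [hi, if_true]; exact hA i
    · simp only [hi, if_false]; exact hA' i (not_le.1 hi)
  rw [Finset.sum_add_distrib, ← Finset.mul_sum, hsum, Finset.sum_ite] at h1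
  simp only [Finset.sum_const, nsmul_eq_mul] at h1
  have h2 : ((Finset.univ.filter fun i => ¬ a ≤ n i).card : ℝ) = (Fintype.card ι : ℝ) - S.card := by
    have := Finset.card_filter_add_card_filter_not (s := (Finset.univ : Finset ι)) (fun i => a ≤ n i)
    rw [Finset.card_univ] at this
    have h3 : ((S.card + (Finset.univ.filter fun i => ¬ a ≤ n i).card : ℕ) : ℝ) = (Fintype.card ι : ℝ) := by
      rw [this]
    push_cast at h3
    linarith
  rw [h2] at h1
  have h3 : (S.card : ℝ) * (A - A') ≤ 2 * (A - A') :=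
    mul_le_mul_of_nonneg_right hScard (by linarith)
  nlinarith

end generic

/-! ### dimension four -/

/-- slope of the line for `D = 4` -/
noncomputable def al4 (sb : ℝ) : ℝ := 1.87998 * (1 - sb ^ 2)

/-- intercept of the line for `D = 4` -/
noncomputable def be4 (sb : ℝ) : ℝ := 1.69258 * (sb ^ 5 * (4 / 15 - sb ^ 2 / 35 - sb ^ 4 / 504))

lemma al4_nonneg {sb : ℝ} (h0 : 0 < sb) (h1 : sb ≤ 1) : 0 ≤ al4 sb := by
  unfold al4
  have : sb ^ 2 ≤ 1 := by nlinarith
  have : (0 : ℝ) ≤ 1 - sb ^ 2 := by linarith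
  positivity

lemma be4_nonneg {sb : ℝ} (h0 : 0 < sb) (h1 : sb ≤ 1) : 0 ≤ be4 sb := by
  unfold be4
  have h2 : sb ^ 2 ≤ 1 := by nlinarith
  have h4 : sb ^ 4 ≤ 1 := by nlinarith
  have h3 : 0 ≤ 4 / 15 - sb ^ 2 / 35 - sb ^ 4 / 504 := by linarith
  positivity

/-- the line bound, dimension four -/
lemma cap4_line {E : Type*} [NormedAddCommGroup E] [InnerProductSpace ℝ E] [FiniteDimensional ℝ E]
    [MeasurableSpace E] [BorelSpace E] {ι : Type*} [Fintype ι] [LinearOrder ι] [Nonempty ι]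
    (w : ι → E) (hfix : ∀ i, mom (vcell w i) = w i) (hk : Fintype.card ι ≤ 5) :
    ∃ p : ι → ℝ, (∀ i, 0 ≤ p i) ∧ ∑ i, p i = 1 ∧ ∀ i sb, 0 < sb → sb ≤ 1 →
      ‖w i‖ ≤ al4 sb * p i + be4 sb := by
  obtain ⟨p, hp0, hp1, hp⟩ := cap_bound w hfix 4 (by norm_num) (by omega)
  refine ⟨p, hp0, hp1, fun i sb h0 h1 => ?_⟩
  have hb1 : sb ^ 2 ≤ 1 := by nlinarith
  have hcn : (0 : ℝ) ≤ 1 - sb ^ 2 := by linarith
  have h := hp i (1 - sb ^ 2) hcn
  have hs : (((4 : ℕ) : ℝ) - 3) / 2 = 1 / 2 := by norm_num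
  rw [hs, EN_four] at h
  have hτ := TT_zero_bounds
  have hτ2 := TT_zero_sq
  have hτ0 := TT_pos 0
  -- the excess
  have hex : exc (1 / 2) (1 - sb ^ 2) ≤ √2 * (sb ^ 5 * (4 / 15 - sb ^ 2 / 35 - sb ^ 4 / 504)) / (TT 0 ^ 2) := by
    unfold exc
    rw [betaI_half_zero, hτ2]
    apply div_le_div_of_nonneg_right _ (by positivity)
    rw [max_split _ ⟨by linarith, by linarith [sq_nonneg sb]⟩ (continuous_beta (by norm_num))]
    exact excess_half_le h0 h1
  have hY : 0 ≤ sb ^ 5 * (4 / 15 - sb ^ 2 / 35 - sb ^ 4 / 504) := by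
    have h4 : sb ^ 4 ≤ 1 := by nlinarith
    have h3 : 0 ≤ 4 / 15 - sb ^ 2 / 35 - sb ^ 4 / 504 := by linarith
    positivity
  set Y := sb ^ 5 * (4 / 15 - sb ^ 2 / 35 - sb ^ 4 / 504) with hYdef
  have hs2 : √2 ≤ 1.414214 := by
    apply Real.sqrt_le_iff.2
    norm_num
  have h1' : 3 / 2 * TT 0 * (exc (1 / 2) (1 - sb ^ 2)) ≤ 1.69258 * Y := by
    have h2 : 3 / 2 * TT 0 * (exc (1 / 2) (1 - sb ^ 2)) ≤ 3 / 2 * TT 0 * (√2 * Y / TT 0 ^ 2) :=
      mul_le_mul_of_nonneg_left hex (by positivity)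
    have h3 : 3 / 2 * TT 0 * (√2 * Y / TT 0 ^ 2) = 3 / 2 * √2 * Y / TT 0 := by
      field_simp
    rw [h3] at h2
    refine h2.trans ?_
    rw [div_le_iff₀ hτ0]
    have h5 : 3 / 2 * √2 * Y ≤ 3 / 2 * 1.414214 * Y :=
      mul_le_mul_of_nonneg_right (mul_le_mul_of_nonneg_left hs2 (by norm_num)) hY
    have h6 : 1.69258 * Y * 1.25331 ≤ 1.69258 * Y * TT 0 :=
      mul_le_mul_of_nonneg_left hτ.1.le (by positivity)
    nlinarith
  have h2' : 3 / 2 * TT 0 * ((1 - sb ^ 2) * p i) ≤ 1.87998 * (1 - sb ^ 2) * p i := by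
    have h5 := hp0 i
    have h6 : 0 ≤ (1 - sb ^ 2) * p i := by positivity
    nlinarith [hτ.2]
  calc ‖w i‖ ≤ 3 / 2 * TT 0 * ((1 - sb ^ 2) * p i + exc (1 / 2) (1 - sb ^ 2)) := h
    _ = 3 / 2 * TT 0 * ((1 - sb ^ 2) * p i) + 3 / 2 * TT 0 * (exc (1 / 2) (1 - sb ^ 2)) := by ring
    _ ≤ 1.87998 * (1 - sb ^ 2) * p i + 1.69258 * Y := add_le_add h2' h1'
    _ = al4 sb * p i + be4 sb := by simp only [al4, be4, hYdef]

lemma row4 {a p A B P Q sb : ℝ} (ha0 : 0 ≤ a) (h : ∀ sb, 0 < sb → sb ≤ 1 → a ≤ al4 sb * p + be4 sb)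
    (h0 : 0 < sb) (h1 : sb ≤ 1) (hp : P ≤ p) (hq : p ≤ Q)
    (h2 : (al4 sb * P + be4 sb) ^ 2 ≤ A + B * P) (h3 : (al4 sb * Q + be4 sb) ^ 2 ≤ A + B * Q) :
    a ^ 2 ≤ A + B * p :=
  row_bound ha0 (h sb h0 h1) hp hq h2 h3

end Vale.Agent.P226h15
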