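import Vale.Agent.P226h15.CapD4

open MeasureTheory ProbabilityTheory Real Set Filter Topology
open scoped RealInnerProductSpace ENNReal

namespace Vale.Agent.P226h15

set_option linter.unusedSectionVars false

open Vale.Agent.P226h14

/-! ### dimension five -/

lemma betaI_one_zero : betaI 1 0 = 4 / 3 := by
  unfold betaI
  have h : ∀ t : ℝ, t ^ 0 * (1 - t ^ 2) ^ (1 : ℝ) = 1 - t ^ 2 := by
    intro t
    rw [pow_zero, one_mul, rpow_one]
  simp_rw [h]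
  have hd : ∀ t ∈ uIcc (-1 : ℝ) 1, HasDerivAt (fun t : ℝ => t - t ^ 3 / 3) (1 - t ^ 2) t := by
    intro t _
    have h1 := (hasDerivAt_id t).sub ((hasDerivAt_pow 3 t).div_const 3)
    refine HasDerivAt.congr_deriv h1 ?_
    simp
  rw [intervalIntegral.integral_eq_sub_of_hasDerivAt hd
    (Continuous.intervalIntegrable (by fun_prop) _ _)]
  norm_num

/-- the exact excess for `D = 5` -/
lemma exc_one {c : ℝ} (h0 : 0 ≤ c) (h1 : c ≤ 1) : exc 1 c = (1 - c) ^ 3 * (3 + c) / 16 := by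
  unfold exc
  rw [betaI_one_zero, max_split _ ⟨by linarith, h1⟩ (continuous_beta (by norm_num))]
  have h : ∀ t : ℝ, (t - c) * (1 - t ^ 2) ^ (1 : ℝ) = (t - c) * (1 - t ^ 2) := by
    intro t
    rw [rpow_one]
  simp_rw [h]
  have hd : ∀ t ∈ uIcc c 1, HasDerivAt (fun t : ℝ => t ^ 2 / 2 - c * t - t ^ 4 / 4 + c * (t ^ 3 / 3))
      ((t - c) * (1 - t ^ 2)) t := by
    intro t _
    have h1 := (((hasDerivAt_pow 2 t).div_const 2).sub ((hasDerivAt_id t).const_mul c)).sub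
      ((hasDerivAt_pow 4 t).div_const 4) |>.add (((hasDerivAt_pow 3 t).div_const 3).const_mul c)
    refine HasDerivAt.congr_deriv h1 ?_
    simp
    ring
  rw [intervalIntegral.integral_eq_sub_of_hasDerivAt hd
    (Continuous.intervalIntegrable (by fun_prop) _ _)]
  ring

/-- slope of the line for `D = 5` -/
noncomputable def al5 (c : ℝ) : ℝ := 2.12771 * c

/-- intercept of the line for `D = 5` -/
noncomputable def be5 (c : ℝ) : ℝ := 2.12771 * ((1 - c) ^ 3 * (3 + c) / 16)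

/-- the line bound, dimension five -/
lemma cap5_line {E : Type*} [NormedAddCommGroup E] [InnerProductSpace ℝ E] [FiniteDimensional ℝ E]
    [MeasurableSpace E] [BorelSpace E] {ι : Type*} [Fintype ι] [LinearOrder ι] [Nonempty ι]
    (w : ι → E) (hfix : ∀ i, mom (vcell w i) = w i) (hk : Fintype.card ι ≤ 6) :
    ∃ p : ι → ℝ, (∀ i, 0 ≤ p i) ∧ ∑ i, p i = 1 ∧ ∀ i c, 0 ≤ c → c ≤ 1 →
      ‖w i‖ ≤ al5 c * p i + be5 c := by
  obtain ⟨p, hp0, hp1, hp⟩ := cap_bound w hfix 5 (by norm_num) (by omega)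
  refine ⟨p, hp0, hp1, fun i c h0 h1 => ?_⟩
  have h := hp i c h0
  have hs : (((5 : ℕ) : ℝ) - 3) / 2 = 1 := by norm_num
  rw [hs, EN_five, exc_one h0 h1] at h
  have hτ := TT_zero_bounds
  have hτ0 := TT_pos 0
  have hX : 0 ≤ c * p i + (1 - c) ^ 3 * (3 + c) / 16 := by
    have := hp0 i
    have h3 : 0 ≤ 1 - c := by linarith
    positivity
  have hEN : 8 / 3 / TT 0 ≤ 2.12771 := by
    rw [div_le_iff₀ hτ0]
    nlinarith [hτ.1]
  calc ‖w i‖ ≤ 8 / 3 / TT 0 * (c * p i + (1 - c) ^ 3 * (3 + c) / 16) := h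
    _ ≤ 2.12771 * (c * p i + (1 - c) ^ 3 * (3 + c) / 16) := mul_le_mul_of_nonneg_right hEN hX
    _ = al5 c * p i + be5 c := by simp only [al5, be5]; ring

lemma row5 {a p A B P Q c : ℝ} (ha0 : 0 ≤ a) (h : ∀ c, 0 ≤ c → c ≤ 1 → a ≤ al5 c * p + be5 c)
    (h0 : 0 ≤ c) (h1 : c ≤ 1) (hp : P ≤ p) (hq : p ≤ Q)
    (h2 : (al5 c * P + be5 c) ^ 2 ≤ A + B * P) (h3 : (al5 c * Q + be5 c) ^ 2 ≤ A + B * Q) :
    a ^ 2 ≤ A + B * p :=
  row_bound ha0 (h c h0 h1) hp hq h2 h3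

/-! ### dimension seven -/

lemma betaI_two_zero : betaI 2 0 = 16 / 15 := by
  unfold betaI
  have h : ∀ t : ℝ, t ^ 0 * (1 - t ^ 2) ^ (2 : ℝ) = 1 - 2 * t ^ 2 + t ^ 4 := by
    intro t
    rw [pow_zero, one_mul, rpow_two]
    ring
  simp_rw [h]
  have hd : ∀ t ∈ uIcc (-1 : ℝ) 1, HasDerivAt (fun t : ℝ => t - 2 * (t ^ 3 / 3) + t ^ 5 / 5)
      (1 - 2 * t ^ 2 + t ^ 4) t := by
    intro t _
    have h1 := ((hasDerivAt_id t).sub (((hasDerivAt_pow 3 t).div_const 3).const_mul 2)).add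
      ((hasDerivAt_pow 5 t).div_const 5)
    refine HasDerivAt.congr_deriv h1 ?_
    simp
  rw [intervalIntegral.integral_eq_sub_of_hasDerivAt hd
    (Continuous.intervalIntegrable (by fun_prop) _ _)]
  norm_num

/-- the excess polynomial for `D = 7` -/
noncomputable def ex7 (c : ℝ) : ℝ := (15 / 16) *
      ((1 / 6 - c / 5 - 2 * (1 / 4 - c / 3) + (1 / 2 - c)) -
        (c ^ 6 / 6 - c * (c ^ 5 / 5) - 2 * (c ^ 4 / 4 - c * (c ^ 3 / 3)) + (c ^ 2 / 2 - c * c)))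

/-- the exact excess for `D = 7` -/
lemma exc_two {c : ℝ} (h0 : 0 ≤ c) (h1 : c ≤ 1) : exc 2 c = ex7 c := by
  unfold exc ex7
  rw [betaI_two_zero, max_split _ ⟨by linarith, h1⟩ (continuous_beta (by norm_num))]
  have h : ∀ t : ℝ, (t - c) * (1 - t ^ 2) ^ (2 : ℝ) = (t - c) * (1 - t ^ 2) ^ 2 := by
    intro t
    rw [rpow_two]
  simp_rw [h]
  have hd : ∀ t ∈ uIcc c 1, HasDerivAt
      (fun t : ℝ => t ^ 6 / 6 - c * (t ^ 5 / 5) - 2 * (t ^ 4 / 4 - c * (t ^ 3 / 3)) + (t ^ 2 / 2 - c * t))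
      ((t - c) * (1 - t ^ 2) ^ 2) t := by
    intro t _
    have h1 := (((hasDerivAt_pow 6 t).div_const 6).sub (((hasDerivAt_pow 5 t).div_const 5).const_mul c)).sub
      ((((hasDerivAt_pow 4 t).div_const 4).sub (((hasDerivAt_pow 3 t).div_const 3).const_mul c)).const_mul 2)
      |>.add (((hasDerivAt_pow 2 t).div_const 2).sub ((hasDerivAt_id t).const_mul c))
    refine HasDerivAt.congr_deriv h1 ?_
    simp
    ring
  rw [intervalIntegral.integral_eq_sub_of_hasDerivAt hd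
    (Continuous.intervalIntegrable (by fun_prop) _ _)]
  ring

/-- slope of the line for `D = 7` -/
noncomputable def al7 (c : ℝ) : ℝ := 2.55325 * c

/-- intercept of the line for `D = 7` -/
noncomputable def be7 (c : ℝ) : ℝ := 2.55325 * ex7 c

/-- the line bound, dimension seven -/
lemma cap7_line {E : Type*} [NormedAddCommGroup E] [InnerProductSpace ℝ E] [FiniteDimensional ℝ E]
    [MeasurableSpace E] [BorelSpace E] {ι : Type*} [Fintype ι] [LinearOrder ι] [Nonempty ι]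
    (w : ι → E) (hfix : ∀ i, mom (vcell w i) = w i) (hk : Fintype.card ι ≤ 8) :
    ∃ p : ι → ℝ, (∀ i, 0 ≤ p i) ∧ ∑ i, p i = 1 ∧ ∀ i c, 0 ≤ c → c ≤ 1 →
      ‖w i‖ ≤ al7 c * p i + be7 c := by
  obtain ⟨p, hp0, hp1, hp⟩ := cap_bound w hfix 7 (by norm_num) (by omega)
  refine ⟨p, hp0, hp1, fun i c h0 h1 => ?_⟩
  have h := hp i c h0
  have hs : (((7 : ℕ) : ℝ) - 3) / 2 = 2 := by norm_num
  rw [hs, EN_seven] at h
  have hex : exc 2 c = ex7 c := exc_two h0 h1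
  have hτ := TT_zero_bounds
  have hτ0 := TT_pos 0
  have hX : 0 ≤ c * p i + exc 2 c := by
    have := hp0 i
    have := exc_nonneg (s := 2) (by norm_num) c
    positivity
  have hEN : 16 / 5 / TT 0 ≤ 2.55325 := by
    rw [div_le_iff₀ hτ0]
    nlinarith [hτ.1]
  calc ‖w i‖ ≤ 16 / 5 / TT 0 * (c * p i + exc 2 c) := h
    _ ≤ 2.55325 * (c * p i + exc 2 c) := mul_le_mul_of_nonneg_right hEN hX
    _ = al7 c * p i + be7 c := by simp only [al7, be7, hex]; ring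

lemma row7 {a p A B P Q c : ℝ} (ha0 : 0 ≤ a) (h : ∀ c, 0 ≤ c → c ≤ 1 → a ≤ al7 c * p + be7 c)
    (h0 : 0 ≤ c) (h1 : c ≤ 1) (hp : P ≤ p) (hq : p ≤ Q)
    (h2 : (al7 c * P + be7 c) ^ 2 ≤ A + B * P) (h3 : (al7 c * Q + be7 c) ^ 2 ≤ A + B * Q) :
    a ^ 2 ≤ A + B * p :=
  row_bound ha0 (h c h0 h1) hp hq h2 h3

end Vale.Agent.P226h15
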