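import Vale.Agent.P226h15.CapD57

open MeasureTheory ProbabilityTheory Real Set Filter Topology
open scoped RealInnerProductSpace ENNReal

namespace Vale.Agent.P226h15

set_option linter.unusedSectionVars false

section joint

variable {ι : Type*} [Fintype ι] [DecidableEq ι]

lemma sum_piece (s : Finset ι) (n p : ι → ℝ) {pc AL AS B : ℝ}
    (hL : ∀ j ∈ s, pc ≤ p j → n j ^ 2 ≤ AL + B * p j)
    (hS : ∀ j ∈ s, p j < pc → n j ^ 2 ≤ AS + B * p j) :
    ∑ j ∈ s, n j ^ 2 ≤ ((s.filter fun j => pc ≤ p j).card : ℝ) * AL +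
      ((s.filter fun j => ¬ pc ≤ p j).card : ℝ) * AS + B * ∑ j ∈ s, p j := by
  have h1 : ∑ j ∈ s, n j ^ 2 ≤ ∑ j ∈ s, ((if pc ≤ p j then AL else AS) + B * p j) := by
    refine Finset.sum_le_sum fun j hj => ?_
    by_cases h : pc ≤ p j
    · simp only [h, if_true]; exact hL j hj h
    · simp only [h, if_false]; exact hS j hj (not_le.1 h)
  refine h1.trans (le_of_eq ?_)
  rw [Finset.sum_add_distrib, ← Finset.mul_sum, Finset.sum_ite]
  simp only [Finset.sum_const, nsmul_eq_mul]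

/-- the assembly of a case -/
lemma joint_sum (n p : ι → ℝ) (i0 : ι) (C : Finset ι) (hC : C ⊆ Finset.univ.erase i0)
    (hsum : ∑ i, p i = 1) {pc ACL ACS AL AS B : ℝ}
    (hCL : ∀ j ∈ C, pc ≤ p j → n j ^ 2 ≤ ACL + B * p j)
    (hCS : ∀ j ∈ C, p j < pc → n j ^ 2 ≤ ACS + B * p j)
    (hFL : ∀ j ∈ Finset.univ.erase i0 \ C, pc ≤ p j → n j ^ 2 ≤ AL + B * p j)
    (hFS : ∀ j ∈ Finset.univ.erase i0 \ C, p j < pc → n j ^ 2 ≤ AS + B * p j) :
    ∑ i, n i ^ 2 ≤ n i0 ^ 2 +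
      (((C.filter fun j => pc ≤ p j).card : ℝ) * ACL +
        ((C.filter fun j => ¬ pc ≤ p j).card : ℝ) * ACS) +
      (((Finset.univ.erase i0 \ C).filter fun j => pc ≤ p j).card * AL +
        (((Finset.univ.erase i0 \ C).filter fun j => ¬ pc ≤ p j).card : ℝ) * AS) +
      B * (1 - p i0) := by
  have h1 := Finset.add_sum_erase Finset.univ (fun i => n i ^ 2) (Finset.mem_univ i0)
  have h2 := Finset.add_sum_erase Finset.univ p (Finset.mem_univ i0)
  have h3 := Finset.sum_sdiff (f := fun i => n i ^ 2) hC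
  have h4 := Finset.sum_sdiff (f := p) hC
  have h5 := sum_piece C n p hCL hCS
  have h6 := sum_piece (Finset.univ.erase i0 \ C) n p hFL hFS
  rw [hsum] at h2
  have h7 : 1 - p i0 = ∑ j ∈ Finset.univ.erase i0 \ C, p j + ∑ j ∈ C, p j := by
    rw [h4]; linarith
  rw [h7, mul_add]
  linarith

lemma card_filter_two (s : Finset ι) (P : ι → Prop) [DecidablePred P] {m l : ℕ} (hs : s.card = m)
    (hl : (s.filter P).card = l) : (s.filter fun j => ¬ P j).card = m - l := by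
  have := Finset.card_filter_add_card_filter_not (s := s) P
  omega

/-- capped version of a row table -/
lemma cap_extend {a p A B c Pb : ℝ} (ha0 : 0 ≤ a) (ha : a < c) (hB : 0 ≤ B) (hc : c ^ 2 ≤ A + B * Pb)
    (hp : Pb ≤ p) : a ^ 2 ≤ A + B * p := by
  have h2 : a ^ 2 ≤ c ^ 2 := pow_le_pow_left₀ ha0 ha.le 2
  have h3 : B * Pb ≤ B * p := mul_le_mul_of_nonneg_left hp hB
  linarith

lemma lower_p {a p α β P σ : ℝ} (ha : σ ≤ a) (h : a ≤ α * p + β) (hα : 0 < α)
    (hP : α * P + β ≤ σ) : P ≤ p := by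
  by_contra hc
  push Not at hc
  have := mul_lt_mul_of_pos_left hc hα
  linarith

lemma norm_lt_of_sq {a c κ s t : ℝ} (hc0 : 0 ≤ c) (hκ : 0 ≤ κ) (h : a ^ 2 < κ * s ^ 2) (hs0 : 0 ≤ s) (ht : s ≤ t)
    (hc : κ * t ^ 2 ≤ c ^ 2) : a < c := by
  have h1 : s ^ 2 ≤ t ^ 2 := pow_le_pow_left₀ hs0 ht 2
  have h2 : κ * s ^ 2 ≤ κ * t ^ 2 := mul_le_mul_of_nonneg_left h1 hκ
  have h3 : a ^ 2 < c ^ 2 := by linarith
  exact lt_of_pow_lt_pow_left₀ 2 hc0 h3

/-- pick the capped set -/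
lemma exists_capped (i0 : ι) (S : Finset ι) {m : ℕ} (hm : Fintype.card ι = m + 3) (hS : S.card ≤ 2) :
    ∃ C : Finset ι, C ⊆ Finset.univ.erase i0 ∧ Disjoint C S ∧ C.card = m ∧
      (Finset.univ.erase i0 \ C).card = 2 := by
  classical
  have hT : (Finset.univ.erase i0).card = m + 2 := by
    rw [Finset.card_erase_of_mem (Finset.mem_univ _), Finset.card_univ, hm]
    omega
  have h1 : m ≤ (Finset.univ.erase i0 \ S).card := by
    have := Finset.le_card_sdiff S (Finset.univ.erase i0)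
    omega
  obtain ⟨C, hC, hCc⟩ := Finset.exists_subset_card_eq h1
  refine ⟨C, hC.trans Finset.sdiff_subset, ?_, hCc, ?_⟩
  · exact Finset.disjoint_of_subset_left hC Finset.sdiff_disjoint
  · rw [Finset.card_sdiff_of_subset (hC.trans Finset.sdiff_subset), hT, hCc]
    omega

end joint

end Vale.Agent.P226h15
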