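import Vale.Agent.P226h15.Three

open MeasureTheory ProbabilityTheory Real Set Filter Topology
open scoped RealInnerProductSpace ENNReal

namespace Vale.Agent.P226h15

set_option linter.unusedSectionVars false

open Vale.Agent.P226h14

variable {E : Type*} [NormedAddCommGroup E] [InnerProductSpace ℝ E] [FiniteDimensional ℝ E]
  [MeasurableSpace E] [BorelSpace E]

lemma mom_empty : mom (∅ : Set E) = 0 := by
  simp [mom]

/-- Partitions into at most three cells are covered by the base case. -/
theorem small_le {k : ℕ} (hk : k ≤ 3) {A : Fin k → Set E} (hA : IsPart A) : Fval A ≤ muP := by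
  have hmu : 0 < muP := by
    unfold muP
    have := Real.pi_pos
    positivity
  interval_cases k
  · exfalso
    have h := hA.2.2
    have h0 : (0 : E) ∈ ⋃ i, A i := by rw [h]; exact mem_univ _
    obtain ⟨i, _⟩ := mem_iUnion.1 h0
    exact i.elim0
  · have hP : IsPart (![A 0, ∅, ∅] : Fin 3 → Set E) := by
      refine ⟨?_, ?_, ?_⟩
      · intro i
        fin_cases i <;> simp [hA.1]
      · intro i j hij
        fin_cases i <;> fin_cases j <;> simp_all [Function.onFun]
      · have h := hA.2.2
        rw [← h]
        ext x
        simp only [mem_iUnion]
        constructor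
        · rintro ⟨i, hi⟩
          fin_cases i
          · exact ⟨0, hi⟩
          · simp at hi
          · simp at hi
        · rintro ⟨i, hi⟩
          fin_cases i
          exact ⟨0, hi⟩
    have := part3_le hP
    simpa [Fval, Fin.sum_univ_three, mom_empty] using this
  · have hP : IsPart (![A 0, A 1, ∅] : Fin 3 → Set E) := by
      refine ⟨?_, ?_, ?_⟩
      · intro i
        fin_cases i <;> simp [hA.1]
      · intro i j hij
        have h01 := hA.2.1 (show (0 : Fin 2) ≠ 1 by decide)
        fin_cases i <;> fin_cases j <;> simp_all [Function.onFun, disjoint_comm]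
      · have h := hA.2.2
        rw [← h]
        ext x
        simp only [mem_iUnion]
        constructor
        · rintro ⟨i, hi⟩
          fin_cases i
          · exact ⟨0, hi⟩
          · exact ⟨1, hi⟩
          · simp at hi
        · rintro ⟨i, hi⟩
          fin_cases i
          · exact ⟨0, hi⟩
          · exact ⟨1, hi⟩
    have := part3_le hP
    simpa [Fval, Fin.sum_univ_three, Fin.sum_univ_two, mom_empty] using this
  · exact part3_le hA

/-- **The assembly of the propeller conjecture**: from the deletion steps for `6` and `5` cells and
the bound for `4` cells, every finite measurable partition has value at most `9/(8π)`. -/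
theorem conj_of_steps (h6 : DelStep E 6) (h5 : DelStep E 5)
    (h4 : ∀ A : Fin 4 → Set E, IsPart A → Fval A ≤ muP) {k : ℕ} {A : Fin k → Set E}
    (hA : IsPart A) : Fval A ≤ muP := by
  rcases le_or_gt k 3 with hk | hk
  · exact small_le hk hA
  · obtain ⟨A', hA', hle⟩ := reduction4 h6 h5 (by omega) hA
    exact hle.trans (max_le le_rfl (h4 A' hA'))

end Vale.Agent.P226h15
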