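import Vale.Agent.P226h15.Three
import Vale.Agent.P226h15.CapD3
import Vale.Agent.P226h2.K4Flux
import Vale.Agent.P226h2.K4Close

/-!
# No obtuse fixed point with four cells above the propeller value

The moment of the cell of the smallest vertex is bounded by the first moment of a cone over a triangle,
and the cap rows contradict the resulting inequality.
-/

open MeasureTheory ProbabilityTheory Real Set Filter Topology
open scoped RealInnerProductSpace ENNReal

namespace Vale.Agent.P226h15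

set_option linter.unusedSectionVars false

open Vale.Agent.P226h14 Vale.Agent.P226h2

/-- The real arithmetic of the closing step: the flux bound in scale form against `k4_close`. -/
lemma k4_flux_close {s g b : ℝ} (hs : 0 < s) (hg : 0 < g)
    (hb : b = 8 * s ^ 2 / (π * √g)) (hz : 4 * s ≤ b / (1 + b))
    (hc : (8 / 3.14 * s * (1 / 4 - s)) ^ 2 < g) : False := by
  have hpi := Real.pi_pos
  have hpi3 := Real.pi_gt_d2
  have hsq : 0 < √g := Real.sqrt_pos.2 hg
  have hb0 : 0 < b := by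
    rw [hb]
    positivity
  have h1 : 4 * s * (1 + b) ≤ b := by
    rwa [le_div_iff₀ (by positivity)] at hz
  have h2 : 4 * s * (π * √g) ≤ 8 * s ^ 2 * (1 - 4 * s) := by
    have hbm : b * (π * √g) = 8 * s ^ 2 := by
      rw [hb]
      field_simp
    have h3 : 4 * s * (π * √g) * 1 + 4 * s * (b * (π * √g)) ≤ b * (π * √g) := by
      have := mul_le_mul_of_nonneg_right h1 (by positivity : 0 ≤ π * √g)
      nlinarith
    rw [hbm] at h3
    nlinarith
  have h3 : π * √g ≤ 2 * s * (1 - 4 * s) := by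
    have h4 : 4 * s * (π * √g) ≤ 4 * s * (2 * s * (1 - 4 * s)) := by nlinarith
    exact le_of_mul_le_mul_left h4 (by positivity)
  have h4 : √g ≤ 8 / 3.14 * s * (1 / 4 - s) := by
    have h5 : 3.14 * √g ≤ π * √g := by
      apply mul_le_mul_of_nonneg_right _ hsq.le
      linarith
    have h6 : 0 < (3.14 : ℝ) := by norm_num
    rw [show 8 / 3.14 * s * (1 / 4 - s) = (2 * s * (1 - 4 * s)) / 3.14 by ring, le_div_iff₀ h6]
    nlinarith
  have h5 : g ≤ (8 / 3.14 * s * (1 / 4 - s)) ^ 2 := by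
    have h6 := Real.sq_sqrt hg.le
    have h7 := pow_le_pow_left₀ hsq.le h4 2
    linarith
  linarith

variable {E : Type*} [NormedAddCommGroup E] [InnerProductSpace ℝ E] [FiniteDimensional ℝ E]
  [MeasurableSpace E] [BorelSpace E]

set_option maxHeartbeats 2000000 in
/-- **No obtuse fixed point with four cells above the propeller value.** -/
theorem k4_no_fixed (w : Fin 4 → E) (hfix : ∀ i, mom (vcell w i) = w i)
    (hobt : ∀ i j, i ≠ j → ⟪w i, w j⟫ < 0) (hF : muP < ∑ i, ‖w i‖ ^ 2) : False := by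
  classical
  -- the smallest vertex
  obtain ⟨i0, -, hmin⟩ := Finset.exists_min_image (Finset.univ : Finset (Fin 4))
    (fun i => ‖w i‖) ⟨0, Finset.mem_univ _⟩
  set σ : Equiv.Perm (Fin 4) := Equiv.swap 0 i0 with hσ
  have hσ0 : σ 0 = i0 := by simp [hσ]
  have hsumE : ∀ f : Fin 4 → E, ∑ i, f i = f i0 + f (σ 1) + f (σ 2) + f (σ 3) := by
    intro f
    rw [← Equiv.sum_comp σ f, Fin.sum_univ_four, hσ0]
  have hsumR : ∀ f : Fin 4 → ℝ, ∑ i, f i = f i0 + f (σ 1) + f (σ 2) + f (σ 3) := by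
    intro f
    rw [← Equiv.sum_comp σ f, Fin.sum_univ_four, hσ0]
  have hne1 : σ 1 ≠ i0 := by
    rw [← hσ0]
    exact fun h => by simpa using σ.injective h
  have hne2 : σ 2 ≠ i0 := by
    rw [← hσ0]
    exact fun h => by simpa using σ.injective h
  have hne3 : σ 3 ≠ i0 := by
    rw [← hσ0]
    exact fun h => by simpa using σ.injective h
  set w1 := w (σ 1) with hw1
  set w2 := w (σ 2) with hw2
  set w3 := w (σ 3) with hw3
  set w0 := w i0 with hw0
  -- the barycenter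
  have hbar : w0 + w1 + w2 + w3 = 0 := by
    have h1 := sum_mom (isPart_vcell w)
    simp_rw [hfix] at h1
    rw [hsumE] at h1
    exact h1
  -- positivity of the smallest norm
  have hz : 0 < ‖w0‖ := by
    rw [norm_pos_iff]
    intro h0
    have := hobt i0 (σ 1) (Ne.symm hne1)
    rw [← hw0, h0] at this
    simp at this
  set z := ‖w0‖ with hzdef
  set e : E := z⁻¹ • w0 with he
  have hen : ‖e‖ = 1 := by
    rw [he, norm_smul, norm_inv, Real.norm_eq_abs, abs_of_pos hz]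
    exact inv_mul_cancel₀ hz.ne'
  have hw0e : w0 = z • e := by
    rw [he, smul_smul, mul_inv_cancel₀ hz.ne', one_smul]
  -- the coefficients
  set a1 := -⟪e, w1⟫ / z with ha1d
  set a2 := -⟪e, w2⟫ / z with ha2d
  set a3 := -⟪e, w3⟫ / z with ha3d
  have hin : ∀ v : E, ⟪w0, v⟫ < 0 → 0 ≤ -⟪e, v⟫ / z := by
    intro v hv
    rw [hw0e, inner_smul_left] at hv
    simp only [conj_trivial] at hv
    apply div_nonneg _ hz.le
    have : ⟪e, v⟫ < 0 := by
      by_contra h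
      push Not at h
      have := mul_nonneg hz.le h
      linarith
    linarith
  have ha1 : 0 ≤ a1 := hin _ (hobt _ _ (Ne.symm hne1))
  have ha2 : 0 ≤ a2 := hin _ (hobt _ _ (Ne.symm hne2))
  have ha3 : 0 ≤ a3 := hin _ (hobt _ _ (Ne.symm hne3))
  have hie : ⟪e, e⟫ = 1 := by rw [real_inner_self_eq_norm_sq, hen]; norm_num
  have hie0 : ⟪e, w0⟫ = z := by
    rw [hw0e, inner_smul_right, hie, mul_one]
  have hsa : ⟪e, w1⟫ + ⟪e, w2⟫ + ⟪e, w3⟫ = -z := by
    have h1 : ⟪e, w0 + w1 + w2 + w3⟫ = 0 := by rw [hbar, inner_zero_right]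
    rw [inner_add_right, inner_add_right, inner_add_right, hie0] at h1
    linarith
  have ha : a1 + a2 + a3 = 1 := by
    rw [ha1d, ha2d, ha3d]
    field_simp
    linarith
  have hea1 : ⟪e, w1⟫ = -(a1 * z) := by rw [ha1d]; field_simp
  have hea2 : ⟪e, w2⟫ = -(a2 * z) := by rw [ha2d]; field_simp
  have hea3 : ⟪e, w3⟫ = -(a3 * z) := by rw [ha3d]; field_simp
  -- the transversal parts
  set t1 : E := w1 + (a1 * z) • e with ht1
  set t2 : E := w2 + (a2 * z) • e with ht2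
  set t3 : E := w3 + (a3 * z) • e with ht3
  have het : ∀ (v : E) (a : ℝ), ⟪e, v⟫ = -(a * z) → ⟪e, v + (a * z) • e⟫ = 0 := by
    intro v a h
    rw [inner_add_right, inner_smul_right, hie, h]
    ring
  have het1 : ⟪e, t1⟫ = 0 := het _ _ hea1
  have het2 : ⟪e, t2⟫ = 0 := het _ _ hea2
  have het3 : ⟪e, t3⟫ = 0 := het _ _ hea3
  have htsum : t1 + t2 + t3 = 0 := by
    have h1 : t1 + t2 + t3 = (w1 + w2 + w3) + ((a1 + a2 + a3) * z) • e := by
      rw [ht1, ht2, ht3, add_mul, add_mul, add_smul, add_smul]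
      abel
    rw [h1, ha, one_mul, ← hw0e]
    have h2 : w1 + w2 + w3 = -w0 := by
      rw [eq_neg_iff_add_eq_zero, ← hbar]
      abel
    rw [h2]
    simp
  -- the norms of the transversal parts
  have hnt : ∀ (v : E) (a : ℝ), ⟪e, v⟫ = -(a * z) →
      ‖v + (a * z) • e‖ ^ 2 = ‖v‖ ^ 2 - (a * z) ^ 2 := by
    intro v a h
    rw [@norm_add_sq_real, norm_smul, inner_smul_right, real_inner_comm, h, hen, Real.norm_eq_abs,
      mul_one, sq_abs]
    ring
  -- the scale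
  have hT := TT_zero_ph
  have hT0 := TT_pos 0
  have hph : 0 < ph 0 := ph_pos 0
  set c0 : ℝ := 4 * ph 0 with hc0
  have hc0pos : 0 < c0 := by rw [hc0]; positivity
  have hc0T : 2 / TT 0 = c0 := by
    rw [hc0, div_eq_iff hT0.ne']
    nlinarith
  have hc0sq : c0 ^ 2 = 8 / π := by
    have h0 : ph 0 = (√(2 * π))⁻¹ := by simp [ph]
    have hpi := Real.pi_pos
    rw [hc0, h0, mul_pow, inv_pow, Real.sq_sqrt (by positivity)]
    field_simp
    norm_num
  -- the cap rows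
  obtain ⟨p, hp0, hp1, hp⟩ := cap3_line w hfix (by simp)
  rw [hc0T] at hp
  have hscale : ∀ (i : Fin 4) (c : ℝ), 0 ≤ c → c ≤ 1 →
      ‖w i‖ / c0 ≤ c * p i + (1 - c) ^ 2 / 4 := by
    intro i c h0 h1
    rw [div_le_iff₀ hc0pos]
    have := hp i c h0 h1
    linarith
  set s : ℝ := z / c0 with hs
  set b1 : ℝ := ‖w1‖ / c0 with hb1
  set b2 : ℝ := ‖w2‖ / c0 with hb2
  set b3 : ℝ := ‖w3‖ / c0 with hb3
  have hs0 : 0 < s := div_pos hz hc0pos
  have hmin' : ∀ i, s ≤ ‖w i‖ / c0 := by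
    intro i
    exact div_le_div_of_nonneg_right (hmin i (Finset.mem_univ _)) hc0pos.le
  have hFs : 9 / 64 < s ^ 2 + b1 ^ 2 + b2 ^ 2 + b3 ^ 2 := by
    have hpi := Real.pi_pos
    have h1 : ∑ i, ‖w i‖ ^ 2 = ‖w0‖ ^ 2 + ‖w1‖ ^ 2 + ‖w2‖ ^ 2 + ‖w3‖ ^ 2 := hsumR _
    rw [h1] at hF
    have h2 : ‖w0‖ = c0 * s := by rw [hs]; field_simp; rfl
    have h3 : ‖w1‖ = c0 * b1 := by rw [hb1]; field_simp
    have h4 : ‖w2‖ = c0 * b2 := by rw [hb2]; field_simp
    have h5 : ‖w3‖ = c0 * b3 := by rw [hb3]; field_simp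
    rw [h2, h3, h4, h5] at hF
    have h6 : (c0 * s) ^ 2 + (c0 * b1) ^ 2 + (c0 * b2) ^ 2 + (c0 * b3) ^ 2 =
        c0 ^ 2 * (s ^ 2 + b1 ^ 2 + b2 ^ 2 + b3 ^ 2) := by ring
    rw [h6, hc0sq, muP] at hF
    have h7 : 9 / (8 * π) = 8 / π * (9 / 64) := by
      field_simp
      norm_num
    rw [h7] at hF
    exact lt_of_mul_lt_mul_left hF (by positivity)
  have hp_sum : p i0 + p (σ 1) + p (σ 2) + p (σ 3) = 1 := by
    rw [← hsumR p]
    exact hp1
  obtain ⟨hs8, hclose⟩ := k4_close s b1 b2 b3 a1 a2 a3 (p i0) (p (σ 1)) (p (σ 2)) (p (σ 3)) hs0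
    (hmin' _) (hmin' _) (hmin' _) ha1 ha2 ha3 ha (hp0 _) (hp0 _) (hp0 _) (hp0 _) hp_sum
    (hscale i0) (hscale _) (hscale _) (hscale _) hFs
  -- the area form
  set g : ℝ := Gam (b1 ^ 2 - a1 ^ 2 * s ^ 2) (b2 ^ 2 - a2 ^ 2 * s ^ 2) (b3 ^ 2 - a3 ^ 2 * s ^ 2)
    with hg
  have hg0 : 0 < g := lt_of_le_of_lt (sq_nonneg _) hclose
  have hzs : z = c0 * s := by rw [hs]; field_simp
  have hP : ∀ (v : E) (a : ℝ), ⟪e, v⟫ = -(a * z) →
      ‖v + (a * z) • e‖ ^ 2 = c0 ^ 2 * ((‖v‖ / c0) ^ 2 - a ^ 2 * s ^ 2) := by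
    intro v a h
    rw [hnt v a h, hzs]
    field_simp
  have hP1 := hP w1 a1 hea1
  have hP2 := hP w2 a2 hea2
  have hP3 := hP w3 a3 hea3
  rw [← ht1] at hP1
  rw [← ht2] at hP2
  rw [← ht3] at hP3
  have hin12 : 2 * ⟪t1, t2⟫ = ‖t3‖ ^ 2 - ‖t1‖ ^ 2 - ‖t2‖ ^ 2 := by
    have h1 : t3 = -(t1 + t2) := by
      rw [eq_neg_iff_add_eq_zero, add_comm]
      exact htsum
    rw [h1, norm_neg, @norm_add_sq_real]
    ring
  have hG : ‖t1‖ ^ 2 * ‖t2‖ ^ 2 - ⟪t1, t2⟫ ^ 2 = c0 ^ 4 * g := by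
    have h1 : ⟪t1, t2⟫ = (‖t3‖ ^ 2 - ‖t1‖ ^ 2 - ‖t2‖ ^ 2) / 2 := by linarith
    rw [h1, hP1, hP2, hP3, hg, Gam]
    ring
  have hG0 : 0 < ‖t1‖ ^ 2 * ‖t2‖ ^ 2 - ⟪t1, t2⟫ ^ 2 := by
    rw [hG]
    positivity
  have hsqrt : √(‖t1‖ ^ 2 * ‖t2‖ ^ 2 - ⟪t1, t2⟫ ^ 2) = c0 ^ 2 * √g := by
    rw [hG, show c0 ^ 4 = (c0 ^ 2) ^ 2 by ring, Real.sqrt_mul (by positivity),
      Real.sqrt_sq (by positivity)]
  -- the flux
  have hflux := flux_bath (E := E) e t1 t2 t3 hen het1 het2 htsum (W1 := 1 + a1) (W2 := 1 + a2)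
    (W3 := 1 + a3) (K := 4) (s := z) (by linarith) (by norm_num) hz hG0
  set cone : Set E := {x : E | ⟪t1, x⟫ ≤ (1 + a1) * z * ⟪e, x⟫ ∧ ⟪t2, x⟫ ≤ (1 + a2) * z * ⟪e, x⟫ ∧
    ⟪t3, x⟫ ≤ (1 + a3) * z * ⟪e, x⟫} with hcone
  have hcone_meas : MeasurableSet cone := by
    apply IsClosed.measurableSet
    have hc : ∀ (t : E) (a : ℝ), IsClosed {x : E | ⟪t, x⟫ ≤ a * z * ⟪e, x⟫} := by
      intro t a
      exact isClosed_le (by fun_prop) (by fun_prop)
    exact (hc t1 _).inter ((hc t2 _).inter (hc t3 _))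
  have hcone_nonneg : ∀ x ∈ cone, 0 ≤ ⟪e, x⟫ := by
    rintro x ⟨h1, h2, h3⟩
    have h4 : ⟪t1, x⟫ + ⟪t2, x⟫ + ⟪t3, x⟫ = 0 := by
      rw [← inner_add_left, ← inner_add_left, htsum, inner_zero_left]
    have h5 : 0 ≤ 4 * z * ⟪e, x⟫ := by
      have : (1 + a1) * z * ⟪e, x⟫ + (1 + a2) * z * ⟪e, x⟫ + (1 + a3) * z * ⟪e, x⟫ =
        (3 + (a1 + a2 + a3)) * z * ⟪e, x⟫ := by ring
      rw [ha] at this
      linarith
    by_contra hneg
    push Not at hneg
    have : 4 * z * ⟪e, x⟫ < 0 := mul_neg_of_pos_of_neg (by positivity) hneg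
    linarith
  have hsub : vcell w i0 ⊆ cone := by
    intro x hx
    have hall := hx.1
    have hj : ∀ (v : E) (a : ℝ), ⟪v, x⟫ ≤ ⟪w0, x⟫ →
        ⟪v + (a * z) • e, x⟫ ≤ (1 + a) * z * ⟪e, x⟫ := by
      intro v a h
      rw [inner_add_left, inner_smul_left]
      simp only [conj_trivial]
      rw [hw0e, inner_smul_left] at h
      simp only [conj_trivial] at h
      nlinarith
    exact ⟨hj _ _ (hall _), hj _ _ (hall _), hj _ _ (hall _)⟩
  have hz_flux : z ≤ ∫ x in cone, ⟪e, x⟫ ∂(stdGaussian E) := by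
    have h1 : z = ∫ x in vcell w i0, ⟪e, x⟫ ∂(stdGaussian E) := by
      rw [← inner_mom, hfix, ← hw0, hie0]
    rw [h1]
    apply setIntegral_mono_set (integrable_inner_std e).integrableOn
    · rw [Filter.EventuallyLE, ae_restrict_iff' hcone_meas]
      exact Filter.Eventually.of_forall fun x hx => hcone_nonneg x hx
    · exact Filter.Eventually.of_forall hsub
  have hz2 := hz_flux.trans hflux
  rw [hsqrt] at hz2
  -- the closing arithmetic
  set bb : ℝ := 8 * s ^ 2 / (π * √g) with hbb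
  have hbb_eq : (4 : ℝ) ^ 2 * z ^ 2 / (2 * π * (c0 ^ 2 * √g)) = bb := by
    rw [hbb, hzs]
    have hpi := Real.pi_pos
    have hsq : 0 < √g := Real.sqrt_pos.2 hg0
    field_simp
    ring
  rw [hbb_eq] at hz2
  have hz3 : 4 * s ≤ bb / (1 + bb) := by
    have hbb0 : 0 ≤ bb := by
      have hpi := Real.pi_pos
      have hsq : 0 < √g := Real.sqrt_pos.2 hg0
      rw [hbb]
      positivity
    have h1 : z = ph 0 * (4 * s) := by rw [hzs, hc0]; ring
    rw [h1, mul_div_assoc] at hz2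
    exact le_of_mul_le_mul_left hz2 hph
  exact k4_flux_close hs0 hg0 hbb hz3 hclose

/-- **Four cells.** Every partition into four cells has value at most the propeller value. -/
theorem part4_le {A : Fin 4 → Set E} (hA : IsPart A) : Fval A ≤ muP := by
  classical
  have hpi := Real.pi_pos
  have hmu : 0 < muP := by unfold muP; positivity
  by_cases hpos : 0 < Fval A
  · obtain ⟨w, hfix, hle⟩ := exists_fixed hA hpos
    refine hle.trans ?_
    by_cases hobt : ∀ i j, i ≠ j → ⟪w i, w j⟫ < 0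
    · by_contra h
      push Not at h
      exact k4_no_fixed w hfix hobt h
    · push Not at hobt
      obtain ⟨i, j, hij, hacute⟩ := hobt
      have hP := isPart_vcell w
      have hacute' : 0 ≤ ⟪mom (vcell w i), mom (vcell w j)⟫ := by
        rw [hfix, hfix]; exact hacute
      obtain ⟨B, hB, hFB⟩ := step_merge hP hij hacute'
      have hFw : Fval (vcell w) = ∑ i, ‖w i‖ ^ 2 := by
        simp only [Fval]
        apply Finset.sum_congr rfl
        intro i _
        rw [hfix]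
      have hc : Fintype.card {l // l ≠ j} = 3 := by
        rw [card_ne]
        simp
      set e : Fin 3 ≃ {l // l ≠ j} := (Fintype.equivFinOfCardEq hc).symm
      obtain ⟨hB', hF'⟩ := isPart_reindex e hB
      have h3 := part3_le hB'
      rw [hF'] at h3
      linarith
  · linarith

end Vale.Agent.P226h15
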