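import Vale.Agent.P226h15.Radial

open MeasureTheory ProbabilityTheory Real Set Filter Topology
open scoped RealInnerProductSpace ENNReal

namespace Vale.Agent.P226h15

set_option linter.unusedSectionVars false

/-- radial integrals -/
noncomputable def TT (q : ℕ) : ℝ := ∫ r in Ioi (0 : ℝ), r ^ q * rexp (-(1 / 2) * r ^ 2)

lemma TT_eq (q : ℕ) : TT q = (1 / 2 : ℝ) ^ (-((q : ℝ) + 1) / 2) * (1 / 2) * Gamma (((q : ℝ) + 1) / 2) := by
  have h := integral_rpow_mul_exp_neg_mul_rpow (p := 2) (q := (q : ℝ)) (b := 1 / 2)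
    (by norm_num) (by have : (0 : ℝ) ≤ q := Nat.cast_nonneg q; linarith) (by norm_num)
  unfold TT
  rw [← h]
  refine setIntegral_congr_fun measurableSet_Ioi fun r _ => ?_
  simp only [rpow_natCast]
  norm_num

lemma TT_pos (q : ℕ) : 0 < TT q := by
  rw [TT_eq]
  have h : 0 < ((q : ℝ) + 1) / 2 := by positivity
  have := Gamma_pos_of_pos h
  positivity

lemma TT_add_two (q : ℕ) : TT (q + 2) = ((q : ℝ) + 1) * TT q := by
  rw [TT_eq, TT_eq]
  have h0 : ((q : ℝ) + 1) / 2 ≠ 0 := by positivity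
  have h1 : (((q + 2 : ℕ) : ℝ) + 1) / 2 = ((q : ℝ) + 1) / 2 + 1 := by push_cast; ring
  rw [h1, Gamma_add_one h0]
  have h2 : -(((q + 2 : ℕ) : ℝ) + 1) / 2 = -((q : ℝ) + 1) / 2 + (-1) := by push_cast; ring
  rw [h2, rpow_add (by norm_num), rpow_neg_one]
  norm_num
  ring

variable {Y : Type*} [NormedAddCommGroup Y] [InnerProductSpace ℝ Y] [FiniteDimensional ℝ Y]
  [MeasurableSpace Y] [BorelSpace Y]

/-- moments of the norm of a standard Gaussian vector -/
noncomputable def EN (Y : Type*) [NormedAddCommGroup Y] [InnerProductSpace ℝ Y]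
    [FiniteDimensional ℝ Y] [MeasurableSpace Y] [BorelSpace Y] (m : ℕ) : ℝ :=
  ∫ y : Y, ‖y‖ ^ m ∂(stdGaussian Y)

lemma EN_zero : EN Y 0 = 1 := by
  simp [EN]

lemma EN_aux [Nontrivial Y] : ∃ K : ℝ, ∀ m : ℕ,
    EN Y m = K * TT (Module.finrank ℝ Y - 1 + m) := by
  have hcont : Continuous (fun y : Y => gden Y ‖y‖) := continuous_gden.comp continuous_norm
  refine ⟨(Module.finrank ℝ Y : ℝ) * (volume : Measure Y).real (Metric.ball 0 1) * (gc Y)⁻¹,
    fun m => ?_⟩
  unfold EN
  rw [stdGaussian_eq_withDensity, integral_withDensity_eq_integral_toReal_smul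
    hcont.measurable.ennreal_ofReal (Eventually.of_forall fun y => ENNReal.ofReal_lt_top)]
  have h1 : ∀ y : Y, (ENNReal.ofReal (gden Y ‖y‖)).toReal • ‖y‖ ^ m =
      (fun r : ℝ => gden Y r * r ^ m) ‖y‖ := by
    intro y
    rw [ENNReal.toReal_ofReal (gden_pos _).le, smul_eq_mul]
  simp_rw [h1]
  have h3 := integral_fun_norm_addHaar (volume : Measure Y) (fun r : ℝ => gden Y r * r ^ m)
  rw [h3]
  simp only [nsmul_eq_mul, smul_eq_mul]
  have h2 : ∀ r : ℝ, r ^ (Module.finrank ℝ Y - 1) * (gden Y r * r ^ m) =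
      (gc Y)⁻¹ * (r ^ (Module.finrank ℝ Y - 1 + m) * rexp (-(1 / 2) * r ^ 2)) := by
    intro r
    unfold gden
    rw [pow_add]
    ring
  simp_rw [h2]
  rw [integral_const_mul]
  unfold TT
  ring

lemma EN_eq [Nontrivial Y] (m : ℕ) :
    EN Y m = TT (Module.finrank ℝ Y - 1 + m) / TT (Module.finrank ℝ Y - 1) := by
  obtain ⟨K, hK⟩ := EN_aux (Y := Y)
  have h0 := hK 0
  rw [EN_zero, add_zero] at h0
  rw [hK m, eq_div_iff (TT_pos _).ne']
  calc K * TT (Module.finrank ℝ Y - 1 + m) * TT (Module.finrank ℝ Y - 1)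
      = (K * TT (Module.finrank ℝ Y - 1)) * TT (Module.finrank ℝ Y - 1 + m) := by ring
    _ = _ := by rw [← h0, one_mul]

lemma EN_pos [Nontrivial Y] (m : ℕ) : 0 < EN Y m := by
  rw [EN_eq]
  exact div_pos (TT_pos _) (TT_pos _)

lemma EN_add_two [Nontrivial Y] (m : ℕ) :
    EN Y (m + 2) = ((Module.finrank ℝ Y : ℝ) + m) * EN Y m := by
  have hD : 0 < Module.finrank ℝ Y := Module.finrank_pos
  rw [EN_eq, EN_eq, show Module.finrank ℝ Y - 1 + (m + 2) = (Module.finrank ℝ Y - 1 + m) + 2 by omega,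
    TT_add_two]
  have h : (((Module.finrank ℝ Y - 1 + m : ℕ) : ℝ) + 1) = (Module.finrank ℝ Y : ℝ) + m := by
    have : ((Module.finrank ℝ Y - 1 : ℕ) : ℝ) = (Module.finrank ℝ Y : ℝ) - 1 := by
      rw [Nat.cast_sub hD]; simp
    push_cast
    rw [this]
    ring
  rw [h]
  ring

lemma integrable_norm_pow (m : ℕ) : Integrable (fun y : Y => ‖y‖ ^ m) (stdGaussian Y) := by
  rcases Nat.eq_zero_or_pos m with rfl | hm
  · simp
  · have h := (IsGaussian.memLp_id (stdGaussian Y) (m : ℝ≥0∞) (by simp)).integrable_norm_pow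
      (by omega)
    simpa using h

/-- radial independence, real form -/
theorem integral_norm_pow_mul [Nontrivial Y] {H : Y → ℝ} {B : ℝ} (hH : Measurable H) (h0 : ∀ y, 0 ≤ H y)
    (hB : ∀ y, H y ≤ B) (hhom : ∀ (r : ℝ) (y : Y), 0 < r → H (r • y) = H y) (m : ℕ) :
    ∫ y, ‖y‖ ^ m * H y ∂(stdGaussian Y) = EN Y m * ∫ y, H y ∂(stdGaussian Y) := by
  have hint : Integrable H (stdGaussian Y) := by
    refine Integrable.mono' (integrable_const B) hH.aestronglyMeasurable
      (Eventually.of_forall fun y => ?_)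
    rw [Real.norm_eq_abs, abs_of_nonneg (h0 y)]
    exact hB y
  have hint2 : Integrable (fun y => ‖y‖ ^ m * H y) (stdGaussian Y) := by
    refine Integrable.mono' ((integrable_norm_pow m).mul_const B)
      ((measurable_norm.pow_const m).mul hH).aestronglyMeasurable
      (Eventually.of_forall fun y => ?_)
    rw [Real.norm_eq_abs, abs_of_nonneg (mul_nonneg (by positivity) (h0 y))]
    exact mul_le_mul_of_nonneg_left (hB y) (by positivity)
  have hrad := lintegral_radial_mul (Y := Y) (G := fun r => ENNReal.ofReal (r ^ m))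
    (H := fun y => ENNReal.ofReal (H y)) (by fun_prop) hH.ennreal_ofReal
    (fun r y hr => by rw [hhom r y hr])
  have e1 : ∫⁻ y, ENNReal.ofReal (‖y‖ ^ m) * ENNReal.ofReal (H y) ∂(stdGaussian Y) =
      ENNReal.ofReal (∫ y, ‖y‖ ^ m * H y ∂(stdGaussian Y)) := by
    rw [ofReal_integral_eq_lintegral_ofReal hint2
      (Eventually.of_forall fun y => mul_nonneg (by positivity) (h0 y))]
    refine lintegral_congr fun y => ?_
    rw [ENNReal.ofReal_mul (by positivity)]
  have e2 : ∫⁻ y : Y, ENNReal.ofReal (‖y‖ ^ m) ∂(stdGaussian Y) = ENNReal.ofReal (EN Y m) := by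
    unfold EN
    rw [ofReal_integral_eq_lintegral_ofReal (integrable_norm_pow m)
      (Eventually.of_forall fun y => by positivity)]
  have e3 : ∫⁻ y, ENNReal.ofReal (H y) ∂(stdGaussian Y) =
      ENNReal.ofReal (∫ y, H y ∂(stdGaussian Y)) := by
    rw [ofReal_integral_eq_lintegral_ofReal hint (Eventually.of_forall h0)]
  rw [e1, e2, e3, ← ENNReal.ofReal_mul (by unfold EN; exact integral_nonneg fun y => by positivity)] at hrad
  have h3 : 0 ≤ ∫ y, ‖y‖ ^ m * H y ∂(stdGaussian Y) :=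
    integral_nonneg fun y => mul_nonneg (by positivity) (h0 y)
  have h4 : 0 ≤ EN Y m * ∫ y, H y ∂(stdGaussian Y) :=
    mul_nonneg (by unfold EN; exact integral_nonneg fun y => by positivity)
      (integral_nonneg h0)
  exact (ENNReal.ofReal_eq_ofReal_iff h3 h4).1 hrad

/-- the law of a coordinate -/
lemma map_inner_stdGaussian (u : Y) (hu : ‖u‖ = 1) :
    (stdGaussian Y).map (fun y => ⟪u, y⟫) = stdGaussian ℝ := by
  have hm : Measurable (fun y : Y => ⟪u, y⟫) := by fun_prop
  have : IsProbabilityMeasure ((stdGaussian Y).map (fun y => ⟪u, y⟫)) :=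
    Measure.isProbabilityMeasure_map hm.aemeasurable
  apply Measure.ext_of_charFun
  ext t
  rw [charFun_stdGaussian, charFun_apply, integral_map hm.aemeasurable
    (Measurable.aestronglyMeasurable (by fun_prop))]
  have h1 : ∀ y : Y, Complex.exp (((⟪⟪u, y⟫, t⟫ : ℝ) : ℂ) * Complex.I) =
      Complex.exp (((⟪y, t • u⟫ : ℝ) : ℂ) * Complex.I) := by
    intro y
    congr 3
    simp only [inner_smul_right, real_inner_comm]
    simp [mul_comm]
  simp_rw [h1]
  have h2 := charFun_stdGaussian (E := Y) (t • u)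
  rw [charFun_apply] at h2
  rw [h2]
  congr 2
  rw [norm_smul, hu, mul_one]

/-- the angular coordinate -/
noncomputable def theta (u y : Y) : ℝ := ⟪u, y⟫ / ‖y‖

omit [FiniteDimensional ℝ Y] [MeasurableSpace Y] [BorelSpace Y] in
lemma abs_theta_le {u : Y} (hu : ‖u‖ = 1) (y : Y) : |theta u y| ≤ 1 := by
  unfold theta
  rw [abs_div, abs_norm]
  rcases eq_or_ne y 0 with rfl | hy
  · simp
  · rw [div_le_one (norm_pos_iff.2 hy)]
    have := abs_real_inner_le_norm u y
    rwa [hu, one_mul] at this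

omit [FiniteDimensional ℝ Y] [MeasurableSpace Y] [BorelSpace Y] in
lemma theta_smul (u y : Y) {r : ℝ} (hr : 0 < r) : theta u (r • y) = theta u y := by
  unfold theta
  rw [inner_smul_right, norm_smul, Real.norm_eq_abs, abs_of_pos hr]
  rcases eq_or_ne y 0 with rfl | hy
  · simp
  · have : ‖y‖ ≠ 0 := norm_ne_zero_iff.2 hy
    field_simp

omit [FiniteDimensional ℝ Y] [MeasurableSpace Y] [BorelSpace Y] in
lemma inner_eq_norm_mul_theta (u y : Y) : ⟪u, y⟫ = ‖y‖ * theta u y := by
  unfold theta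
  rcases eq_or_ne y 0 with rfl | hy
  · simp
  · have : ‖y‖ ≠ 0 := norm_ne_zero_iff.2 hy
    field_simp

omit [FiniteDimensional ℝ Y] [MeasurableSpace Y] [BorelSpace Y] in
lemma theta_neg (u y : Y) : theta u (-y) = - theta u y := by
  unfold theta
  rw [inner_neg_right, norm_neg, neg_div]

omit [FiniteDimensional ℝ Y] in
lemma measurable_theta (u : Y) : Measurable (theta u) := by
  unfold theta
  fun_prop

/-- the even moments of `theta` -/
lemma integral_theta_even [Nontrivial Y] {u : Y} (hu : ‖u‖ = 1) (r : ℕ) :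
    EN Y (2 * r) * ∫ y, theta u y ^ (2 * r) ∂(stdGaussian Y) = EN ℝ (2 * r) := by
  have hb : ∀ y : Y, theta u y ^ (2 * r) ≤ 1 := by
    intro y
    rw [pow_mul]
    have h1 : theta u y ^ 2 ≤ 1 := by
      have := abs_theta_le hu y
      rw [← sq_abs]
      nlinarith [abs_nonneg (theta u y)]
    exact pow_le_one₀ (by positivity) h1
  have h0 : ∀ y : Y, 0 ≤ theta u y ^ (2 * r) := by
    intro y
    rw [pow_mul]
    positivity
  have h := integral_norm_pow_mul (Y := Y) (H := fun y => theta u y ^ (2 * r)) (B := 1)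
    ((measurable_theta u).pow_const _) h0 hb
    (fun s y hs => by simp only [theta_smul u y hs]) (2 * r)
  rw [← h]
  have h2 : ∀ y : Y, ‖y‖ ^ (2 * r) * theta u y ^ (2 * r) = ⟪u, y⟫ ^ (2 * r) := by
    intro y
    rw [inner_eq_norm_mul_theta u y, mul_pow]
  simp_rw [h2]
  unfold EN
  have hm : Measurable (fun y : Y => ⟪u, y⟫) := by fun_prop
  have h3 : ∫ y : Y, ⟪u, y⟫ ^ (2 * r) ∂(stdGaussian Y) =
      ∫ x : ℝ, x ^ (2 * r) ∂(stdGaussian ℝ) := by
    rw [← map_inner_stdGaussian u hu, integral_map hm.aemeasurable (by fun_prop)]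
  rw [h3]
  refine integral_congr_ae (Eventually.of_forall fun x => ?_)
  simp only [Real.norm_eq_abs]
  rw [pow_mul, pow_mul, sq_abs]

/-- the odd moments of `theta` vanish -/
lemma integral_theta_odd (u : Y) (r : ℕ) :
    ∫ y, theta u y ^ (2 * r + 1) ∂(stdGaussian Y) = 0 := by
  have h := stdGaussian_map (E := Y) (LinearIsometryEquiv.neg ℝ (E := Y))
  have hm : Measurable (fun y : Y => theta u y ^ (2 * r + 1)) :=
    (measurable_theta u).pow_const _
  have h2 : ∫ y, theta u y ^ (2 * r + 1) ∂(stdGaussian Y) =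
      ∫ y, theta u (-y) ^ (2 * r + 1) ∂(stdGaussian Y) := by
    conv_lhs => rw [← h]
    rw [integral_map (LinearIsometryEquiv.neg ℝ (E := Y)).continuous.measurable.aemeasurable
      hm.aestronglyMeasurable]
    rfl
  have h3 : ∀ y : Y, theta u (-y) ^ (2 * r + 1) = - theta u y ^ (2 * r + 1) := by
    intro y
    rw [theta_neg, Odd.neg_pow ⟨r, rfl⟩]
  simp_rw [h3] at h2
  rw [integral_neg] at h2
  linarith

/-- beta type integrals -/
noncomputable def betaI (s : ℝ) (n : ℕ) : ℝ := ∫ t in (-1 : ℝ)..1, t ^ n * (1 - t ^ 2) ^ s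

lemma continuous_beta {s : ℝ} (hs : 0 ≤ s) : Continuous (fun t : ℝ => (1 - t ^ 2) ^ s) :=
  Continuous.rpow_const (by fun_prop) (fun _ => Or.inr hs)

lemma betaI_rec {s : ℝ} (hs : 0 ≤ s) (n : ℕ) :
    ((n : ℝ) + 2 * s + 3) * betaI s (n + 2) = ((n : ℝ) + 1) * betaI s n := by
  set F : ℝ → ℝ := fun t => t ^ (n + 1) * (1 - t ^ 2) ^ (s + 1) with hF
  set F' : ℝ → ℝ := fun t => ((n : ℝ) + 1) * (t ^ n * (1 - t ^ 2) ^ (s + 1)) +
    t ^ (n + 1) * ((-(2 * t)) * (s + 1) * (1 - t ^ 2) ^ s) with hF'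
  have hd : ∀ t, HasDerivAt F (F' t) t := by
    intro t
    have h1 : HasDerivAt (fun t : ℝ => t ^ (n + 1)) (((n + 1 : ℕ) : ℝ) * t ^ n) t := by
      simpa using hasDerivAt_pow (n + 1) t
    have h2 : HasDerivAt (fun t : ℝ => 1 - t ^ 2) (-(2 * t)) t := by
      have := (hasDerivAt_pow 2 t).const_sub 1
      simpa using this
    have h3 := h2.rpow_const (p := s + 1) (Or.inr (by linarith))
    have h4 := h1.mul h3
    have : F' t = ((n + 1 : ℕ) : ℝ) * t ^ n * (1 - t ^ 2) ^ (s + 1) +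
        t ^ (n + 1) * (-(2 * t) * (s + 1) * (1 - t ^ 2) ^ (s + 1 - 1)) := by
      simp only [hF', add_sub_cancel_right]
      push_cast
      ring
    rw [this]
    exact h4
  have hcs := continuous_beta hs
  have hcs1 := continuous_beta (s := s + 1) (by linarith)
  have hc : Continuous F' := by
    simp only [hF']
    fun_prop
  have hint : ∫ t in (-1 : ℝ)..1, F' t = 0 := by
    rw [intervalIntegral.integral_eq_sub_of_hasDerivAt (fun t _ => hd t) (hc.intervalIntegrable _ _)]
    simp [hF]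
    rw [zero_rpow (by linarith)]
    simp
  have hrew : ∀ t ∈ Set.uIcc (-1 : ℝ) 1, F' t = ((n : ℝ) + 1) * (t ^ n * (1 - t ^ 2) ^ s) -
      ((n : ℝ) + 2 * s + 3) * (t ^ (n + 2) * (1 - t ^ 2) ^ s) := by
    intro t ht
    rw [Set.uIcc_of_le (by norm_num)] at ht
    have h1 : 0 ≤ 1 - t ^ 2 := by nlinarith [ht.1, ht.2]
    have h2 : (1 - t ^ 2) ^ (s + 1) = (1 - t ^ 2) ^ s * (1 - t ^ 2) :=
      rpow_add_one' h1 (by linarith)
    simp only [hF']
    rw [h2]
    ring
  rw [intervalIntegral.integral_congr hrew, intervalIntegral.integral_sub,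
    intervalIntegral.integral_const_mul, intervalIntegral.integral_const_mul] at hint
  · unfold betaI
    linarith
  · exact Continuous.intervalIntegrable (by fun_prop) _ _
  · exact Continuous.intervalIntegrable (by fun_prop) _ _

lemma betaI_odd (s : ℝ) (r : ℕ) : betaI s (2 * r + 1) = 0 := by
  have h := intervalIntegral.integral_comp_neg (a := -1) (b := 1)
    (fun t : ℝ => t ^ (2 * r + 1) * (1 - t ^ 2) ^ s)
  simp only [neg_neg] at h
  have h2 : ∀ t : ℝ, (-t) ^ (2 * r + 1) * (1 - (-t) ^ 2) ^ s =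
      - (t ^ (2 * r + 1) * (1 - t ^ 2) ^ s) := by
    intro t
    rw [Odd.neg_pow ⟨r, rfl⟩, neg_sq]
    ring
  simp_rw [h2] at h
  rw [intervalIntegral.integral_neg] at h
  unfold betaI
  linarith

lemma betaI_zero_pos {s : ℝ} (hs : 0 ≤ s) : 0 < betaI s 0 := by
  unfold betaI
  apply intervalIntegral.intervalIntegral_pos_of_pos_on
  · exact Continuous.intervalIntegrable (by have := continuous_beta hs; fun_prop) _ _
  · intro t ht
    have h1 : 0 < 1 - t ^ 2 := by nlinarith [ht.1, ht.2]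
    simp only [pow_zero, one_mul]
    positivity
  · norm_num

/-- all the moments of `theta` -/
theorem integral_theta_pow [Nontrivial Y] {u : Y} (hu : ‖u‖ = 1) {s : ℝ} (hs : 0 ≤ s)
    (hD : (Module.finrank ℝ Y : ℝ) = 2 * s + 3) (n : ℕ) :
    ∫ y, theta u y ^ n ∂(stdGaussian Y) = betaI s n / betaI s 0 := by
  have hpos := betaI_zero_pos hs
  rcases Nat.even_or_odd' n with ⟨r, rfl | rfl⟩
  · induction r with
    | zero =>
      simp [div_self hpos.ne']
    | succ r ih =>
      have h1 := integral_theta_even hu (r + 1)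
      have h0 := integral_theta_even hu r
      rw [show 2 * (r + 1) = 2 * r + 2 by ring, EN_add_two, EN_add_two] at h1
      have hR : (Module.finrank ℝ ℝ : ℝ) = 1 := by simp
      rw [hR] at h1
      have hrec := betaI_rec hs (2 * r)
      rw [show 2 * (r + 1) = 2 * r + 2 by ring]
      rw [ih] at h0
      have hENY := EN_pos (Y := Y) (2 * r)
      have hENR := EN_pos (Y := ℝ) (2 * r)
      rw [hD] at h1
      push_cast at h1 hrec
      have hc : (2 * (r : ℝ) + 2 * s + 3) ≠ 0 := by positivity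
      rw [eq_div_iff hpos.ne']
      have h5 : (2 * s + 3 + 2 * (r : ℝ)) * (∫ y, theta u y ^ (2 * r + 2) ∂(stdGaussian Y)) =
          (1 + 2 * (r : ℝ)) * (betaI s (2 * r) / betaI s 0) := by
        have h6 : EN Y (2 * r) * ((2 * s + 3 + 2 * (r : ℝ)) * (∫ y, theta u y ^ (2 * r + 2) ∂(stdGaussian Y))) =
            EN Y (2 * r) * ((1 + 2 * (r : ℝ)) * (betaI s (2 * r) / betaI s 0)) := by
          rw [mul_left_comm (EN Y (2 * r)) (1 + 2 * (r : ℝ)), h0]
          rw [← h1]
          ring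
        exact mul_left_cancel₀ hENY.ne' h6
      have h7 : (2 * (r : ℝ) + 2 * s + 3) * ((∫ y, theta u y ^ (2 * r + 2) ∂(stdGaussian Y)) * betaI s 0) =
          (2 * (r : ℝ) + 2 * s + 3) * betaI s (2 * r + 2) := by
        rw [hrec]
        have h8 : (2 * (r : ℝ) + 2 * s + 3) * ((∫ y, theta u y ^ (2 * r + 2) ∂(stdGaussian Y)) * betaI s 0) =
            ((2 * s + 3 + 2 * (r : ℝ)) * (∫ y, theta u y ^ (2 * r + 2) ∂(stdGaussian Y))) * betaI s 0 := by ring
        rw [h8, h5]
        field_simp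
        ring
      exact mul_left_cancel₀ hc h7
  · rw [integral_theta_odd, betaI_odd, zero_div]

/-- the law of `theta` -/
theorem integral_theta_comp [Nontrivial Y] {u : Y} (hu : ‖u‖ = 1) {s : ℝ} (hs : 0 ≤ s)
    (hD : (Module.finrank ℝ Y : ℝ) = 2 * s + 3) {f : ℝ → ℝ} (hf : Continuous f) :
    ∫ y, f (theta u y) ∂(stdGaussian Y) =
      (∫ t in (-1 : ℝ)..1, f t * (1 - t ^ 2) ^ s) / betaI s 0 := by
  have hpos := betaI_zero_pos hs
  have hcs := continuous_beta hs
  have hmem : ∀ y : Y, theta u y ∈ Icc (-1 : ℝ) 1 := fun y => abs_le.1 (abs_theta_le hu y)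
  have hbdd : ∀ {g : ℝ → ℝ}, Continuous g → Integrable (fun y => g (theta u y)) (stdGaussian Y) := by
    intro g hg
    obtain ⟨C, hC⟩ := (isCompact_Icc (a := (-1 : ℝ)) (b := 1)).exists_bound_of_continuousOn
      hg.continuousOn
    refine Integrable.mono' (integrable_const C)
      (hg.measurable.comp (measurable_theta u)).aestronglyMeasurable
      (Eventually.of_forall fun y => hC _ (hmem y))
  have hpoly : ∀ p : Polynomial ℝ, ∫ y, p.eval (theta u y) ∂(stdGaussian Y) =
      (∫ t in (-1 : ℝ)..1, p.eval t * (1 - t ^ 2) ^ s) / betaI s 0 := by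
    intro p
    simp_rw [Polynomial.eval_eq_sum_range]
    rw [integral_finsetSum _ (fun i _ => (hbdd (g := fun t => p.coeff i * t ^ i) (by fun_prop)))]
    simp_rw [Finset.sum_mul]
    rw [intervalIntegral.integral_finsetSum
      (fun i _ => Continuous.intervalIntegrable (by fun_prop) _ _), Finset.sum_div]
    refine Finset.sum_congr rfl fun i _ => ?_
    rw [integral_const_mul, integral_theta_pow hu hs hD]
    have h : ∀ t : ℝ, p.coeff i * t ^ i * (1 - t ^ 2) ^ s = p.coeff i * (t ^ i * (1 - t ^ 2) ^ s) := by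
      intro t; ring
    simp_rw [h]
    rw [intervalIntegral.integral_const_mul]
    unfold betaI
    ring
  apply eq_of_abs_sub_le_all
  intro ε hε
  obtain ⟨p, hp⟩ := exists_polynomial_near_of_continuousOn (-1) 1 f hf.continuousOn (ε / 2)
    (by positivity)
  have hA : |∫ y, f (theta u y) ∂(stdGaussian Y) - ∫ y, p.eval (theta u y) ∂(stdGaussian Y)| ≤ ε / 2 := by
    rw [← integral_sub (hbdd hf) (hbdd p.continuous)]
    have := norm_integral_le_of_norm_le_const (μ := stdGaussian Y)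
      (f := fun y => f (theta u y) - p.eval (theta u y)) (C := ε / 2)
      (Eventually.of_forall fun y => by
        rw [Real.norm_eq_abs, abs_sub_comm]
        exact (hp _ (hmem y)).le)
    simpa using this
  have hB : |(∫ t in (-1 : ℝ)..1, f t * (1 - t ^ 2) ^ s) / betaI s 0 -
      (∫ t in (-1 : ℝ)..1, p.eval t * (1 - t ^ 2) ^ s) / betaI s 0| ≤ ε / 2 := by
    rw [← sub_div, abs_div, abs_of_pos hpos, div_le_iff₀ hpos]
    rw [← intervalIntegral.integral_sub (Continuous.intervalIntegrable (by fun_prop) _ _)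
      (Continuous.intervalIntegrable (by fun_prop) _ _)]
    have hle : ∀ t ∈ Set.Ioc (-1 : ℝ) 1, ‖f t * (1 - t ^ 2) ^ s - p.eval t * (1 - t ^ 2) ^ s‖ ≤
        (ε / 2) * (1 - t ^ 2) ^ s := by
      intro t ht
      have ht' : t ∈ Icc (-1 : ℝ) 1 := ⟨ht.1.le, ht.2⟩
      have h0 : 0 ≤ (1 - t ^ 2) ^ s := by
        apply rpow_nonneg
        nlinarith [ht'.1, ht'.2]
      rw [← sub_mul, norm_mul, Real.norm_eq_abs, Real.norm_eq_abs, abs_of_nonneg h0, abs_sub_comm]
      exact mul_le_mul_of_nonneg_right (hp t ht').le h0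
    have h2 := intervalIntegral.norm_integral_le_of_norm_le (μ := volume) (a := -1) (b := 1)
      (f := fun t => f t * (1 - t ^ 2) ^ s - p.eval t * (1 - t ^ 2) ^ s)
      (g := fun t => (ε / 2) * (1 - t ^ 2) ^ s) (by norm_num)
      (Eventually.of_forall fun t ht => hle t ht)
      ((by fun_prop : Continuous fun t : ℝ => (ε / 2) * (1 - t ^ 2) ^ s).intervalIntegrable _ _)
    rw [intervalIntegral.integral_const_mul] at h2
    have h3 : ∫ t in (-1 : ℝ)..1, (1 - t ^ 2) ^ s = betaI s 0 := by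
      unfold betaI
      simp
    rw [h3] at h2
    simpa using h2
  rw [hpoly p] at hA
  have := abs_sub_le (∫ y, f (theta u y) ∂(stdGaussian Y))
    ((∫ t in (-1 : ℝ)..1, p.eval t * (1 - t ^ 2) ^ s) / betaI s 0)
    ((∫ t in (-1 : ℝ)..1, f t * (1 - t ^ 2) ^ s) / betaI s 0)
  rw [abs_sub_comm ((∫ t in (-1 : ℝ)..1, p.eval t * (1 - t ^ 2) ^ s) / betaI s 0)] at this
  linarith

end Vale.Agent.P226h15
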