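import Mathlib

open MeasureTheory ProbabilityTheory Real Set Filter Topology
open scoped RealInnerProductSpace ENNReal

namespace Vale.Agent.P226h15

set_option linter.unusedSectionVars false

variable {Y : Type*} [NormedAddCommGroup Y] [InnerProductSpace ℝ Y] [FiniteDimensional ℝ Y]
  [MeasurableSpace Y] [BorelSpace Y]

/-- the normalising constant of the standard Gaussian density -/
noncomputable def gc (Y : Type*) [NormedAddCommGroup Y] [InnerProductSpace ℝ Y] : ℝ :=
  (π / (1 / 2)) ^ ((Module.finrank ℝ Y : ℝ) / 2)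

lemma gc_pos : 0 < gc Y := by
  unfold gc
  positivity

/-- the standard Gaussian density -/
noncomputable def gden (Y : Type*) [NormedAddCommGroup Y] [InnerProductSpace ℝ Y] (r : ℝ) : ℝ :=
  (gc Y)⁻¹ * rexp (-(1 / 2) * r ^ 2)

lemma gden_pos (r : ℝ) : 0 < gden Y r := by
  unfold gden
  have := gc_pos (Y := Y)
  positivity

lemma continuous_gden : Continuous (gden Y) := by
  unfold gden
  fun_prop

lemma integral_gden : ∫ y : Y, gden Y ‖y‖ = 1 := by
  unfold gden
  rw [integral_const_mul]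
  have h := GaussianFourier.integral_rexp_neg_mul_sq_norm (V := Y) (b := 1 / 2) (by norm_num)
  rw [h]
  exact inv_mul_cancel₀ (gc_pos (Y := Y)).ne'

lemma integrable_gden : Integrable (fun y : Y => gden Y ‖y‖) := by
  unfold gden
  apply Integrable.const_mul
  by_contra hc
  have h := GaussianFourier.integral_rexp_neg_mul_sq_norm (V := Y) (b := 1 / 2) (by norm_num)
  rw [integral_undef hc] at h
  have h2 : 0 < (π / (1 / 2 : ℝ)) ^ ((Module.finrank ℝ Y : ℝ) / 2) := by positivity
  linarith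

/-- the standard Gaussian measure has the usual density -/
theorem stdGaussian_eq_withDensity :
    stdGaussian Y = volume.withDensity (fun y : Y => ENNReal.ofReal (gden Y ‖y‖)) := by
  have hcont : Continuous (fun y : Y => gden Y ‖y‖) := continuous_gden.comp continuous_norm
  have hpos : ∀ y : Y, 0 ≤ gden Y ‖y‖ := fun y => (gden_pos _).le
  have hfin : IsFiniteMeasure (volume.withDensity (fun y : Y => ENNReal.ofReal (gden Y ‖y‖))) := by
    constructor
    rw [withDensity_apply _ MeasurableSet.univ, Measure.restrict_univ,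
      ← ofReal_integral_eq_lintegral_ofReal integrable_gden (Eventually.of_forall hpos),
      integral_gden]
    simp
  apply Measure.ext_of_charFun
  ext t
  rw [charFun_stdGaussian, charFun_apply,
    integral_withDensity_eq_integral_toReal_smul hcont.measurable.ennreal_ofReal
      (Eventually.of_forall fun y => ENNReal.ofReal_lt_top)]
  have hb : 0 < ((1 / 2 : ℂ)).re := by norm_num
  have h := GaussianFourier.integral_cexp_neg_mul_sq_norm_add (V := Y) hb Complex.I t
  have h1 : ∀ y : Y, (ENNReal.ofReal (gden Y ‖y‖)).toReal •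
      Complex.exp (((⟪y, t⟫ : ℝ) : ℂ) * Complex.I) =
      ((gc Y)⁻¹ : ℂ) * Complex.exp (-(1 / 2 : ℂ) * ‖y‖ ^ 2 + Complex.I * ⟪t, y⟫) := by
    intro y
    rw [ENNReal.toReal_ofReal (hpos y), Complex.real_smul]
    unfold gden
    push_cast
    rw [mul_assoc, ← Complex.exp_add, real_inner_comm]
    congr 2
    ring
  simp_rw [h1]
  rw [integral_const_mul, h]
  have h2 : ((gc Y)⁻¹ : ℂ) * ((π : ℂ) / (1 / 2 : ℂ)) ^ ((Module.finrank ℝ Y : ℂ) / 2) = 1 := by
    have h3 : ((π : ℂ) / (1 / 2 : ℂ)) ^ ((Module.finrank ℝ Y : ℂ) / 2) = (gc Y : ℂ) := by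
      unfold gc
      rw [Complex.ofReal_cpow (by positivity)]
      push_cast
      rfl
    rw [h3]
    have h4 : (gc Y : ℂ) ≠ 0 := by exact_mod_cast (gc_pos (Y := Y)).ne'
    exact inv_mul_cancel₀ h4
  rw [← mul_assoc, h2, one_mul]
  congr 1
  rw [Complex.I_sq]
  ring

/-- polar coordinates -/
theorem lintegral_polar [Nontrivial Y] {f : Y → ℝ≥0∞} (hf : Measurable f) :
    ∫⁻ y, f y = ∫⁻ ω, ∫⁻ r, f ((r : ℝ) • (ω : Y))
      ∂(Measure.volumeIoiPow (Module.finrank ℝ Y - 1)) ∂(volume : Measure Y).toSphere := by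
  have hΦ := (volume : Measure Y).measurePreserving_homeomorphUnitSphereProd
  have h1 : ∫⁻ y, f y = ∫⁻ x : ({0}ᶜ : Set Y), f x ∂((volume : Measure Y).comap (↑)) := by
    rw [lintegral_subtype_comap (measurableSet_singleton _).compl, restrict_compl_singleton]
  have h2 : ∫⁻ x : ({0}ᶜ : Set Y), f x ∂((volume : Measure Y).comap (↑)) =
      ∫⁻ z, f (((homeomorphUnitSphereProd Y).symm z : ({0}ᶜ : Set Y)) : Y)
        ∂((volume : Measure Y).toSphere.prod (Measure.volumeIoiPow (Module.finrank ℝ Y - 1))) := by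
    have h3 := hΦ.lintegral_comp_emb (homeomorphUnitSphereProd Y).measurableEmbedding
      (fun z => f (((homeomorphUnitSphereProd Y).symm z : ({0}ᶜ : Set Y)) : Y))
    simp only [Homeomorph.symm_apply_apply] at h3
    exact h3
  have hm : Measurable (fun z : Metric.sphere (0 : Y) 1 × Ioi (0 : ℝ) =>
      f (((homeomorphUnitSphereProd Y).symm z : ({0}ᶜ : Set Y)) : Y)) :=
    hf.comp (measurable_subtype_coe.comp (homeomorphUnitSphereProd Y).symm.measurable)
  rw [h1, h2, lintegral_prod _ hm.aemeasurable]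
  rfl

/-- radial and angular parts are independent -/
theorem lintegral_radial_mul [Nontrivial Y] {G : ℝ → ℝ≥0∞} {H : Y → ℝ≥0∞}
    (hG : Measurable G) (hH : Measurable H)
    (hhom : ∀ (r : ℝ) (y : Y), 0 < r → H (r • y) = H y) :
    ∫⁻ y, G ‖y‖ * H y ∂(stdGaussian Y) =
      (∫⁻ y, G ‖y‖ ∂(stdGaussian Y)) * ∫⁻ y, H y ∂(stdGaussian Y) := by
  have hcont : Continuous (fun y : Y => gden Y ‖y‖) := continuous_gden.comp continuous_norm
  have hρm : Measurable (fun y : Y => ENNReal.ofReal (gden Y ‖y‖)) :=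
    hcont.measurable.ennreal_ofReal
  set a : (Y → ℝ≥0∞) → ℝ≥0∞ := fun H => ∫⁻ ω : Metric.sphere (0 : Y) 1, H (ω : Y)
    ∂(volume : Measure Y).toSphere with ha
  set b : (ℝ → ℝ≥0∞) → ℝ≥0∞ := fun G => ∫⁻ r : Ioi (0 : ℝ), ENNReal.ofReal (gden Y (r : ℝ)) * G (r : ℝ)
    ∂(Measure.volumeIoiPow (Module.finrank ℝ Y - 1)) with hb
  have key : ∀ {G : ℝ → ℝ≥0∞} {H : Y → ℝ≥0∞}, Measurable G → Measurable H →
      (∀ (r : ℝ) (y : Y), 0 < r → H (r • y) = H y) →
      ∫⁻ y, G ‖y‖ * H y ∂(stdGaussian Y) = a H * b G := by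
    intro G H hG hH hhom
    have hGH : Measurable (fun y : Y => G ‖y‖ * H y) := (hG.comp measurable_norm).mul hH
    rw [stdGaussian_eq_withDensity, lintegral_withDensity_eq_lintegral_mul _ hρm hGH]
    have hm2 : Measurable ((fun y : Y => ENNReal.ofReal (gden Y ‖y‖)) *
      fun y : Y => G ‖y‖ * H y) := hρm.mul hGH
    rw [lintegral_polar hm2]
    have h5 : ∀ (ω : Metric.sphere (0 : Y) 1) (r : Ioi (0 : ℝ)),
        ((fun y : Y => ENNReal.ofReal (gden Y ‖y‖)) * fun y : Y => G ‖y‖ * H y) ((r : ℝ) • (ω : Y)) =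
        H (ω : Y) * (ENNReal.ofReal (gden Y (r : ℝ)) * G (r : ℝ)) := by
      intro ω r
      have hr : (0 : ℝ) < r := r.2
      have hn : ‖(r : ℝ) • (ω : Y)‖ = r := by
        rw [norm_smul, norm_eq_of_mem_sphere ω, mul_one, Real.norm_eq_abs, abs_of_pos hr]
      simp only [Pi.mul_apply, hn, hhom _ _ hr]
      ring
    simp_rw [h5]
    have hbm : Measurable (fun r : Ioi (0 : ℝ) => ENNReal.ofReal (gden Y (r : ℝ)) * G (r : ℝ)) :=
      (continuous_gden.measurable.comp measurable_subtype_coe).ennreal_ofReal.mul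
        (hG.comp measurable_subtype_coe)
    simp_rw [lintegral_const_mul _ hbm]
    have ham : Measurable (fun ω : Metric.sphere (0 : Y) 1 => H (ω : Y)) :=
      hH.comp measurable_subtype_coe
    rw [lintegral_mul_const _ ham]
  have h1 : ∀ y : Y, (1 : ℝ≥0∞) = 1 * 1 := by simp
  have honeG : Measurable (fun _ : ℝ => (1 : ℝ≥0∞)) := measurable_const
  have honeH : Measurable (fun _ : Y => (1 : ℝ≥0∞)) := measurable_const
  have k1 := key honeG honeH (fun _ _ _ => rfl)
  have k2 := key hG honeH (fun _ _ _ => rfl)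
  have k3 := key honeG hH hhom
  have k4 := key hG hH hhom
  simp only [mul_one, one_mul, lintegral_const, measure_univ] at k1 k2 k3
  rw [k4, k2, k3]
  calc a H * b G = (a H * b G) * (a (fun _ => 1) * b (fun _ => 1)) := by rw [← k1, mul_one]
    _ = _ := by ring

end Vale.Agent.P226h15
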