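import Vale.Agent.P226h15.CapD4
import Vale.Agent.P226h14.Assemble

open MeasureTheory ProbabilityTheory Real Set Filter Topology
open scoped RealInnerProductSpace ENNReal

namespace Vale.Agent.P226h15

set_option linter.unusedSectionVars false

open Vale.Agent.P226h14

variable {Y : Type*} [NormedAddCommGroup Y] [InnerProductSpace ℝ Y] [FiniteDimensional ℝ Y]
  [MeasurableSpace Y] [BorelSpace Y]

/-- moments of the cosine over a half period -/
noncomputable def cosM (n : ℕ) : ℝ := ∫ t in (0 : ℝ)..π, cos t ^ n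

lemma cosM_zero : cosM 0 = π := by
  simp [cosM]

lemma cosM_one : cosM 1 = 0 := by
  simp [cosM]

lemma cosM_rec (n : ℕ) : cosM (n + 2) = ((n : ℝ) + 1) / ((n : ℝ) + 2) * cosM n := by
  unfold cosM
  rw [integral_cos_pow]
  simp

lemma cosM_odd (r : ℕ) : cosM (2 * r + 1) = 0 := by
  induction r with
  | zero => simpa using cosM_one
  | succ r ih =>
    rw [show 2 * (r + 1) + 1 = (2 * r + 1) + 2 by ring, cosM_rec, ih, mul_zero]

/-- the moments of `theta` in dimension two -/
lemma integral_theta2_pow [Nontrivial Y] {u : Y} (hu : ‖u‖ = 1)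
    (hD : Module.finrank ℝ Y = 2) (n : ℕ) :
    ∫ y, theta u y ^ n ∂(stdGaussian Y) = cosM n / π := by
  have hpi := Real.pi_pos
  rcases Nat.even_or_odd' n with ⟨r, rfl | rfl⟩
  · induction r with
    | zero =>
      simp [cosM_zero, hpi.ne']
    | succ r ih =>
      have h1 := integral_theta_even hu (r + 1)
      have h0 := integral_theta_even hu r
      rw [show 2 * (r + 1) = 2 * r + 2 by ring, EN_add_two, EN_add_two] at h1
      have hR : (Module.finrank ℝ ℝ : ℝ) = 1 := by simp
      rw [hR, hD] at h1
      have hENY := EN_pos (Y := Y) (2 * r)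
      rw [show 2 * (r + 1) = 2 * r + 2 by ring, cosM_rec]
      rw [ih] at h0
      push_cast at h1 h0 ⊢
      have h6 : EN Y (2 * r) * (((2 : ℝ) + 2 * r) * ∫ y, theta u y ^ (2 * r + 2) ∂(stdGaussian Y)) =
          EN Y (2 * r) * ((1 + 2 * (r : ℝ)) * (cosM (2 * r) / π)) := by
        rw [mul_left_comm (EN Y (2 * r)) (1 + 2 * (r : ℝ)), h0, ← h1]
        ring
      have h5 := mul_left_cancel₀ hENY.ne' h6
      have h7 : (0 : ℝ) < 2 + 2 * r := by positivity
      field_simp
      field_simp at h5
      nlinarith [h5]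
  · rw [integral_theta_odd, cosM_odd, zero_div]

/-- the law of `theta` in dimension two -/
theorem integral_theta2_comp [Nontrivial Y] {u : Y} (hu : ‖u‖ = 1)
    (hD : Module.finrank ℝ Y = 2) {f : ℝ → ℝ} (hf : Continuous f) :
    ∫ y, f (theta u y) ∂(stdGaussian Y) = (∫ t in (0 : ℝ)..π, f (cos t)) / π := by
  have hpos := Real.pi_pos
  have hmem : ∀ y : Y, theta u y ∈ Icc (-1 : ℝ) 1 := fun y => abs_le.1 (abs_theta_le hu y)
  have hbdd : ∀ {g : ℝ → ℝ}, Continuous g → Integrable (fun y => g (theta u y)) (stdGaussian Y) := by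
    intro g hg
    obtain ⟨C, hC⟩ := (isCompact_Icc (a := (-1 : ℝ)) (b := 1)).exists_bound_of_continuousOn
      hg.continuousOn
    refine Integrable.mono' (integrable_const C) ?_ (Eventually.of_forall fun y => hC _ (hmem y))
    exact (hg.measurable.comp (measurable_theta u)).aestronglyMeasurable
  have hpoly : ∀ p : Polynomial ℝ, ∫ y, p.eval (theta u y) ∂(stdGaussian Y) =
      (∫ t in (0 : ℝ)..π, p.eval (cos t)) / π := by
    intro p
    simp_rw [Polynomial.eval_eq_sum_range]
    rw [integral_finsetSum _ (fun i _ => (hbdd (g := fun t => p.coeff i * t ^ i) (by fun_prop)))]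
    rw [intervalIntegral.integral_finsetSum
      (fun i _ => Continuous.intervalIntegrable (by fun_prop) _ _), Finset.sum_div]
    refine Finset.sum_congr rfl fun i _ => ?_
    rw [integral_const_mul, integral_theta2_pow hu hD]
    rw [intervalIntegral.integral_const_mul]
    unfold cosM
    ring
  apply eq_of_abs_sub_le_all
  intro ε hε
  obtain ⟨p, hp⟩ := exists_polynomial_near_of_continuousOn (-1) 1 f hf.continuousOn (ε / 2)
    (by positivity)
  have hA : |∫ y, f (theta u y) ∂(stdGaussian Y) - ∫ y, p.eval (theta u y) ∂(stdGaussian Y)| ≤ ε / 2 := by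
    rw [← integral_sub (hbdd hf) (hbdd p.continuous)]
    have := norm_integral_le_of_norm_le_const (μ := stdGaussian Y)
      (f := fun y => f (theta u y) - p.eval (theta u y)) (C := ε / 2)
      (Eventually.of_forall fun y => by
        rw [Real.norm_eq_abs, abs_sub_comm]
        exact (hp _ (hmem y)).le)
    simpa using this
  have hB : |(∫ t in (0 : ℝ)..π, f (cos t)) / π - (∫ t in (0 : ℝ)..π, p.eval (cos t)) / π| ≤ ε / 2 := by
    rw [← sub_div, abs_div, abs_of_pos hpos, div_le_iff₀ hpos]
    rw [← intervalIntegral.integral_sub (Continuous.intervalIntegrable (by fun_prop) _ _)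
      (Continuous.intervalIntegrable (by fun_prop) _ _)]
    have h2 := intervalIntegral.norm_integral_le_of_norm_le_const (a := (0 : ℝ)) (b := π)
      (f := fun t => f (cos t) - p.eval (cos t)) (C := ε / 2) (fun t _ => by
        rw [Real.norm_eq_abs, abs_sub_comm]
        exact (hp _ ⟨neg_one_le_cos t, cos_le_one t⟩).le)
    rw [sub_zero, abs_of_pos hpos] at h2
    simpa using h2
  rw [hpoly p] at hA
  have := abs_sub_le (∫ y, f (theta u y) ∂(stdGaussian Y))
    ((∫ t in (0 : ℝ)..π, p.eval (cos t)) / π)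
    ((∫ t in (0 : ℝ)..π, f (cos t)) / π)
  rw [abs_sub_comm ((∫ t in (0 : ℝ)..π, p.eval (cos t)) / π)] at this
  linarith

/-- the excess over a level in dimension two -/
lemma exc_cos {b : ℝ} (hb0 : 0 ≤ b) (hbpi : b ≤ π) :
    ∫ t in (0 : ℝ)..π, max (cos t - cos b) 0 = sin b - b * cos b := by
  have hc : Continuous (fun t : ℝ => max (cos t - cos b) 0) := by fun_prop
  rw [← intervalIntegral.integral_add_adjacent_intervals (hc.intervalIntegrable 0 b)
    (hc.intervalIntegrable b π)]
  have h1 : ∫ t in (0 : ℝ)..b, max (cos t - cos b) 0 = ∫ t in (0 : ℝ)..b, (cos t - cos b) := by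
    apply intervalIntegral.integral_congr
    intro t ht
    rw [uIcc_of_le hb0] at ht
    have : cos b ≤ cos t := cos_le_cos_of_nonneg_of_le_pi ht.1 hbpi ht.2
    simp only
    rw [max_eq_left (by linarith)]
  have h2 : ∫ t in b..π, max (cos t - cos b) 0 = ∫ t in b..π, (0 : ℝ) := by
    apply intervalIntegral.integral_congr
    intro t ht
    rw [uIcc_of_le hbpi] at ht
    have : cos t ≤ cos b := cos_le_cos_of_nonneg_of_le_pi hb0 ht.2 ht.1
    simp only
    rw [max_eq_right (by linarith)]
  rw [h1, h2]
  rw [intervalIntegral.integral_sub (continuous_cos.intervalIntegrable _ _)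
    (continuous_const.intervalIntegrable _ _)]
  simp

/-- The bound for the first moment of a cone in dimension two. -/
theorem cone_bound2 [Nontrivial Y] {A : Set Y} (hA : MeasurableSet A)
    (hcone : ∀ (r : ℝ) (y : Y), 0 < r → (r • y ∈ A ↔ y ∈ A)) {u : Y} (hu : ‖u‖ = 1) {c : ℝ} :
    ∫ y in A, ⟪u, y⟫ ∂(stdGaussian Y) ≤
      EN Y 1 * (c * (stdGaussian Y).real A + ∫ y, max (theta u y - c) 0 ∂(stdGaussian Y)) := by
  classical
  have hind : Measurable (fun y : Y => A.indicator (fun _ => (1 : ℝ)) y) :=
    measurable_const.indicator hA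
  have hexc : Measurable (fun y : Y => max (theta u y - c) 0) := by
    have := measurable_theta u
    fun_prop
  have hindle : ∀ y : Y, A.indicator (fun _ => (1 : ℝ)) y ≤ 1 := fun y => by
    by_cases hy : y ∈ A <;> simp [hy]
  have hexcle : ∀ y : Y, max (theta u y - c) 0 ≤ 1 + |c| := fun y => by
    have h1 := (abs_le.1 (abs_theta_le hu y)).2
    have h2 := neg_abs_le c
    apply max_le <;> linarith [abs_nonneg c]
  have hr1 := integral_norm_pow_mul hind (fun y => indicator_nonneg (fun _ _ => zero_le_one) y)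
    hindle (fun r y hr => by
      by_cases hy : y ∈ A
      · simp [hy, (hcone r y hr).2 hy]
      · have : r • y ∉ A := fun h => hy ((hcone r y hr).1 h)
        simp [hy, this]) 1
  have hr2 := integral_norm_pow_mul hexc (fun y => le_max_right _ _) hexcle
    (fun r y hr => by simp only [theta_smul u y hr]) 1
  simp only [pow_one] at hr1 hr2
  have hi1 : ∫ y, A.indicator (fun _ => (1 : ℝ)) y ∂(stdGaussian Y) = (stdGaussian Y).real A := by
    rw [integral_indicator_const _ hA]
    simp
  rw [hi1] at hr1
  have hn := integrable_norm_pow (Y := Y) 1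
  simp only [pow_one] at hn
  have hint1 : Integrable (A.indicator fun y : Y => ⟪u, y⟫) (stdGaussian Y) :=
    (integrable_inner_std u).indicator hA
  have hint2 : Integrable (fun y : Y => ‖y‖ * A.indicator (fun _ => (1 : ℝ)) y) (stdGaussian Y) := by
    refine Integrable.mono' hn (measurable_norm.mul hind).aestronglyMeasurable
      (Eventually.of_forall fun y => ?_)
    by_cases hy : y ∈ A <;> simp [hy]
  have hint3 : Integrable (fun y : Y => ‖y‖ * max (theta u y - c) 0) (stdGaussian Y) := by
    refine Integrable.mono' (hn.mul_const (1 + |c|)) (measurable_norm.mul hexc).aestronglyMeasurable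
      (Eventually.of_forall fun y => ?_)
    rw [Real.norm_eq_abs, abs_of_nonneg (mul_nonneg (norm_nonneg _) (le_max_right _ _))]
    exact mul_le_mul_of_nonneg_left (hexcle y) (norm_nonneg _)
  have hmain : ∫ y, A.indicator (fun y : Y => ⟪u, y⟫) y ∂(stdGaussian Y) ≤
      ∫ y, (c * (‖y‖ * A.indicator (fun _ => (1 : ℝ)) y) + ‖y‖ * max (theta u y - c) 0) ∂(stdGaussian Y) := by
    refine integral_mono hint1 ((hint2.const_mul c).add hint3) fun y => ?_
    simp only
    by_cases hy : y ∈ A
    · rw [indicator_of_mem hy, indicator_of_mem hy, inner_eq_norm_mul_theta]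
      have h5 : theta u y ≤ c + max (theta u y - c) 0 := by
        have := le_max_left (theta u y - c) 0
        linarith
      have := mul_le_mul_of_nonneg_left h5 (norm_nonneg y)
      linarith
    · rw [indicator_of_notMem hy, indicator_of_notMem hy]
      have := mul_nonneg (norm_nonneg y) (le_max_right (theta u y - c) 0)
      simp only [mul_zero, zero_add]
      exact this
  rw [integral_indicator hA, integral_add (hint2.const_mul c) hint3, integral_const_mul, hr1, hr2]
    at hmain
  calc _ ≤ _ := hmain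
    _ = _ := by ring

/-- The sharp bound: a cone with Gaussian measure `p` in the plane has first moment of norm at most
`sin (π p) / √(2π)`, in the squared form. -/
theorem cone_bound2_sin [Nontrivial Y] (hD : Module.finrank ℝ Y = 2) {A : Set Y} (hA : MeasurableSet A)
    (hcone : ∀ (r : ℝ) (y : Y), 0 < r → (r • y ∈ A ↔ y ∈ A)) {u : Y} (hu : ‖u‖ = 1) :
    ∫ y in A, ⟪u, y⟫ ∂(stdGaussian Y) ≤ TT 0 * (sin (π * (stdGaussian Y).real A) / π) := by
  set p := (stdGaussian Y).real A with hp
  have hp0 : 0 ≤ p := measureReal_nonneg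
  have hp1 : p ≤ 1 := measureReal_le_one
  have hpi := Real.pi_pos
  have h := cone_bound2 hA hcone hu (c := cos (π * p))
  have hEN : EN Y 1 = TT 0 := by
    rw [EN_eq, hD]
    have h2 : TT 2 = TT 0 := by have := TT_add_two 0; simpa using this
    simp only [show 2 - 1 + 1 = 2 by norm_num, show 2 - 1 = 1 by norm_num]
    rw [h2, TT_one, div_one]
  have hexc := integral_theta2_comp (Y := Y) hu hD (f := fun t => max (t - cos (π * p)) 0)
    (by fun_prop)
  rw [hexc, exc_cos (by positivity) (by nlinarith), hEN] at h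
  refine h.trans (le_of_eq ?_)
  congr 1
  field_simp
  ring

/-- the elementary trigonometric inequality -/
lemma sin_sq_sum_le {x y z : ℝ} (h : x + y + z = π) : sin x ^ 2 + sin y ^ 2 + sin z ^ 2 ≤ 9 / 4 := by
  have hz : z = π - (x + y) := by linarith
  rw [hz, sin_pi_sub]
  have h1 := cos_add x y
  have h2 := cos_sub x y
  have h3 := sin_sq_add_cos_sq x
  have h4 := sin_sq_add_cos_sq y
  have h5 := sin_sq_add_cos_sq (x + y)
  have h6 := neg_one_le_cos (x - y)
  have h7 := cos_le_one (x - y)
  have h8 : cos (x + y) * cos (x - y) = cos x ^ 2 - sin y ^ 2 := by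
    rw [h1, h2]
    nlinarith [h3, h4]
  have h9 : sin x ^ 2 + sin y ^ 2 = 1 - cos (x + y) * cos (x - y) := by
    rw [h8]; nlinarith
  rw [h9]
  have h10 : sin (x + y) ^ 2 = 1 - cos (x + y) ^ 2 := by linarith
  rw [h10]
  set c := cos (x + y)
  set d := cos (x - y)
  rcases le_total 0 c with hc | hc
  · nlinarith [sq_nonneg (c - 1 / 2), mul_nonneg hc (by linarith : (0 : ℝ) ≤ d + 1)]
  · nlinarith [sq_nonneg (c + 1 / 2), mul_nonneg (by linarith : (0 : ℝ) ≤ -c) (by linarith : (0 : ℝ) ≤ 1 - d)]

section main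

variable {E : Type*} [NormedAddCommGroup E] [InnerProductSpace ℝ E] [FiniteDimensional ℝ E]
  [MeasurableSpace E] [BorelSpace E]
variable {ι : Type*} [Fintype ι] [LinearOrder ι]

/-- The bound for a cell of a fixed point with three cells -/
theorem fixed_two_bound [Nonempty ι] (w : ι → E) (hfix : ∀ i, mom (vcell w i) = w i)
    (hk : Fintype.card ι = 3) (i : ι) :
    ‖w i‖ ≤ TT 0 * (sin (π * (stdGaussian E).real (vcell w i)) / π) := by
  classical
  have hsum : ∑ i, w i = 0 := by
    have := sum_mom (isPart_vcell w)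
    simpa [hfix] using this
  have hrank : Module.finrank ℝ (Submodule.span ℝ (Set.range w)) ≤ 2 := by
    have := finrank_span_le w hsum
    omega
  obtain ⟨w', hw'⟩ := exists_gram_embedding w 2 hrank
  have hnt : Nontrivial (EuclideanSpace ℝ (Fin 2)) := by
    apply Module.nontrivial_of_finrank_pos (R := ℝ)
    rw [finrank_euclideanSpace_fin]
    omega
  have hp0 : 0 ≤ (stdGaussian E).real (vcell w i) := measureReal_nonneg
  have hp1 : (stdGaussian E).real (vcell w i) ≤ 1 := measureReal_le_one
  have hnorm : ‖w' i‖ = ‖w i‖ := by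
    have h1 := hw' i i
    rw [real_inner_self_eq_norm_sq, real_inner_self_eq_norm_sq] at h1
    exact (sq_eq_sq₀ (norm_nonneg _) (norm_nonneg _)).1 h1
  have hpi := Real.pi_pos
  rcases eq_or_ne (w i) 0 with h0 | h0
  · rw [h0, norm_zero]
    have h1 : 0 ≤ sin (π * (stdGaussian E).real (vcell (fun i => w i) i)) :=
      sin_nonneg_of_nonneg_of_le_pi (by positivity) (by nlinarith)
    have := TT_pos 0
    positivity
  · have hpos : 0 < ‖w i‖ := norm_pos_iff.2 h0
    set u : EuclideanSpace ℝ (Fin 2) := ‖w i‖⁻¹ • w' i with hu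
    have hun : ‖u‖ = 1 := by
      rw [hu, norm_smul, hnorm, Real.norm_eq_abs, abs_of_pos (inv_pos.2 hpos),
        inv_mul_cancel₀ hpos.ne']
    have hwu : w' i = ‖w i‖ • u := by
      rw [hu, smul_smul, mul_inv_cancel₀ hpos.ne', one_smul]
    have hfin : Module.finrank ℝ (EuclideanSpace ℝ (Fin 2)) = 2 := finrank_euclideanSpace_fin
    have htan := cone_bound2_sin hfin (measurableSet_vcell w' i) (vcell_cone w' i) hun
    rw [← real_vcell_eq hw' i] at htan
    have h1 : ‖w i‖ ^ 2 = ∫ y in vcell w' i, ⟪w' i, y⟫ ∂(stdGaussian _) := by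
      rw [← setIntegral_vcell_eq hw' i, ← inner_mom, hfix, real_inner_self_eq_norm_sq]
    have h2 : ∫ y in vcell w' i, ⟪w' i, y⟫ ∂(stdGaussian (EuclideanSpace ℝ (Fin 2))) =
        ‖w i‖ * ∫ y in vcell w' i, ⟪u, y⟫ ∂(stdGaussian _) := by
      rw [← integral_const_mul]
      refine integral_congr_ae (Eventually.of_forall fun y => ?_)
      simp only
      rw [hwu, inner_smul_left]
      simp
    rw [h2] at h1
    have h3 : ‖w i‖ = ∫ y in vcell w' i, ⟪u, y⟫ ∂(stdGaussian _) := by
      have : ‖w i‖ * ‖w i‖ = ‖w i‖ * ∫ y in vcell w' i, ⟪u, y⟫ ∂(stdGaussian _) := by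
        rw [← h1]; ring
      exact mul_left_cancel₀ hpos.ne' this
    rw [h3]
    exact htan

/-- **The base case** (Khot-Naor): a fixed point with three cells has value at most `9/(8π)`. -/
theorem fixed3_le (w : Fin 3 → E) (hfix : ∀ i, mom (vcell w i) = w i) :
    ∑ i, ‖w i‖ ^ 2 ≤ muP := by
  classical
  have hpi := Real.pi_pos
  have hb : ∀ i, ‖w i‖ ^ 2 ≤ sin (π * (stdGaussian E).real (vcell w i)) ^ 2 / (2 * π) := by
    intro i
    have h := fixed_two_bound w hfix (by simp) i
    have h2 := pow_le_pow_left₀ (norm_nonneg _) h 2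
    refine h2.trans (le_of_eq ?_)
    rw [mul_pow, TT_zero_sq]
    field_simp
  have hp := isPart_vcell w
  have hone : ∑ i, (stdGaussian E).real (vcell w i) = 1 := by
    have h1 : (stdGaussian E).real (⋃ i, vcell w i) = ∑ i, (stdGaussian E).real (vcell w i) := by
      rw [measureReal_def, measure_iUnion hp.2.1 hp.1, tsum_fintype, ENNReal.toReal_sum]
      · rfl
      · exact fun i _ => measure_ne_top _ _
    rw [← h1, hp.2.2]
    simp
  have htrig := sin_sq_sum_le (x := π * (stdGaussian E).real (vcell w 0))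
    (y := π * (stdGaussian E).real (vcell w 1)) (z := π * (stdGaussian E).real (vcell w 2)) (by
      rw [Fin.sum_univ_three] at hone
      rw [← mul_add, ← mul_add, hone, mul_one])
  rw [Fin.sum_univ_three]
  have h0 := hb 0
  have h1 := hb 1
  have h2 := hb 2
  have h3 : muP = (9 / 4) / (2 * π) := by
    unfold muP
    field_simp
    norm_num
  rw [h3]
  calc _ ≤ sin (π * (stdGaussian E).real (vcell w 0)) ^ 2 / (2 * π) +
        sin (π * (stdGaussian E).real (vcell w 1)) ^ 2 / (2 * π) +
        sin (π * (stdGaussian E).real (vcell w 2)) ^ 2 / (2 * π) := by linarith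
    _ = (sin (π * (stdGaussian E).real (vcell w 0)) ^ 2 +
        sin (π * (stdGaussian E).real (vcell w 1)) ^ 2 +
        sin (π * (stdGaussian E).real (vcell w 2)) ^ 2) / (2 * π) := by ring
    _ ≤ _ := by
      apply div_le_div_of_nonneg_right htrig (by positivity)

/-- Partitions into three cells have value at most `9/(8π)`. -/
theorem part3_le {A : Fin 3 → Set E} (hA : IsPart A) : Fval A ≤ muP := by
  have hpi := Real.pi_pos
  have hmu : 0 < muP := by unfold muP; positivity
  by_cases hpos : 0 < Fval A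
  · obtain ⟨w, hfix, hle⟩ := exists_fixed hA hpos
    exact hle.trans (fixed3_le w hfix)
  · linarith

end main

end Vale.Agent.P226h15
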